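import Mathlib

/-!
# Row 330: quadratic envelopes, definitions (paper Section 4.2)

`X` is the spatial variable space, functions of space-time have the shape `f : X → ℝ → ℝ`.
All envelopes are only meaningful for positive length `l`; the convention `P_0 f = f` of the
paper is replaced by limit lemmas as `l → 0+` (file `EnvConv`).
-/

namespace Claimed.Agent.R330

variable {X : Type*} [NormedAddCommGroup X]

/-- Slice-level sup-convolution with the quadratic cost `‖y - x‖^2 / (2 l)`. -/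
noncomputable def supConv (l : ℝ) (g : X → ℝ) (x : X) : ℝ :=
  ⨆ y : X, (g y - ‖y - x‖ ^ 2 / (2 * l))

/-- Slice-level inf-convolution with the quadratic cost `‖y - x‖^2 / (2 l)`. -/
noncomputable def infConv (l : ℝ) (g : X → ℝ) (x : X) : ℝ :=
  ⨅ y : X, (g y + ‖y - x‖ ^ 2 / (2 * l))

/-- Forward quadratic envelope `P_l f (x,t) = sup_y f(y,t+l) - |y-x|^2/(2l)`. -/
noncomputable def envP (l : ℝ) (f : X → ℝ → ℝ) (x : X) (t : ℝ) : ℝ :=
  supConv l (fun y => f y (t + l)) x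

/-- Backward quadratic envelope `M_l f (x,t) = inf_y f(y,t-l) + |y-x|^2/(2l)`. -/
noncomputable def envM (l : ℝ) (f : X → ℝ → ℝ) (x : X) (t : ℝ) : ℝ :=
  infConv l (fun y => f y (t - l)) x

/-- Forward envelope slope `S^+_l f (x,t)`. -/
noncomputable def slopeP (l : ℝ) (f : X → ℝ → ℝ) (x : X) (t : ℝ) : ℝ :=
  (envP l f x t - f x t) / l

/-- Backward envelope slope `S^-_l f (x,t)`. -/
noncomputable def slopeM (l : ℝ) (f : X → ℝ → ℝ) (x : X) (t : ℝ) : ℝ :=
  (f x t - envM l f x t) / l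

/-- One-sided subquadratic growth of a slice: `g ≤ ε |x|^2 + C_ε`. -/
def SubQuadAbove (g : X → ℝ) : Prop :=
  ∀ ε : ℝ, 0 < ε → ∃ C : ℝ, ∀ x : X, g x ≤ ε * ‖x‖ ^ 2 + C

/-- One-sided subquadratic growth of a slice: `g ≥ -ε |x|^2 - C_ε`. -/
def SubQuadBelow (g : X → ℝ) : Prop :=
  ∀ ε : ℝ, 0 < ε → ∃ C : ℝ, ∀ x : X, -(ε * ‖x‖ ^ 2 + C) ≤ g x

/-- Subquadratic growth of a slice. -/
def SubQuad (g : X → ℝ) : Prop :=
  ∀ ε : ℝ, 0 < ε → ∃ C : ℝ, ∀ x : X, |g x| ≤ ε * ‖x‖ ^ 2 + C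

/-- Subquadratic spatial growth, uniformly for times in `J`. -/
def SubQuadOn (J : Set ℝ) (f : X → ℝ → ℝ) : Prop :=
  ∀ ε : ℝ, 0 < ε → ∃ C : ℝ, ∀ x : X, ∀ t ∈ J, |f x t| ≤ ε * ‖x‖ ^ 2 + C

/-- Subquadratic spatial growth on every bounded time interval (the paper's growth class for
functions defined at all times). -/
def SubQuadLoc (f : X → ℝ → ℝ) : Prop :=
  ∀ T : ℝ, SubQuadOn (Set.Icc (-T) T) f

/-- The time reflection `f~(x,t) = - f(x,-t)` exchanging the two envelopes. -/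
def reflT (f : X → ℝ → ℝ) : X → ℝ → ℝ := fun x t => - f x (-t)

end Claimed.Agent.R330
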