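import Mathlib
import Claimed.Agent.R330.EnvDefs

/-!
# Row 330: barycentric envelope, definitions (paper Section 5.1)

The barycentric envelope acts on one spatial slice `g : X → ℝ`.  For a space-time function
`v : X → ℝ → ℝ` the paper's `C_s v (x,t)` is `bary s (fun y => v y t) x`.

A configuration with barycentre `x` is a finite family of nonnegative weights `θ i` of total
mass one and points `y i` with `∑ θ i • y i = x`.  The index type may be any `Fintype`;
the supremum defining `bary` runs over `Fin N`, and `bary_le_bary_of_config` style lemmas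
(file `BaryBasic`) show that configurations over any finite index type are admissible.
-/

namespace Claimed.Agent.R330

variable {X : Type*} [NormedAddCommGroup X] [NormedSpace ℝ X]

/-- `(θ, y)` is a finite probability configuration with barycentre `x`. -/
def IsConfig {ι : Type*} [Fintype ι] (x : X) (θ : ι → ℝ) (y : ι → X) : Prop :=
  (∀ i, 0 ≤ θ i) ∧ ∑ i, θ i = 1 ∧ ∑ i, θ i • y i = x

/-- Value of a configuration: mean of `g` minus `variance / (2 s)`. -/
noncomputable def baryVal {ι : Type*} [Fintype ι] (s : ℝ) (g : X → ℝ) (x : X) (θ : ι → ℝ) (y : ι → X) : ℝ :=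
  ∑ i, θ i * g (y i) - (∑ i, θ i * ‖y i - x‖ ^ 2) / (2 * s)

/-- The barycentric envelope `C_s g (x)`: supremum of `baryVal` over all configurations with
barycentre `x`. -/
noncomputable def bary (s : ℝ) (g : X → ℝ) (x : X) : ℝ :=
  sSup {r : ℝ | ∃ (N : ℕ) (θ : Fin N → ℝ) (y : Fin N → X),
    IsConfig x θ y ∧ r = baryVal s g x θ y}

/-! The next three lemmas also make Lean write the on-demand equation lemmas of the three
definitions in THIS file, so that no two downstream files hold their own copies (RULES, rule 6). -/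

theorem bary_defs_isConfig {ι : Type*} [Fintype ι] (x : X) (θ : ι → ℝ) (y : ι → X) :
    IsConfig x θ y ↔ ((∀ i, 0 ≤ θ i) ∧ ∑ i, θ i = 1 ∧ ∑ i, θ i • y i = x) := by
  have h : IsConfig x θ y = ((∀ i, 0 ≤ θ i) ∧ ∑ i, θ i = 1 ∧ ∑ i, θ i • y i = x) := by
    unfold IsConfig; rfl
  rw [IsConfig]

theorem bary_defs_baryVal {ι : Type*} [Fintype ι] (s : ℝ) (g : X → ℝ) (x : X) (θ : ι → ℝ)
    (y : ι → X) :
    baryVal s g x θ y = ∑ i, θ i * g (y i) - (∑ i, θ i * ‖y i - x‖ ^ 2) / (2 * s) := by
  have h : baryVal s g x θ y = ∑ i, θ i * g (y i) - (∑ i, θ i * ‖y i - x‖ ^ 2) / (2 * s) := by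
    unfold baryVal; rfl
  rw [baryVal]

theorem bary_defs_bary (s : ℝ) (g : X → ℝ) (x : X) :
    bary s g x = sSup {r : ℝ | ∃ (N : ℕ) (θ : Fin N → ℝ) (y : Fin N → X),
      IsConfig x θ y ∧ r = baryVal s g x θ y} := by
  have h : bary s g x = sSup {r : ℝ | ∃ (N : ℕ) (θ : Fin N → ℝ) (y : Fin N → X),
      IsConfig x θ y ∧ r = baryVal s g x θ y} := by
    unfold bary; rfl
  rw [bary]

end Claimed.Agent.R330
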