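import Mathlib
import Claimed.Agent.R330.BaryDefs

/-!
# Row 330: barycentric envelope, basic API

Configurations (reindexing, translation, affine images, mixtures, compositions), the variance
identity, boundedness of the defining set, `le_bary`, near-optimal configurations, monotonicity.
-/

namespace Claimed.Agent.R330

open Finset

set_option linter.unusedSectionVars false

variable {X : Type*} [NormedAddCommGroup X] [InnerProductSpace ℝ X]

/-- The set of values whose supremum is `bary s g x`. -/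
def barySet (s : ℝ) (g : X → ℝ) (x : X) : Set ℝ :=
  {r : ℝ | ∃ (N : ℕ) (θ : Fin N → ℝ) (y : Fin N → X), IsConfig x θ y ∧ r = baryVal s g x θ y}

theorem bary_eq_sSup (s : ℝ) (g : X → ℝ) (x : X) : bary s g x = sSup (barySet s g x) := rfl

section config

variable {ι κ : Type*} [Fintype ι] [Fintype κ] {x : X} {θ : ι → ℝ} {y : ι → X}

theorem bary_config_nonneg (h : IsConfig x θ y) (i : ι) : 0 ≤ θ i := h.1 i

theorem bary_config_sum (h : IsConfig x θ y) : ∑ i, θ i = 1 := h.2.1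

theorem bary_config_mean (h : IsConfig x θ y) : ∑ i, θ i • y i = x := h.2.2

theorem bary_config_le_one (h : IsConfig x θ y) (i : ι) : θ i ≤ 1 := by
  rw [← h.2.1]
  exact Finset.single_le_sum (fun j _ => h.1 j) (Finset.mem_univ i)

/-- The one point configuration. -/
theorem bary_config_single (x : X) : IsConfig x (fun _ : Fin 1 => (1 : ℝ)) (fun _ => x) := by
  refine ⟨fun _ => zero_le_one, ?_, ?_⟩ <;> simp

theorem bary_baryVal_single (s : ℝ) (g : X → ℝ) (x : X) :
    baryVal s g x (fun _ : Fin 1 => (1 : ℝ)) (fun _ => x) = g x := by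
  simp [baryVal]

theorem bary_config_equiv (e : κ ≃ ι) (h : IsConfig x θ y) : IsConfig x (θ ∘ e) (y ∘ e) := by
  obtain ⟨h0, h1, h2⟩ := h
  refine ⟨fun i => h0 _, ?_, ?_⟩
  · rw [← h1]; exact Equiv.sum_comp e θ
  · rw [← h2]; exact Equiv.sum_comp e (fun i => θ i • y i)

theorem bary_baryVal_equiv (e : κ ≃ ι) (s : ℝ) (g : X → ℝ) (x : X) (θ : ι → ℝ) (y : ι → X) :
    baryVal s g x (θ ∘ e) (y ∘ e) = baryVal s g x θ y := by
  unfold baryVal
  rw [← Equiv.sum_comp e (fun i => θ i * g (y i)),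
    ← Equiv.sum_comp e (fun i => θ i * ‖y i - x‖ ^ 2)]
  rfl

/-- Configurations over any finite index type are admissible in the supremum. -/
theorem bary_mem_barySet (s : ℝ) (g : X → ℝ) (h : IsConfig x θ y) :
    baryVal s g x θ y ∈ barySet s g x :=
  ⟨Fintype.card ι, θ ∘ (Fintype.equivFin ι).symm, y ∘ (Fintype.equivFin ι).symm,
    bary_config_equiv _ h, (bary_baryVal_equiv _ s g x θ y).symm⟩

theorem bary_barySet_nonempty (s : ℝ) (g : X → ℝ) (x : X) : (barySet s g x).Nonempty :=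
  ⟨_, bary_mem_barySet s g (bary_config_single x)⟩

/-- Linear functionals commute with the barycentre. -/
theorem bary_config_inner (h : IsConfig x θ y) (a : X) :
    ∑ i, θ i * inner ℝ a (y i) = inner ℝ a x := by
  rw [← h.2.2, inner_sum]
  simp [inner_smul_right]

theorem bary_config_inner_sub (h : IsConfig x θ y) (a c : X) :
    ∑ i, θ i * inner ℝ a (y i - c) = inner ℝ a (x - c) := by
  have : ∀ i, θ i * inner ℝ a (y i - c) = θ i * inner ℝ a (y i) - θ i * inner ℝ a c := by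
    intro i; rw [inner_sub_right]; ring
  rw [Finset.sum_congr rfl fun i _ => this i, Finset.sum_sub_distrib, ← Finset.sum_mul, h.2.1,
    bary_config_inner h, inner_sub_right, one_mul]

/-- Variance identity (parallel axis theorem). -/
theorem bary_variance (h : IsConfig x θ y) (c : X) :
    ∑ i, θ i * ‖y i - c‖ ^ 2 = ∑ i, θ i * ‖y i - x‖ ^ 2 + ‖x - c‖ ^ 2 := by
  have key : ∀ i, θ i * ‖y i - c‖ ^ 2 =
      θ i * ‖y i - x‖ ^ 2 + 2 * (θ i * inner ℝ (x - c) (y i - x)) + θ i * ‖x - c‖ ^ 2 := by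
    intro i
    have e : y i - c = (y i - x) + (x - c) := by abel
    rw [e, norm_add_sq_real, real_inner_comm]
    ring
  simp only [key, Finset.sum_add_distrib, ← Finset.mul_sum, ← Finset.sum_mul, h.2.1,
    bary_config_inner_sub h, sub_self, inner_zero_right, one_mul, mul_zero, add_zero]

theorem bary_variance_zero (h : IsConfig x θ y) :
    ∑ i, θ i * ‖y i‖ ^ 2 = ∑ i, θ i * ‖y i - x‖ ^ 2 + ‖x‖ ^ 2 := by
  simpa using bary_variance h 0

theorem bary_variance_nonneg (h : IsConfig x θ y) (c : X) : 0 ≤ ∑ i, θ i * ‖y i - c‖ ^ 2 :=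
  Finset.sum_nonneg fun i _ => mul_nonneg (h.1 i) (by positivity)

/-- Weighted means are monotone. -/
theorem bary_config_sum_le (h : IsConfig x θ y) {a b : ι → ℝ} (hab : ∀ i, a i ≤ b i) :
    ∑ i, θ i * a i ≤ ∑ i, θ i * b i :=
  Finset.sum_le_sum fun i _ => mul_le_mul_of_nonneg_left (hab i) (h.1 i)

theorem bary_config_sum_const (h : IsConfig x θ y) (c : ℝ) : ∑ i, θ i * c = c := by
  rw [← Finset.sum_mul, h.2.1, one_mul]

/-- Translation of a configuration. -/
theorem bary_config_translate (h : IsConfig x θ y) (a : X) :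
    IsConfig (x + a) θ (fun i => y i + a) := by
  refine ⟨h.1, h.2.1, ?_⟩
  simp only [smul_add, Finset.sum_add_distrib, ← Finset.sum_smul, h.2.1, h.2.2, one_smul]

/-- Affine image of a configuration. -/
theorem bary_config_affine (h : IsConfig x θ y) (x0 : X) (r : ℝ) :
    IsConfig (x0 + r • x) θ (fun i => x0 + r • y i) := by
  refine ⟨h.1, h.2.1, ?_⟩
  have : ∀ i, θ i • (x0 + r • y i) = θ i • x0 + r • (θ i • y i) := by
    intro i; rw [smul_add, smul_comm]
  simp only [this, Finset.sum_add_distrib, ← Finset.sum_smul, ← Finset.smul_sum, h.2.1, h.2.2,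
    one_smul]

/-- Mixture of two configurations. -/
theorem bary_config_mix {x' : X} {θ' : κ → ℝ} {y' : κ → X} (h : IsConfig x θ y)
    (h' : IsConfig x' θ' y') {a b : ℝ} (ha : 0 ≤ a) (hb : 0 ≤ b) (hab : a + b = 1) :
    IsConfig (a • x + b • x') (Sum.elim (fun i => a * θ i) (fun j => b * θ' j))
      (Sum.elim y y') := by
  refine ⟨?_, ?_, ?_⟩
  · rintro (i | j)
    · exact mul_nonneg ha (h.1 i)
    · exact mul_nonneg hb (h'.1 j)
  · simp only [Fintype.sum_sum_type, Sum.elim_inl, Sum.elim_inr, ← Finset.mul_sum, h.2.1, h'.2.1,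
      mul_one, hab]
  · simp only [Fintype.sum_sum_type, Sum.elim_inl, Sum.elim_inr, mul_smul, ← Finset.smul_sum,
      h.2.2, h'.2.2]

/-- Weighted sums over a mixture. -/
theorem bary_mix_sum {θ' : κ → ℝ} {y' : κ → X} (a b : ℝ) (F : X → ℝ) :
    ∑ k, Sum.elim (fun i => a * θ i) (fun j => b * θ' j) k * F (Sum.elim y y' k) =
      a * ∑ i, θ i * F (y i) + b * ∑ j, θ' j * F (y' j) := by
  simp only [Fintype.sum_sum_type, Sum.elim_inl, Sum.elim_inr, Finset.mul_sum, mul_assoc]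

/-- Composition: replace every point of a configuration by a configuration with that
barycentre. -/
theorem bary_config_sigma {K : ι → Type*} [∀ i, Fintype (K i)] {τ : ∀ i, K i → ℝ}
    {z : ∀ i, K i → X} (h : IsConfig x θ y) (hz : ∀ i, IsConfig (y i) (τ i) (z i)) :
    IsConfig x (fun p : Σ i, K i => θ p.1 * τ p.1 p.2) (fun p : Σ i, K i => z p.1 p.2) := by
  refine ⟨fun p => mul_nonneg (h.1 _) ((hz _).1 _), ?_, ?_⟩
  · rw [Fintype.sum_sigma]
    simp only [← Finset.mul_sum, (hz _).2.1, mul_one, h.2.1]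
  · rw [Fintype.sum_sigma]
    simp only [mul_smul, ← Finset.smul_sum, (hz _).2.2, h.2.2]

/-- Weighted sums over a composed configuration. -/
theorem bary_sigma_sum {K : ι → Type*} [∀ i, Fintype (K i)] (τ : ∀ i, K i → ℝ)
    (z : ∀ i, K i → X) (θ : ι → ℝ) (F : X → ℝ) :
    ∑ p : Σ i, K i, (θ p.1 * τ p.1 p.2) * F (z p.1 p.2) =
      ∑ i, θ i * ∑ k, τ i k * F (z i k) := by
  rw [Fintype.sum_sigma]
  simp only [Finset.mul_sum, mul_assoc]

end config

section value

variable {ι : Type*} [Fintype ι] {x : X} {θ : ι → ℝ} {y : ι → X} {s : ℝ} {g : X → ℝ}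

/-- `baryVal` in terms of `φ = g - ‖·‖^2/(2s)`. -/
theorem bary_baryVal_eq_phi (h : IsConfig x θ y) (s : ℝ) (g : X → ℝ) :
    baryVal s g x θ y = ∑ i, θ i * (g (y i) - ‖y i‖ ^ 2 / (2 * s)) + ‖x‖ ^ 2 / (2 * s) := by
  have h1 : ∑ i, θ i * (g (y i) - ‖y i‖ ^ 2 / (2 * s)) =
      ∑ i, θ i * g (y i) - (∑ i, θ i * ‖y i‖ ^ 2) / (2 * s) := by
    rw [Finset.sum_div, ← Finset.sum_sub_distrib]
    exact Finset.sum_congr rfl fun i _ => by ring
  rw [h1, bary_variance_zero h, baryVal]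
  ring

/-- Quantitative upper bound for the value of a configuration. -/
theorem bary_baryVal_le_growth {ε M : ℝ} (hg : ∀ z, g z ≤ ε * ‖z‖ ^ 2 + M)
    (h : IsConfig x θ y) :
    baryVal s g x θ y ≤
      ε * ‖x‖ ^ 2 + M - (1 / (2 * s) - ε) * ∑ i, θ i * ‖y i - x‖ ^ 2 := by
  have h1 : ∑ i, θ i * g (y i) ≤ ∑ i, θ i * (ε * ‖y i‖ ^ 2 + M) :=
    bary_config_sum_le h fun i => hg (y i)
  have h2 : ∑ i, θ i * (ε * ‖y i‖ ^ 2 + M) = ε * ∑ i, θ i * ‖y i‖ ^ 2 + M := by
    have : ∀ i, θ i * (ε * ‖y i‖ ^ 2 + M) = ε * (θ i * ‖y i‖ ^ 2) + θ i * M := by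
      intro i; ring
    simp only [this, Finset.sum_add_distrib, ← Finset.mul_sum, bary_config_sum_const h]
  rw [h2, bary_variance_zero h] at h1
  unfold baryVal
  have : (∑ i, θ i * ‖y i - x‖ ^ 2) / (2 * s) = 1 / (2 * s) * ∑ i, θ i * ‖y i - x‖ ^ 2 := by
    ring
  rw [this]
  linarith

theorem bary_baryVal_le_growth' {ε M : ℝ} (hε : ε ≤ 1 / (2 * s))
    (hg : ∀ z, g z ≤ ε * ‖z‖ ^ 2 + M) (h : IsConfig x θ y) :
    baryVal s g x θ y ≤ ε * ‖x‖ ^ 2 + M := by
  have h1 := bary_baryVal_le_growth (s := s) hg h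
  have h2 : 0 ≤ (1 / (2 * s) - ε) * ∑ i, θ i * ‖y i - x‖ ^ 2 :=
    mul_nonneg (by linarith) (bary_variance_nonneg h x)
  linarith

theorem bary_bddAbove_of_growth {ε M : ℝ} (hε : ε ≤ 1 / (2 * s))
    (hg : ∀ z, g z ≤ ε * ‖z‖ ^ 2 + M) (x : X) : BddAbove (barySet s g x) := by
  refine ⟨ε * ‖x‖ ^ 2 + M, ?_⟩
  rintro r ⟨N, θ, y, h, rfl⟩
  exact bary_baryVal_le_growth' hε hg h

theorem bary_bddAbove (hs : 0 < s) (hg : SubQuadAbove g) (x : X) : BddAbove (barySet s g x) := by
  obtain ⟨M, hM⟩ := hg (1 / (2 * s)) (by positivity)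
  exact bary_bddAbove_of_growth le_rfl hM x

/-- Every configuration (over any finite index type) is a competitor. -/
theorem bary_le_bary_of_bdd (hb : BddAbove (barySet s g x)) (h : IsConfig x θ y) :
    baryVal s g x θ y ≤ bary s g x :=
  le_csSup hb (bary_mem_barySet s g h)

theorem bary_le_bary (hs : 0 < s) (hg : SubQuadAbove g) (h : IsConfig x θ y) :
    baryVal s g x θ y ≤ bary s g x :=
  bary_le_bary_of_bdd (bary_bddAbove hs hg x) h

theorem bary_self_le_of_bdd (hb : BddAbove (barySet s g x)) : g x ≤ bary s g x := by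
  have := bary_le_bary_of_bdd hb (bary_config_single x)
  rwa [bary_baryVal_single] at this

theorem bary_self_le (hs : 0 < s) (hg : SubQuadAbove g) (x : X) : g x ≤ bary s g x :=
  bary_self_le_of_bdd (bary_bddAbove hs hg x)

/-- Upper bounds for `bary` are checked on configurations indexed by `Fin N`. -/
theorem bary_le_of_forall {B : ℝ}
    (h : ∀ (N : ℕ) (θ : Fin N → ℝ) (y : Fin N → X), IsConfig x θ y → baryVal s g x θ y ≤ B) :
    bary s g x ≤ B := by
  refine csSup_le (bary_barySet_nonempty s g x) ?_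
  rintro r ⟨N, θ, y, hc, rfl⟩
  exact h N θ y hc

theorem bary_le_growth {ε M : ℝ} (hε : ε ≤ 1 / (2 * s))
    (hg : ∀ z, g z ≤ ε * ‖z‖ ^ 2 + M) (x : X) : bary s g x ≤ ε * ‖x‖ ^ 2 + M :=
  bary_le_of_forall fun _ _ _ h => bary_baryVal_le_growth' hε hg h

/-- Near-optimal configurations. -/
theorem bary_exists_near (s : ℝ) (g : X → ℝ) (x : X) {η : ℝ} (hη : 0 < η) :
    ∃ (N : ℕ) (θ : Fin N → ℝ) (y : Fin N → X), IsConfig x θ y ∧
      bary s g x - η < baryVal s g x θ y := by
  obtain ⟨r, ⟨N, θ, y, hc, rfl⟩, hr⟩ :=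
    exists_lt_of_lt_csSup (bary_barySet_nonempty s g x)
      (show bary s g x - η < sSup (barySet s g x) by rw [← bary_eq_sSup]; linarith)
  exact ⟨N, θ, y, hc, hr⟩

/-- Characterisation of the value of `bary`. -/
theorem bary_eq_of_attained {B : ℝ} (hc : IsConfig x θ y) (hB : baryVal s g x θ y = B)
    (h : ∀ (N : ℕ) (θ : Fin N → ℝ) (y : Fin N → X), IsConfig x θ y → baryVal s g x θ y ≤ B) :
    bary s g x = B := by
  refine le_antisymm (bary_le_of_forall h) ?_
  rw [← hB]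
  refine bary_le_bary_of_bdd ⟨B, ?_⟩ hc
  rintro r ⟨N, θ, y, hc, rfl⟩
  exact h N θ y hc

theorem bary_baryVal_mono_fun {g' : X → ℝ} (hgg : ∀ z, g z ≤ g' z) (h : IsConfig x θ y) :
    baryVal s g x θ y ≤ baryVal s g' x θ y := by
  unfold baryVal
  have := bary_config_sum_le h fun i => hgg (y i)
  linarith

theorem bary_baryVal_mono_param {s' : ℝ} (hs : 0 < s) (hss : s ≤ s') (h : IsConfig x θ y) :
    baryVal s g x θ y ≤ baryVal s' g x θ y := by
  unfold baryVal
  have h1 : (∑ i, θ i * ‖y i - x‖ ^ 2) / (2 * s') ≤ (∑ i, θ i * ‖y i - x‖ ^ 2) / (2 * s) :=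
    div_le_div_of_nonneg_left (bary_variance_nonneg h x) (by positivity) (by linarith)
  linarith

/-- Monotonicity in the function. -/
theorem bary_mono_fun {g' : X → ℝ} (hs : 0 < s) (hg' : SubQuadAbove g') (hgg : ∀ z, g z ≤ g' z)
    (x : X) : bary s g x ≤ bary s g' x :=
  bary_le_of_forall fun _ _ _ h => (bary_baryVal_mono_fun hgg h).trans (bary_le_bary hs hg' h)

/-- Monotonicity in the parameter. -/
theorem bary_mono_param {s' : ℝ} (hs : 0 < s) (hss : s ≤ s') (hg : SubQuadAbove g) (x : X) :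
    bary s g x ≤ bary s' g x :=
  bary_le_of_forall fun _ _ _ h =>
    (bary_baryVal_mono_param hs hss h).trans (bary_le_bary (hs.trans_le hss) hg h)

end value

end Claimed.Agent.R330
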