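import Mathlib
import Claimed.Agent.R330.BaryBasic

/-!
# Row 330: barycentric envelope: concavity, affine functions, covariance, gap bounds
-/

namespace Claimed.Agent.R330

open Finset

set_option linter.unusedSectionVars false

variable {X : Type*} [NormedAddCommGroup X] [InnerProductSpace ℝ X]

section concave

variable {s : ℝ} {g : X → ℝ}

/-- `x ↦ C_s g (x) - |x|^2/(2s)` is concave (paper (5.5)). -/
theorem bary_concave (hs : 0 < s) (hg : SubQuadAbove g) :
    ConcaveOn ℝ Set.univ (fun x => bary s g x - ‖x‖ ^ 2 / (2 * s)) := by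
  refine ⟨convex_univ, fun x1 _ x2 _ a b ha hb hab => ?_⟩
  simp only [smul_eq_mul]
  refine le_of_forall_pos_le_add fun η hη => ?_
  obtain ⟨N1, θ1, y1, c1, h1⟩ := bary_exists_near s g x1 hη
  obtain ⟨N2, θ2, y2, c2, h2⟩ := bary_exists_near s g x2 hη
  have hmix := bary_le_bary hs hg (bary_config_mix c1 c2 ha hb hab)
  rw [bary_baryVal_eq_phi (bary_config_mix c1 c2 ha hb hab),
    bary_mix_sum a b (fun z => g z - ‖z‖ ^ 2 / (2 * s))] at hmix
  rw [bary_baryVal_eq_phi c1] at h1
  rw [bary_baryVal_eq_phi c2] at h2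
  have e1 : a * (bary s g x1 - ‖x1‖ ^ 2 / (2 * s)) ≤
      a * (∑ i, θ1 i * (g (y1 i) - ‖y1 i‖ ^ 2 / (2 * s)) + η) :=
    mul_le_mul_of_nonneg_left (by linarith) ha
  have e2 : b * (bary s g x2 - ‖x2‖ ^ 2 / (2 * s)) ≤
      b * (∑ i, θ2 i * (g (y2 i) - ‖y2 i‖ ^ 2 / (2 * s)) + η) :=
    mul_le_mul_of_nonneg_left (by linarith) hb
  have e3 : a * η + b * η = η := by rw [← add_mul, hab, one_mul]
  nlinarith [e1, e2, e3, hmix]

/-- A concave function is its own barycentric envelope. -/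
theorem bary_of_concave (hs : 0 < s) (hg : ConcaveOn ℝ Set.univ g) (x : X) :
    bary s g x = g x := by
  refine bary_eq_of_attained (bary_config_single x) (bary_baryVal_single s g x) ?_
  intro N θ y h
  have h1 : ∑ i, θ i • g (y i) ≤ g (∑ i, θ i • y i) :=
    hg.le_map_sum (fun i _ => h.1 i) h.2.1 (fun i _ => Set.mem_univ _)
  rw [h.2.2] at h1
  simp only [smul_eq_mul] at h1
  have h2 : 0 ≤ (∑ i, θ i * ‖y i - x‖ ^ 2) / (2 * s) :=
    div_nonneg (bary_variance_nonneg h x) (by positivity)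
  unfold baryVal
  linarith

/-- Affine functions are fixed by the barycentric envelope. -/
theorem bary_affine (hs : 0 < s) (p : X) (c : ℝ) (x : X) :
    bary s (fun y => inner ℝ p y + c) x = inner ℝ p x + c := by
  refine bary_eq_of_attained (bary_config_single x) (bary_baryVal_single s _ x) ?_
  intro N θ y h
  have h1 : ∑ i, θ i * (inner ℝ p (y i) + c) = inner ℝ p x + c := by
    simp only [mul_add, Finset.sum_add_distrib, bary_config_inner h, bary_config_sum_const h]
  have h2 : 0 ≤ (∑ i, θ i * ‖y i - x‖ ^ 2) / (2 * s) :=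
    div_nonneg (bary_variance_nonneg h x) (by positivity)
  unfold baryVal
  rw [h1]
  linarith

end concave

section cov

variable {ι : Type*} [Fintype ι] {x : X} {θ : ι → ℝ} {y : ι → X}

/-- Covariance of the value of a configuration under
`ḡ y = g (x0 + r • y) / r - ⟪p0, y⟫ - c`. -/
theorem bary_baryVal_cov {r : ℝ} (hr : 0 < r) (σ : ℝ) (g : X → ℝ) (x0 p0 : X) (c : ℝ)
    (h : IsConfig x θ y) :
    baryVal σ (fun z => g (x0 + r • z) / r - inner ℝ p0 z - c) x θ y =
      baryVal (r * σ) g (x0 + r • x) θ (fun i => x0 + r • y i) / r - inner ℝ p0 x - c := by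
  unfold baryVal
  have h1 : ∑ i, θ i * (g (x0 + r • y i) / r - inner ℝ p0 (y i) - c) =
      (∑ i, θ i * g (x0 + r • y i)) / r - inner ℝ p0 x - c := by
    have : ∀ i, θ i * (g (x0 + r • y i) / r - inner ℝ p0 (y i) - c) =
        θ i * g (x0 + r • y i) / r - θ i * inner ℝ p0 (y i) - θ i * c := by
      intro i; ring
    simp only [this, Finset.sum_sub_distrib, ← Finset.sum_div, bary_config_inner h,
      bary_config_sum_const h]
  have h2 : ∑ i, θ i * ‖x0 + r • y i - (x0 + r • x)‖ ^ 2 = r ^ 2 * ∑ i, θ i * ‖y i - x‖ ^ 2 := by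
    rw [Finset.mul_sum]
    refine Finset.sum_congr rfl fun i _ => ?_
    have : x0 + r • y i - (x0 + r • x) = r • (y i - x) := by
      rw [smul_sub]; abel
    rw [this, norm_smul, Real.norm_eq_abs, abs_of_pos hr]
    ring
  rw [h1, h2]
  by_cases hσ : σ = 0
  · subst hσ; simp
  · field_simp
    ring

/-- Covariance of the barycentric envelope (paper (6.12), third line, slice form):
for `ḡ y = g (x0 + r • y) / r - ⟪p0, y⟫ - c` one has
`C_σ ḡ (x) = C_{rσ} g (x0 + r x) / r - ⟪p0, x⟫ - c`. -/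
theorem bary_cov_of_bdd {r : ℝ} (hr : 0 < r) (σ : ℝ) (g : X → ℝ) (x0 p0 : X) (c : ℝ) (x : X)
    (hb : BddAbove (barySet (r * σ) g (x0 + r • x))) :
    bary σ (fun z => g (x0 + r • z) / r - inner ℝ p0 z - c) x =
      bary (r * σ) g (x0 + r • x) / r - inner ℝ p0 x - c := by
  have hle : ∀ (N : ℕ) (θ : Fin N → ℝ) (y : Fin N → X), IsConfig x θ y →
      baryVal σ (fun z => g (x0 + r • z) / r - inner ℝ p0 z - c) x θ y ≤
        bary (r * σ) g (x0 + r • x) / r - inner ℝ p0 x - c := by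
    intro N θ y h
    rw [bary_baryVal_cov hr σ g x0 p0 c h]
    have := bary_le_bary_of_bdd hb (bary_config_affine h x0 r)
    have := div_le_div_of_nonneg_right this hr.le
    linarith
  have hb' : BddAbove (barySet σ (fun z => g (x0 + r • z) / r - inner ℝ p0 z - c) x) := by
    refine ⟨bary (r * σ) g (x0 + r • x) / r - inner ℝ p0 x - c, ?_⟩
    rintro _ ⟨N, θ, y, h, rfl⟩
    exact hle N θ y h
  refine le_antisymm (bary_le_of_forall hle) ?_
  have key : bary (r * σ) g (x0 + r • x) ≤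
      r * (bary σ (fun z => g (x0 + r • z) / r - inner ℝ p0 z - c) x + inner ℝ p0 x + c) := by
    refine bary_le_of_forall fun N θ z h => ?_
    have hc : IsConfig x θ (fun i => (-(r⁻¹ • x0)) + r⁻¹ • z i) := by
      have := bary_config_affine h (-(r⁻¹ • x0)) r⁻¹
      have e : -(r⁻¹ • x0) + r⁻¹ • (x0 + r • x) = x := by
        rw [smul_add, smul_smul, inv_mul_cancel₀ hr.ne', one_smul]; abel
      rwa [e] at this
    have h1 := bary_le_bary_of_bdd hb' hc
    rw [bary_baryVal_cov hr σ g x0 p0 c hc] at h1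
    have e : (fun i => x0 + r • (-(r⁻¹ • x0) + r⁻¹ • z i)) = z := by
      funext i
      rw [smul_add, smul_neg, smul_smul, smul_smul, mul_inv_cancel₀ hr.ne', one_smul, one_smul]
      abel
    rw [e] at h1
    have h2 : baryVal (r * σ) g (x0 + r • x) θ z / r ≤
        bary σ (fun z => g (x0 + r • z) / r - inner ℝ p0 z - c) x + inner ℝ p0 x + c := by
      linarith
    rw [div_le_iff₀ hr] at h2
    linarith
  have : bary (r * σ) g (x0 + r • x) / r ≤
      bary σ (fun z => g (x0 + r • z) / r - inner ℝ p0 z - c) x + inner ℝ p0 x + c := by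
    rw [div_le_iff₀ hr]; linarith
  linarith

theorem bary_cov {r σ : ℝ} (hr : 0 < r) (hσ : 0 < σ) {g : X → ℝ} (hg : SubQuadAbove g)
    (x0 p0 : X) (c : ℝ) (x : X) :
    bary σ (fun z => g (x0 + r • z) / r - inner ℝ p0 z - c) x =
      bary (r * σ) g (x0 + r • x) / r - inner ℝ p0 x - c :=
  bary_cov_of_bdd hr σ g x0 p0 c x (bary_bddAbove (mul_pos hr hσ) hg _)

/-- Covariance of the barycentric gap. -/
theorem bary_gap_cov {r σ : ℝ} (hr : 0 < r) (hσ : 0 < σ) {g : X → ℝ} (hg : SubQuadAbove g)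
    (x0 p0 : X) (c : ℝ) (x : X) :
    bary σ (fun z => g (x0 + r • z) / r - inner ℝ p0 z - c) x -
        (g (x0 + r • x) / r - inner ℝ p0 x - c) =
      (bary (r * σ) g (x0 + r • x) - g (x0 + r • x)) / r := by
  rw [bary_cov hr hσ hg]; ring

/-- Adding an affine function commutes with the envelope. -/
theorem bary_add_affine {s : ℝ} (hs : 0 < s) {g : X → ℝ} (hg : SubQuadAbove g) (p : X) (c : ℝ)
    (x : X) : bary s (fun z => g z + inner ℝ p z + c) x = bary s g x + inner ℝ p x + c := by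
  have := bary_cov (r := 1) one_pos hs hg 0 (-p) (-c) x
  simpa [sub_eq_add_neg] using this

/-- Translation covariance. -/
theorem bary_translate {s : ℝ} (hs : 0 < s) {g : X → ℝ} (hg : SubQuadAbove g) (a x : X) :
    bary s (fun z => g (a + z)) x = bary s g (a + x) := by
  have := bary_cov (r := 1) one_pos hs hg a 0 0 x
  simpa using this

end cov

section gap

variable {s : ℝ} {g : X → ℝ} {x : X}

/-- The sandwich (5.3): a Jensen bound `κ r` gives the gap bound `κ^2 s / 2`. -/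
theorem bary_gap_le_of_jensen (hs : 0 < s) {κ : ℝ}
    (hJ : ∀ (N : ℕ) (θ : Fin N → ℝ) (y : Fin N → X), IsConfig x θ y →
      ∑ i, θ i * g (y i) - g x ≤ κ * Real.sqrt (∑ i, θ i * ‖y i - x‖ ^ 2)) :
    bary s g x - g x ≤ κ ^ 2 * s / 2 := by
  have : bary s g x ≤ g x + κ ^ 2 * s / 2 := by
    refine bary_le_of_forall fun N θ y h => ?_
    have h1 := hJ N θ y h
    set V := ∑ i, θ i * ‖y i - x‖ ^ 2 with hV
    have hV0 : 0 ≤ V := bary_variance_nonneg h x
    set ρ := Real.sqrt V with hρ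
    have hρ2 : ρ ^ 2 = V := Real.sq_sqrt hV0
    have h2 : κ * ρ - V / (2 * s) ≤ κ ^ 2 * s / 2 := by
      rw [← hρ2]
      have : κ ^ 2 * s / 2 - (κ * ρ - ρ ^ 2 / (2 * s)) = (ρ - κ * s) ^ 2 / (2 * s) := by
        field_simp; ring
      have h3 : 0 ≤ (ρ - κ * s) ^ 2 / (2 * s) := by positivity
      linarith
    unfold baryVal
    linarith
  linarith

/-- A gap bound at one parameter bounds the Jensen defect of every configuration. -/
theorem bary_jensen_le_of_gap (hb : BddAbove (barySet s g x)) {G : ℝ}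
    (hG : bary s g x - g x ≤ G) {ι : Type*} [Fintype ι] {θ : ι → ℝ} {y : ι → X}
    (h : IsConfig x θ y) :
    ∑ i, θ i * g (y i) - g x ≤ G + (∑ i, θ i * ‖y i - x‖ ^ 2) / (2 * s) := by
  have := bary_le_bary_of_bdd hb h
  unfold baryVal at this
  linarith

/-- Converse of the sandwich: linear gap bounds `κ^2 s / 2` for all `s > 0` give the Jensen
bound `κ r`. -/
theorem bary_jensen_of_gap (hg : SubQuadAbove g) {κ : ℝ} (hκ : 0 ≤ κ)
    (hG : ∀ s : ℝ, 0 < s → bary s g x - g x ≤ κ ^ 2 * s / 2)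
    {ι : Type*} [Fintype ι] {θ : ι → ℝ} {y : ι → X} (h : IsConfig x θ y) :
    ∑ i, θ i * g (y i) - g x ≤ κ * Real.sqrt (∑ i, θ i * ‖y i - x‖ ^ 2) := by
  set V := ∑ i, θ i * ‖y i - x‖ ^ 2 with hV
  have hV0 : 0 ≤ V := bary_variance_nonneg h x
  set ρ := Real.sqrt V with hρ
  have hρ0 : 0 ≤ ρ := Real.sqrt_nonneg V
  have hρ2 : ρ ^ 2 = V := Real.sq_sqrt hV0
  refine le_of_forall_pos_le_add fun ε hε => ?_
  set η := 2 * ε / (κ + ρ + 1) with hη
  have hη0 : 0 < η := by positivity
  have hs : 0 < (ρ + η) / (κ + η) := by positivity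
  have h1 := bary_jensen_le_of_gap (bary_bddAbove hs hg x) (hG _ hs) h
  rw [← hV, ← hρ2] at h1
  have h2 : κ ^ 2 * ((ρ + η) / (κ + η)) / 2 ≤ κ * (ρ + η) / 2 := by
    have : κ ^ 2 * ((ρ + η) / (κ + η)) = κ * (ρ + η) * (κ / (κ + η)) := by
      field_simp
    rw [this]
    have h3 : κ / (κ + η) ≤ 1 := by
      rw [div_le_one (by positivity)]; linarith
    have h4 : 0 ≤ κ * (ρ + η) := by positivity
    nlinarith
  have h3 : ρ ^ 2 / (2 * ((ρ + η) / (κ + η))) ≤ ρ * (κ + η) / 2 := by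
    have : ρ ^ 2 / (2 * ((ρ + η) / (κ + η))) = ρ * (κ + η) / 2 * (ρ / (ρ + η)) := by
      field_simp
    rw [this]
    have h3 : ρ / (ρ + η) ≤ 1 := by
      rw [div_le_one (by positivity)]; linarith
    have h4 : 0 ≤ ρ * (κ + η) / 2 := by positivity
    nlinarith
  have h4 : η * (κ + ρ) / 2 ≤ ε := by
    have : η * (κ + ρ) / 2 = ε * ((κ + ρ) / (κ + ρ + 1)) := by
      rw [hη]; field_simp
    rw [this]
    have h5 : (κ + ρ) / (κ + ρ + 1) ≤ 1 := by
      rw [div_le_one (by positivity)]; linarith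
    nlinarith
  nlinarith

end gap

end Claimed.Agent.R330
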