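import Mathlib

/-!
# Row 330: the convex hull of a compact set in a finite dimensional space is compact

A generic fact missing from the library, obtained from Caratheodory's theorem.
Owner: helper233.
-/

namespace Claimed.Agent.R330

open Set Filter Topology

variable {E : Type*} [NormedAddCommGroup E] [NormedSpace ℝ E] [FiniteDimensional ℝ E]

/-- Caratheodory with a fixed number of points: every point of the convex hull of `s` is a convex
combination of a family of points of `s` indexed by `Fin (finrank + 1)`. -/
theorem baryhull_exists_fin {s : Set E} {x : E} (hx : x ∈ convexHull ℝ s) :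
    ∃ (w : Fin (Module.finrank ℝ E + 1) → ℝ) (z : Fin (Module.finrank ℝ E + 1) → E),
      (∀ i, 0 ≤ w i) ∧ ∑ i, w i = 1 ∧ (∀ i, z i ∈ s) ∧ ∑ i, w i • z i = x := by
  obtain ⟨ι, _, z, w, hzs, hind, hw0, hw1, hsum⟩ := eq_pos_convex_span_of_mem_convexHull hx
  have hcard : Fintype.card ι ≤ Fintype.card (Fin (Module.finrank ℝ E + 1)) := by
    have h1 := hind.card_le_finrank_succ
    have h2 : Module.finrank ℝ (vectorSpan ℝ (range z)) ≤ Module.finrank ℝ E :=
      Submodule.finrank_le _
    simp only [Fintype.card_fin]
    omega
  obtain ⟨e⟩ := Function.Embedding.nonempty_of_card_le hcard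
  have hne : Nonempty ι := by
    by_contra hemp
    rw [not_nonempty_iff] at hemp
    simp at hw1
  obtain ⟨i0⟩ := hne
  refine ⟨Function.extend e w 0, Function.extend e z (fun _ => z i0), ?_, ?_, ?_, ?_⟩
  · intro j
    by_cases hj : ∃ i, e i = j
    · obtain ⟨i, rfl⟩ := hj
      rw [e.injective.extend_apply]
      exact (hw0 i).le
    · rw [Function.extend_apply' _ _ _ hj]
      simp
  · rw [← hw1]
    symm
    apply Fintype.sum_of_injective e e.injective
    · intro j hj
      rw [Function.extend_apply' _ _ _ (by simpa using hj)]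
      simp
    · intro i
      rw [e.injective.extend_apply]
  · intro j
    by_cases hj : ∃ i, e i = j
    · obtain ⟨i, rfl⟩ := hj
      rw [e.injective.extend_apply]
      exact hzs ⟨i, rfl⟩
    · rw [Function.extend_apply' _ _ _ hj]
      exact hzs ⟨i0, rfl⟩
  · rw [← hsum]
    symm
    apply Fintype.sum_of_injective e e.injective
    · intro j hj
      rw [Function.extend_apply' _ _ _ (by simpa using hj)]
      simp
    · intro i
      rw [e.injective.extend_apply, e.injective.extend_apply]

/-- The convex hull of a compact subset of a finite dimensional real normed space is compact. -/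
theorem baryhull_isCompact_convexHull {s : Set E} (hs : IsCompact s) :
    IsCompact (convexHull ℝ s) := by
  set n := Module.finrank ℝ E + 1 with hn
  have hT : IsCompact ((stdSimplex ℝ (Fin n)) ×ˢ (Set.pi Set.univ (fun _ : Fin n => s))) :=
    (isCompact_stdSimplex ℝ (Fin n)).prod (isCompact_univ_pi fun _ => hs)
  have hF : Continuous (fun p : (Fin n → ℝ) × (Fin n → E) => ∑ i, p.1 i • p.2 i) := by
    fun_prop
  have himg : convexHull ℝ s =
      (fun p : (Fin n → ℝ) × (Fin n → E) => ∑ i, p.1 i • p.2 i) ''
        ((stdSimplex ℝ (Fin n)) ×ˢ (Set.pi Set.univ (fun _ : Fin n => s))) := by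
    apply Set.Subset.antisymm
    · intro x hx
      obtain ⟨w, z, hw0, hw1, hz, hsum⟩ := baryhull_exists_fin hx
      exact ⟨(w, z), ⟨⟨hw0, hw1⟩, fun i _ => hz i⟩, hsum⟩
    · rintro _ ⟨⟨w, z⟩, ⟨⟨hw0, hw1⟩, hz⟩, rfl⟩
      exact (convex_convexHull ℝ s).sum_mem (fun i _ => hw0 i) hw1
        (fun i _ => subset_convexHull ℝ s (hz i (Set.mem_univ i)))
  rw [himg]
  exact hT.image hF

/-- Alias (name used by helper182's part of `BaryDual`). -/
theorem bary_isCompact_convexHull {s : Set E} (hs : IsCompact s) :
    IsCompact (convexHull ℝ s) :=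
  baryhull_isCompact_convexHull hs

end Claimed.Agent.R330
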