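import Mathlib
import Claimed.Agent.R330.BaryHull

/-!
# Row 330: the min-max duality behind the barycentric envelope (paper Lemma 5.1), core statement

For a continuous function `G` with quadratic decay around `x` there are a slope `A`, a level `m`
and a finite configuration with positive weights and barycentre `x`, such that
`G z - ⟪A, z - x⟫ ≤ m` for every `z`, with equality at the points of the configuration.
Owner: helper233.
-/

namespace Claimed.Agent.R330

open Set Filter Topology Metric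
open scoped RealInnerProductSpace

variable {X : Type*} [NormedAddCommGroup X] [InnerProductSpace ℝ X]

/-- The tilted function is controlled by the decay. -/
theorem barydual_tilt_le {G : X → ℝ} {x : X} {c C : ℝ}
    (hdec : ∀ z, G z ≤ C - c * ‖z - x‖ ^ 2) (A z : X) :
    G z - ⟪A, z - x⟫ ≤ C - c * ‖z - x‖ ^ 2 + ‖A‖ * ‖z - x‖ := by
  have h1 := hdec z
  have h2 : -⟪A, z - x⟫ ≤ ‖A‖ * ‖z - x‖ := by
    have := abs_real_inner_le_norm A (z - x)
    have h3 := neg_abs_le ⟪A, z - x⟫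
    linarith
  linarith

theorem barydual_tilt_le' {G : X → ℝ} {x : X} {c C : ℝ} (hc : 0 < c)
    (hdec : ∀ z, G z ≤ C - c * ‖z - x‖ ^ 2) (A z : X) :
    G z - ⟪A, z - x⟫ ≤ C + ‖A‖ ^ 2 / (4 * c) := by
  have h := barydual_tilt_le hdec A z
  have h2 : ‖A‖ * ‖z - x‖ - c * ‖z - x‖ ^ 2 ≤ ‖A‖ ^ 2 / (4 * c) := by
    rw [le_div_iff₀ (by positivity)]
    nlinarith [sq_nonneg (‖A‖ - 2 * c * ‖z - x‖)]
  linarith

theorem barydual_bdd {G : X → ℝ} {x : X} {c C : ℝ} (hc : 0 < c)
    (hdec : ∀ z, G z ≤ C - c * ‖z - x‖ ^ 2) (A : X) :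
    BddAbove (Set.range fun z : X => G z - ⟪A, z - x⟫) := by
  refine ⟨C + ‖A‖ ^ 2 / (4 * c), ?_⟩
  rintro _ ⟨z, rfl⟩
  exact barydual_tilt_le' hc hdec A z

/-- Far away the tilted function is below any prescribed level, uniformly for bounded slopes. -/
theorem barydual_far {G : X → ℝ} {x : X} {c C : ℝ} (hc : 0 < c)
    (hdec : ∀ z, G z ≤ C - c * ‖z - x‖ ^ 2) (a μ : ℝ) :
    ∃ R : ℝ, 0 < R ∧ ∀ A : X, ‖A‖ ≤ a → ∀ z : X, R < ‖z - x‖ → G z - ⟪A, z - x⟫ < μ := by
  refine ⟨(|a| + 1) / c + (|C - μ| + 1), by positivity, ?_⟩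
  intro A hA z hz
  have h := barydual_tilt_le hdec A z
  set r := ‖z - x‖ with hr
  have hr0 : 0 ≤ r := norm_nonneg _
  have h1 : (|a| + 1) / c < r := by
    have : 0 < |C - μ| + 1 := by positivity
    linarith
  have h2 : |C - μ| + 1 < r := by
    have : 0 < (|a| + 1) / c := by positivity
    linarith
  have h3 : |a| + 1 < c * r := by
    rw [div_lt_iff₀ hc] at h1
    linarith
  have h4 : ‖A‖ ≤ |a| := hA.trans (le_abs_self a)
  have h5 : C - μ ≤ |C - μ| := le_abs_self _
  have h6 : 1 ≤ r := by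
    have : 0 ≤ |C - μ| := abs_nonneg _
    linarith
  have h7 : ‖A‖ * r ≤ |a| * r := mul_le_mul_of_nonneg_right h4 hr0
  have h8 : (|a| + 1) * r ≤ c * r * r := mul_le_mul_of_nonneg_right h3.le hr0
  nlinarith

variable [FiniteDimensional ℝ X]

/-- The tilted function attains its supremum. -/
theorem barydual_attain {G : X → ℝ} (hG : Continuous G) {x : X} {c C : ℝ} (hc : 0 < c)
    (hdec : ∀ z, G z ≤ C - c * ‖z - x‖ ^ 2) (A : X) :
    ∃ z0 : X, ∀ z : X, G z - ⟪A, z - x⟫ ≤ G z0 - ⟪A, z0 - x⟫ := by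
  have hcont : Continuous fun z : X => G z - ⟪A, z - x⟫ := by fun_prop
  obtain ⟨R, hR, hfar⟩ := barydual_far hc hdec ‖A‖ (G x - ⟪A, x - x⟫)
  refine hcont.exists_forall_ge' x ?_
  have hcpt : (closedBall x R)ᶜ ∈ cocompact X := (isCompact_closedBall x R).compl_mem_cocompact
  filter_upwards [hcpt] with z hz
  have hz' : R < ‖z - x‖ := by
    simpa [mem_closedBall, dist_eq_norm] using hz
  exact (hfar A le_rfl z hz').le

/-- The dual function `Γ(A) = sup_z (G z - ⟪A, z - x⟫)` has a global minimiser. -/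
theorem barydual_exists_min {G : X → ℝ} (hG : Continuous G) {x : X} {c C : ℝ} (hc : 0 < c)
    (hdec : ∀ z, G z ≤ C - c * ‖z - x‖ ^ 2) :
    ∃ A0 : X, ∀ A : X, (⨆ z : X, (G z - ⟪A0, z - x⟫)) ≤ ⨆ z : X, (G z - ⟪A, z - x⟫) := by
  set Γ : X → ℝ := fun A => ⨆ z : X, (G z - ⟪A, z - x⟫) with hΓ
  have hlsc : LowerSemicontinuous Γ := by
    apply lowerSemicontinuous_ciSup (fun A => barydual_bdd hc hdec A)
    intro z
    have : Continuous fun A : X => G z - ⟪A, z - x⟫ := by fun_prop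
    exact this.lowerSemicontinuous
  -- lower bound of `G` on the unit ball around `x`
  obtain ⟨z1, -, hz1⟩ := (isCompact_closedBall x 1).exists_isMinOn
    ⟨x, mem_closedBall_self zero_le_one⟩ hG.continuousOn
  have hcoer : ∀ A : X, G z1 + ‖A‖ ≤ Γ A := by
    intro A
    by_cases hA : A = 0
    · subst hA
      have h1 : G x - ⟪(0 : X), x - x⟫ ≤ Γ 0 := le_ciSup (barydual_bdd hc hdec 0) x
      have h2 : G z1 ≤ G x := hz1 (mem_closedBall_self zero_le_one)
      simp at h1
      simpa using h2.trans h1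
    · have hA' : 0 < ‖A‖ := norm_pos_iff.2 hA
      set z := x - (‖A‖⁻¹) • A with hz
      have h1 : G z - ⟪A, z - x⟫ ≤ Γ A := le_ciSup (barydual_bdd hc hdec A) z
      have h2 : z - x = -((‖A‖⁻¹) • A) := by rw [hz]; abel
      have h3 : ⟪A, z - x⟫ = -‖A‖ := by
        rw [h2, inner_neg_right, real_inner_smul_right, real_inner_self_eq_norm_sq]
        field_simp
      have h4 : z ∈ closedBall x 1 := by
        rw [mem_closedBall, dist_eq_norm, h2, norm_neg, norm_smul, norm_inv, norm_norm]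
        rw [inv_mul_cancel₀ hA'.ne']
      have h5 : G z1 ≤ G z := hz1 h4
      rw [h3] at h1
      linarith
  set ρ : ℝ := |Γ 0 - G z1| + 1 with hρ
  have hρ0 : 0 ≤ ρ := by positivity
  obtain ⟨A0, hA0, hmin⟩ := LowerSemicontinuousOn.exists_isMinOn
    (s := closedBall (0 : X) ρ) ⟨0, mem_closedBall_self hρ0⟩ (isCompact_closedBall 0 ρ)
    (hlsc.lowerSemicontinuousOn _)
  refine ⟨A0, fun A => ?_⟩
  by_cases hA : A ∈ closedBall (0 : X) ρ
  · exact hmin hA
  · have h1 : ρ < ‖A‖ := by simpa [mem_closedBall, dist_zero_right] using hA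
    have h2 : Γ A0 ≤ Γ 0 := hmin (mem_closedBall_self hρ0)
    have h3 := hcoer A
    have h4 : Γ 0 - G z1 ≤ |Γ 0 - G z1| := le_abs_self _
    show Γ A0 ≤ Γ A
    linarith

/-- At a minimiser `A0` of the dual function, `x` lies in the convex hull of the set of maximisers
of the tilted function. -/
theorem barydual_mem_hull {G : X → ℝ} (hG : Continuous G) {x : X} {c C : ℝ} (hc : 0 < c)
    (hdec : ∀ z, G z ≤ C - c * ‖z - x‖ ^ 2) {A0 : X}
    (hmin : ∀ A : X, (⨆ z : X, (G z - ⟪A0, z - x⟫)) ≤ ⨆ z : X, (G z - ⟪A, z - x⟫)) :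
    x ∈ convexHull ℝ {z : X | G z - ⟪A0, z - x⟫ = ⨆ z : X, (G z - ⟪A0, z - x⟫)} := by
  set m := ⨆ z : X, (G z - ⟪A0, z - x⟫) with hm
  set E := {z : X | G z - ⟪A0, z - x⟫ = m} with hE
  have hle : ∀ z, G z - ⟪A0, z - x⟫ ≤ m := fun z => le_ciSup (barydual_bdd hc hdec A0) z
  have hcont : Continuous fun z : X => G z - ⟪A0, z - x⟫ := by fun_prop
  obtain ⟨R0, hR0, hfar0⟩ := barydual_far hc hdec ‖A0‖ m
  have hEc : IsCompact E := by
    apply (isCompact_closedBall x R0).of_isClosed_subset (isClosed_eq hcont continuous_const)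
    intro z hz
    rw [mem_closedBall, dist_eq_norm]
    by_contra hcon
    rw [not_le] at hcon
    have h1 := hfar0 A0 le_rfl z hcon
    have h2 : G z - ⟪A0, z - x⟫ = m := hz
    rw [h2] at h1
    exact lt_irrefl _ h1
  by_contra hx
  have hK : IsCompact (convexHull ℝ E) := baryhull_isCompact_convexHull hEc
  obtain ⟨f, u, hfx, hfu⟩ :=
    geometric_hahn_banach_point_closed (convex_convexHull ℝ E) hK.isClosed hx
  set e : X := (InnerProductSpace.toDual ℝ X).symm f with he
  have hef : ∀ z, ⟪e, z⟫ = f z := fun z => InnerProductSpace.toDual_symm_apply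
  set δ := u - f x with hδ
  have hδ0 : 0 < δ := by linarith
  have hsep : ∀ z ∈ E, δ < ⟪e, z - x⟫ := by
    intro z hz
    rw [hef, map_sub]
    have := hfu z (subset_convexHull ℝ E hz)
    linarith
  obtain ⟨R, hR, hfar⟩ := barydual_far hc hdec (‖A0‖ + ‖e‖) (m - 1)
  set K' := closedBall x R ∩ {z : X | ⟪e, z - x⟫ ≤ δ / 2} with hK'
  have hK'c : IsCompact K' :=
    (isCompact_closedBall x R).inter_right (isClosed_le (by fun_prop) continuous_const)
  have hm' : ∃ m' < m, ∀ z ∈ K', G z - ⟪A0, z - x⟫ ≤ m' := by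
    by_cases hne : K'.Nonempty
    · obtain ⟨z2, hz2, hmax⟩ := hK'c.exists_isMaxOn hne hcont.continuousOn
      refine ⟨G z2 - ⟪A0, z2 - x⟫, ?_, fun z hz => hmax hz⟩
      refine lt_of_le_of_ne (hle z2) ?_
      intro heq
      have h1 := hsep z2 heq
      have h2 : ⟪e, z2 - x⟫ ≤ δ / 2 := hz2.2
      linarith
    · exact ⟨m - 1, by linarith, fun z hz => absurd ⟨z, hz⟩ hne⟩
  obtain ⟨m', hm'm, hm'le⟩ := hm'
  have hpos : 0 < ‖e‖ * R + 1 := by positivity
  set h : ℝ := min 1 ((m - m') / (2 * (‖e‖ * R + 1))) with hh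
  have hh0 : 0 < h := lt_min one_pos (div_pos (by linarith) (by positivity))
  have hh1 : h ≤ 1 := min_le_left _ _
  have hh2 : h * (‖e‖ * R + 1) ≤ (m - m') / 2 := by
    have h1 : h ≤ (m - m') / (2 * (‖e‖ * R + 1)) := min_le_right _ _
    calc h * (‖e‖ * R + 1) ≤ (m - m') / (2 * (‖e‖ * R + 1)) * (‖e‖ * R + 1) :=
          mul_le_mul_of_nonneg_right h1 hpos.le
      _ = (m - m') / 2 := by field_simp
  have hsplit : ∀ z, G z - ⟪A0 + h • e, z - x⟫ = G z - ⟪A0, z - x⟫ - h * ⟪e, z - x⟫ := by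
    intro z
    rw [inner_add_left, real_inner_smul_left]
    ring
  set μ := max (max (m' + (m - m') / 2) (m - h * (δ / 2))) (m - 1) with hμdef
  have hμ : μ < m := by
    refine max_lt (max_lt (by linarith) ?_) (by linarith)
    have : 0 < h * (δ / 2) := by positivity
    linarith
  have hbound : ∀ z, G z - ⟪A0 + h • e, z - x⟫ ≤ μ := by
    intro z
    by_cases hzR : ‖z - x‖ ≤ R
    · by_cases hze : ⟪e, z - x⟫ ≤ δ / 2
      · have hzK : z ∈ K' := ⟨by rwa [mem_closedBall, dist_eq_norm], hze⟩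
        have h1 := hm'le z hzK
        have h2 : -⟪e, z - x⟫ ≤ ‖e‖ * R := by
          have h3 := abs_real_inner_le_norm e (z - x)
          have h4 := neg_abs_le ⟪e, z - x⟫
          have h5 : ‖e‖ * ‖z - x‖ ≤ ‖e‖ * R := mul_le_mul_of_nonneg_left hzR (norm_nonneg _)
          linarith
        have h6 : h * (-⟪e, z - x⟫) ≤ h * (‖e‖ * R + 1) :=
          mul_le_mul_of_nonneg_left (by linarith) hh0.le
        rw [hsplit]
        refine le_trans ?_ (le_trans (le_max_left _ _) (le_max_left _ _))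
        linarith
      · rw [not_le] at hze
        have h1 := hle z
        have h2 : h * (δ / 2) ≤ h * ⟪e, z - x⟫ := mul_le_mul_of_nonneg_left hze.le hh0.le
        rw [hsplit]
        refine le_trans ?_ (le_trans (le_max_right _ _) (le_max_left _ _))
        linarith
    · rw [not_le] at hzR
      have hn : ‖A0 + h • e‖ ≤ ‖A0‖ + ‖e‖ := by
        refine (norm_add_le _ _).trans ?_
        rw [norm_smul, Real.norm_eq_abs, abs_of_pos hh0]
        have : h * ‖e‖ ≤ 1 * ‖e‖ := mul_le_mul_of_nonneg_right hh1 (norm_nonneg _)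
        linarith
      exact (hfar _ hn z hzR).le.trans (le_max_right _ _)
  have h1 := hmin (A0 + h • e)
  have h2 : (⨆ z : X, (G z - ⟪A0 + h • e, z - x⟫)) ≤ μ := ciSup_le hbound
  linarith

/-- **Core duality.**  For a continuous `G` with quadratic decay around `x` there are a slope `A`,
a level `m` and a configuration with positive weights and barycentre `x` such that the tilted
function `G z - ⟪A, z - x⟫` is at most `m`, with equality on the configuration. -/
theorem barydual_core {G : X → ℝ} (hG : Continuous G) {x : X} {c C : ℝ} (hc : 0 < c)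
    (hdec : ∀ z, G z ≤ C - c * ‖z - x‖ ^ 2) :
    ∃ (A : X) (m : ℝ) (N : ℕ) (θ : Fin N → ℝ) (y : Fin N → X),
      (∀ i, 0 < θ i) ∧ ∑ i, θ i = 1 ∧ ∑ i, θ i • y i = x ∧
      (∀ z, G z - ⟪A, z - x⟫ ≤ m) ∧ (∀ i, G (y i) - ⟪A, y i - x⟫ = m) := by
  obtain ⟨A0, hmin⟩ := barydual_exists_min hG hc hdec
  have hx := barydual_mem_hull hG hc hdec hmin
  obtain ⟨ι, _, z, w, hzs, -, hw0, hw1, hsum⟩ := eq_pos_convex_span_of_mem_convexHull hx
  let e := Fintype.equivFin ι
  refine ⟨A0, ⨆ z : X, (G z - ⟪A0, z - x⟫), Fintype.card ι, w ∘ e.symm, z ∘ e.symm,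
    fun i => hw0 _, ?_, ?_, fun z => le_ciSup (barydual_bdd hc hdec A0) z, fun i => ?_⟩
  · rw [← hw1]
    exact e.symm.sum_comp w
  · rw [← hsum]
    exact e.symm.sum_comp (fun i => w i • z i)
  · exact hzs ⟨e.symm i, rfl⟩

end Claimed.Agent.R330
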