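import Claimed.Agent.R330.EnvDefs

/-!
# Row 330: quadratic envelopes, basic slice-level facts

Bounds, competitors, near-optimizers, confinement, attainment, the semigroup law and the
elementary covariances of `supConv` / `infConv`.
-/

namespace Claimed.Agent.R330

open Filter Topology Set

section Basic

variable {X : Type*} [NormedAddCommGroup X]

theorem env_norm_sq_le (x y : X) : ‖y‖ ^ 2 ≤ 2 * ‖y - x‖ ^ 2 + 2 * ‖x‖ ^ 2 := by
  have h : ‖y‖ ≤ ‖y - x‖ + ‖x‖ := by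
    calc ‖y‖ = ‖(y - x) + x‖ := by simp
      _ ≤ _ := norm_add_le _ _
  nlinarith [norm_nonneg y, norm_nonneg (y - x), norm_nonneg x, sq_nonneg (‖y - x‖ - ‖x‖)]

/-- Every competitor is controlled by the growth bound. -/
theorem supConv_term_le {g : X → ℝ} {ε C : ℝ} (hε : 0 ≤ ε) (hg : ∀ y, g y ≤ ε * ‖y‖ ^ 2 + C)
    (l : ℝ) (x y : X) :
    g y - ‖y - x‖ ^ 2 / (2 * l) ≤ 2 * ε * ‖x‖ ^ 2 + C - (1 / (2 * l) - 2 * ε) * ‖y - x‖ ^ 2 := by
  have h1 := hg y
  have h2 := mul_le_mul_of_nonneg_left (env_norm_sq_le x y) hε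
  have h3 : ‖y - x‖ ^ 2 / (2 * l) = (1 / (2 * l)) * ‖y - x‖ ^ 2 := by ring
  rw [h3]
  nlinarith

theorem SubQuad.above {g : X → ℝ} (hg : SubQuad g) : SubQuadAbove g := by
  intro ε hε
  obtain ⟨C, hC⟩ := hg ε hε
  exact ⟨C, fun x => (le_abs_self _).trans (hC x)⟩

theorem SubQuad.below {g : X → ℝ} (hg : SubQuad g) : SubQuadBelow g := by
  intro ε hε
  obtain ⟨C, hC⟩ := hg ε hε
  exact ⟨C, fun x => (abs_le.1 (hC x)).1⟩

theorem SubQuad.neg {g : X → ℝ} (hg : SubQuad g) : SubQuad (fun y => - g y) := by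
  intro ε hε
  obtain ⟨C, hC⟩ := hg ε hε
  exact ⟨C, fun x => by simpa using hC x⟩

theorem SubQuadBelow.neg {g : X → ℝ} (hg : SubQuadBelow g) : SubQuadAbove (fun y => - g y) := by
  intro ε hε
  obtain ⟨C, hC⟩ := hg ε hε
  exact ⟨C, fun x => by have := hC x; linarith⟩

theorem SubQuadAbove.neg {g : X → ℝ} (hg : SubQuadAbove g) : SubQuadBelow (fun y => - g y) := by
  intro ε hε
  obtain ⟨C, hC⟩ := hg ε hε
  exact ⟨C, fun x => by have := hC x; linarith⟩

theorem subQuad_of_above_below {g : X → ℝ} (h1 : SubQuadAbove g) (h2 : SubQuadBelow g) :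
    SubQuad g := by
  intro ε hε
  obtain ⟨C1, hC1⟩ := h1 ε hε
  obtain ⟨C2, hC2⟩ := h2 ε hε
  refine ⟨max C1 C2, fun x => abs_le.2 ⟨?_, ?_⟩⟩
  · have := hC2 x
    have := le_max_right C1 C2
    linarith
  · have := hC1 x
    have := le_max_left C1 C2
    linarith

theorem SubQuadOn.slice {J : Set ℝ} {f : X → ℝ → ℝ} (hf : SubQuadOn J f) {t : ℝ} (ht : t ∈ J) :
    SubQuad (fun y => f y t) := by
  intro ε hε
  obtain ⟨C, hC⟩ := hf ε hε
  exact ⟨C, fun x => hC x t ht⟩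

theorem SubQuadOn.mono {J J' : Set ℝ} {f : X → ℝ → ℝ} (hf : SubQuadOn J f) (h : J' ⊆ J) :
    SubQuadOn J' f := by
  intro ε hε
  obtain ⟨C, hC⟩ := hf ε hε
  exact ⟨C, fun x t ht => hC x t (h ht)⟩

theorem SubQuadLoc.slice {f : X → ℝ → ℝ} (hf : SubQuadLoc f) (t : ℝ) :
    SubQuad (fun y => f y t) :=
  (hf |t|).slice ⟨neg_abs_le t, le_abs_self t⟩

theorem SubQuadLoc.on_Icc {f : X → ℝ → ℝ} (hf : SubQuadLoc f) (a b : ℝ) :
    SubQuadOn (Set.Icc a b) f := by
  refine (hf (max |a| |b|)).mono ?_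
  intro t ht
  refine ⟨?_, ?_⟩
  · have := neg_abs_le a
    have := le_max_left |a| |b|
    linarith [ht.1]
  · have := le_abs_self b
    have := le_max_right |a| |b|
    linarith [ht.2]

theorem supConv_bddAbove {g : X → ℝ} (hg : SubQuadAbove g) {l : ℝ} (hl : 0 < l) (x : X) :
    BddAbove (Set.range fun y : X => g y - ‖y - x‖ ^ 2 / (2 * l)) := by
  have hε : 0 < 1 / (4 * l) := by positivity
  obtain ⟨C, hC⟩ := hg _ hε
  refine ⟨2 * (1 / (4 * l)) * ‖x‖ ^ 2 + C, ?_⟩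
  rintro _ ⟨y, rfl⟩
  have h := supConv_term_le hε.le hC l x y
  have h0 : (1 / (2 * l) - 2 * (1 / (4 * l))) = 0 := by
    field_simp
    ring
  rw [h0] at h
  simpa using h

theorem le_supConv {g : X → ℝ} (hg : SubQuadAbove g) {l : ℝ} (hl : 0 < l) (x y : X) :
    g y - ‖y - x‖ ^ 2 / (2 * l) ≤ supConv l g x :=
  le_ciSup (supConv_bddAbove hg hl x) y

theorem supConv_le {g : X → ℝ} {l a : ℝ} {x : X}
    (h : ∀ y, g y - ‖y - x‖ ^ 2 / (2 * l) ≤ a) : supConv l g x ≤ a :=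
  ciSup_le h

theorem self_le_supConv {g : X → ℝ} (hg : SubQuadAbove g) {l : ℝ} (hl : 0 < l) (x : X) :
    g x ≤ supConv l g x := by
  simpa using le_supConv hg hl x x

theorem exists_supConv_lt (g : X → ℝ) (l : ℝ) (x : X) {η : ℝ} (hη : 0 < η) :
    ∃ y, supConv l g x - η < g y - ‖y - x‖ ^ 2 / (2 * l) :=
  exists_lt_of_lt_ciSup (by unfold supConv; linarith)

theorem infConv_eq_neg_supConv (l : ℝ) (g : X → ℝ) (x : X) :
    infConv l g x = - supConv l (fun y => - g y) x := by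
  unfold infConv supConv iInf iSup
  rw [Real.sInf_def]
  congr 2
  ext a
  simp only [Set.mem_neg, Set.mem_range]
  constructor
  · rintro ⟨y, hy⟩
    exact ⟨y, by linarith⟩
  · rintro ⟨y, hy⟩
    exact ⟨y, by linarith⟩

theorem supConv_eq_neg_infConv (l : ℝ) (g : X → ℝ) (x : X) :
    supConv l g x = - infConv l (fun y => - g y) x := by
  rw [infConv_eq_neg_supConv]
  simp

theorem infConv_le {g : X → ℝ} (hg : SubQuadBelow g) {l : ℝ} (hl : 0 < l) (x y : X) :
    infConv l g x ≤ g y + ‖y - x‖ ^ 2 / (2 * l) := by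
  rw [infConv_eq_neg_supConv]
  have := le_supConv hg.neg hl x y
  linarith

theorem le_infConv {g : X → ℝ} {l a : ℝ} {x : X}
    (h : ∀ y, a ≤ g y + ‖y - x‖ ^ 2 / (2 * l)) : a ≤ infConv l g x :=
  le_ciInf h

theorem infConv_le_self {g : X → ℝ} (hg : SubQuadBelow g) {l : ℝ} (hl : 0 < l) (x : X) :
    infConv l g x ≤ g x := by
  simpa using infConv_le hg hl x x

theorem exists_lt_infConv (g : X → ℝ) (l : ℝ) (x : X) {η : ℝ} (hη : 0 < η) :
    ∃ y, g y + ‖y - x‖ ^ 2 / (2 * l) < infConv l g x + η :=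
  exists_lt_of_ciInf_lt (by unfold infConv; linarith)

/-- Confinement of near-optimizers.  If `g ≤ ε|·|²+C` with `8 ε l ≤ 1` and `y` is an
`η`-optimizer for `supConv l g x`, then `|y-x|² ≤ 4 l (2ε|x|² + C - g x + η)`. -/
theorem supConv_confine {g : X → ℝ} {ε C l η : ℝ} (hε : 0 ≤ ε) (hl : 0 < l)
    (hεl : 8 * ε * l ≤ 1) (hg : ∀ y, g y ≤ ε * ‖y‖ ^ 2 + C) {x y : X}
    (hy : g x - η ≤ g y - ‖y - x‖ ^ 2 / (2 * l)) :
    ‖y - x‖ ^ 2 ≤ 4 * l * (2 * ε * ‖x‖ ^ 2 + C - g x + η) := by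
  have h := supConv_term_le hε hg l x y
  have h1 : (1 / (4 * l)) * ‖y - x‖ ^ 2 ≤ (1 / (2 * l) - 2 * ε) * ‖y - x‖ ^ 2 := by
    apply mul_le_mul_of_nonneg_right _ (sq_nonneg _)
    have : 2 * ε ≤ 1 / (4 * l) := by
      rw [le_div_iff₀ (by positivity)]
      linarith
    have h2 : 1 / (2 * l) = 1 / (4 * l) + 1 / (4 * l) := by
      field_simp
      ring
    linarith
  have h3 : (1 / (4 * l)) * ‖y - x‖ ^ 2 ≤ 2 * ε * ‖x‖ ^ 2 + C - g x + η := by linarith
  have h4 : ‖y - x‖ ^ 2 = 4 * l * ((1 / (4 * l)) * ‖y - x‖ ^ 2) := by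
    field_simp
  rw [h4]
  exact mul_le_mul_of_nonneg_left h3 (by positivity)

theorem supConv_mono {g g' : X → ℝ} (hg' : SubQuadAbove g') (h : ∀ y, g y ≤ g' y) {l : ℝ}
    (hl : 0 < l) (x : X) : supConv l g x ≤ supConv l g' x :=
  supConv_le fun y => le_trans (by have := h y; linarith) (le_supConv hg' hl x y)

theorem infConv_mono {g g' : X → ℝ} (hg : SubQuadBelow g) (h : ∀ y, g y ≤ g' y) {l : ℝ}
    (hl : 0 < l) (x : X) : infConv l g x ≤ infConv l g' x :=
  le_infConv fun y => le_trans (infConv_le hg hl x y) (by have := h y; linarith)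

/-- Affine reindexing of a bounded supremum. -/
theorem env_iSup_affine {ι ι' : Type*} [Nonempty ι] (e : ι' ≃ ι) {T : ι → ℝ}
    (hb : BddAbove (Set.range T)) {a : ℝ} (ha : 0 ≤ a) (c : ℝ) :
    (⨆ y' : ι', (a * T (e y') + c)) = a * (⨆ y, T y) + c := by
  rw [e.iSup_comp (g := fun y => a * T y + c), Real.mul_iSup_of_nonneg ha, ciSup_add]
  obtain ⟨M, hM⟩ := hb
  refine ⟨a * M, ?_⟩
  rintro _ ⟨y, rfl⟩
  exact mul_le_mul_of_nonneg_left (hM ⟨y, rfl⟩) ha

theorem supConv_add_const {g : X → ℝ} (hg : SubQuadAbove g) {l : ℝ} (hl : 0 < l) (c : ℝ)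
    (x : X) : supConv l (fun y => g y + c) x = supConv l g x + c := by
  have h := env_iSup_affine (Equiv.refl X) (supConv_bddAbove hg hl x) zero_le_one c
  unfold supConv
  rw [one_mul] at h
  rw [← h]
  congr 1
  ext y
  simp only [Equiv.refl_apply]
  ring

theorem supConv_translate (l : ℝ) (g : X → ℝ) (a x : X) :
    supConv l (fun y => g (y + a)) x = supConv l g (x + a) := by
  unfold supConv
  rw [← (Equiv.addRight a).iSup_comp (g := fun y => g y - ‖y - (x + a)‖ ^ 2 / (2 * l))]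
  congr 1
  ext y
  simp

theorem infConv_translate (l : ℝ) (g : X → ℝ) (a x : X) :
    infConv l (fun y => g (y + a)) x = infConv l g (x + a) := by
  rw [infConv_eq_neg_supConv, infConv_eq_neg_supConv,
    supConv_translate l (fun y => - g y) a x]

theorem infConv_add_const {g : X → ℝ} (hg : SubQuadBelow g) {l : ℝ} (hl : 0 < l) (c : ℝ)
    (x : X) : infConv l (fun y => g y + c) x = infConv l g x + c := by
  rw [infConv_eq_neg_supConv, infConv_eq_neg_supConv]
  have := supConv_add_const hg.neg hl (-c) x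
  have h2 : (fun y => -(g y + c)) = fun y => - g y + - c := by
    ext y
    ring
  rw [h2, this]
  ring

/-- `g ≤ M_l P_l g`. -/
theorem le_infConv_supConv {g : X → ℝ} (hg : SubQuadAbove g) {l : ℝ} (hl : 0 < l) (x : X) :
    g x ≤ infConv l (supConv l g) x := by
  refine le_infConv fun y => ?_
  have := le_supConv hg hl y x
  rw [norm_sub_rev] at this
  linarith

/-- `P_l M_l g ≤ g`. -/
theorem supConv_infConv_le {g : X → ℝ} (hg : SubQuadBelow g) {l : ℝ} (hl : 0 < l) (x : X) :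
    supConv l (infConv l g) x ≤ g x := by
  refine supConv_le fun y => ?_
  have := infConv_le hg hl y x
  rw [norm_sub_rev] at this
  linarith

/-- The sup-convolution keeps the one-sided subquadratic bound. -/
theorem SubQuadAbove.supConv {g : X → ℝ} (hg : SubQuadAbove g) {l : ℝ} (hl : 0 < l) :
    SubQuadAbove (supConv l g) := by
  intro ε hε
  have hε' : 0 < min (ε / 2) (1 / (4 * l)) := lt_min (by positivity) (by positivity)
  obtain ⟨C, hC⟩ := hg _ hε'
  refine ⟨C, fun x => supConv_le fun y => ?_⟩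
  have h := supConv_term_le hε'.le hC l x y
  have h1 : 0 ≤ (1 / (2 * l) - 2 * min (ε / 2) (1 / (4 * l))) * ‖y - x‖ ^ 2 := by
    apply mul_nonneg _ (sq_nonneg _)
    have : min (ε / 2) (1 / (4 * l)) ≤ 1 / (4 * l) := min_le_right _ _
    have h2 : 1 / (2 * l) = 1 / (4 * l) + 1 / (4 * l) := by
      field_simp
      ring
    linarith
  have h2 : 2 * min (ε / 2) (1 / (4 * l)) * ‖x‖ ^ 2 ≤ ε * ‖x‖ ^ 2 := by
    apply mul_le_mul_of_nonneg_right _ (sq_nonneg _)
    have : min (ε / 2) (1 / (4 * l)) ≤ ε / 2 := min_le_left _ _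
    linarith
  linarith

theorem SubQuadBelow.supConv {g : X → ℝ} (hg : SubQuadBelow g) (hg' : SubQuadAbove g) {l : ℝ}
    (hl : 0 < l) : SubQuadBelow (supConv l g) := by
  intro ε hε
  obtain ⟨C, hC⟩ := hg ε hε
  exact ⟨C, fun x => (hC x).trans (self_le_supConv hg' hl x)⟩

theorem SubQuad.supConv {g : X → ℝ} (hg : SubQuad g) {l : ℝ} (hl : 0 < l) :
    SubQuad (supConv l g) :=
  subQuad_of_above_below (hg.above.supConv hl) (hg.below.supConv hg.above hl)

theorem SubQuadBelow.infConv {g : X → ℝ} (hg : SubQuadBelow g) {l : ℝ} (hl : 0 < l) :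
    SubQuadBelow (infConv l g) := by
  have h := (hg.neg.supConv hl).neg
  have h2 : (fun y => - Claimed.Agent.R330.supConv l (fun y => - g y) y) =
      Claimed.Agent.R330.infConv l g := by
    ext y
    rw [infConv_eq_neg_supConv]
  rwa [h2] at h

theorem SubQuad.infConv {g : X → ℝ} (hg : SubQuad g) {l : ℝ} (hl : 0 < l) :
    SubQuad (infConv l g) := by
  have h := (hg.neg.supConv hl).neg
  have h2 : (fun y => - Claimed.Agent.R330.supConv l (fun y => - g y) y) =
      Claimed.Agent.R330.infConv l g := by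
    ext y
    rw [infConv_eq_neg_supConv]
  rwa [h2] at h

end Basic

end Claimed.Agent.R330
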