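import Mathlib
import Claimed.Agent.R330.EnvBasic
import Claimed.Agent.R330.BaryBasic
import Claimed.Agent.R330.BaryCov
import Claimed.Agent.R330.BaryHull
import Claimed.Agent.R330.BaryDualCore

/-!
# Row 330: attainment and duality for the barycentric envelope (paper Lemma 5.1)

This file is the union of two independent developments of the same lemma (helper233: names
`barydual_*`, first part; helper182: names `bary_*`, second part).  Both sets of names are kept
because both were announced to the users.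

For a continuous slice `g` with one-sided subquadratic growth, `bary s g x` is attained by a finite
configuration with positive weights, and there is a slope `A` such that the affine function of
slope `A` through the value `bary s g x` at `x` lies above `g - ‖· - x‖^2/(2s)`, with equality at
all points of the configuration (paper (5.5) and the paragraph after it).
-/

namespace Claimed.Agent.R330

section part233


open Set Filter Topology Metric
open scoped RealInnerProductSpace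

set_option linter.unusedSectionVars false

variable {X : Type*} [NormedAddCommGroup X] [InnerProductSpace ℝ X]

/-- `baryVal` as the mean of the penalised function. -/
theorem barydual_baryVal_eq {ι : Type*} [Fintype ι] (s : ℝ) (g : X → ℝ) (x : X) (θ : ι → ℝ)
    (y : ι → X) :
    baryVal s g x θ y = ∑ i, θ i * (g (y i) - ‖y i - x‖ ^ 2 / (2 * s)) := by
  unfold baryVal
  rw [Finset.sum_div, ← Finset.sum_sub_distrib]
  exact Finset.sum_congr rfl fun i _ => by ring

/-- A supporting slope bounds every configuration. -/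
theorem barydual_baryVal_le {ι : Type*} [Fintype ι] {s : ℝ} {g : X → ℝ} {x A : X} {m : ℝ}
    (hA : ∀ z, g z - ‖z - x‖ ^ 2 / (2 * s) - ⟪A, z - x⟫ ≤ m) {θ : ι → ℝ} {y : ι → X}
    (h : IsConfig x θ y) : baryVal s g x θ y ≤ m := by
  rw [barydual_baryVal_eq]
  have h1 : ∑ i, θ i * (g (y i) - ‖y i - x‖ ^ 2 / (2 * s)) ≤ ∑ i, θ i * (m + ⟪A, y i - x⟫) :=
    bary_config_sum_le h fun i => by have := hA (y i); linarith
  have h2 : ∑ i, θ i * (m + ⟪A, y i - x⟫) = m := by
    simp only [mul_add, Finset.sum_add_distrib, bary_config_sum_const h,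
      bary_config_inner_sub h, sub_self, inner_zero_right, add_zero]
  linarith

/-- A supporting slope bounds `bary`. -/
theorem barydual_bary_le {s : ℝ} {g : X → ℝ} {x A : X} {m : ℝ}
    (hA : ∀ z, g z - ‖z - x‖ ^ 2 / (2 * s) - ⟪A, z - x⟫ ≤ m) : bary s g x ≤ m :=
  bary_le_of_forall fun _ _ _ h => barydual_baryVal_le hA h

/-- Equality on the support gives the value of the configuration. -/
theorem barydual_baryVal_eq_of_support {ι : Type*} [Fintype ι] {s : ℝ} {g : X → ℝ} {x A : X}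
    {m : ℝ} {θ : ι → ℝ} {y : ι → X} (h : IsConfig x θ y)
    (hA : ∀ i, g (y i) - ‖y i - x‖ ^ 2 / (2 * s) - ⟪A, y i - x⟫ = m) :
    baryVal s g x θ y = m := by
  rw [barydual_baryVal_eq]
  have h1 : ∀ i, θ i * (g (y i) - ‖y i - x‖ ^ 2 / (2 * s)) = θ i * (m + ⟪A, y i - x⟫) := by
    intro i
    have := hA i
    congr 1
    linarith
  rw [Finset.sum_congr rfl fun i _ => h1 i]
  simp only [mul_add, Finset.sum_add_distrib, bary_config_sum_const h,
    bary_config_inner_sub h, sub_self, inner_zero_right, add_zero]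

/-- Quadratic decay of the penalised function. -/
theorem barydual_decay {s : ℝ} (hs : 0 < s) {g : X → ℝ} (hq : SubQuadAbove g) (x : X) :
    ∃ C : ℝ, ∀ z, g z - ‖z - x‖ ^ 2 / (2 * s) ≤ C - 1 / (4 * s) * ‖z - x‖ ^ 2 := by
  have hε : 0 < 1 / (8 * s) := by positivity
  obtain ⟨C0, hC0⟩ := hq _ hε
  refine ⟨2 * (1 / (8 * s)) * ‖x‖ ^ 2 + C0, fun z => ?_⟩
  have h := supConv_term_le hε.le hC0 s x z
  have h1 : 1 / (2 * s) - 2 * (1 / (8 * s)) = 1 / (4 * s) := by
    field_simp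
    ring
  rw [h1] at h
  exact h

variable [FiniteDimensional ℝ X]

/-- **Attainment and duality, centred form.** -/
theorem barydual_attained_centered {s : ℝ} (hs : 0 < s) {g : X → ℝ} (hg : Continuous g)
    (hq : SubQuadAbove g) (x : X) :
    ∃ (A : X) (N : ℕ) (θ : Fin N → ℝ) (y : Fin N → X),
      IsConfig x θ y ∧ (∀ i, 0 < θ i) ∧ baryVal s g x θ y = bary s g x ∧
      (∀ z, g z - ‖z - x‖ ^ 2 / (2 * s) - ⟪A, z - x⟫ ≤ bary s g x) ∧
      (∀ i, g (y i) - ‖y i - x‖ ^ 2 / (2 * s) - ⟪A, y i - x⟫ = bary s g x) := by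
  obtain ⟨C, hC⟩ := barydual_decay hs hq x
  have hcont : Continuous fun z : X => g z - ‖z - x‖ ^ 2 / (2 * s) := by fun_prop
  obtain ⟨A, m, N, θ, y, hθ, hsum, hmean, hle, heq⟩ :=
    barydual_core hcont (c := 1 / (4 * s)) (by positivity) hC
  have hc : IsConfig x θ y := ⟨fun i => (hθ i).le, hsum, hmean⟩
  have hval : baryVal s g x θ y = m := barydual_baryVal_eq_of_support hc heq
  have hb : bary s g x = m :=
    bary_eq_of_attained hc hval fun _ _ _ h => barydual_baryVal_le hle h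
  refine ⟨A, N, θ, y, hc, hθ, by rw [hval, hb], ?_, ?_⟩
  · intro z; rw [hb]; exact hle z
  · intro i; rw [hb]; exact heq i

/-- Passage between the centred and the uncentred normalisation of the supporting slope. -/
theorem barydual_center_identity (s : ℝ) (hs : s ≠ 0) (x z A : X) :
    ‖z‖ ^ 2 / (2 * s) + ⟪A - (1 / s) • x, z - x⟫ - ‖x‖ ^ 2 / (2 * s) =
      ‖z - x‖ ^ 2 / (2 * s) + ⟪A, z - x⟫ := by
  have h1 : ‖z‖ ^ 2 = ‖z - x‖ ^ 2 + 2 * ⟪x, z - x⟫ + ‖x‖ ^ 2 := by
    have e : z = (z - x) + x := by abel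
    conv_lhs => rw [e]
    rw [norm_add_sq_real, real_inner_comm]
  rw [h1, inner_sub_left, real_inner_smul_left]
  field_simp
  ring

/-- **Attainment and duality** (paper Lemma 5.1, formula (5.5)): the concave function
`bary s g - ‖·‖^2/(2s)` has at `x` a supporting slope `A` which dominates `g - ‖·‖^2/(2s)`
everywhere, with equality on the support of an attaining configuration. -/
theorem barydual_attained {s : ℝ} (hs : 0 < s) {g : X → ℝ} (hg : Continuous g)
    (hq : SubQuadAbove g) (x : X) :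
    ∃ (A : X) (N : ℕ) (θ : Fin N → ℝ) (y : Fin N → X),
      IsConfig x θ y ∧ (∀ i, 0 < θ i) ∧ baryVal s g x θ y = bary s g x ∧
      (∀ z, g z - ‖z‖ ^ 2 / (2 * s) - ⟪A, z - x⟫ ≤ bary s g x - ‖x‖ ^ 2 / (2 * s)) ∧
      (∀ i, g (y i) - ‖y i‖ ^ 2 / (2 * s) - ⟪A, y i - x⟫ = bary s g x - ‖x‖ ^ 2 / (2 * s)) := by
  obtain ⟨A, N, θ, y, hc, hθ, hval, hle, heq⟩ := barydual_attained_centered hs hg hq x
  refine ⟨A - (1 / s) • x, N, θ, y, hc, hθ, hval, ?_, ?_⟩
  · intro z
    have h1 := barydual_center_identity s hs.ne' x z A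
    have h2 := hle z
    linarith
  · intro i
    have h1 := barydual_center_identity s hs.ne' x (y i) A
    have h2 := heq i
    linarith

end part233

section part182


open Finset Filter

set_option linter.unusedSectionVars false

variable {X : Type*} [NormedAddCommGroup X] [InnerProductSpace ℝ X] [FiniteDimensional ℝ X]

/-- Tilted and linearly penalised versions of `φ` still tend to `-∞`. -/
theorem bary_dual_tendsto {φ : X → ℝ} {c M : ℝ} (hc : 0 < c)
    (hφ : ∀ y, φ y ≤ M - c * ‖y‖ ^ 2) (A x : X) (K : ℝ) :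
    Tendsto (fun y => φ y - inner ℝ A (y - x) + K * ‖y - x‖) (cocompact X) atBot := by
  set L := ‖A‖ + |K| with hL
  have hL0 : 0 ≤ L := by positivity
  have h1 : ∀ y, φ y - inner ℝ A (y - x) + K * ‖y - x‖ ≤
      (M + L * ‖x‖ + L ^ 2 / (2 * c)) + -((c / 2) * ‖y‖ ^ 2) := by
    intro y
    have a1 : -inner ℝ A (y - x) ≤ ‖A‖ * ‖y - x‖ :=
      (neg_le_abs _).trans (abs_real_inner_le_norm _ _)
    have a2 : K * ‖y - x‖ ≤ |K| * ‖y - x‖ :=
      mul_le_mul_of_nonneg_right (le_abs_self K) (norm_nonneg _)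
    have a3 : L * ‖y - x‖ ≤ L * (‖y‖ + ‖x‖) :=
      mul_le_mul_of_nonneg_left (norm_sub_le y x) hL0
    have a4 : L * ‖y‖ ≤ L ^ 2 / (2 * c) + c / 2 * ‖y‖ ^ 2 := by
      have e : L ^ 2 / (2 * c) + c / 2 * ‖y‖ ^ 2 - L * ‖y‖ = (c * ‖y‖ - L) ^ 2 / (2 * c) := by
        field_simp; ring
      have h3 : 0 ≤ (c * ‖y‖ - L) ^ 2 / (2 * c) := by positivity
      linarith
    have a5 : L * ‖y - x‖ = ‖A‖ * ‖y - x‖ + |K| * ‖y - x‖ := by rw [hL]; ring
    have := hφ y
    nlinarith
  refine tendsto_atBot_mono h1 ?_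
  refine tendsto_atBot_add_const_left _ _ ?_
  refine tendsto_neg_atTop_atBot.comp ?_
  refine Tendsto.const_mul_atTop (by positivity) ?_
  exact (tendsto_pow_atTop two_ne_zero).comp (tendsto_norm_cocompact_atTop (E := X))

/-- Superlevel sets of a continuous function tending to `-∞` are compact. -/
theorem bary_isCompact_superlevel {f : X → ℝ} (hf : Continuous f)
    (ht : Tendsto f (cocompact X) atBot) (a : ℝ) : IsCompact {y | a ≤ f y} := by
  have h1 : ∀ᶠ y in cocompact X, f y < a := ht.eventually_lt_atBot a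
  obtain ⟨t, ht, hsub⟩ := Filter.mem_cocompact.1 h1
  refine ht.of_isClosed_subset (isClosed_le continuous_const hf) ?_
  intro y hy
  by_contra hyt
  have h2 : f y < a := hsub hyt
  exact absurd h2 (not_lt.2 hy)

/-- Core duality statement. -/
theorem bary_dual_core {φ : X → ℝ} (hφc : Continuous φ) {c M : ℝ} (hc : 0 < c)
    (hφ : ∀ y, φ y ≤ M - c * ‖y‖ ^ 2) (x : X) :
    ∃ (A : X) (Γ₀ : ℝ) (N : ℕ) (θ : Fin N → ℝ) (y : Fin N → X), IsConfig x θ y ∧
      (∀ i, 0 < θ i) ∧ (∀ z, φ z - inner ℝ A (z - x) ≤ Γ₀) ∧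
      (∀ i, φ (y i) - inner ℝ A (y i - x) = Γ₀) := by
  classical
  -- maximisers of the tilted functions
  have hcont : ∀ A : X, Continuous fun y => φ y - inner ℝ A (y - x) := by
    intro A; fun_prop
  have htend : ∀ A : X, Tendsto (fun y => φ y - inner ℝ A (y - x)) (cocompact X) atBot := by
    intro A
    simpa using bary_dual_tendsto hc hφ A x 0
  have hmax : ∀ A : X, ∃ y₀, ∀ y, φ y - inner ℝ A (y - x) ≤ φ y₀ - inner ℝ A (y₀ - x) :=
    fun A => (hcont A).exists_forall_ge (htend A)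
  have hbdd : ∀ A : X, BddAbove (Set.range fun y => φ y - inner ℝ A (y - x)) := by
    intro A
    obtain ⟨y₀, hy₀⟩ := hmax A
    exact ⟨_, by rintro _ ⟨y, rfl⟩; exact hy₀ y⟩
  set Γ : X → ℝ := fun A => ⨆ y, (φ y - inner ℝ A (y - x)) with hΓ
  have hleΓ : ∀ A y, φ y - inner ℝ A (y - x) ≤ Γ A := fun A y => le_ciSup (hbdd A) y
  have hΓmax : ∀ A, ∃ y₀, φ y₀ - inner ℝ A (y₀ - x) = Γ A := by
    intro A
    obtain ⟨y₀, hy₀⟩ := hmax A
    exact ⟨y₀, le_antisymm (hleΓ A y₀) (ciSup_le hy₀)⟩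
  -- lower semicontinuity and coercivity of `Γ`
  have hlsc : LowerSemicontinuous Γ := by
    refine lowerSemicontinuous_ciSup hbdd fun y => ?_
    exact Continuous.lowerSemicontinuous (by fun_prop)
  obtain ⟨m₀, hm₀⟩ : ∃ m₀, ∀ y ∈ Metric.closedBall x 1, m₀ ≤ φ y := by
    obtain ⟨y₁, -, hy₁⟩ := (isCompact_closedBall x 1).exists_isMinOn
      ⟨x, Metric.mem_closedBall_self zero_le_one⟩ hφc.continuousOn
    exact ⟨φ y₁, fun y hy => hy₁ hy⟩
  have hcoer : ∀ A, m₀ + ‖A‖ ≤ Γ A := by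
    intro A
    by_cases hA : A = 0
    · subst hA
      have := hleΓ 0 x
      have h2 := hm₀ x (Metric.mem_closedBall_self zero_le_one)
      simp only [sub_self, inner_zero_right, sub_zero] at this
      simpa using h2.trans this
    · have hA' : 0 < ‖A‖ := norm_pos_iff.2 hA
      have h1 := hleΓ A (x - ‖A‖⁻¹ • A)
      have h2 : inner ℝ A (x - ‖A‖⁻¹ • A - x) = -‖A‖ := by
        have : x - ‖A‖⁻¹ • A - x = -(‖A‖⁻¹ • A) := by abel
        rw [this, inner_neg_right, inner_smul_right, real_inner_self_eq_norm_sq]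
        field_simp
      have h3 : x - ‖A‖⁻¹ • A ∈ Metric.closedBall x 1 := by
        rw [Metric.mem_closedBall, dist_eq_norm]
        have : x - ‖A‖⁻¹ • A - x = -(‖A‖⁻¹ • A) := by abel
        rw [this, norm_neg, norm_smul, norm_inv, norm_norm, inv_mul_cancel₀ hA'.ne']
      have h4 := hm₀ _ h3
      rw [h2] at h1
      linarith
  -- a minimiser of `Γ`
  obtain ⟨A₀, hA₀⟩ : ∃ A₀, ∀ A, Γ A₀ ≤ Γ A := by
    have hR : 0 ≤ Γ 0 - m₀ := by
      have := hcoer 0
      simp only [norm_zero, add_zero] at this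
      linarith
    obtain ⟨A₀, -, hA₀⟩ := hlsc.lowerSemicontinuousOn (Metric.closedBall (0 : X) (Γ 0 - m₀))
      |>.exists_isMinOn ⟨0, Metric.mem_closedBall_self hR⟩ (isCompact_closedBall _ _)
    refine ⟨A₀, fun A => ?_⟩
    by_cases hA : A ∈ Metric.closedBall (0 : X) (Γ 0 - m₀)
    · exact hA₀ hA
    · have h0 : Γ A₀ ≤ Γ 0 := hA₀ (Metric.mem_closedBall_self hR)
      rw [Metric.mem_closedBall, dist_zero_right, not_le] at hA
      have := hcoer A
      linarith
  set Γ₀ := Γ A₀ with hΓ₀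
  set ψ : X → ℝ := fun y => φ y - inner ℝ A₀ (y - x) with hψ
  have hψc : Continuous ψ := hcont A₀
  have hψle : ∀ y, ψ y ≤ Γ₀ := hleΓ A₀
  set E : Set X := {y | Γ₀ ≤ ψ y} with hE
  have hEc : IsCompact E := bary_isCompact_superlevel hψc (htend A₀) Γ₀
  -- the barycentre lies in the convex hull of the maximisers
  have hx : x ∈ convexHull ℝ E := by
    by_contra hx
    obtain ⟨f, u, hfx, hfu⟩ := geometric_hahn_banach_point_closed (convex_convexHull ℝ E)
      (bary_isCompact_convexHull hEc).isClosed hx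
    set e : X := (InnerProductSpace.toDual ℝ X).symm f with he
    have hef : ∀ z, inner ℝ e z = f z := fun z => InnerProductSpace.toDual_symm_apply
    have hB : ∀ y, inner ℝ e (y - x) ≤ 0 → ψ y < Γ₀ := by
      intro y hy
      by_contra hcon
      have hyE : y ∈ E := not_lt.1 hcon
      have h1 := hfu y (subset_convexHull ℝ E hyE)
      rw [inner_sub_right, hef, hef] at hy
      linarith
    set K : Set X := {y | inner ℝ e (y - x) ≤ 0} ∩ {y | Γ₀ ≤ ψ y + ‖e‖ * ‖y - x‖} with hK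
    have hKc : IsCompact K := by
      refine IsCompact.inter_left (bary_isCompact_superlevel (by fun_prop)
        (bary_dual_tendsto hc hφ A₀ x ‖e‖) Γ₀) ?_
      exact isClosed_le (by fun_prop) continuous_const
    have hstep : ∀ h : ℝ, 0 < h → h ≤ 1 → ∃ y ∈ K, Γ₀ ≤ ψ y + h * (‖e‖ * ‖y - x‖) := by
      intro h h0 h1
      obtain ⟨y, hy⟩ := hΓmax (A₀ + h • e)
      have h2 : Γ₀ ≤ ψ y - h * inner ℝ e (y - x) := by
        have := hA₀ (A₀ + h • e)
        rw [← hy, inner_add_left, inner_smul_left] at this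
        simp only [conj_trivial] at this
        simp only [hψ]
        linarith
      have h3 : inner ℝ e (y - x) ≤ 0 := by
        have := hψle y
        by_contra hcon
        have : 0 < h * inner ℝ e (y - x) := mul_pos h0 (not_le.1 hcon)
        linarith
      have h4 : -inner ℝ e (y - x) ≤ ‖e‖ * ‖y - x‖ :=
        (neg_le_abs _).trans (abs_real_inner_le_norm _ _)
      have h5 : Γ₀ ≤ ψ y + h * (‖e‖ * ‖y - x‖) := by
        have := mul_le_mul_of_nonneg_left h4 h0.le
        linarith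
      refine ⟨y, ⟨h3, ?_⟩, h5⟩
      have h6 : h * (‖e‖ * ‖y - x‖) ≤ 1 * (‖e‖ * ‖y - x‖) :=
        mul_le_mul_of_nonneg_right h1 (by positivity)
      show Γ₀ ≤ ψ y + ‖e‖ * ‖y - x‖
      linarith
    have hKne : K.Nonempty := by
      obtain ⟨y, hy, -⟩ := hstep 1 one_pos le_rfl
      exact ⟨y, hy⟩
    obtain ⟨ys, hysK, hys⟩ := hKc.exists_isMaxOn hKne hψc.continuousOn
    obtain ⟨yr, -, hyr⟩ := hKc.exists_isMaxOn hKne
      (f := fun y => ‖y - x‖) (by fun_prop)
    set m₁ := Γ₀ - ψ ys with hm₁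
    have hm₁pos : 0 < m₁ := by
      have := hB ys hysK.1
      linarith
    set ρ := ‖yr - x‖ with hρ
    have hρ0 : 0 ≤ ρ := norm_nonneg _
    set h := min 1 (m₁ / (2 * (‖e‖ * ρ + 1))) with hh
    have hden : 0 < 2 * (‖e‖ * ρ + 1) := by positivity
    have hh0 : 0 < h := lt_min one_pos (div_pos hm₁pos hden)
    obtain ⟨y, hyK, hy⟩ := hstep h hh0 (min_le_left _ _)
    have h1 : ψ y ≤ ψ ys := hys hyK
    have h2 : ‖y - x‖ ≤ ρ := hyr hyK
    have h3 : h * (‖e‖ * ‖y - x‖) ≤ m₁ / (2 * (‖e‖ * ρ + 1)) * (‖e‖ * ρ) :=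
      mul_le_mul (min_le_right _ _) (mul_le_mul_of_nonneg_left h2 (norm_nonneg _))
        (by positivity) (by positivity)
    have h4 : m₁ / (2 * (‖e‖ * ρ + 1)) * (‖e‖ * ρ) ≤ m₁ / 2 := by
      have e1 : m₁ / (2 * (‖e‖ * ρ + 1)) * (‖e‖ * ρ) = m₁ / 2 * ((‖e‖ * ρ) / (‖e‖ * ρ + 1)) := by
        field_simp
      rw [e1]
      have e2 : (‖e‖ * ρ) / (‖e‖ * ρ + 1) ≤ 1 := by
        rw [div_le_one (by positivity)]; linarith
      nlinarith
    linarith
  obtain ⟨ι, _, z, w, hz, -, hw, hw1, hxz⟩ := eq_pos_convex_span_of_mem_convexHull hx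
  refine ⟨A₀, Γ₀, Fintype.card ι, w ∘ (Fintype.equivFin ι).symm, z ∘ (Fintype.equivFin ι).symm,
    bary_config_equiv _ ⟨fun i => (hw i).le, hw1, hxz⟩, fun i => hw _, hψle, fun i => ?_⟩
  exact le_antisymm (hψle _) (hz ⟨_, rfl⟩)

section attained

variable {s : ℝ} {g : X → ℝ}

omit [FiniteDimensional ℝ X] in
/-- Weak duality: an affine majorant of `g - ‖·‖^2/(2s)` bounds the envelope. -/
theorem bary_le_of_majorant {x A : X} {Γ₀ : ℝ}
    (h : ∀ z, g z - ‖z‖ ^ 2 / (2 * s) - inner ℝ A (z - x) ≤ Γ₀) :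
    bary s g x ≤ Γ₀ + ‖x‖ ^ 2 / (2 * s) := by
  refine bary_le_of_forall fun N θ y hc => ?_
  rw [bary_baryVal_eq_phi hc]
  have h1 : ∑ i, θ i * (g (y i) - ‖y i‖ ^ 2 / (2 * s)) ≤
      ∑ i, θ i * (Γ₀ + inner ℝ A (y i - x)) :=
    bary_config_sum_le hc fun i => by linarith [h (y i)]
  have h2 : ∑ i, θ i * (Γ₀ + inner ℝ A (y i - x)) = Γ₀ := by
    simp only [mul_add, Finset.sum_add_distrib, bary_config_sum_const hc,
      bary_config_inner_sub hc, sub_self, inner_zero_right, add_zero]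
  linarith

/-- **Attainment and supporting slope** (paper Lemma 5.1): the supremum defining `bary s g x` is
attained by a finite configuration with positive weights; moreover there is a slope `A` such that
`z ↦ bary s g x - ‖x‖^2/(2s) + ⟪A, z - x⟫` is an affine majorant of `g - ‖·‖^2/(2s)` touching at
all points of the configuration. -/
theorem bary_attained (hs : 0 < s) (hgc : Continuous g) (hg : SubQuadAbove g) (x : X) :
    ∃ (A : X) (N : ℕ) (θ : Fin N → ℝ) (y : Fin N → X), IsConfig x θ y ∧ (∀ i, 0 < θ i) ∧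
      baryVal s g x θ y = bary s g x ∧
      (∀ z, g z - ‖z‖ ^ 2 / (2 * s) - inner ℝ A (z - x) ≤ bary s g x - ‖x‖ ^ 2 / (2 * s)) ∧
      (∀ i, g (y i) - ‖y i‖ ^ 2 / (2 * s) - inner ℝ A (y i - x) =
        bary s g x - ‖x‖ ^ 2 / (2 * s)) := by
  obtain ⟨M, hM⟩ := hg (1 / (4 * s)) (by positivity)
  have hφ : ∀ z, g z - ‖z‖ ^ 2 / (2 * s) ≤ M - 1 / (4 * s) * ‖z‖ ^ 2 := by
    intro z
    have e : ‖z‖ ^ 2 / (2 * s) = 1 / (4 * s) * ‖z‖ ^ 2 + 1 / (4 * s) * ‖z‖ ^ 2 := by
      field_simp; ring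
    have := hM z
    linarith
  obtain ⟨A, Γ₀, N, θ, y, hc, hpos, hmaj, heq⟩ :=
    bary_dual_core (φ := fun z => g z - ‖z‖ ^ 2 / (2 * s)) (by fun_prop)
      (show (0 : ℝ) < 1 / (4 * s) by positivity) hφ x
  have hval : baryVal s g x θ y = Γ₀ + ‖x‖ ^ 2 / (2 * s) := by
    rw [bary_baryVal_eq_phi hc]
    have h1 : ∑ i, θ i * (g (y i) - ‖y i‖ ^ 2 / (2 * s)) =
        ∑ i, θ i * (Γ₀ + inner ℝ A (y i - x)) :=
      Finset.sum_congr rfl fun i _ => by rw [← heq i]; ring
    have h2 : ∑ i, θ i * (Γ₀ + inner ℝ A (y i - x)) = Γ₀ := by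
      simp only [mul_add, Finset.sum_add_distrib, bary_config_sum_const hc,
        bary_config_inner_sub hc, sub_self, inner_zero_right, add_zero]
    rw [h1, h2]
  have hb : bary s g x = Γ₀ + ‖x‖ ^ 2 / (2 * s) :=
    le_antisymm (bary_le_of_majorant hmaj) (hval ▸ bary_le_bary hs hg hc)
  refine ⟨A, N, θ, y, hc, hpos, hval.trans hb.symm, fun z => ?_, fun i => ?_⟩
  · rw [hb]; linarith [hmaj z]
  · rw [hb]; linarith [heq i]

omit [FiniteDimensional ℝ X] in
/-- Completing the square. -/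
theorem bary_complete_square (hs : 0 < s) (A z x : X) :
    ‖z - (-(s • A))‖ ^ 2 / (2 * s) - ‖x - (-(s • A))‖ ^ 2 / (2 * s) =
      ‖z‖ ^ 2 / (2 * s) - ‖x‖ ^ 2 / (2 * s) + inner ℝ A (z - x) := by
  have e1 : ∀ w : X, ‖w - (-(s • A))‖ ^ 2 = ‖w‖ ^ 2 + 2 * s * inner ℝ A w + s ^ 2 * ‖A‖ ^ 2 := by
    intro w
    rw [sub_neg_eq_add, norm_add_sq_real, inner_smul_right, norm_smul, Real.norm_eq_abs,
      abs_of_pos hs, real_inner_comm]
    ring
  rw [e1, e1, inner_sub_right]
  field_simp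
  ring

/-- Attainment, sup-convolution form: there is a base point `b` such that all points of the
optimal configuration maximise `z ↦ g z - ‖z - b‖^2/(2s)`, and the maximal value is
`bary s g x - ‖x - b‖^2/(2s)`. -/
theorem bary_attained_base (hs : 0 < s) (hgc : Continuous g) (hg : SubQuadAbove g) (x : X) :
    ∃ (b : X) (N : ℕ) (θ : Fin N → ℝ) (y : Fin N → X), IsConfig x θ y ∧ (∀ i, 0 < θ i) ∧
      baryVal s g x θ y = bary s g x ∧
      (∀ z, g z - ‖z - b‖ ^ 2 / (2 * s) ≤ bary s g x - ‖x - b‖ ^ 2 / (2 * s)) ∧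
      (∀ i, g (y i) - ‖y i - b‖ ^ 2 / (2 * s) = bary s g x - ‖x - b‖ ^ 2 / (2 * s)) := by
  obtain ⟨A, N, θ, y, hc, hpos, hval, hmaj, heq⟩ := bary_attained hs hgc hg x
  refine ⟨-(s • A), N, θ, y, hc, hpos, hval, fun z => ?_, fun i => ?_⟩
  · have := bary_complete_square hs A z x
    linarith [hmaj z]
  · have := bary_complete_square hs A (y i) x
    linarith [heq i]

omit [FiniteDimensional ℝ X] in
/-- Weak duality, sup-convolution form. -/
theorem bary_le_supConv_add (hs : 0 < s) (x b : X)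
    (hb : BddAbove (Set.range fun z => g z - ‖z - b‖ ^ 2 / (2 * s))) :
    bary s g x ≤ supConv s g b + ‖b - x‖ ^ 2 / (2 * s) := by
  have h1 : ∀ z, g z - ‖z - b‖ ^ 2 / (2 * s) ≤ supConv s g b := fun z => le_ciSup hb z
  have hb' : b = -(s • (-(s⁻¹ • b))) := by
    rw [smul_neg, smul_smul, mul_inv_cancel₀ hs.ne', one_smul, neg_neg]
  have h2 : ∀ z, g z - ‖z‖ ^ 2 / (2 * s) - inner ℝ (-(s⁻¹ • b)) (z - x) ≤
      supConv s g b + ‖x - b‖ ^ 2 / (2 * s) - ‖x‖ ^ 2 / (2 * s) := by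
    intro z
    have := bary_complete_square hs (-(s⁻¹ • b)) z x
    rw [← hb'] at this
    linarith [h1 z]
  have := bary_le_of_majorant h2
  rw [norm_sub_rev b x]
  linarith

/-- The barycentric envelope is the inf-convolution of the sup-convolution
(`C_s = M_s ∘ P_s` on a slice). -/
theorem bary_eq_infConv_supConv (hs : 0 < s) (hgc : Continuous g) (hg : SubQuadAbove g) (x : X) :
    bary s g x = infConv s (supConv s g) x := by
  have hbdd : ∀ b : X, BddAbove (Set.range fun z => g z - ‖z - b‖ ^ 2 / (2 * s)) := by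
    intro b
    obtain ⟨M, hM⟩ := hg (1 / (4 * s)) (by positivity)
    refine ⟨M + ‖b‖ ^ 2 / (2 * s), ?_⟩
    rintro _ ⟨z, rfl⟩
    have h1 : ‖z‖ ^ 2 ≤ 2 * ‖z - b‖ ^ 2 + 2 * ‖b‖ ^ 2 := by
      have h2 : ‖z‖ ≤ ‖z - b‖ + ‖b‖ := by
        have := norm_add_le (z - b) b
        rwa [sub_add_cancel] at this
      nlinarith [sq_nonneg (‖z - b‖ - ‖b‖), norm_nonneg z, norm_nonneg (z - b), norm_nonneg b]
    have h3 : 1 / (4 * s) * ‖z‖ ^ 2 ≤ 1 / (4 * s) * (2 * ‖z - b‖ ^ 2 + 2 * ‖b‖ ^ 2) :=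
      mul_le_mul_of_nonneg_left h1 (by positivity)
    have h4 : 1 / (4 * s) * (2 * ‖z - b‖ ^ 2 + 2 * ‖b‖ ^ 2) =
        ‖z - b‖ ^ 2 / (2 * s) + ‖b‖ ^ 2 / (2 * s) := by
      field_simp; ring
    have := hM z
    simp only
    linarith
  have hle : ∀ b, bary s g x ≤ supConv s g b + ‖b - x‖ ^ 2 / (2 * s) :=
    fun b => bary_le_supConv_add hs x b (hbdd b)
  refine le_antisymm (le_ciInf hle) ?_
  obtain ⟨b, N, θ, y, -, -, -, hmaj, -⟩ := bary_attained_base hs hgc hg x
  have h1 : supConv s g b ≤ bary s g x - ‖x - b‖ ^ 2 / (2 * s) := ciSup_le hmaj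
  have h2 : infConv s (supConv s g) x ≤ supConv s g b + ‖b - x‖ ^ 2 / (2 * s) :=
    ciInf_le ⟨bary s g x, by rintro _ ⟨b', rfl⟩; exact hle b'⟩ b
  rw [norm_sub_rev b x] at h2
  linarith

end attained

end part182

end Claimed.Agent.R330
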