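import Claimed.Agent.R330.EnvAlg

/-!
# Row 330: quadratic envelopes, the master convergence lemma

`G a → g` *continuously* along a filter `F` means
`∀ y, Tendsto (fun p : α × X => G p.1 p.2) (F ×ˢ 𝓝 y) (𝓝 (g y))`.
Under an eventual common subquadratic upper bound, `supConv (ls a) (G a) (xs a)` converges to
`supConv l g x` when `xs → x`, `ls → l > 0`, and to `g x` when `ls → 0+`.
-/

namespace Claimed.Agent.R330

open Filter Topology Set

section Conv

variable {X : Type*} [NormedAddCommGroup X] {α : Type*}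

theorem supConv_bddAbove_of_bound {g : X → ℝ} {ε C l : ℝ} (hε : 0 ≤ ε) (hl : 0 < l)
    (hεl : 4 * ε * l ≤ 1) (hg : ∀ y, g y ≤ ε * ‖y‖ ^ 2 + C) (x : X) :
    BddAbove (Set.range fun y : X => g y - ‖y - x‖ ^ 2 / (2 * l)) := by
  refine ⟨2 * ε * ‖x‖ ^ 2 + C, ?_⟩
  rintro _ ⟨y, rfl⟩
  have h := supConv_term_le hε hg l x y
  have h0 : 0 ≤ (1 / (2 * l) - 2 * ε) * ‖y - x‖ ^ 2 := by
    apply mul_nonneg _ (sq_nonneg _)
    have : 2 * ε ≤ 1 / (2 * l) := by
      rw [le_div_iff₀ (by positivity)]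
      linarith
    linarith
  simp only
  linarith

theorem le_supConv_of_bound {g : X → ℝ} {ε C l : ℝ} (hε : 0 ≤ ε) (hl : 0 < l)
    (hεl : 4 * ε * l ≤ 1) (hg : ∀ y, g y ≤ ε * ‖y‖ ^ 2 + C) (x y : X) :
    g y - ‖y - x‖ ^ 2 / (2 * l) ≤ supConv l g x :=
  le_ciSup (supConv_bddAbove_of_bound hε hl hεl hg x) y

theorem self_le_supConv_of_bound {g : X → ℝ} {ε C l : ℝ} (hε : 0 ≤ ε) (hl : 0 < l)
    (hεl : 4 * ε * l ≤ 1) (hg : ∀ y, g y ≤ ε * ‖y‖ ^ 2 + C) (x : X) :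
    g x ≤ supConv l g x := by
  simpa using le_supConv_of_bound hε hl hεl hg x x

/-- Continuous convergence gives convergence along any moving point. -/
theorem contConv_diag {F F' : Filter α} {G : α → X → ℝ} {g : X → ℝ} {y : X}
    (hG : Tendsto (fun p : α × X => G p.1 p.2) (F ×ˢ 𝓝 y) (𝓝 (g y))) (hF : F' ≤ F)
    {ys : α → X} (hy : Tendsto ys F' (𝓝 y)) : Tendsto (fun a => G a (ys a)) F' (𝓝 (g y)) :=
  hG.comp ((tendsto_id.mono_right hF).prodMk hy)

/-- The limit inherits the growth bound. -/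
theorem contConv_bound {F : Filter α} [F.NeBot] {G : α → X → ℝ} {g : X → ℝ}
    (hG : ∀ y, Tendsto (fun p : α × X => G p.1 p.2) (F ×ˢ 𝓝 y) (𝓝 (g y))) {ε C : ℝ}
    (hb : ∀ᶠ a in F, ∀ y, G a y ≤ ε * ‖y‖ ^ 2 + C) (y : X) : g y ≤ ε * ‖y‖ ^ 2 + C :=
  le_of_tendsto (contConv_diag (hG y) le_rfl tendsto_const_nhds) (hb.mono fun _ h => h y)

theorem contConv_subQuadAbove {F : Filter α} [F.NeBot] {G : α → X → ℝ} {g : X → ℝ}
    (hG : ∀ y, Tendsto (fun p : α × X => G p.1 p.2) (F ×ˢ 𝓝 y) (𝓝 (g y)))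
    (hgrow : ∀ ε : ℝ, 0 < ε → ∃ C : ℝ, ∀ᶠ a in F, ∀ y, G a y ≤ ε * ‖y‖ ^ 2 + C) :
    SubQuadAbove g := by
  intro ε hε
  obtain ⟨C, hC⟩ := hgrow ε hε
  exact ⟨C, contConv_bound hG hC⟩

/-- Convergence of the competitor values. -/
theorem contConv_term {F F' : Filter α} {G : α → X → ℝ} {g : X → ℝ} {y x : X} {l : ℝ}
    (hG : Tendsto (fun p : α × X => G p.1 p.2) (F ×ˢ 𝓝 y) (𝓝 (g y))) (hF : F' ≤ F)
    {ys xs : α → X} {ls : α → ℝ} (hy : Tendsto ys F' (𝓝 y)) (hx : Tendsto xs F' (𝓝 x))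
    (hls : Tendsto ls F' (𝓝 l)) (hl : l ≠ 0) :
    Tendsto (fun a => G a (ys a) - ‖ys a - xs a‖ ^ 2 / (2 * ls a)) F'
      (𝓝 (g y - ‖y - x‖ ^ 2 / (2 * l))) := by
  refine (contConv_diag hG hF hy).sub (Tendsto.div (((hy.sub hx).norm).pow 2)
    (hls.const_mul 2) (by positivity))

/-- Lower semicontinuity part of the master lemma. -/
theorem eventually_lt_supConv {F : Filter α} {G : α → X → ℝ} {g : X → ℝ}
    (hG : ∀ y, Tendsto (fun p : α × X => G p.1 p.2) (F ×ˢ 𝓝 y) (𝓝 (g y)))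
    (hgrow : ∀ ε : ℝ, 0 < ε → ∃ C : ℝ, ∀ᶠ a in F, ∀ y, G a y ≤ ε * ‖y‖ ^ 2 + C)
    {xs : α → X} {ls : α → ℝ} {x : X} {l : ℝ} (hl : 0 < l) (hx : Tendsto xs F (𝓝 x))
    (hls : Tendsto ls F (𝓝 l)) {b : ℝ} (hb : b < supConv l g x) :
    ∀ᶠ a in F, b < supConv (ls a) (G a) (xs a) := by
  obtain ⟨y0, hy0⟩ := exists_lt_of_lt_ciSup hb
  have h1 := contConv_term (hG y0) le_rfl tendsto_const_nhds hx hls hl.ne'
  have hε : 0 < 1 / (8 * l) := by positivity
  obtain ⟨C, hC⟩ := hgrow _ hε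
  have h2 : ∀ᶠ a in F, 0 < ls a := hls.eventually (lt_mem_nhds hl)
  have h3 : ∀ᶠ a in F, ls a < 2 * l := hls.eventually (gt_mem_nhds (by linarith))
  filter_upwards [h1.eventually (lt_mem_nhds hy0), hC, h2, h3] with a ha hCa h2 h3
  refine lt_of_lt_of_le ha (le_supConv_of_bound hε.le h2 ?_ hCa _ _)
  have : 4 * (1 / (8 * l)) * ls a = ls a / (2 * l) := by
    field_simp
    ring
  rw [this, div_le_one (by positivity)]
  exact h3.le

/-- Eventual confinement of near-optimizers: they stay in a fixed ball. -/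
theorem eventually_nearopt_bounded {F : Filter α} {G : α → X → ℝ} {g : X → ℝ}
    (hG : ∀ y, Tendsto (fun p : α × X => G p.1 p.2) (F ×ˢ 𝓝 y) (𝓝 (g y)))
    (hgrow : ∀ ε : ℝ, 0 < ε → ∃ C : ℝ, ∀ᶠ a in F, ∀ y, G a y ≤ ε * ‖y‖ ^ 2 + C)
    {xs : α → X} {ls : α → ℝ} {x : X} {l : ℝ} (hl : 0 < l) (hx : Tendsto xs F (𝓝 x))
    (hls : Tendsto ls F (𝓝 l)) (η : ℝ) {ys : α → X}
    (hys : ∀ᶠ a in F, G a (xs a) - η ≤ G a (ys a) - ‖ys a - xs a‖ ^ 2 / (2 * ls a)) :
    ∃ M : ℝ, ∀ᶠ a in F, ‖ys a‖ ≤ M := by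
  have hε : 0 < 1 / (16 * l) := by positivity
  obtain ⟨C, hC⟩ := hgrow _ hε
  have h2 : ∀ᶠ a in F, 0 < ls a := hls.eventually (lt_mem_nhds hl)
  have h3 : ∀ᶠ a in F, ls a < 2 * l := hls.eventually (gt_mem_nhds (by linarith))
  have hlim : Tendsto (fun a => 4 * ls a * (2 * (1 / (16 * l)) * ‖xs a‖ ^ 2 + C - G a (xs a) + η))
      F (𝓝 (4 * l * (2 * (1 / (16 * l)) * ‖x‖ ^ 2 + C - g x + η))) :=
    (hls.const_mul 4).mul (((((hx.norm).pow 2).const_mul _).add_const C).sub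
      (contConv_diag (hG x) le_rfl hx) |>.add_const η)
  set B := 4 * l * (2 * (1 / (16 * l)) * ‖x‖ ^ 2 + C - g x + η) with hB
  have h4 := hlim.eventually (gt_mem_nhds (lt_add_one B))
  have h5 : ∀ᶠ a in F, ‖xs a‖ < ‖x‖ + 1 := hx.norm.eventually (gt_mem_nhds (lt_add_one _))
  refine ⟨‖x‖ + 1 + (|B| + 2), ?_⟩
  filter_upwards [hC, h2, h3, h4, h5, hys] with a hCa h2 h3 h4 h5 hya
  have hconf := supConv_confine hε.le h2 (by
    have : 8 * (1 / (16 * l)) * ls a = ls a / (2 * l) := by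
      field_simp
      ring
    rw [this, div_le_one (by positivity)]
    exact h3.le) hCa hya
  have h6 : ‖ys a - xs a‖ ^ 2 < B + 1 := lt_of_le_of_lt hconf h4
  have h7 : ‖ys a - xs a‖ ≤ |B| + 2 := by
    by_contra hcon
    rw [not_le] at hcon
    have := le_abs_self B
    have := abs_nonneg B
    nlinarith [norm_nonneg (ys a - xs a)]
  have h8 : ‖ys a‖ ≤ ‖ys a - xs a‖ + ‖xs a‖ := by
    calc ‖ys a‖ = ‖(ys a - xs a) + xs a‖ := by simp
      _ ≤ _ := norm_add_le _ _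
  linarith

/-- Upper semicontinuity part of the master lemma (compactness is used here). -/
theorem eventually_supConv_lt [ProperSpace X] {F : Filter α} {G : α → X → ℝ} {g : X → ℝ}
    (hG : ∀ y, Tendsto (fun p : α × X => G p.1 p.2) (F ×ˢ 𝓝 y) (𝓝 (g y)))
    (hgrow : ∀ ε : ℝ, 0 < ε → ∃ C : ℝ, ∀ᶠ a in F, ∀ y, G a y ≤ ε * ‖y‖ ^ 2 + C)
    {xs : α → X} {ls : α → ℝ} {x : X} {l : ℝ} (hl : 0 < l) (hx : Tendsto xs F (𝓝 x))
    (hls : Tendsto ls F (𝓝 l)) {b : ℝ} (hb : supConv l g x < b) :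
    ∀ᶠ a in F, supConv (ls a) (G a) (xs a) < b := by
  set η := (b - supConv l g x) / 2 with hη
  have hη0 : 0 < η := by
    rw [hη]
    linarith
  choose ys hys using fun a => exists_supConv_lt (G a) (ls a) (xs a) hη0
  -- near-optimizers are bounded
  have hε : 0 < 1 / (8 * l) := by positivity
  obtain ⟨C, hC⟩ := hgrow _ hε
  have h2 : ∀ᶠ a in F, 0 < ls a := hls.eventually (lt_mem_nhds hl)
  have h3 : ∀ᶠ a in F, ls a < 2 * l := hls.eventually (gt_mem_nhds (by linarith))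
  have hself : ∀ᶠ a in F, G a (xs a) - η ≤ G a (ys a) - ‖ys a - xs a‖ ^ 2 / (2 * ls a) := by
    filter_upwards [hC, h2, h3] with a hCa h2 h3
    have := self_le_supConv_of_bound hε.le h2 (by
      have : 4 * (1 / (8 * l)) * ls a = ls a / (2 * l) := by
        field_simp
        ring
      rw [this, div_le_one (by positivity)]
      exact h3.le) hCa (xs a)
    have := hys a
    linarith
  obtain ⟨M, hM⟩ := eventually_nearopt_bounded hG hgrow hl hx hls η hself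
  -- reduce to ultrafilters
  change {a | supConv (ls a) (G a) (xs a) < b} ∈ F
  rw [mem_iff_ultrafilter]
  intro U hU
  have hK : IsCompact (Metric.closedBall (0 : X) M) := isCompact_closedBall 0 M
  have hmem : Metric.closedBall (0 : X) M ∈ (U.map ys) := by
    rw [Ultrafilter.mem_map]
    have : ∀ᶠ a in (U : Filter α), ‖ys a‖ ≤ M := hU hM
    filter_upwards [this] with a ha
    simpa using ha
  obtain ⟨y0, -, hle⟩ := hK.ultrafilter_le_nhds' (U.map ys) hmem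
  have hy0 : Tendsto ys U (𝓝 y0) := hle
  have hterm := contConv_term (hG y0) hU hy0 (hx.mono_left hU) (hls.mono_left hU) hl.ne'
  have : (F : Filter α).NeBot := NeBot.mono U.neBot hU
  have hle2 := le_supConv (contConv_subQuadAbove hG hgrow) hl x y0
  have hlt : g y0 - ‖y0 - x‖ ^ 2 / (2 * l) < supConv l g x + η := by linarith
  have hev := hterm.eventually (gt_mem_nhds hlt)
  have : ∀ᶠ a in (U : Filter α), supConv (ls a) (G a) (xs a) < b := by
    filter_upwards [hev] with a ha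
    have := hys a
    have hb2 : b = supConv l g x + η + η := by
      rw [hη]
      ring
    linarith
  exact this

/-- **Master convergence lemma**, positive limit length. -/
theorem tendsto_supConv [ProperSpace X] {F : Filter α} {G : α → X → ℝ} {g : X → ℝ}
    (hG : ∀ y, Tendsto (fun p : α × X => G p.1 p.2) (F ×ˢ 𝓝 y) (𝓝 (g y)))
    (hgrow : ∀ ε : ℝ, 0 < ε → ∃ C : ℝ, ∀ᶠ a in F, ∀ y, G a y ≤ ε * ‖y‖ ^ 2 + C)
    {xs : α → X} {ls : α → ℝ} {x : X} {l : ℝ} (hl : 0 < l) (hx : Tendsto xs F (𝓝 x))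
    (hls : Tendsto ls F (𝓝 l)) :
    Tendsto (fun a => supConv (ls a) (G a) (xs a)) F (𝓝 (supConv l g x)) :=
  tendsto_order.2 ⟨fun _ hb => eventually_lt_supConv hG hgrow hl hx hls hb,
    fun _ hb => eventually_supConv_lt hG hgrow hl hx hls hb⟩

/-- Near-optimizers at lengths tending to `0+` converge to the centre.  Only one quadratic
upper bound is needed. -/
theorem tendsto_nearopt_zero {F : Filter α} {G : α → X → ℝ} {g : X → ℝ} {x : X}
    (hG : Tendsto (fun p : α × X => G p.1 p.2) (F ×ˢ 𝓝 x) (𝓝 (g x)))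
    {ε C : ℝ} (hε : 0 ≤ ε) (hgrow : ∀ᶠ a in F, ∀ y, G a y ≤ ε * ‖y‖ ^ 2 + C)
    {xs : α → X} {ls : α → ℝ} (hx : Tendsto xs F (𝓝 x)) (hls : Tendsto ls F (𝓝[>] 0))
    (η : ℝ) {ys : α → X}
    (hys : ∀ᶠ a in F, G a (xs a) - η ≤ G a (ys a) - ‖ys a - xs a‖ ^ 2 / (2 * ls a)) :
    Tendsto ys F (𝓝 x) := by
  have hls0 : Tendsto ls F (𝓝 0) := hls.mono_right nhdsWithin_le_nhds
  have h2 : ∀ᶠ a in F, 0 < ls a := hls.eventually self_mem_nhdsWithin
  have h3 : ∀ᶠ a in F, 8 * ε * ls a < 1 := by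
    have : Tendsto (fun a => 8 * ε * ls a) F (𝓝 (8 * ε * 0)) := hls0.const_mul _
    rw [mul_zero] at this
    exact this.eventually (gt_mem_nhds one_pos)
  have hlim : Tendsto (fun a => 4 * ls a * (2 * ε * ‖xs a‖ ^ 2 + C - G a (xs a) + η))
      F (𝓝 (4 * 0 * (2 * ε * ‖x‖ ^ 2 + C - g x + η))) :=
    (hls0.const_mul 4).mul (((((hx.norm).pow 2).const_mul _).add_const C).sub
      (contConv_diag hG le_rfl hx) |>.add_const η)
  rw [mul_zero, zero_mul] at hlim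
  have hsq : Tendsto (fun a => ‖ys a - xs a‖ ^ 2) F (𝓝 0) := by
    refine tendsto_of_tendsto_of_tendsto_of_le_of_le' tendsto_const_nhds hlim
      (Eventually.of_forall fun a => sq_nonneg _) ?_
    filter_upwards [hgrow, h2, h3, hys] with a hCa h2 h3 hya
    exact supConv_confine hε h2 h3.le hCa hya
  have hn : Tendsto (fun a => ‖ys a - xs a‖) F (𝓝 0) := by
    have h := (Real.continuous_sqrt.tendsto 0).comp hsq
    rw [Real.sqrt_zero] at h
    refine h.congr fun a => ?_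
    simp only [Function.comp]
    exact Real.sqrt_sq (norm_nonneg _)
  have hd : Tendsto (fun a => ys a - xs a) F (𝓝 0) := tendsto_zero_iff_norm_tendsto_zero.2 hn
  have := hd.add hx
  simpa using this

/-- **Master convergence lemma**, length tending to `0+`. -/
theorem tendsto_supConv_zero {F : Filter α} {G : α → X → ℝ} {g : X → ℝ} {x : X}
    (hG : Tendsto (fun p : α × X => G p.1 p.2) (F ×ˢ 𝓝 x) (𝓝 (g x)))
    {ε C : ℝ} (hε : 0 ≤ ε) (hgrow : ∀ᶠ a in F, ∀ y, G a y ≤ ε * ‖y‖ ^ 2 + C)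
    {xs : α → X} {ls : α → ℝ} (hx : Tendsto xs F (𝓝 x)) (hls : Tendsto ls F (𝓝[>] 0)) :
    Tendsto (fun a => supConv (ls a) (G a) (xs a)) F (𝓝 (g x)) := by
  have hls0 : Tendsto ls F (𝓝 0) := hls.mono_right nhdsWithin_le_nhds
  have h2 : ∀ᶠ a in F, 0 < ls a := hls.eventually self_mem_nhdsWithin
  have h3 : ∀ᶠ a in F, 4 * ε * ls a < 1 := by
    have : Tendsto (fun a => 4 * ε * ls a) F (𝓝 (4 * ε * 0)) := hls0.const_mul _
    rw [mul_zero] at this
    exact this.eventually (gt_mem_nhds one_pos)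
  have hself : ∀ᶠ a in F, G a (xs a) ≤ supConv (ls a) (G a) (xs a) := by
    filter_upwards [hgrow, h2, h3] with a hCa h2 h3
    exact self_le_supConv_of_bound hε h2 h3.le hCa (xs a)
  have hdiag := contConv_diag hG le_rfl hx
  refine tendsto_order.2 ⟨fun b hb => ?_, fun b hb => ?_⟩
  · filter_upwards [hdiag.eventually (lt_mem_nhds hb), hself] with a h1 h2
    exact lt_of_lt_of_le h1 h2
  · set η := (b - g x) / 2 with hη
    have hη0 : 0 < η := by
      rw [hη]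
      linarith
    choose ys hys using fun a => exists_supConv_lt (G a) (ls a) (xs a) hη0
    have hys' : ∀ᶠ a in F, G a (xs a) - η ≤ G a (ys a) - ‖ys a - xs a‖ ^ 2 / (2 * ls a) := by
      filter_upwards [hself] with a ha
      have := hys a
      linarith
    have hy := tendsto_nearopt_zero hG hε hgrow hx hls η hys'
    have hlt : g x < g x + η := by linarith
    filter_upwards [(contConv_diag hG le_rfl hy).eventually (gt_mem_nhds hlt), h2] with a ha h2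
    have h4 := hys a
    have h5 : 0 ≤ ‖ys a - xs a‖ ^ 2 / (2 * ls a) := by positivity
    have hb2 : b = g x + η + η := by
      rw [hη]
      ring
    linarith

/-- Master lemma for the inf-convolution, positive limit length. -/
theorem tendsto_infConv [ProperSpace X] {F : Filter α} {G : α → X → ℝ} {g : X → ℝ}
    (hG : ∀ y, Tendsto (fun p : α × X => G p.1 p.2) (F ×ˢ 𝓝 y) (𝓝 (g y)))
    (hgrow : ∀ ε : ℝ, 0 < ε → ∃ C : ℝ, ∀ᶠ a in F, ∀ y, -(ε * ‖y‖ ^ 2 + C) ≤ G a y)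
    {xs : α → X} {ls : α → ℝ} {x : X} {l : ℝ} (hl : 0 < l) (hx : Tendsto xs F (𝓝 x))
    (hls : Tendsto ls F (𝓝 l)) :
    Tendsto (fun a => infConv (ls a) (G a) (xs a)) F (𝓝 (infConv l g x)) := by
  simp only [infConv_eq_neg_supConv]
  refine (tendsto_supConv (G := fun a y => - G a y) (g := fun y => - g y)
    (fun y => (hG y).neg) (fun ε hε => ?_) hl hx hls).neg
  obtain ⟨C, hC⟩ := hgrow ε hε
  exact ⟨C, hC.mono fun a ha y => by have := ha y; linarith⟩

/-- Master lemma for the inf-convolution, length tending to `0+`. -/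
theorem tendsto_infConv_zero {F : Filter α} {G : α → X → ℝ} {g : X → ℝ} {x : X}
    (hG : Tendsto (fun p : α × X => G p.1 p.2) (F ×ˢ 𝓝 x) (𝓝 (g x)))
    {ε C : ℝ} (hε : 0 ≤ ε) (hgrow : ∀ᶠ a in F, ∀ y, -(ε * ‖y‖ ^ 2 + C) ≤ G a y)
    {xs : α → X} {ls : α → ℝ} (hx : Tendsto xs F (𝓝 x)) (hls : Tendsto ls F (𝓝[>] 0)) :
    Tendsto (fun a => infConv (ls a) (G a) (xs a)) F (𝓝 (g x)) := by
  simp only [infConv_eq_neg_supConv]
  have := (tendsto_supConv_zero (G := fun a y => - G a y) (g := fun y => - g y)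
    hG.neg hε (hgrow.mono fun a ha y => by have := ha y; linarith) hx hls).neg
  simpa using this

/-- Cluster points of near-optimizers with vanishing defect are optimizers of the limit. -/
theorem nearopt_limit_isOpt [ProperSpace X] {F : Filter α} [F.NeBot] {G : α → X → ℝ} {g : X → ℝ}
    (hG : ∀ y, Tendsto (fun p : α × X => G p.1 p.2) (F ×ˢ 𝓝 y) (𝓝 (g y)))
    (hgrow : ∀ ε : ℝ, 0 < ε → ∃ C : ℝ, ∀ᶠ a in F, ∀ y, G a y ≤ ε * ‖y‖ ^ 2 + C)
    {xs ys : α → X} {ls ηs : α → ℝ} {x y : X} {l : ℝ} (hl : 0 < l) (hx : Tendsto xs F (𝓝 x))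
    (hls : Tendsto ls F (𝓝 l)) (hy : Tendsto ys F (𝓝 y)) (hη : Tendsto ηs F (𝓝 0))
    (hopt : ∀ᶠ a in F, supConv (ls a) (G a) (xs a) - ηs a
      ≤ G a (ys a) - ‖ys a - xs a‖ ^ 2 / (2 * ls a)) :
    supConv l g x = g y - ‖y - x‖ ^ 2 / (2 * l) := by
  apply le_antisymm
  · have h1 := (tendsto_supConv hG hgrow hl hx hls).sub hη
    rw [sub_zero] at h1
    exact le_of_tendsto_of_tendsto h1 (contConv_term (hG y) le_rfl hy hx hls hl.ne') hopt
  · exact le_supConv (contConv_subQuadAbove hG hgrow) hl x y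

end Conv

end Claimed.Agent.R330
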