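import Mathlib

/-!
# Row 330: changes of frame, definitions (paper (4.1) and (6.11))

Functions of space-time have the shape `v : X → ℝ → ℝ`.  One definition covers the change of
frame (4.1) of the paper (`s0 = 0`) and the fitted frame (6.11) (`s0 = 1`, `t0 = R = r`):
the old point `(x0, t0)` becomes the new point `(0, s0)`.
-/

namespace Claimed.Agent.R330

variable {X : Type*} [NormedAddCommGroup X] [InnerProductSpace ℝ X]

/-- Old spatial position of the new point `(y, s)`. -/
def frameX (s0 : ℝ) (x0 : X) (R : ℝ) (p0 : X) (y : X) (s : ℝ) : X :=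
  x0 + R • (y + (s - s0) • p0)

/-- Old time of the new time `s`. -/
def frameT (s0 t0 R s : ℝ) : ℝ := t0 + R * (s - s0)

/-- The change of frame: the old point `(x0, t0)` becomes `(0, s0)`, lengths are divided by `R`,
the Galilean velocity `p0` and the slope `a0` are removed. -/
noncomputable def frame (s0 : ℝ) (x0 : X) (t0 R : ℝ) (p0 : X) (a0 : ℝ) (v : X → ℝ → ℝ) :
    X → ℝ → ℝ :=
  fun y s => (v (frameX s0 x0 R p0 y s) (frameT s0 t0 R s) - v x0 t0) / R
    - inner ℝ p0 y - (a0 + ‖p0‖ ^ 2 / 2) * (s - s0)

end Claimed.Agent.R330
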