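import Mathlib
import Claimed.Agent.R330.EnvDefs
import Claimed.Agent.R330.BaryDefs
import Claimed.Agent.R330.FrameDefs

/-!
# Row 330, Part B (paper Sections 4-8): shared definitions

`X` is the spatial variable space (a real inner product space, finite dimensional where
compactness is used); functions of space-time have the shape `v : X → ℝ → ℝ`.

The class `ClassA C₀` replaces the paper's class `𝒜_{m,C₀}`: the viscosity equation
`D²v[(∇ₓv,1)] = 0` is replaced by its only consequences used in Sections 4-8, namely the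
path convexity of the forward envelope and the path concavity of the backward envelope
(paper Lemma 4.3, formula (4.8)).  The Jensen bound `κ r` of the paper is replaced by the
equivalent gap bound `C_s v - v ≤ G s` with `G = κ²/2`.  Owner of this file: helper170.
-/

namespace Claimed.Agent.R330

open scoped RealInnerProductSpace

variable {X : Type*} [NormedAddCommGroup X] [InnerProductSpace ℝ X]

/-! ### Fits (paper (3.2)) -/

/-- `(p,a)` is a fit for `v` at `(x,t)` of radius `R`, with constant `C₀` (paper (3.2)). -/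
def IsFit (C₀ : ℝ) (v : X → ℝ → ℝ) (x : X) (t R : ℝ) (p : X) (a : ℝ) : Prop :=
  ∀ (h : X) (l : ℝ), |l| ≤ R → ‖h - l • p‖ ≤ R →
    |v (x + h) (t + l) - v x t - ⟪p, h⟫ - (a - ‖p‖ ^ 2 / 2) * l| ≤ C₀ * R

/-- `v` has a fit at every centre and every positive radius. -/
def HasFits (C₀ : ℝ) (v : X → ℝ → ℝ) : Prop :=
  ∀ (x : X) (t R : ℝ), 0 < R → ∃ (p : X) (a : ℝ), IsFit C₀ v x t R p a

/-- `v` is centred at `(xc,tc)`: value zero and the zero fit of radius one there. -/
def CenteredAt (C₀ : ℝ) (v : X → ℝ → ℝ) (xc : X) (tc : ℝ) : Prop :=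
  v xc tc = 0 ∧ IsFit C₀ v xc tc 1 0 0

/-! ### Path convexity (paper (4.8)) and the class -/

/-- Path convexity of the forward envelope at base times `t ∈ T` (paper (4.8)). -/
def PathConvexPOn (T : Set ℝ) (f : X → ℝ → ℝ) : Prop :=
  ∀ (x₀ d : X), ∀ t ∈ T, ConvexOn ℝ (Set.Ioi (0 : ℝ))
    (fun l => envP l f (x₀ + l • d) t + ‖d‖ ^ 2 * (l * Real.log l))

/-- Path convexity of the forward envelope at all base times. -/
def PathConvexP (f : X → ℝ → ℝ) : Prop :=
  ∀ (x₀ d : X) (t : ℝ), ConvexOn ℝ (Set.Ioi (0 : ℝ))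
    (fun l => envP l f (x₀ + l • d) t + ‖d‖ ^ 2 * (l * Real.log l))

/-- Path concavity of the backward envelope (mirror image of `PathConvexP` under `reflT`). -/
def PathConcaveM (f : X → ℝ → ℝ) : Prop :=
  ∀ (x₀ d : X) (t : ℝ), ConcaveOn ℝ (Set.Ioi (0 : ℝ))
    (fun l => envM l f (x₀ + l • d) t - ‖d‖ ^ 2 * (l * Real.log l))

/-- The class replacing the paper's `𝒜_{m,C₀}`. -/
structure ClassA (C₀ : ℝ) (v : X → ℝ → ℝ) : Prop where
  cont : Continuous (fun z : X × ℝ => v z.1 z.2)
  fits : HasFits C₀ v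
  convP : PathConvexP v
  concM : PathConcaveM v

/-- `v` is an affine function of `(x,t)`. -/
def IsAffineST (v : X → ℝ → ℝ) : Prop :=
  ∃ (p : X) (q c : ℝ), ∀ (x : X) (t : ℝ), v x t = ⟪p, x⟫ + q * t + c

/-! ### Gap bound and the function `W` (paper (5.2), (5.3), (5.9)) -/

/-- Gap bound `C_s v - v ≤ G s` for all `s > 0`; equivalent to the paper's horizontal Jensen
bound (5.2) with `κ² / 2 = G`. -/
def GapBound (G : ℝ) (v : X → ℝ → ℝ) : Prop :=
  ∀ (x : X) (t s : ℝ), 0 < s → bary s (fun y => v y t) x - v x t ≤ G * s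

/-- The function `W(x,t) = C_t v (x,t) - G t`, `G = κ²/2` (paper (5.9)); meaningful for
`t > 0`. -/
noncomputable def Wk (G : ℝ) (v : X → ℝ → ℝ) : X → ℝ → ℝ :=
  fun x t => bary t (fun y => v y t) x - G * t

/-- `J_ε = (P_ε W - M_ε v) / (2 ε)` (paper (6.1)). -/
noncomputable def Jeps (ε : ℝ) (W v : X → ℝ → ℝ) (x : X) (t : ℝ) : ℝ :=
  (envP ε W x t - envM ε v x t) / (2 * ε)

end Claimed.Agent.R330
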