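import Mathlib
import Claimed.Agent.R330.EnvConv
import Claimed.Agent.R330.BaryBasic
import Claimed.Agent.R330.BaryDual
import Claimed.Agent.R330.PartBDefs

/-!
# Row 330: stability and continuity of the barycentric envelope (paper Lemma 5.1, last part)

The hypotheses have the shape of the master convergence lemma of `EnvConv`:
`G a → g` *continuously* along a filter `F`, i.e.
`∀ y, Tendsto (fun p : α × X => G p.1 p.2) (F ×ˢ 𝓝 y) (𝓝 (g y))`, together with an eventual common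
subquadratic upper bound.  Then `bary (ss a) (G a) (xs a) → bary s g x` when `xs → x`,
`ss → s > 0`.  Owner: helper233.
-/

namespace Claimed.Agent.R330

open Set Filter Topology Metric
open scoped RealInnerProductSpace

set_option linter.unusedSectionVars false

variable {X : Type*} [NormedAddCommGroup X] [InnerProductSpace ℝ X] {α : Type*}

/-- A continuous limit (along a nontrivial filter) is continuous. -/
theorem barycont_continuous_of_contConv {F : Filter α} [F.NeBot] {G : α → X → ℝ} {g : X → ℝ}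
    (hG : ∀ y, Tendsto (fun p : α × X => G p.1 p.2) (F ×ˢ 𝓝 y) (𝓝 (g y))) : Continuous g := by
  rw [Metric.continuous_iff]
  intro y ε hε
  have h1 : ∀ᶠ p : α × X in F ×ˢ 𝓝 y, dist (G p.1 p.2) (g y) < ε / 2 :=
    (Metric.tendsto_nhds.1 (hG y)) (ε / 2) (by positivity)
  obtain ⟨pa, hpa, pb, hpb, hp⟩ := Filter.eventually_prod_iff.1 h1
  obtain ⟨δ, hδ, hball⟩ := Metric.eventually_nhds_iff.1 hpb
  refine ⟨δ, hδ, fun y' hy' => ?_⟩
  have h2 : Tendsto (fun a => G a y') F (𝓝 (g y')) :=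
    contConv_diag (hG y') le_rfl tendsto_const_nhds
  have h3 : Tendsto (fun a => dist (G a y') (g y)) F (𝓝 (dist (g y') (g y))) :=
    h2.dist tendsto_const_nhds
  have h4 : dist (g y') (g y) ≤ ε / 2 :=
    le_of_tendsto h3 (hpa.mono fun a ha => (hp ha (hball hy')).le)
  linarith

/-- Tilting by a linear functional preserves continuous convergence. -/
theorem barycont_tilt_contConv {F : Filter α} {G : α → X → ℝ} {g : X → ℝ} (A : X) {y : X}
    (hG : Tendsto (fun p : α × X => G p.1 p.2) (F ×ˢ 𝓝 y) (𝓝 (g y))) :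
    Tendsto (fun p : α × X => G p.1 p.2 - ⟪A, p.2⟫) (F ×ˢ 𝓝 y) (𝓝 (g y - ⟪A, y⟫)) := by
  refine hG.sub ?_
  have h1 : Tendsto (fun p : α × X => p.2) (F ×ˢ 𝓝 y) (𝓝 y) := tendsto_snd
  have h2 : Continuous fun z : X => ⟪A, z⟫ := by fun_prop
  exact (h2.tendsto y).comp h1

/-- Tilting by a linear functional preserves the eventual subquadratic upper bound. -/
theorem barycont_tilt_grow {F : Filter α} {G : α → X → ℝ} (A : X)
    (hgrow : ∀ ε : ℝ, 0 < ε → ∃ C : ℝ, ∀ᶠ a in F, ∀ y, G a y ≤ ε * ‖y‖ ^ 2 + C) :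
    ∀ ε : ℝ, 0 < ε → ∃ C : ℝ, ∀ᶠ a in F, ∀ y, G a y - ⟪A, y⟫ ≤ ε * ‖y‖ ^ 2 + C := by
  intro ε hε
  obtain ⟨C, hC⟩ := hgrow (ε / 2) (by positivity)
  refine ⟨C + ‖A‖ ^ 2 / (2 * ε), hC.mono fun a ha y => ?_⟩
  have h1 := ha y
  have h2 : -⟪A, y⟫ ≤ ‖A‖ * ‖y‖ := by
    have h3 := abs_real_inner_le_norm A y
    have h4 := neg_abs_le ⟪A, y⟫
    linarith
  have h5 : ‖A‖ * ‖y‖ ≤ ε / 2 * ‖y‖ ^ 2 + ‖A‖ ^ 2 / (2 * ε) := by
    have h6 : ε / 2 * ‖y‖ ^ 2 + ‖A‖ ^ 2 / (2 * ε) - ‖A‖ * ‖y‖ =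
        (ε * ‖y‖ - ‖A‖) ^ 2 / (2 * ε) := by
      field_simp
      ring
    have h7 : 0 ≤ (ε * ‖y‖ - ‖A‖) ^ 2 / (2 * ε) := by positivity
    linarith
  linarith

/-- Lower semicontinuity part: translate a good configuration. -/
theorem barycont_eventually_lt_bary {F : Filter α} {G : α → X → ℝ} {g : X → ℝ}
    (hG : ∀ y, Tendsto (fun p : α × X => G p.1 p.2) (F ×ˢ 𝓝 y) (𝓝 (g y)))
    (hgrow : ∀ ε : ℝ, 0 < ε → ∃ C : ℝ, ∀ᶠ a in F, ∀ y, G a y ≤ ε * ‖y‖ ^ 2 + C)
    {xs : α → X} {ss : α → ℝ} {x : X} {s : ℝ} (hs : 0 < s) (hx : Tendsto xs F (𝓝 x))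
    (hss : Tendsto ss F (𝓝 s)) {b : ℝ} (hb : b < bary s g x) :
    ∀ᶠ a in F, b < bary (ss a) (G a) (xs a) := by
  obtain ⟨N, θ, y, hc, hval⟩ := bary_exists_near s g x (η := bary s g x - b) (by linarith)
  have hval' : b < baryVal s g x θ y := by linarith
  -- the translated configurations
  have hcfg : ∀ a, IsConfig (xs a) θ (fun i => y i + (xs a - x)) := by
    intro a
    have := bary_config_translate hc (xs a - x)
    simpa using this
  have hlim : Tendsto (fun a => baryVal (ss a) (G a) (xs a) θ (fun i => y i + (xs a - x))) F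
      (𝓝 (baryVal s g x θ y)) := by
    unfold baryVal
    refine Tendsto.sub ?_ ?_
    · refine tendsto_finsetSum _ fun i _ => Tendsto.const_mul _ ?_
      refine contConv_diag (hG (y i)) le_rfl ?_
      have : Tendsto (fun a => y i + (xs a - x)) F (𝓝 (y i + (x - x))) :=
        tendsto_const_nhds.add (hx.sub tendsto_const_nhds)
      simpa using this
    · refine Tendsto.div ?_ (hss.const_mul 2) (by positivity)
      have : ∀ a, ∑ i, θ i * ‖y i + (xs a - x) - xs a‖ ^ 2 = ∑ i, θ i * ‖y i - x‖ ^ 2 := by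
        intro a
        refine Finset.sum_congr rfl fun i _ => ?_
        congr 3
        abel
      simp only [this]
      exact tendsto_const_nhds
  obtain ⟨C, hC⟩ := hgrow (1 / (4 * s)) (by positivity)
  have h2 : ∀ᶠ a in F, 0 < ss a := hss.eventually (lt_mem_nhds hs)
  have h3 : ∀ᶠ a in F, ss a < 2 * s := hss.eventually (gt_mem_nhds (by linarith))
  filter_upwards [hlim.eventually (lt_mem_nhds hval'), hC, h2, h3] with a ha hCa h2 h3
  refine lt_of_lt_of_le ha (bary_le_bary_of_bdd (bary_bddAbove_of_growth ?_ hCa _) (hcfg a))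
  rw [div_le_div_iff₀ (by positivity) (by positivity)]
  linarith

variable [FiniteDimensional ℝ X]

/-- Upper semicontinuity part: use the dual slope of the limit. -/
theorem barycont_eventually_bary_lt {F : Filter α} {G : α → X → ℝ} {g : X → ℝ}
    (hG : ∀ y, Tendsto (fun p : α × X => G p.1 p.2) (F ×ˢ 𝓝 y) (𝓝 (g y)))
    (hgrow : ∀ ε : ℝ, 0 < ε → ∃ C : ℝ, ∀ᶠ a in F, ∀ y, G a y ≤ ε * ‖y‖ ^ 2 + C)
    {xs : α → X} {ss : α → ℝ} {x : X} {s : ℝ} (hs : 0 < s) (hx : Tendsto xs F (𝓝 x))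
    (hss : Tendsto ss F (𝓝 s)) {b : ℝ} (hb : bary s g x < b) :
    ∀ᶠ a in F, bary (ss a) (G a) (xs a) < b := by
  rcases F.eq_or_neBot with rfl | hF
  · exact Filter.eventually_bot
  have hgc : Continuous g := barycont_continuous_of_contConv hG
  have hgq : SubQuadAbove g := contConv_subQuadAbove hG hgrow
  obtain ⟨A, -, -, -, -, -, -, hle, -⟩ := barydual_attained_centered hs hgc hgq x
  set m := bary s g x with hm
  -- the tilted sup-convolution of the limit
  have hsup : supConv s (fun z => g z - ⟪A, z⟫) x ≤ m - ⟪A, x⟫ := by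
    refine supConv_le fun z => ?_
    have h1 := hle z
    rw [inner_sub_right] at h1
    linarith
  have hlt : supConv s (fun z => g z - ⟪A, z⟫) x < (b + m) / 2 - ⟪A, x⟫ := by linarith
  have hev := eventually_supConv_lt (G := fun a z => G a z - ⟪A, z⟫)
    (g := fun z => g z - ⟪A, z⟫) (fun y => barycont_tilt_contConv A (hG y))
    (barycont_tilt_grow A hgrow) hs hx hss hlt
  obtain ⟨C, hC⟩ := barycont_tilt_grow A hgrow (1 / (8 * s)) (by positivity)
  have h2 : ∀ᶠ a in F, 0 < ss a := hss.eventually (lt_mem_nhds hs)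
  have h3 : ∀ᶠ a in F, ss a < 2 * s := hss.eventually (gt_mem_nhds (by linarith))
  have h4 : ∀ᶠ a in F, ⟪A, xs a⟫ < ⟪A, x⟫ + (b - m) / 2 := by
    have hc : Continuous fun z : X => ⟪A, z⟫ := by fun_prop
    exact ((hc.tendsto x).comp hx).eventually (gt_mem_nhds (by linarith))
  filter_upwards [hev, hC, h2, h3, h4] with a hev hCa h2 h3 h4
  have hbd : ∀ z, G a z - ‖z - xs a‖ ^ 2 / (2 * ss a) - ⟪A, z - xs a⟫ ≤
      supConv (ss a) (fun z => G a z - ⟪A, z⟫) (xs a) + ⟪A, xs a⟫ := by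
    intro z
    have h5 := le_supConv_of_bound (g := fun z => G a z - ⟪A, z⟫) (ε := 1 / (8 * s)) (C := C)
      (by positivity) h2 (by
        have : 4 * (1 / (8 * s)) * ss a = ss a / (2 * s) := by
          field_simp
          ring
        rw [this, div_le_one (by positivity)]
        exact h3.le) hCa (xs a) z
    rw [inner_sub_right]
    linarith
  have := barydual_bary_le hbd
  linarith

/-- **Stability of the barycentric envelope** under continuous convergence with an eventual common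
subquadratic upper bound (paper Lemma 5.1, last assertion; any filter). -/
theorem barycont_tendsto {F : Filter α} {G : α → X → ℝ} {g : X → ℝ}
    (hG : ∀ y, Tendsto (fun p : α × X => G p.1 p.2) (F ×ˢ 𝓝 y) (𝓝 (g y)))
    (hgrow : ∀ ε : ℝ, 0 < ε → ∃ C : ℝ, ∀ᶠ a in F, ∀ y, G a y ≤ ε * ‖y‖ ^ 2 + C)
    {xs : α → X} {ss : α → ℝ} {x : X} {s : ℝ} (hs : 0 < s) (hx : Tendsto xs F (𝓝 x))
    (hss : Tendsto ss F (𝓝 s)) :
    Tendsto (fun a => bary (ss a) (G a) (xs a)) F (𝓝 (bary s g x)) :=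
  tendsto_order.2 ⟨fun _ hb => barycont_eventually_lt_bary hG hgrow hs hx hss hb,
    fun _ hb => barycont_eventually_bary_lt hG hgrow hs hx hss hb⟩

/-- Uniform convergence on closed balls to a continuous limit is continuous convergence. -/
theorem barycont_contConv_of_unif {F : Filter α} {G : α → X → ℝ} {g : X → ℝ} (hc : Continuous g)
    (hunif : ∀ R : ℝ, TendstoUniformlyOn G g F (Metric.closedBall 0 R)) (y : X) :
    Tendsto (fun p : α × X => G p.1 p.2) (F ×ˢ 𝓝 y) (𝓝 (g y)) := by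
  rw [Metric.tendsto_nhds]
  intro ε hε
  have h1 : ∀ᶠ a in F, ∀ z ∈ Metric.closedBall (0 : X) (‖y‖ + 1), dist (g z) (G a z) < ε / 2 :=
    (Metric.tendstoUniformlyOn_iff.1 (hunif (‖y‖ + 1))) (ε / 2) (by positivity)
  have h2 : ∀ᶠ z in 𝓝 y, dist (g z) (g y) < ε / 2 :=
    (Metric.tendsto_nhds.1 (hc.tendsto y)) (ε / 2) (by positivity)
  have h3 : ∀ᶠ z in 𝓝 y, z ∈ Metric.closedBall (0 : X) (‖y‖ + 1) := by
    have : Metric.ball y 1 ∈ 𝓝 y := Metric.ball_mem_nhds y one_pos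
    filter_upwards [this] with z hz
    rw [mem_closedBall_zero_iff]
    rw [Metric.mem_ball, dist_eq_norm] at hz
    have : ‖z‖ ≤ ‖z - y‖ + ‖y‖ := by
      calc ‖z‖ = ‖(z - y) + y‖ := by simp
        _ ≤ _ := norm_add_le _ _
    linarith
  filter_upwards [h1.prod_mk (h2.and h3)] with p hp
  have h4 := hp.1 p.2 hp.2.2
  have h5 := hp.2.1
  calc dist (G p.1 p.2) (g y) ≤ dist (G p.1 p.2) (g p.2) + dist (g p.2) (g y) := dist_triangle _ _ _
    _ < ε := by rw [dist_comm (G p.1 p.2)]; linarith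

/-- **Stability of the barycentric envelope**, hypotheses in the locally uniform form. -/
theorem barycont_tendsto_unif {F : Filter α} {G : α → X → ℝ} {g : X → ℝ}
    {ss : α → ℝ} {s : ℝ} {xs : α → X} {x : X} (hc : Continuous g)
    (hunif : ∀ R : ℝ, TendstoUniformlyOn G g F (Metric.closedBall 0 R))
    (hgrow : ∀ ε : ℝ, 0 < ε → ∃ C : ℝ, ∀ᶠ j in F, ∀ y, |G j y| ≤ ε * ‖y‖ ^ 2 + C)
    (hs : 0 < s) (hss : Tendsto ss F (𝓝 s)) (hxs : Tendsto xs F (𝓝 x)) :
    Tendsto (fun j => bary (ss j) (G j) (xs j)) F (𝓝 (bary s g x)) := by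
  refine barycont_tendsto (barycont_contConv_of_unif hc hunif) ?_ hs hxs hss
  intro ε hε
  obtain ⟨C, hC⟩ := hgrow ε hε
  exact ⟨C, hC.mono fun j hj y => (le_abs_self _).trans (hj y)⟩

/-- Joint continuity of `(x,t,s) ↦ C_s v (x,t)` at positive `s` (paper Lemma 5.1). -/
theorem barycont_continuousAt {v : X → ℝ → ℝ} (hc : Continuous (fun z : X × ℝ => v z.1 z.2))
    (hg : SubQuadLoc v) (x : X) (t : ℝ) {s : ℝ} (hs : 0 < s) :
    ContinuousAt (fun p : X × ℝ × ℝ => bary p.2.2 (fun y => v y p.2.1) p.1) (x, t, s) := by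
  have hG : ∀ y, Tendsto (fun q : (X × ℝ × ℝ) × X => v q.2 q.1.2.1) (𝓝 (x, t, s) ×ˢ 𝓝 y)
      (𝓝 (v y t)) := by
    intro y
    rw [← nhds_prod_eq]
    have h1 : Continuous fun q : (X × ℝ × ℝ) × X => v q.2 q.1.2.1 :=
      hc.comp (continuous_snd.prodMk (continuous_fst.comp (continuous_snd.comp continuous_fst)))
    exact h1.tendsto ((x, t, s), y)
  have hgrow : ∀ ε : ℝ, 0 < ε → ∃ C : ℝ, ∀ᶠ p : X × ℝ × ℝ in 𝓝 (x, t, s),
      ∀ y, v y p.2.1 ≤ ε * ‖y‖ ^ 2 + C := by
    intro ε hε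
    obtain ⟨C, hC⟩ := hg.on_Icc (t - 1) (t + 1) ε hε
    refine ⟨C, ?_⟩
    have h1 : Continuous fun p : X × ℝ × ℝ => p.2.1 := continuous_fst.comp continuous_snd
    have h2 : ∀ᶠ p : X × ℝ × ℝ in 𝓝 (x, t, s), p.2.1 ∈ Set.Icc (t - 1) (t + 1) :=
      (h1.tendsto (x, t, s)).eventually (Icc_mem_nhds (by simp) (by simp))
    filter_upwards [h2] with p hp y
    exact (le_abs_self _).trans (hC y _ hp)
  exact barycont_tendsto (F := 𝓝 (x, t, s)) (G := fun p y => v y p.2.1) (g := fun y => v y t)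
    (xs := fun p => p.1) (ss := fun p => p.2.2) hG hgrow hs
    (continuous_fst.tendsto (x, t, s)) ((continuous_snd.comp continuous_snd).tendsto (x, t, s))

/-- Continuity of `W = C_t v - G t` at positive times. -/
theorem barycont_Wk_continuousAt {v : X → ℝ → ℝ} (hc : Continuous (fun z : X × ℝ => v z.1 z.2))
    (hg : SubQuadLoc v) (G : ℝ) (x : X) {t : ℝ} (ht : 0 < t) :
    ContinuousAt (fun z : X × ℝ => Wk G v z.1 z.2) (x, t) := by
  have h1 := barycont_continuousAt hc hg x t ht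
  have h2 : ContinuousAt (fun z : X × ℝ => ((z.1, z.2, z.2) : X × ℝ × ℝ)) (x, t) := by fun_prop
  have h3 : ContinuousAt (fun z : X × ℝ => bary z.2 (fun y => v y z.2) z.1) (x, t) :=
    ContinuousAt.comp (f := fun z : X × ℝ => ((z.1, z.2, z.2) : X × ℝ × ℝ))
      (g := fun p : X × ℝ × ℝ => bary p.2.2 (fun y => v y p.2.1) p.1) h1 h2
  have h4 : ContinuousAt (fun z : X × ℝ => G * z.2) (x, t) := by fun_prop
  exact h3.sub h4

theorem barycont_Wk_continuousOn {v : X → ℝ → ℝ} (hc : Continuous (fun z : X × ℝ => v z.1 z.2))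
    (hg : SubQuadLoc v) (G : ℝ) :
    ContinuousOn (fun z : X × ℝ => Wk G v z.1 z.2) {z : X × ℝ | 0 < z.2} :=
  fun z hz => (barycont_Wk_continuousAt hc hg G z.1 hz).continuousWithinAt

end Claimed.Agent.R330
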