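import Claimed.Agent.R330.Slopes

/-!
# Row 330 (S0589), Proposition 2.3 of the paper in a limit-free form

A jet infinity-harmonic function is asymptotically flat at every fixed centre:
for every `ε > 0` there is `r₀ > 0` such that at every scale `r ≤ r₀` the function is
`ε r`-close to an affine function on the ball of radius `r`.
-/

open scoped RealInnerProductSpace Topology
open Metric Set Filter

namespace Claimed.Agent.R330

variable {E : Type*} [NormedAddCommGroup E] [InnerProductSpace ℝ E] [FiniteDimensional ℝ E]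
  {w : E → ℝ} {D : Set E}

/-- The upward slope at `z`, radius `r`, is controlled by the downward slope at `z`, radius `R`. -/
theorem blow_slope_up_le_slope_down (hc : ContinuousOn w D) (hsup : JetSub (-w) D)
    {S : Set E} {Λ : ℝ} (hΛ0 : 0 ≤ Λ) (hΛ : ∀ x ∈ S, ∀ y ∈ S, |w x - w y| ≤ Λ * ‖x - y‖)
    (hSD : S ⊆ D) {z : E} {r R : ℝ} (hr : 0 < r) (hrR : r ≤ R) (hS : closedBall z (r + R) ⊆ S) :
    incMax w z r / r ≤ incMax (-w) z R / R + 2 * Λ * r / R := by
  have hR : 0 < R := lt_of_lt_of_le hr hrR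
  have hcn : ContinuousOn (-w) D := hc.neg
  have hzr : closedBall z r ⊆ S := (closedBall_subset_closedBall (by linarith)).trans hS
  have hzR : closedBall z R ⊆ S := (closedBall_subset_closedBall (by linarith)).trans hS
  obtain ⟨y, hy, hy'⟩ := exists_incMax_eq hc hr.le (hzr.trans hSD)
  have hyz : dist y z ≤ r := hy
  have hyR : closedBall y R ⊆ S := by
    refine (closedBall_subset_closedBall' ?_).trans hS
    linarith
  have hyr : closedBall y r ⊆ closedBall y R := closedBall_subset_closedBall hrR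
  have h1 : incMax w z r ≤ incMax (-w) y r := by
    have := le_incMax hcn ((hyr.trans hyR).trans hSD) (x := y) (y := z)
      (by rw [mem_closedBall, dist_comm]; exact hyz)
    rw [hy']
    simpa [sub_eq_add_neg, add_comm] using this
  have h2 := hsup.slope_mono hcn hr hrR (hyR.trans hSD)
  have hΛ' : ∀ x ∈ S, ∀ y ∈ S, |(-w) x - (-w) y| ≤ Λ * ‖x - y‖ := by
    intro x hx y hy
    have := hΛ x hx y hy
    rw [Pi.neg_apply, Pi.neg_apply, ← abs_neg]
    convert this using 2
    ring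
  have h3 := incMax_le_add_of_lipschitz hcn hΛ' hR.le hyR hzR hSD
  have hyz' : ‖y - z‖ ≤ r := by rwa [← dist_eq_norm]
  have hΛr : Λ * ‖y - z‖ ≤ Λ * r := mul_le_mul_of_nonneg_left hyz' hΛ0
  calc incMax w z r / r ≤ incMax (-w) y r / r := div_le_div_of_nonneg_right h1 hr.le
    _ ≤ incMax (-w) y R / R := h2
    _ ≤ (incMax (-w) z R + 2 * Λ * r) / R := by
        apply div_le_div_of_nonneg_right _ hR.le
        linarith
    _ = incMax (-w) z R / R + 2 * Λ * r / R := by rw [add_div]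

/-- The common limit `L` of the slopes at a fixed centre, packaged with all the consequences that
are used afterwards. -/
theorem blow_exists_slope_limit (hc : ContinuousOn w D) (hsub : JetSub w D) (hsup : JetSub (-w) D)
    {z : E} (hz : D ∈ 𝓝 z) :
    ∃ L ρ : ℝ, 0 ≤ L ∧ 0 < ρ ∧ closedBall z ρ ⊆ D ∧
      (∀ r, 0 < r → r ≤ ρ → L * r ≤ incMax w z r ∧ L * r ≤ incMax (-w) z r) ∧
      ∀ η, 0 < η → ∃ ρ₁, 0 < ρ₁ ∧ ρ₁ ≤ ρ ∧
        ∀ x ∈ closedBall z ρ₁, ∀ y ∈ closedBall z ρ₁, |w x - w y| ≤ (L + η) * ‖x - y‖ := by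
  have : ProperSpace E := FiniteDimensional.proper_real E
  obtain ⟨ρ', hρ', hρ'D⟩ := Metric.nhds_basis_closedBall.mem_iff.mp hz
  set ρ := ρ' / 4 with hρdef
  have hρ : 0 < ρ := by positivity
  have h4 : closedBall z (2 * (2 * ρ)) ⊆ D := by
    have : 2 * (2 * ρ) = ρ' := by rw [hρdef]; ring
    rwa [this]
  obtain ⟨A, hA⟩ := (isCompact_closedBall z (2 * (2 * ρ))).exists_bound_of_continuousOn
    (hc.mono h4)
  simp only [Real.norm_eq_abs] at hA
  have hA0 : 0 ≤ A := le_trans (abs_nonneg _) (hA z (mem_closedBall_self (by positivity)))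
  set S := closedBall z (2 * ρ) with hS
  set Λ := 2 * A / (2 * ρ) with hΛdef
  have hΛ0 : 0 ≤ Λ := by positivity
  have hΛ : ∀ x ∈ S, ∀ y ∈ S, |w x - w y| ≤ Λ * ‖x - y‖ := fun x hx y hy =>
    hsub.lipschitz hc (by positivity) h4 hA hx hy
  have hSD : S ⊆ D := (closedBall_subset_closedBall (by linarith)).trans h4
  set T : Set ℝ := (fun r => incMax w z r / r) '' Ioc 0 ρ with hT
  have hsubS : ∀ r, r ≤ ρ → closedBall z r ⊆ S := fun r hr =>
    closedBall_subset_closedBall (by linarith)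
  have hTbdd : BddBelow T := by
    refine ⟨0, ?_⟩
    rintro _ ⟨r, hr, rfl⟩
    exact div_nonneg (incMax_nonneg hc hr.1.le ((hsubS r hr.2).trans hSD)) hr.1.le
  have hTne : T.Nonempty := ⟨_, ρ, ⟨hρ, le_rfl⟩, rfl⟩
  set L := sInf T with hL
  have hL0 : 0 ≤ L := by
    apply le_csInf hTne
    rintro _ ⟨r, hr, rfl⟩
    exact div_nonneg (incMax_nonneg hc hr.1.le ((hsubS r hr.2).trans hSD)) hr.1.le
  have hLle : ∀ r, 0 < r → r ≤ ρ → L ≤ incMax w z r / r := fun r hr hr' =>
    csInf_le hTbdd ⟨r, ⟨hr, hr'⟩, rfl⟩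
  have hLdown : ∀ R, 0 < R → R ≤ ρ → L ≤ incMax (-w) z R / R := by
    intro R hR hR'
    apply le_of_forall_pos_le_add
    intro ε hε
    set r := min R (ε * R / (2 * Λ + 1)) with hr
    have hr0 : 0 < r := lt_min hR (by positivity)
    have hrR : r ≤ R := min_le_left _ _
    have h1 := blow_slope_up_le_slope_down hc hsup hΛ0 hΛ hSD hr0 hrR
      (closedBall_subset_closedBall (by linarith) : closedBall z (r + R) ⊆ S)
    have h2 : 2 * Λ * r / R ≤ ε := by
      rw [div_le_iff₀ hR]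
      have h3 : r ≤ ε * R / (2 * Λ + 1) := min_le_right _ _
      rw [le_div_iff₀ (by positivity)] at h3
      nlinarith
    linarith [hLle r hr0 (hrR.trans hR')]
  refine ⟨L, ρ, hL0, hρ, (hsubS ρ le_rfl).trans hSD, ?_, ?_⟩
  · intro r hr hr'
    exact ⟨(le_div_iff₀ hr).mp (hLle r hr hr'), (le_div_iff₀ hr).mp (hLdown r hr hr')⟩
  · intro η hη
    obtain ⟨_, ⟨R, hR, rfl⟩, hRlt⟩ := exists_lt_of_csInf_lt hTne
      (show sInf T < L + η / 2 by rw [← hL]; linarith)
    simp only at hRlt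
    obtain ⟨hR0, hRρ⟩ := hR
    set ρ₁ := min (R / 2) (η * R / (4 * Λ + 4)) with hρ₁
    have hρ₁0 : 0 < ρ₁ := lt_min (by positivity) (by positivity)
    have hρ₁R : ρ₁ ≤ R / 2 := min_le_left _ _
    have hρ₁η : ρ₁ ≤ η * R / (4 * Λ + 4) := min_le_right _ _
    refine ⟨ρ₁, hρ₁0, by linarith, ?_⟩
    have main : ∀ x ∈ closedBall z ρ₁, ∀ y ∈ closedBall z ρ₁,
        w y - w x ≤ (L + η) * ‖y - x‖ := by
      intro x hx y hy
      have hxz : dist x z ≤ ρ₁ := hx
      have hyz : dist y z ≤ ρ₁ := hy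
      have hxR : closedBall x R ⊆ S := closedBall_subset_closedBall' (by linarith)
      have h1 := incMax_le_add_of_lipschitz hc hΛ hR0.le hxR (hsubS R hRρ) hSD
      have hyx : y ∈ closedBall x R := by
        rw [mem_closedBall]
        calc dist y x ≤ dist y z + dist z x := dist_triangle _ _ _
          _ ≤ R := by rw [dist_comm z x]; linarith
      have h2 := hsub.sub_le_slope_mul hc hR0 (hxR.trans hSD) hyx
      have h3 : incMax w x R / R ≤ L + η := by
        rw [div_le_iff₀ hR0]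
        rw [div_lt_iff₀ hR0] at hRlt
        rw [le_div_iff₀ (by positivity)] at hρ₁η
        have h4 : ‖x - z‖ ≤ ρ₁ := by rwa [← dist_eq_norm]
        have h5 : 2 * Λ * ‖x - z‖ ≤ 2 * Λ * ρ₁ := mul_le_mul_of_nonneg_left h4 (by positivity)
        nlinarith
      exact h2.trans (mul_le_mul_of_nonneg_right h3 (norm_nonneg _))
    intro x hx y hy
    rw [abs_le]
    constructor
    · have := main x hx y hy
      rw [norm_sub_rev] at this
      linarith
    · exact main y hy x hx

omit [FiniteDimensional ℝ E] in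
/-- A Lipschitz function which almost realises its Lipschitz constant towards a far point `z + a`
is bounded below by a linear function near `z`. -/
theorem blow_lower_linear_of_far_point {z a : E} {L L' K r : ℝ} (hL : 0 < L) (hLL' : L ≤ L')
    (hK : 1 ≤ K) (hr : 0 < r)
    (hlip : ∀ x ∈ closedBall z (K * r), ∀ y ∈ closedBall z (K * r), |w x - w y| ≤ L' * ‖x - y‖)
    (ha : ‖a‖ ≤ K * r) (hfar : L * (K * r) ≤ w (z + a) - w z) {h : E} (hh : ‖h‖ ≤ r) :
    ⟪(L' / ‖a‖) • a, h⟫ - ((L' - L) * K * r + L' ^ 2 * r / (2 * L * K)) ≤ w (z + h) - w z := by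
  have hL' : 0 < L' := lt_of_lt_of_le hL hLL'
  have hK0 : 0 < K := by linarith
  have hKr : r ≤ K * r := by nlinarith
  have hza : z + a ∈ closedBall z (K * r) := by simpa [dist_eq_norm] using ha
  have hzh : z + h ∈ closedBall z (K * r) := by
    simpa [dist_eq_norm] using hh.trans hKr
  have hzz : z ∈ closedBall z (K * r) := mem_closedBall_self (by positivity)
  have h1 := (abs_le.mp (hlip _ hza _ hzz)).2
  rw [add_sub_cancel_left] at h1
  have hapos : L * (K * r) / L' ≤ ‖a‖ := by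
    rw [div_le_iff₀ hL']; linarith
  have hapos' : 0 < ‖a‖ := lt_of_lt_of_le (by positivity) hapos
  have ha0 : a ≠ 0 := norm_pos_iff.mp hapos'
  have h2 := (abs_le.mp (hlip _ hza _ hzh)).2
  have e1 : z + a - (z + h) = a - h := by abel
  rw [e1] at h2
  have h3 := mul_le_mul_of_nonneg_left (cone_norm_sub_le_far (h := h) ha0) hL'.le
  have h4 : ‖h‖ ^ 2 / (2 * ‖a‖) ≤ L' * r / (2 * L * K) := by
    rw [div_le_div_iff₀ (by positivity) (by positivity)]
    rw [div_le_iff₀ hL'] at hapos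
    have h5 : ‖h‖ ^ 2 ≤ r ^ 2 := pow_le_pow_left₀ (norm_nonneg _) hh 2
    calc ‖h‖ ^ 2 * (2 * L * K) ≤ r ^ 2 * (2 * L * K) :=
          mul_le_mul_of_nonneg_right h5 (by positivity)
      _ = 2 * r * (L * (K * r)) := by ring
      _ ≤ 2 * r * (‖a‖ * L') := mul_le_mul_of_nonneg_left hapos (by positivity)
      _ = L' * r * (2 * ‖a‖) := by ring
  have h6 := mul_le_mul_of_nonneg_left h4 hL'.le
  have h7 := mul_le_mul_of_nonneg_left ha hL'.le
  rw [real_inner_smul_left]
  have e2 : L' * (‖a‖ - ⟪a, h⟫ / ‖a‖ + ‖h‖ ^ 2 / (2 * ‖a‖))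
      = L' * ‖a‖ - L' / ‖a‖ * ⟪a, h⟫ + L' * (‖h‖ ^ 2 / (2 * ‖a‖)) := by ring
  have e3 : L' * (L' * r / (2 * L * K)) = L' ^ 2 * r / (2 * L * K) := by ring
  rw [e2] at h3
  rw [e3] at h6
  nlinarith

omit [FiniteDimensional ℝ E] in
/-- A Lipschitz function that almost realises its Lipschitz constant both upwards and downwards at
a much larger scale is almost affine. -/
theorem blow_flat_of_two_far_points {z a b : E} {L L' K r : ℝ} (hL : 0 < L) (hLL' : L ≤ L')
    (hK : 1 ≤ K) (hr : 0 < r)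
    (hlip : ∀ x ∈ closedBall z (K * r), ∀ y ∈ closedBall z (K * r), |w x - w y| ≤ L' * ‖x - y‖)
    (ha : ‖a‖ ≤ K * r) (hfa : L * (K * r) ≤ w (z + a) - w z)
    (hb : ‖b‖ ≤ K * r) (hfb : L * (K * r) ≤ w z - w (z + b)) :
    ∃ p : E, ∀ h, ‖h‖ ≤ r →
      |w (z + h) - w z - ⟪p, h⟫| ≤ 3 * ((L' - L) * K * r + L' ^ 2 * r / (2 * L * K)) := by
  set err := (L' - L) * K * r + L' ^ 2 * r / (2 * L * K) with herr
  have hlip' : ∀ x ∈ closedBall z (K * r), ∀ y ∈ closedBall z (K * r),
      |(-w) x - (-w) y| ≤ L' * ‖x - y‖ := by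
    intro x hx y hy
    have := hlip x hx y hy
    rw [Pi.neg_apply, Pi.neg_apply, ← abs_neg]
    convert this using 2
    ring
  have hlow : ∀ h, ‖h‖ ≤ r → ⟪(L' / ‖a‖) • a, h⟫ - err ≤ w (z + h) - w z := fun h hh =>
    blow_lower_linear_of_far_point hL hLL' hK hr hlip ha hfa hh
  have hup : ∀ h, ‖h‖ ≤ r → ⟪(L' / ‖b‖) • b, h⟫ - err ≤ w z - w (z + h) := by
    intro h hh
    have := blow_lower_linear_of_far_point (w := -w) hL hLL' hK hr hlip' hb
      (by simpa [sub_eq_add_neg, add_comm] using hfb) hh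
    simp only [Pi.neg_apply] at this
    rw [← herr] at this
    linarith
  refine ⟨(L' / ‖a‖) • a, fun h hh => ?_⟩
  have h1 := hlow h hh
  have h2 := hup h hh
  have h3 := hlow (-h) (by rwa [norm_neg])
  have h4 := hup (-h) (by rwa [norm_neg])
  rw [inner_neg_right] at h3 h4
  rw [abs_le]
  constructor <;> linarith

/-- **Flatness at a fixed centre** (paper Proposition 2.3, in limit-free form): a jet
infinity-harmonic function is `ε r`-close to an affine function on every small ball about `z`. -/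
theorem JetHarm.flat_at_center (hw : JetHarm w D)
    {z : E} (hz : D ∈ 𝓝 z) {ε : ℝ} (hε : 0 < ε) :
    ∃ r₀ : ℝ, 0 < r₀ ∧ ∀ r, 0 < r → r ≤ r₀ → ∃ p : E, ∀ h, ‖h‖ ≤ r →
      |w (z + h) - w z - ⟪p, h⟫| ≤ ε * r := by
  obtain ⟨hc, hsub, hsup⟩ := hw
  obtain ⟨L, ρ, hL0, hρ, hρD, hslope, hlip⟩ := blow_exists_slope_limit hc hsub hsup hz
  rcases hL0.eq_or_lt with hL | hL
  · -- zero slope
    obtain ⟨ρ₁, hρ₁, -, hl⟩ := hlip ε hε
    refine ⟨ρ₁, hρ₁, fun r hr hr' => ⟨0, fun h hh => ?_⟩⟩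
    have hzh : z + h ∈ closedBall z ρ₁ := by simpa [dist_eq_norm] using hh.trans hr'
    have := hl _ hzh z (mem_closedBall_self hρ₁.le)
    rw [add_sub_cancel_left, ← hL, zero_add] at this
    rw [inner_zero_left, sub_zero]
    exact this.trans (mul_le_mul_of_nonneg_left hh hε.le)
  · set K := max 1 (12 * L / ε) with hK
    have hK1 : 1 ≤ K := le_max_left _ _
    have hK0 : 0 < K := by linarith
    have hK2 : 12 * L / ε ≤ K := le_max_right _ _
    set η := min L (ε / (6 * K)) with hη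
    have hη0 : 0 < η := lt_min hL (by positivity)
    have hηL : η ≤ L := min_le_left _ _
    have hηK : η ≤ ε / (6 * K) := min_le_right _ _
    obtain ⟨ρ₁, hρ₁, hρ₁ρ, hl⟩ := hlip η hη0
    refine ⟨ρ₁ / K, by positivity, fun r hr hr' => ?_⟩
    have hKr : K * r ≤ ρ₁ := by
      rw [le_div_iff₀ hK0] at hr'; linarith
    have hKr0 : 0 < K * r := by positivity
    have hsub1 : closedBall z (K * r) ⊆ closedBall z ρ₁ := closedBall_subset_closedBall hKr
    have hsubD : closedBall z (K * r) ⊆ D :=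
      (hsub1.trans (closedBall_subset_closedBall hρ₁ρ)).trans hρD
    obtain ⟨hs1, hs2⟩ := hslope (K * r) hKr0 (hKr.trans hρ₁ρ)
    obtain ⟨y₁, hy₁, hy₁'⟩ := exists_incMax_eq hc hKr0.le hsubD
    obtain ⟨y₂, hy₂, hy₂'⟩ := exists_incMax_eq hc.neg hKr0.le hsubD
    obtain ⟨p, hp⟩ := blow_flat_of_two_far_points (w := w) (z := z) (a := y₁ - z) (b := y₂ - z) hL
      (by linarith : L ≤ L + η) hK1 hr (fun x hx y hy => hl x (hsub1 hx) y (hsub1 hy))
      (by simpa [dist_eq_norm] using hy₁)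
      (by rw [add_sub_cancel]; linarith)
      (by simpa [dist_eq_norm] using hy₂)
      (by
        rw [add_sub_cancel]
        simp only [Pi.neg_apply] at hy₂'
        linarith)
    refine ⟨p, fun h hh => (hp h hh).trans ?_⟩
    have e1 : (L + η - L) * K * r = η * K * r := by ring
    rw [e1]
    have h1 : η * K ≤ ε / 6 := by
      rw [le_div_iff₀ (by positivity)] at hηK
      linarith
    have h2 : (L + η) ^ 2 * r / (2 * L * K) ≤ ε / 6 * r := by
      rw [div_le_iff₀ (by positivity)]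
      rw [div_le_iff₀ hε] at hK2
      have h3 : (L + η) ^ 2 ≤ (2 * L) ^ 2 := pow_le_pow_left₀ (by positivity) (by linarith) 2
      calc (L + η) ^ 2 * r ≤ (2 * L) ^ 2 * r := mul_le_mul_of_nonneg_right h3 hr.le
        _ = (L * r / 3) * (12 * L) := by ring
        _ ≤ (L * r / 3) * (K * ε) := mul_le_mul_of_nonneg_left hK2 (by positivity)
        _ = ε / 6 * r * (2 * L * K) := by ring
    have h4 : η * K * r ≤ ε / 6 * r := mul_le_mul_of_nonneg_right h1 hr.le
    linarith

end Claimed.Agent.R330
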