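import Mathlib

set_option autoImplicit false

namespace Claimed.Agent.R330

open Metric Set Filter Topology
open scoped RealInnerProductSpace

variable {E : Type*} [NormedAddCommGroup E] [InnerProductSpace ℝ E]

/-- `p` is the slope of an affine fit of `u` at centre `x`, radius `ρ`, error `ε`. -/
def CampFit (u : E → ℝ) (x p : E) (ρ ε : ℝ) : Prop :=
  ∀ h : E, ‖h‖ ≤ ρ → |u (x + h) - u x - ⟪p, h⟫| ≤ ε

lemma camp_norm_le_div_of_forall_inner_le {p : E} {ρ ε : ℝ} (hρ : 0 < ρ)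
    (h : ∀ w : E, ‖w‖ ≤ ρ → ⟪p, w⟫ ≤ ε) : ‖p‖ ≤ ε / ρ := by
  rw [le_div_iff₀ hρ]
  by_cases hp : p = 0
  · subst hp
    have := h 0 (by simpa using hρ.le)
    simpa using this
  · have hn : 0 < ‖p‖ := norm_pos_iff.mpr hp
    have h1 : ‖(ρ / ‖p‖) • p‖ ≤ ρ := by
      rw [norm_smul, Real.norm_eq_abs, abs_of_pos (div_pos hρ hn)]
      field_simp
      exact le_refl _
    have h2 := h _ h1
    rw [inner_smul_right, real_inner_self_eq_norm_sq] at h2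
    have : ρ / ‖p‖ * ‖p‖ ^ 2 = ‖p‖ * ρ := by field_simp
    linarith

lemma campFit_norm_sub_le {u : E → ℝ} {x p p' : E} {ρ ρ' ε ε' : ℝ} (hρ' : 0 < ρ') (hle : ρ' ≤ ρ)
    (h : CampFit u x p ρ ε) (h' : CampFit u x p' ρ' ε') : ‖p - p'‖ ≤ (ε + ε') / ρ' := by
  apply camp_norm_le_div_of_forall_inner_le hρ'
  intro w hw
  have h1 := abs_le.mp (h w (hw.trans hle))
  have h2 := abs_le.mp (h' w hw)
  rw [inner_sub_left]
  linarith [h1.1, h1.2, h2.1, h2.2]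

/-- The constant of the Taylor estimate. -/
noncomputable def campTaylorConst (α K : ℝ) : ℝ :=
  K * (2 ^ (1 + α) + 4 * 2 ^ α / (1 - (1 / 2 : ℝ) ^ α))

lemma camp_half_rpow_lt_one {α : ℝ} (hα : 0 < α) : (1 / 2 : ℝ) ^ α < 1 :=
  Real.rpow_lt_one (by norm_num) (by norm_num) hα

lemma campTaylorConst_nonneg {α K : ℝ} (hα : 0 < α) (hK : 0 ≤ K) : 0 ≤ campTaylorConst α K := by
  have h1 := camp_half_rpow_lt_one hα
  unfold campTaylorConst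
  have : 0 < 1 - (1 / 2 : ℝ) ^ α := by linarith
  positivity

/-- Fits with error `K ρ^(1+α)` at all small radii at one centre give a limiting slope with
a Taylor estimate. -/
theorem camp_exists_slope_of_fits [CompleteSpace E] {u : E → ℝ} {x : E} {α K ρ₀ : ℝ} (hα : 0 < α)
    (hK : 0 ≤ K) (hρ₀ : 0 < ρ₀)
    (H : ∀ ρ, 0 < ρ → ρ ≤ ρ₀ → ∃ p, CampFit u x p ρ (K * ρ ^ (1 + α))) :
    ∃ P : E, (∀ h : E, ‖h‖ ≤ ρ₀ → |u (x + h) - u x - ⟪P, h⟫| ≤ campTaylorConst α K * ‖h‖ ^ (1 + α)) := by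
  set r : ℝ := (1 / 2 : ℝ) ^ α with hr
  have hr1 : r < 1 := camp_half_rpow_lt_one hα
  have hr0 : 0 < r := Real.rpow_pos_of_pos (by norm_num) _
  -- radii
  set ρ : ℕ → ℝ := fun j => ρ₀ * (1 / 2 : ℝ) ^ j with hρdef
  have hρpos : ∀ j, 0 < ρ j := fun j => by simp only [hρdef]; positivity
  have hρle : ∀ j, ρ j ≤ ρ₀ := fun j => by
    simp only [hρdef]
    have : (1 / 2 : ℝ) ^ j ≤ 1 := pow_le_one₀ (by norm_num) (by norm_num)
    nlinarith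
  have hρsucc : ∀ j, ρ (j + 1) = ρ j / 2 := fun j => by simp only [hρdef, pow_succ]; ring
  have hρα : ∀ j, ρ j ^ α = ρ₀ ^ α * r ^ j := fun j => by
    simp only [hρdef, hr]
    rw [Real.mul_rpow hρ₀.le (by positivity), ← Real.rpow_natCast, ← Real.rpow_natCast,
      ← Real.rpow_mul (by norm_num), ← Real.rpow_mul (by norm_num), mul_comm α]
  choose! p hp using H
  set q : ℕ → E := fun j => p (ρ j) with hq
  have hfit : ∀ j, CampFit u x (q j) (ρ j) (K * ρ j ^ (1 + α)) := fun j => hp _ (hρpos j) (hρle j)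
  have hpow : ∀ j, ρ j ^ (1 + α) = ρ j * ρ j ^ α := fun j => by
    rw [Real.rpow_add (hρpos j), Real.rpow_one]
  have hstep : ∀ j, dist (q j) (q (j + 1)) ≤ (4 * K * ρ₀ ^ α) * r ^ j := fun j => by
    rw [dist_eq_norm]
    have h1 := campFit_norm_sub_le (hρpos (j + 1)) (by rw [hρsucc]; linarith [hρpos j]) (hfit j)
      (hfit (j + 1))
    refine h1.trans ?_
    rw [div_le_iff₀ (hρpos (j + 1))]
    have hmono : ρ (j + 1) ^ (1 + α) ≤ ρ j ^ (1 + α) :=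
      Real.rpow_le_rpow (hρpos _).le (by rw [hρsucc]; linarith [hρpos j]) (by linarith)
    have h2 : K * ρ (j + 1) ^ (1 + α) ≤ K * ρ j ^ (1 + α) := mul_le_mul_of_nonneg_left hmono hK
    have h3 : 4 * K * ρ₀ ^ α * r ^ j * ρ (j + 1) = 2 * (K * ρ j ^ (1 + α)) := by
      rw [hpow, hρα, hρsucc]; ring
    linarith
  have hcau : CauchySeq q := cauchySeq_of_le_geometric r _ hr1 hstep
  obtain ⟨P, hP⟩ := cauchySeq_tendsto_of_complete hcau
  have htail : ∀ j, ‖q j - P‖ ≤ 4 * K * ρ j ^ α / (1 - r) := fun j => by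
    have := dist_le_of_le_geometric_of_tendsto r _ hr1 hstep hP j
    rw [dist_eq_norm] at this
    rw [hρα]
    calc ‖q j - P‖ ≤ 4 * K * ρ₀ ^ α * r ^ j / (1 - r) := this
      _ = 4 * K * (ρ₀ ^ α * r ^ j) / (1 - r) := by ring
  refine ⟨P, fun h hh => ?_⟩
  by_cases h0 : h = 0
  · subst h0
    have : (0:ℝ) ^ (1 + α) = 0 := Real.zero_rpow (by linarith)
    simp [this]
  have hn : 0 < ‖h‖ := norm_pos_iff.mpr h0
  obtain ⟨j, hj1, hj2⟩ := exists_nat_pow_near_of_lt_one (x := ‖h‖ / ρ₀) (y := 1 / 2)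
    (by positivity) ((div_le_one hρ₀).mpr hh) (by norm_num) (by norm_num)
  have hj2' : ‖h‖ ≤ ρ j := by
    rw [div_le_iff₀ hρ₀] at hj2
    simp only [hρdef]; linarith
  have hj1' : ρ j ≤ 2 * ‖h‖ := by
    rw [lt_div_iff₀ hρ₀] at hj1
    have := hρsucc j
    simp only [hρdef] at this ⊢
    linarith
  have e1 := hfit j h hj2'
  have e2 : |⟪q j - P, h⟫| ≤ 4 * K * ρ j ^ α / (1 - r) * ‖h‖ :=
    (abs_real_inner_le_norm _ _).trans (mul_le_mul_of_nonneg_right (htail j) hn.le)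
  have e3 : u (x + h) - u x - ⟪P, h⟫ = (u (x + h) - u x - ⟪q j, h⟫) + ⟪q j - P, h⟫ := by
    rw [inner_sub_left]; ring
  have hm1 : ρ j ^ (1 + α) ≤ (2 * ‖h‖) ^ (1 + α) :=
    Real.rpow_le_rpow (hρpos j).le hj1' (by linarith)
  have hm2 : ρ j ^ α ≤ (2 * ‖h‖) ^ α := Real.rpow_le_rpow (hρpos j).le hj1' hα.le
  have h1r : 0 < 1 - r := by linarith
  rw [e3]
  calc |u (x + h) - u x - ⟪q j, h⟫ + ⟪q j - P, h⟫|
      ≤ K * ρ j ^ (1 + α) + 4 * K * ρ j ^ α / (1 - r) * ‖h‖ := (abs_add_le _ _).trans (add_le_add e1 e2)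
    _ ≤ K * (2 * ‖h‖) ^ (1 + α) + 4 * K * (2 * ‖h‖) ^ α / (1 - r) * ‖h‖ := by
        gcongr
    _ = campTaylorConst α K * ‖h‖ ^ (1 + α) := by
        unfold campTaylorConst
        rw [Real.mul_rpow (by norm_num) hn.le, Real.mul_rpow (by norm_num) hn.le,
          Real.rpow_add hn, Real.rpow_one]
        ring

theorem camp_hasGradientAt_of_taylor [CompleteSpace E] {u : E → ℝ} {x P : E} {α C ρ₀ : ℝ} (hα : 0 < α)
    (hρ₀ : 0 < ρ₀)
    (H : ∀ h : E, ‖h‖ ≤ ρ₀ → |u (x + h) - u x - ⟪P, h⟫| ≤ C * ‖h‖ ^ (1 + α)) :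
    HasGradientAt u P x := by
  rw [hasGradientAt_iff_isLittleO_nhds_zero, Asymptotics.isLittleO_iff]
  intro c hc
  have hcont : Continuous fun h : E => C * ‖h‖ ^ α :=
    continuous_const.mul (continuous_norm.rpow_const (fun _ => Or.inr hα.le))
  have h0 : (fun h : E => C * ‖h‖ ^ α) 0 < c := by
    simp [Real.zero_rpow hα.ne', hc]
  have ev1 : ∀ᶠ h : E in 𝓝 0, C * ‖h‖ ^ α < c := hcont.continuousAt.eventually_lt_const h0
  have ev2 : ∀ᶠ h : E in 𝓝 0, ‖h‖ ≤ ρ₀ := by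
    have : ∀ᶠ h : E in 𝓝 0, h ∈ Metric.closedBall (0 : E) ρ₀ := Metric.closedBall_mem_nhds _ hρ₀
    filter_upwards [this] with h hh
    simpa using hh
  filter_upwards [ev1, ev2] with h h1 h2
  rw [Real.norm_eq_abs]
  refine (H h h2).trans ?_
  by_cases hh : h = 0
  · subst hh
    simp [Real.zero_rpow (by linarith : (1 + α) ≠ 0)]
  · have hn : 0 < ‖h‖ := norm_pos_iff.mpr hh
    rw [Real.rpow_add hn, Real.rpow_one]
    nlinarith

theorem camp_norm_le_of_taylor {u : E → ℝ} {x P : E} {α C ρ₀ M : ℝ}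
    (hρ₀ : 0 < ρ₀)
    (H : ∀ h : E, ‖h‖ ≤ ρ₀ → |u (x + h) - u x - ⟪P, h⟫| ≤ C * ‖h‖ ^ (1 + α)) (hα : 0 < α) (hC : 0 ≤ C)
    (hM : ∀ h : E, ‖h‖ ≤ ρ₀ → |u (x + h) - u x| ≤ M) :
    ‖P‖ ≤ (M + C * ρ₀ ^ (1 + α)) / ρ₀ := by
  apply camp_norm_le_div_of_forall_inner_le hρ₀
  intro w hw
  have h1 := abs_le.mp (H w hw)
  have h2 := abs_le.mp (hM w hw)
  have h3 : ‖w‖ ^ (1 + α) ≤ ρ₀ ^ (1 + α) := Real.rpow_le_rpow (norm_nonneg _) hw (by linarith)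
  have h4 : C * ‖w‖ ^ (1 + α) ≤ C * ρ₀ ^ (1 + α) := mul_le_mul_of_nonneg_left h3 hC
  linarith [h1.1, h1.2, h2.1, h2.2]

theorem camp_norm_sub_le_of_taylor {u : E → ℝ} {x x' P P' : E} {α C ρ₀ : ℝ} (hα : 0 < α) (hC : 0 ≤ C)
    (H : ∀ h : E, ‖h‖ ≤ ρ₀ → |u (x + h) - u x - ⟪P, h⟫| ≤ C * ‖h‖ ^ (1 + α))
    (H' : ∀ h : E, ‖h‖ ≤ ρ₀ → |u (x' + h) - u x' - ⟪P', h⟫| ≤ C * ‖h‖ ^ (1 + α))
    (hne : x ≠ x') (hx : 2 * ‖x - x'‖ ≤ ρ₀) :
    ‖P - P'‖ ≤ C * (2 + 2 ^ (1 + α)) * ‖x - x'‖ ^ α := by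
  set l := ‖x - x'‖ with hl
  have hlpos : 0 < l := norm_pos_iff.mpr (sub_ne_zero.mpr hne)
  have key : ‖P - P'‖ ≤ (C * (2 + 2 ^ (1 + α)) * l ^ (1 + α)) / l := by
    apply camp_norm_le_div_of_forall_inner_le hlpos
    intro w hw
    have n1 : ‖x' - x‖ = l := by rw [hl, norm_sub_rev]
    have n2 : ‖x' - x + w‖ ≤ 2 * l := by
      calc ‖x' - x + w‖ ≤ ‖x' - x‖ + ‖w‖ := norm_add_le _ _
        _ ≤ 2 * l := by rw [n1]; linarith
    have a := abs_le.mp (H' w (by linarith))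
    have b := abs_le.mp (H (x' - x + w) (by linarith))
    have c := abs_le.mp (H (x' - x) (by rw [n1]; linarith))
    have pa : C * ‖w‖ ^ (1 + α) ≤ C * l ^ (1 + α) :=
      mul_le_mul_of_nonneg_left (Real.rpow_le_rpow (norm_nonneg _) hw (by linarith)) hC
    have pb : C * ‖x' - x + w‖ ^ (1 + α) ≤ C * (2 ^ (1 + α) * l ^ (1 + α)) := by
      rw [← Real.mul_rpow (by norm_num) hlpos.le]
      exact mul_le_mul_of_nonneg_left (Real.rpow_le_rpow (norm_nonneg _) n2 (by linarith)) hC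
    rw [n1] at c
    have e1 : x + (x' - x + w) = x' + w := by abel
    have e2 : x + (x' - x) = x' := by abel
    rw [e1, inner_add_right] at b
    rw [e2] at c
    rw [inner_sub_left]
    nlinarith [a.1, a.2, b.1, b.2, c.1, c.2]
  refine key.trans (le_of_eq ?_)
  rw [Real.rpow_add hlpos, Real.rpow_one]
  field_simp

/-- Campanato-type criterion on a set of centres. -/
noncomputable def campGradConst (α K ρ₀ M : ℝ) : ℝ := (M + campTaylorConst α K * ρ₀ ^ (1 + α)) / ρ₀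

noncomputable def campHolderConst (α K ρ₀ M : ℝ) : ℝ :=
  max (campTaylorConst α K * (2 + 2 ^ (1 + α))) (2 * campGradConst α K ρ₀ M * (2 / ρ₀) ^ α)

theorem camp_main [CompleteSpace E] {u : E → ℝ} {S : Set E} {α K ρ₀ M : ℝ} (hα : 0 < α)
    (hK : 0 ≤ K) (hρ₀ : 0 < ρ₀)
    (H : ∀ x ∈ S, ∀ ρ, 0 < ρ → ρ ≤ ρ₀ → ∃ p, CampFit u x p ρ (K * ρ ^ (1 + α)))
    (hM : ∀ x ∈ S, ∀ h : E, ‖h‖ ≤ ρ₀ → |u (x + h) - u x| ≤ M) :
    ∃ g : E → E, (∀ x ∈ S, HasGradientAt u (g x) x) ∧ (∀ x ∈ S, ‖g x‖ ≤ campGradConst α K ρ₀ M) ∧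
      ∀ y ∈ S, ∀ z ∈ S, ‖g y - g z‖ ≤ campHolderConst α K ρ₀ M * ‖y - z‖ ^ α := by
  have hC := campTaylorConst_nonneg hα hK
  have h1 : ∀ x ∈ S, ∃ P : E, ∀ h : E, ‖h‖ ≤ ρ₀ →
      |u (x + h) - u x - ⟪P, h⟫| ≤ campTaylorConst α K * ‖h‖ ^ (1 + α) :=
    fun x hx => camp_exists_slope_of_fits hα hK hρ₀ (H x hx)
  choose! g hg using h1
  have hG : ∀ x ∈ S, ‖g x‖ ≤ campGradConst α K ρ₀ M := fun x hx =>
    camp_norm_le_of_taylor hρ₀ (hg x hx) hα hC (hM x hx)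
  refine ⟨g, fun x hx => camp_hasGradientAt_of_taylor hα hρ₀ (hg x hx), hG, fun y hy z hz => ?_⟩
  by_cases hyz : y = z
  · subst hyz
    simp [Real.zero_rpow hα.ne']
  have hpos : 0 < ‖y - z‖ := norm_pos_iff.mpr (sub_ne_zero.mpr hyz)
  have hpw : 0 ≤ ‖y - z‖ ^ α := Real.rpow_nonneg hpos.le _
  by_cases hsmall : 2 * ‖y - z‖ ≤ ρ₀
  · refine (camp_norm_sub_le_of_taylor hα hC (hg y hy) (hg z hz) hyz hsmall).trans ?_
    exact mul_le_mul_of_nonneg_right (le_max_left _ _) hpw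
  · rw [not_le] at hsmall
    have hG0 : 0 ≤ campGradConst α K ρ₀ M := (norm_nonneg _).trans (hG y hy)
    have h2 : ‖g y - g z‖ ≤ 2 * campGradConst α K ρ₀ M := by
      calc ‖g y - g z‖ ≤ ‖g y‖ + ‖g z‖ := norm_sub_le _ _
        _ ≤ 2 * campGradConst α K ρ₀ M := by linarith [hG y hy, hG z hz]
    have h3 : 1 ≤ (2 / ρ₀ * ‖y - z‖) ^ α := by
      apply Real.one_le_rpow _ hα.le
      rw [div_mul_eq_mul_div, le_div_iff₀ hρ₀]
      linarith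
    rw [Real.mul_rpow (by positivity) hpos.le] at h3
    calc ‖g y - g z‖ ≤ 2 * campGradConst α K ρ₀ M * 1 := by linarith
      _ ≤ 2 * campGradConst α K ρ₀ M * ((2 / ρ₀) ^ α * ‖y - z‖ ^ α) :=
          mul_le_mul_of_nonneg_left h3 (by positivity)
      _ = (2 * campGradConst α K ρ₀ M * (2 / ρ₀) ^ α) * ‖y - z‖ ^ α := by ring
      _ ≤ campHolderConst α K ρ₀ M * ‖y - z‖ ^ α :=
          mul_le_mul_of_nonneg_right (le_max_right _ _) hpw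

end Claimed.Agent.R330
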