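import Mathlib
import Claimed.Agent.R330.EnvDefs
import Claimed.Agent.R330.BaryDefs

/-!
# Row 330: extremal contact (paper Prop 5.4), abstract cores

`ct_ext_core` is the soft part of the extremal construction: the supremum `G` of the
scale-invariant barycentric gap over a class of functions which is stable under normalisation
and compact after normalisation is positive, finite and attained by a normalised member, and
that member satisfies the gap bound with constant `G`.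
-/

namespace Claimed.Agent.R330

variable {X : Type*} [NormedAddCommGroup X] [NormedSpace ℝ X]

/-- Abstract extremal principle for the scale invariant gap `(C_s v - v)/s`. -/
theorem ct_ext_core (A Cent : (X → ℝ → ℝ) → Prop)
    (hnorm : ∀ v, A v → ∀ (x : X) (t s : ℝ), 0 < s → ∃ w, A w ∧ Cent w ∧
      bary 1 (fun y => w y 1) 0 - w 0 1 = (bary s (fun y => v y t) x - v x t) / s)
    (hbdd : ∃ C : ℝ, ∀ w, A w → Cent w → bary 1 (fun y => w y 1) 0 - w 0 1 ≤ C)
    (hcpt : ∀ w : ℕ → X → ℝ → ℝ, (∀ j, A (w j) ∧ Cent (w j)) →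
      ∃ (w' : X → ℝ → ℝ) (U : Filter ℕ), U.NeBot ∧ U ≤ Filter.atTop ∧ A w' ∧ Cent w' ∧
        Filter.Tendsto (fun j => bary 1 (fun y => w j y 1) 0 - w j 0 1) U
          (nhds (bary 1 (fun y => w' y 1) 0 - w' 0 1)))
    (hpos : ∃ v, A v ∧ ∃ (x : X) (t s : ℝ), 0 < s ∧ 0 < bary s (fun y => v y t) x - v x t) :
    ∃ (G : ℝ) (v : X → ℝ → ℝ), 0 < G ∧ A v ∧ Cent v ∧
      (∀ (x : X) (t s : ℝ), 0 < s → bary s (fun y => v y t) x - v x t ≤ G * s) ∧
      bary 1 (fun y => v y 1) 0 - v 0 1 = G := by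
  classical
  obtain ⟨C, hC⟩ := hbdd
  -- the set of normalised gaps
  set S : Set ℝ := {r | ∃ w, A w ∧ Cent w ∧ r = bary 1 (fun y => w y 1) 0 - w 0 1} with hS
  have hSbdd : BddAbove S := ⟨C, by rintro r ⟨w, hw, hc, rfl⟩; exact hC w hw hc⟩
  obtain ⟨v0, hv0, x0, t0, s0, hs0, hgap0⟩ := hpos
  obtain ⟨w0, hw0, hc0, hw0gap⟩ := hnorm v0 hv0 x0 t0 s0 hs0
  have hSne : S.Nonempty := ⟨_, w0, hw0, hc0, rfl⟩
  set G := sSup S with hG
  have hGpos : 0 < G := by
    have h1 : bary 1 (fun y => w0 y 1) 0 - w0 0 1 ≤ G := le_csSup hSbdd ⟨w0, hw0, hc0, rfl⟩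
    have h2 : 0 < bary 1 (fun y => w0 y 1) 0 - w0 0 1 := by
      rw [hw0gap]; exact div_pos hgap0 hs0
    linarith
  -- a maximising sequence
  have hseq : ∀ j : ℕ, ∃ w, (A w ∧ Cent w) ∧
      G - 1 / ((j : ℝ) + 1) < bary 1 (fun y => w y 1) 0 - w 0 1 := by
    intro j
    have hlt : G - 1 / ((j : ℝ) + 1) < G := by
      have : (0 : ℝ) < 1 / ((j : ℝ) + 1) := by positivity
      linarith
    obtain ⟨r, ⟨w, hw, hc, rfl⟩, hr⟩ := exists_lt_of_lt_csSup hSne hlt
    exact ⟨w, ⟨hw, hc⟩, hr⟩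
  choose w hw hwgap using hseq
  obtain ⟨w', U, hU, hUle, hA', hC', hlim⟩ := hcpt w hw
  have hle : bary 1 (fun y => w' y 1) 0 - w' 0 1 ≤ G := le_csSup hSbdd ⟨w', hA', hC', rfl⟩
  have hge : G ≤ bary 1 (fun y => w' y 1) 0 - w' 0 1 := by
    have h1 : Filter.Tendsto (fun j : ℕ => G - 1 / ((j : ℝ) + 1)) U (nhds (G - 0)) := by
      refine Filter.Tendsto.mono_left ?_ hUle
      exact tendsto_const_nhds.sub tendsto_one_div_add_atTop_nhds_zero_nat
    rw [sub_zero] at h1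
    exact le_of_tendsto_of_tendsto' h1 hlim (fun j => (hwgap j).le)
  refine ⟨G, w', hGpos, hA', hC', ?_, le_antisymm hle hge⟩
  intro x t s hs
  obtain ⟨w1, hw1, hc1, hw1gap⟩ := hnorm w' hA' x t s hs
  have h1 : bary 1 (fun y => w1 y 1) 0 - w1 0 1 ≤ G := le_csSup hSbdd ⟨w1, hw1, hc1, rfl⟩
  rw [hw1gap, div_le_iff₀ hs] at h1
  exact h1

end Claimed.Agent.R330
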