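import Claimed.Agent.R330.ContactA
import Claimed.Agent.R330.PartBDefs

/-!
# Row 330, package L7a, class form

A nonaffine member of `ClassA` with the logarithmic growth of centred members has a nonzero
horizontal midpoint defect; `v` or its time reflection `reflT v` has a positive one; a positive
midpoint defect gives a two-point configuration whose value beats the value at the barycentre.
-/

namespace Claimed.Agent.R330

open Set Filter Topology
open scoped RealInnerProductSpace

variable {X : Type*} [NormedAddCommGroup X] [InnerProductSpace ℝ X]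

/-- **L7a, class form.** -/
theorem cta_exists_midpoint_defect [FiniteDimensional ℝ X] {C0 : ℝ} {v : X → ℝ → ℝ}
    (hA : ClassA C0 v)
    (hgrow : ∃ C : ℝ, ∀ K : ℝ, 2 ≤ K → ∀ x t, ‖x‖ ≤ K → |t| ≤ K →
      |v x t| ≤ C * K * (1 + Real.log K) ^ 2)
    (hna : ¬ IsAffineST v) :
    ∃ (t : ℝ) (x y : X), v x t + v y t ≠ 2 * v ((1 / 2 : ℝ) • (x + y)) t := by
  by_contra hcon
  push Not at hcon
  apply hna
  refine cta_affine_of_slices_midpoint v ?_ hgrow ?_ ?_ hcon
  · intro t
    exact hA.cont.comp (continuous_id.prodMk continuous_const)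
  · intro x t
    have := hA.convP x 0 t
    simpa [envP, supConv] using this
  · intro x t
    have := hA.concM x 0 t
    simpa [envM, infConv] using this

/-- `v` or its time reflection has a strictly positive midpoint defect. -/
theorem cta_exists_pos_midpoint_defect [FiniteDimensional ℝ X] {C0 : ℝ} {v : X → ℝ → ℝ}
    (hA : ClassA C0 v)
    (hgrow : ∃ C : ℝ, ∀ K : ℝ, 2 ≤ K → ∀ x t, ‖x‖ ≤ K → |t| ≤ K →
      |v x t| ≤ C * K * (1 + Real.log K) ^ 2)
    (hna : ¬ IsAffineST v) :
    (∃ (t : ℝ) (x y : X), 2 * v ((1 / 2 : ℝ) • (x + y)) t < v x t + v y t) ∨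
    (∃ (t : ℝ) (x y : X), 2 * reflT v ((1 / 2 : ℝ) • (x + y)) t < reflT v x t + reflT v y t) := by
  obtain ⟨t, x, y, h⟩ := cta_exists_midpoint_defect hA hgrow hna
  rcases lt_or_gt_of_ne h with h1 | h1
  · right
    refine ⟨-t, x, y, ?_⟩
    simp only [reflT, neg_neg]
    linarith
  · left
    exact ⟨t, x, y, h1⟩

/-- the two-point configuration with equal weights. -/
theorem cta_isConfig_pair (x y : X) :
    IsConfig ((1 / 2 : ℝ) • (x + y)) ![(1 / 2 : ℝ), 1 / 2] ![x, y] := by
  refine ⟨?_, ?_, ?_⟩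
  · intro i
    fin_cases i <;> simp
  · simp [Fin.sum_univ_two]; norm_num
  · simp [Fin.sum_univ_two, smul_add]

/-- A positive midpoint defect of a slice gives, for every large parameter `s`, a configuration
whose value beats the value at the barycentre. -/
theorem cta_baryVal_pair_pos (g : X → ℝ) (x y : X)
    (hD : 2 * g ((1 / 2 : ℝ) • (x + y)) < g x + g y) :
    ∃ s0 : ℝ, 0 < s0 ∧ ∀ s, s0 ≤ s →
      g ((1 / 2 : ℝ) • (x + y))
        < baryVal s g ((1 / 2 : ℝ) • (x + y)) ![(1 / 2 : ℝ), 1 / 2] ![x, y] := by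
  set m := (1 / 2 : ℝ) • (x + y) with hm
  set V := (1 / 2 : ℝ) * ‖x - m‖ ^ 2 + (1 / 2 : ℝ) * ‖y - m‖ ^ 2 with hV
  have hV0 : 0 ≤ V := by positivity
  set D := (g x + g y) / 2 - g m with hDdef
  have hDpos : 0 < D := by rw [hDdef]; linarith
  refine ⟨(V + 1) / D, by positivity, fun s hs => ?_⟩
  have hspos : 0 < s := lt_of_lt_of_le (by positivity) hs
  have hval : baryVal s g m ![(1 / 2 : ℝ), 1 / 2] ![x, y] = (g x + g y) / 2 - V / (2 * s) := by
    simp [baryVal, Fin.sum_univ_two, hV]
    ring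
  rw [hval]
  have h1 : V + 1 ≤ s * D := by rwa [div_le_iff₀ hDpos] at hs
  have h2 : V / (2 * s) < D := by
    rw [div_lt_iff₀ (by positivity)]
    nlinarith
  rw [hDdef] at h2
  linarith

end Claimed.Agent.R330
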