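import Claimed.Agent.R330.ContactE
import Claimed.Agent.R330.PartBDefs
import Claimed.Agent.R330.EnvBasic

/-!
# Row 330, package L7e, gap form and class form

* `cte_forward_transfer_gap` : the transfer of forward slopes to the barycentre with the gap bound
  `C_s v - v ≤ G s` as primitive (no square roots).
* `cte_slopes_lower` : the statement for `ClassA`, `GapBound`, `bary`, `slopeP`, `slopeM`.
-/

namespace Claimed.Agent.R330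

open Set Filter Topology
open scoped RealInnerProductSpace

variable {X : Type*} [NormedAddCommGroup X] [InnerProductSpace ℝ X]
variable {ι : Type*}

/-- joint convexity of `|a|^2 / (2 s)`. -/
theorem cte_titu (a b : X) (s0 ℓ : ℝ) (hs0 : 0 < s0) (hℓ : 0 < ℓ) :
    ‖a‖ ^ 2 / (2 * (s0 + ℓ)) ≤ ‖b‖ ^ 2 / (2 * s0) + ‖a - b‖ ^ 2 / (2 * ℓ) := by
  have h1 : ‖a‖ ≤ ‖b‖ + ‖a - b‖ := by
    have := norm_add_le b (a - b)
    simpa using this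
  have h2 : ‖a‖ ^ 2 ≤ (‖b‖ + ‖a - b‖) ^ 2 := by
    have := norm_nonneg a
    nlinarith
  have h3 : (‖b‖ + ‖a - b‖) ^ 2 / (2 * (s0 + ℓ)) ≤ ‖b‖ ^ 2 / (2 * s0) + ‖a - b‖ ^ 2 / (2 * ℓ) := by
    have : ‖b‖ ^ 2 / (2 * s0) + ‖a - b‖ ^ 2 / (2 * ℓ) - (‖b‖ + ‖a - b‖) ^ 2 / (2 * (s0 + ℓ))
        = (‖b‖ * ℓ - ‖a - b‖ * s0) ^ 2 / (2 * s0 * ℓ * (s0 + ℓ)) := by
      field_simp; ring
    have h4 : 0 ≤ (‖b‖ * ℓ - ‖a - b‖ * s0) ^ 2 / (2 * s0 * ℓ * (s0 + ℓ)) := by positivity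
    linarith
  have h5 : ‖a‖ ^ 2 / (2 * (s0 + ℓ)) ≤ (‖b‖ + ‖a - b‖) ^ 2 / (2 * (s0 + ℓ)) :=
    div_le_div_of_nonneg_right h2 (by positivity)
  linarith

/-- **Transfer of forward slopes to the barycentre**, gap form. -/
theorem cte_forward_transfer_gap (v : X → ℝ → ℝ) (P : ℝ → X → ℝ → ℝ)
    (hP : ∀ ℓ, 0 < ℓ → ∀ x t, IsLUB (range fun y : X => v y (t + ℓ) - ‖y - x‖ ^ 2 / (2 * ℓ))
      (P ℓ x t))
    (s : Finset ι) (θ : ι → ℝ) (hθ : ∀ i ∈ s, 0 ≤ θ i) (hsum : ∑ i ∈ s, θ i = 1)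
    (y : ι → X) (t0 s0 G : ℝ) (hs0 : 0 < s0)
    (hG : ∀ (z : ι → X) (t σ : ℝ), 0 < σ →
      ∑ i ∈ s, θ i * v (z i) t - (∑ i ∈ s, θ i * ‖z i - ∑ j ∈ s, θ j • z j‖ ^ 2) / (2 * σ)
        - v (∑ j ∈ s, θ j • z j) t ≤ G * σ)
    (hGeq : ∑ i ∈ s, θ i * v (y i) t0
        - (∑ i ∈ s, θ i * ‖y i - ∑ j ∈ s, θ j • y j‖ ^ 2) / (2 * s0)
        - v (∑ j ∈ s, θ j • y j) t0 = G * s0)
    (ℓ : ℝ) (hℓ : 0 < ℓ) :
    ∑ i ∈ s, θ i * (P ℓ (y i) t0 - v (y i) t0)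
      ≤ P ℓ (∑ j ∈ s, θ j • y j) t0 - v (∑ j ∈ s, θ j • y j) t0 + G * ℓ := by
  apply le_of_forall_pos_le_add
  intro ε hε
  have hex : ∀ i, ∃ z : X, P ℓ (y i) t0 - ε < v z (t0 + ℓ) - ‖z - y i‖ ^ 2 / (2 * ℓ) := by
    intro i
    obtain ⟨_, ⟨z, rfl⟩, hz⟩ := (hP ℓ hℓ (y i) t0).exists_between (sub_lt_self _ hε)
    exact ⟨z, hz.1⟩
  choose z hz using hex
  set x := ∑ j ∈ s, θ j • y j with hx
  set xh := ∑ j ∈ s, θ j • z j with hxh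
  have h1 : ∑ i ∈ s, θ i * (P ℓ (y i) t0 - ε)
      ≤ ∑ i ∈ s, θ i * (v (z i) (t0 + ℓ) - ‖z i - y i‖ ^ 2 / (2 * ℓ)) :=
    Finset.sum_le_sum fun i hi => mul_le_mul_of_nonneg_left (hz i).le (hθ i hi)
  have h2 : ∑ i ∈ s, θ i * (P ℓ (y i) t0 - ε) = ∑ i ∈ s, θ i * P ℓ (y i) t0 - ε := by
    simp_rw [mul_sub]
    rw [Finset.sum_sub_distrib, ← Finset.sum_mul, hsum, one_mul]
  have h3 : ∑ i ∈ s, θ i * (v (z i) (t0 + ℓ) - ‖z i - y i‖ ^ 2 / (2 * ℓ))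
      = ∑ i ∈ s, θ i * v (z i) (t0 + ℓ) - (∑ i ∈ s, θ i * ‖z i - y i‖ ^ 2) / (2 * ℓ) := by
    simp_rw [mul_sub]
    rw [Finset.sum_sub_distrib, Finset.sum_div]
    congr 1
    exact Finset.sum_congr rfl fun i _ => by ring
  have h4 := hG z (t0 + ℓ) (s0 + ℓ) (by linarith)
  rw [← hxh] at h4
  have h5 : v xh (t0 + ℓ) - ‖xh - x‖ ^ 2 / (2 * ℓ) ≤ P ℓ x t0 := (hP ℓ hℓ x t0).1 ⟨xh, rfl⟩
  -- variance decomposition of the transport cost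
  have hdec := cte_variance_decomp s θ hsum (fun i => z i - y i)
  have hmean : ∑ j ∈ s, θ j • (z j - y j) = xh - x := by
    rw [hxh, hx, ← Finset.sum_sub_distrib]
    exact Finset.sum_congr rfl fun i _ => smul_sub _ _ _
  simp only [hmean] at hdec
  -- termwise joint convexity
  have hterm : (∑ i ∈ s, θ i * ‖z i - xh‖ ^ 2) / (2 * (s0 + ℓ))
      ≤ (∑ i ∈ s, θ i * ‖y i - x‖ ^ 2) / (2 * s0)
        + (∑ i ∈ s, θ i * ‖z i - y i - (xh - x)‖ ^ 2) / (2 * ℓ) := by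
    rw [Finset.sum_div, Finset.sum_div, Finset.sum_div, ← Finset.sum_add_distrib]
    apply Finset.sum_le_sum
    intro i hi
    have := cte_titu (z i - xh) (y i - x) s0 ℓ hs0 hℓ
    have e : z i - xh - (y i - x) = z i - y i - (xh - x) := by abel
    rw [e] at this
    have h6 := mul_le_mul_of_nonneg_left this (hθ i hi)
    calc θ i * ‖z i - xh‖ ^ 2 / (2 * (s0 + ℓ)) = θ i * (‖z i - xh‖ ^ 2 / (2 * (s0 + ℓ))) := by ring
      _ ≤ θ i * (‖y i - x‖ ^ 2 / (2 * s0) + ‖z i - y i - (xh - x)‖ ^ 2 / (2 * ℓ)) := h6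
      _ = _ := by ring
  have h7 : (∑ i ∈ s, θ i * ‖z i - y i‖ ^ 2) / (2 * ℓ)
      = ‖xh - x‖ ^ 2 / (2 * ℓ) + (∑ i ∈ s, θ i * ‖z i - y i - (xh - x)‖ ^ 2) / (2 * ℓ) := by
    rw [hdec, add_div]
  have h9 : ∑ i ∈ s, θ i * (P ℓ (y i) t0 - v (y i) t0)
      = ∑ i ∈ s, θ i * P ℓ (y i) t0 - ∑ i ∈ s, θ i * v (y i) t0 := by
    simp_rw [mul_sub]
    rw [Finset.sum_sub_distrib]
  rw [h9]
  rw [h2, h3, h7] at h1
  nlinarith

/-- the envelopes of the library are least upper bounds. -/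
theorem cte_isLUB_envP {v : X → ℝ → ℝ} (hsq : SubQuadLoc v) (ℓ : ℝ) (hℓ : 0 < ℓ) (x : X) (t : ℝ) :
    IsLUB (range fun y : X => v y (t + ℓ) - ‖y - x‖ ^ 2 / (2 * ℓ)) (envP ℓ v x t) :=
  isLUB_ciSup (supConv_bddAbove (hsq.slice (t + ℓ)).above hℓ x)

/-- the envelopes of the library are greatest lower bounds. -/
theorem cte_isGLB_envM {v : X → ℝ → ℝ} (hsq : SubQuadLoc v) (ℓ : ℝ) (hℓ : 0 < ℓ) (x : X) (t : ℝ) :
    IsGLB (range fun y : X => v y (t - ℓ) + ‖y - x‖ ^ 2 / (2 * ℓ)) (envM ℓ v x t) := by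
  refine isGLB_ciInf ?_
  refine ⟨infConv ℓ (fun y => v y (t - ℓ)) x, ?_⟩
  rintro _ ⟨y, rfl⟩
  exact infConv_le (hsq.slice (t - ℓ)).below hℓ x y

/-- fixed-centre convexity of the forward envelope, from path convexity with `d = 0`. -/
theorem cte_convexOn_envP {v : X → ℝ → ℝ} (h : PathConvexP v) (x : X) (t : ℝ) :
    ConvexOn ℝ (Ioi (0:ℝ)) (fun l => envP l v x t) := by
  have := h x 0 t
  simpa using this

/-- fixed-centre concavity of the backward envelope, from path concavity with `d = 0`. -/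
theorem cte_concaveOn_envM {v : X → ℝ → ℝ} (h : PathConcaveM v) (x : X) (t : ℝ) :
    ConcaveOn ℝ (Ioi (0:ℝ)) (fun l => envM l v x t) := by
  have := h x 0 t
  simpa using this

/-- A supporting slope `A` of the barycentric envelope at parameter `s0` turns the support points
into optimisers of the forward paraboloid based at `(b, t0 - s0)`, `b = - s0 • A`. -/
theorem cte_support_to_paraboloid (g : X → ℝ) (A x0 z : X) (s0 : ℝ) (hs0 : 0 < s0) :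
    g z - ‖z - (-(s0 • A))‖ ^ 2 / (2 * s0)
      = (g z - ‖z‖ ^ 2 / (2 * s0) - ⟪A, z - x0⟫) - ⟪A, x0⟫ - s0 * ‖A‖ ^ 2 / 2 := by
  have h1 : ‖z - (-(s0 • A))‖ ^ 2 = ‖z‖ ^ 2 + 2 * s0 * ⟪A, z⟫ + s0 ^ 2 * ‖A‖ ^ 2 := by
    rw [sub_neg_eq_add, norm_add_sq_real, inner_smul_right, norm_smul, mul_pow, Real.norm_eq_abs,
      sq_abs, real_inner_comm]
    ring
  rw [h1, inner_sub_right]
  field_simp
  ring

/-- **L7e, class form.**  At a point `(x0,t0)` where the gap bound `C_{s0} v - v ≤ G s0` is attained,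
with an attaining configuration `(θ,y)` and a supporting slope `A` (as delivered by the
barycentric-envelope package), the forward slopes of `v` at all `y i` and both slopes of `v` at
`(x0,t0)` are bounded below, uniformly in the length.

`h44a`, `h44b` are the two halves of paper Lemma 4.4 for `v`; `hle` says that configurations with
the weights `θ` are admissible competitors for `bary`. -/
theorem cte_slopes_lower {C0 G : ℝ} {v : X → ℝ → ℝ} (hA : ClassA C0 v) (hsq : SubQuadLoc v)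
    (hG : GapBound G v)
    (h44a : ∀ (x : X) (t Λ ℓ0 : ℝ), 0 < ℓ0 → (∀ ℓ, 0 < ℓ → ℓ ≤ ℓ0 → Λ ≤ slopeM ℓ v x t) →
      ∀ ℓ, 0 < ℓ → Λ ≤ slopeP ℓ v x t)
    (h44b : ∀ (x : X) (t Λ ℓ0 : ℝ), 0 < ℓ0 → (∀ ℓ, 0 < ℓ → ℓ ≤ ℓ0 → Λ ≤ slopeP ℓ v x t) →
      ∀ ℓ, 0 < ℓ → Λ ≤ slopeM ℓ v x t)
    {N : ℕ} (θ : Fin N → ℝ) (y : Fin N → X) (A x0 : X) (t0 s0 : ℝ) (hs0 : 0 < s0)
    (hle : ∀ (t σ : ℝ) (x : X) (z : Fin N → X), 0 < σ → IsConfig x θ z →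
      baryVal σ (fun w => v w t) x θ z ≤ bary σ (fun w => v w t) x)
    (hcfg : IsConfig x0 θ y)
    (hval : baryVal s0 (fun z => v z t0) x0 θ y = bary s0 (fun z => v z t0) x0)
    (hgap : bary s0 (fun z => v z t0) x0 - v x0 t0 = G * s0)
    (hsupp : ∀ z, v z t0 - ‖z‖ ^ 2 / (2 * s0) - ⟪A, z - x0⟫
      ≤ bary s0 (fun z => v z t0) x0 - ‖x0‖ ^ 2 / (2 * s0))
    (hsuppeq : ∀ i, v (y i) t0 - ‖y i‖ ^ 2 / (2 * s0) - ⟪A, y i - x0⟫
      = bary s0 (fun z => v z t0) x0 - ‖x0‖ ^ 2 / (2 * s0)) :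
    ∃ Λ : ℝ, (∀ i, ∀ ε, 0 < ε → -Λ ≤ slopeP ε v (y i) t0) ∧
      (∀ ε, 0 < ε → -Λ ≤ slopeP ε v x0 t0) ∧ (∀ ε, 0 < ε → -Λ ≤ slopeM ε v x0 t0) := by
  obtain ⟨hθ, hsum, hmean⟩ := hcfg
  set b : X := -(s0 • A) with hb
  set P : ℝ → X → ℝ → ℝ := fun ℓ x t => envP ℓ v x t with hPdef
  set M : ℝ → X → ℝ → ℝ := fun ℓ x t => envM ℓ v x t with hMdef
  have hP : ∀ ℓ, 0 < ℓ → ∀ x t, IsLUB (range fun y : X => v y (t + ℓ) - ‖y - x‖ ^ 2 / (2 * ℓ))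
      (P ℓ x t) := fun ℓ hℓ x t => cte_isLUB_envP hsq ℓ hℓ x t
  have hM : ∀ ℓ, 0 < ℓ → ∀ x t, IsGLB (range fun y : X => v y (t - ℓ) + ‖y - x‖ ^ 2 / (2 * ℓ))
      (M ℓ x t) := fun ℓ hℓ x t => cte_isGLB_envM hsq ℓ hℓ x t
  set Γ := bary s0 (fun z => v z t0) x0 - ‖x0‖ ^ 2 / (2 * s0) with hΓ
  -- all `y i` optimise the paraboloid
  have hub : ∀ z, v z t0 - ‖z - b‖ ^ 2 / (2 * s0) ≤ Γ - ⟪A, x0⟫ - s0 * ‖A‖ ^ 2 / 2 := by
    intro z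
    rw [hb, cte_support_to_paraboloid (fun z => v z t0) A x0 z s0 hs0]
    have := hsupp z
    linarith
  have heq : ∀ i, v (y i) t0 - ‖y i - b‖ ^ 2 / (2 * s0) = Γ - ⟪A, x0⟫ - s0 * ‖A‖ ^ 2 / 2 := by
    intro i
    rw [hb, cte_support_to_paraboloid (fun z => v z t0) A x0 (y i) s0 hs0]
    have := hsuppeq i
    linarith
  have hopt : ∀ i, v (y i) t0 - ‖y i - b‖ ^ 2 / (2 * s0) = P s0 b (t0 - s0) := by
    intro i
    have hl := hP s0 hs0 b (t0 - s0)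
    have et : t0 - s0 + s0 = t0 := by ring
    rw [et] at hl
    apply le_antisymm
    · exact hl.1 ⟨y i, rfl⟩
    · rw [heq i]
      apply hl.2
      rintro _ ⟨z, rfl⟩
      exact hub z
  have hconv : ConvexOn ℝ (Ioi 0) (fun σ => P σ b (t0 - s0)) :=
    cte_convexOn_envP hA.convP b (t0 - s0)
  set Λ0 := (P s0 b (t0 - s0) - P (s0 / 2) b (t0 - s0)) / (s0 / 2) with hΛ0
  -- forward slopes at the support points
  have hfw : ∀ i, ∀ ℓ, 0 < ℓ → Λ0 ≤ slopeP ℓ v (y i) t0 := by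
    intro i
    refine h44a (y i) t0 Λ0 (s0 / 2) (by positivity) ?_
    intro ℓ' hℓ'0 hℓ'
    have h1 := cte_backward_gap v P M hP hM b (y i) t0 s0 (hopt i) ℓ' hℓ'0 (by linarith)
    have h2 : Λ0 * ℓ' ≤ P s0 b (t0 - s0) - P (s0 - ℓ') b (t0 - s0) :=
      cte_chord (fun σ => P σ b (t0 - s0)) hconv s0 ℓ' hs0 hℓ'0 hℓ'
    unfold slopeM
    rw [le_div_iff₀ hℓ'0]
    exact h2.trans h1
  -- transfer to the barycentre
  have hGc : ∀ (z : Fin N → X) (t σ : ℝ), 0 < σ →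
      ∑ i ∈ Finset.univ, θ i * v (z i) t
        - (∑ i ∈ Finset.univ, θ i * ‖z i - ∑ j ∈ Finset.univ, θ j • z j‖ ^ 2) / (2 * σ)
        - v (∑ j ∈ Finset.univ, θ j • z j) t ≤ G * σ := by
    intro z t σ hσ
    have h1 := hle t σ (∑ j, θ j • z j) z hσ ⟨hθ, hsum, rfl⟩
    have h2 := hG (∑ j, θ j • z j) t σ hσ
    unfold baryVal at h1
    linarith
  have hGeq : ∑ i ∈ Finset.univ, θ i * v (y i) t0
        - (∑ i ∈ Finset.univ, θ i * ‖y i - ∑ j ∈ Finset.univ, θ j • y j‖ ^ 2) / (2 * s0)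
        - v (∑ j ∈ Finset.univ, θ j • y j) t0 = G * s0 := by
    rw [hmean]
    unfold baryVal at hval
    linarith
  have hx0 : ∀ ℓ, 0 < ℓ → Λ0 - G ≤ slopeP ℓ v x0 t0 := by
    intro ℓ hℓ
    have htr := cte_forward_transfer_gap v P hP Finset.univ θ (fun i _ => hθ i) hsum y t0 s0 G hs0
      hGc hGeq ℓ hℓ
    rw [hmean] at htr
    have hsumΛ : Λ0 * ℓ ≤ ∑ i, θ i * (P ℓ (y i) t0 - v (y i) t0) := by
      calc Λ0 * ℓ = ∑ i, θ i * (Λ0 * ℓ) := by rw [← Finset.sum_mul, hsum, one_mul]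
        _ ≤ _ := Finset.sum_le_sum fun i _ => by
          apply mul_le_mul_of_nonneg_left _ (hθ i)
          have := hfw i ℓ hℓ
          unfold slopeP at this
          rwa [le_div_iff₀ hℓ] at this
    unfold slopeP
    rw [le_div_iff₀ hℓ]
    have : P ℓ x0 t0 = envP ℓ v x0 t0 := rfl
    rw [← this]
    nlinarith
  have hx0M : ∀ ℓ, 0 < ℓ → Λ0 - G ≤ slopeM ℓ v x0 t0 :=
    h44b x0 t0 (Λ0 - G) 1 one_pos (fun ℓ hℓ _ => hx0 ℓ hℓ)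
  refine ⟨|Λ0| + |G|, fun i ε hε => ?_, fun ε hε => ?_, fun ε hε => ?_⟩
  · have := hfw i ε hε
    have h1 := neg_abs_le Λ0
    have h2 := abs_nonneg G
    linarith
  · have := hx0 ε hε
    have h1 := neg_abs_le Λ0
    have h2 := le_abs_self G
    linarith
  · have := hx0M ε hε
    have h1 := neg_abs_le Λ0
    have h2 := le_abs_self G
    linarith

end Claimed.Agent.R330
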