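import Claimed.Agent.R330.EnvGlue

/-!
# Row 330: envelope slopes (paper Lemma 4.4)

The one-sided order of the limits of the two envelope slopes at length zero (paper (4.12)) and
the resulting "common limit" statements.  Monotonicity of the slopes is in `EnvGlue`
(`slopeP_mono_of_convexOn`, `slopeM_mono_of_concaveOn`); here it is repackaged for functions
with `PathConvexP` / `PathConcaveM`.

Owner of this file: helper205.
-/

namespace Claimed.Agent.R330

open Filter Topology Set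

section Slopes

variable {X : Type*} [NormedAddCommGroup X]

/-! ### The competitor inequality and confinement -/

/-- A backward competitor `(y,t-l)` of `(x,t)` sees `(x,t)` as a forward competitor. -/
theorem slope_competitor_le {f : X → ℝ → ℝ} (hf : SubQuadLoc f) {l : ℝ} (hl : 0 < l)
    (x y : X) (t : ℝ) :
    (f x t - (f y (t - l) + ‖y - x‖ ^ 2 / (2 * l))) / l ≤ slopeP l f y (t - l) := by
  unfold slopeP
  apply div_le_div_of_nonneg_right _ hl.le
  have h := le_supConv (hf.slice (t - l + l)).above hl y x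
  have e : envP l f y (t - l) = supConv l (fun z => f z (t - l + l)) y := rfl
  rw [e]
  have e2 : f x (t - l + l) = f x t := by congr 1; ring
  rw [e2, norm_sub_rev] at h
  linarith

/-- Near-optimizers of the backward envelope at a short length stay close to the centre. -/
theorem slope_confineM {f : X → ℝ → ℝ} (hf : SubQuadLoc f) (x : X) (t : ℝ) :
    ∃ A : ℝ, 0 ≤ A ∧ ∀ l : ℝ, 0 < l → l ≤ 1 → ∀ y : X,
      f y (t - l) + ‖y - x‖ ^ 2 / (2 * l) ≤ envM l f x t + 1 → ‖y - x‖ ^ 2 ≤ A * l := by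
  obtain ⟨C, hC⟩ := hf.on_Icc (t - 1) (t + 1) (1 / 8) (by norm_num)
  have hC0 : 0 ≤ 1 / 8 * ‖x‖ ^ 2 + C := (abs_nonneg _).trans (hC x t ⟨by linarith, by linarith⟩)
  refine ⟨4 * (3 * (1 / 8) * ‖x‖ ^ 2 + 2 * C + 1), by nlinarith [sq_nonneg ‖x‖], ?_⟩
  intro l hl hl1 y hy
  have hmem : t - l ∈ Set.Icc (t - 1) (t + 1) := ⟨by linarith, by linarith⟩
  have hself : envM l f x t ≤ f x (t - l) :=
    infConv_le_self (hf.slice (t - l)).below hl x
  have hconf := supConv_confine (g := fun z => - f z (t - l)) (ε := 1 / 8) (C := C) (l := l)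
    (η := 1) (by norm_num) hl (by linarith)
    (fun z => (neg_le_abs _).trans (hC z _ hmem)) (x := x) (y := y) (by linarith)
  have hx : f x (t - l) ≤ 1 / 8 * ‖x‖ ^ 2 + C := (le_abs_self _).trans (hC x _ hmem)
  calc ‖y - x‖ ^ 2 ≤ 4 * l * (2 * (1 / 8) * ‖x‖ ^ 2 + C - - f x (t - l) + 1) := hconf
    _ ≤ 4 * l * (3 * (1 / 8) * ‖x‖ ^ 2 + 2 * C + 1) := by
        apply mul_le_mul_of_nonneg_left _ (by positivity)
        linarith
    _ = 4 * (3 * (1 / 8) * ‖x‖ ^ 2 + 2 * C + 1) * l := by ring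

/-! ### The one-sided order of the limits (paper (4.12)) -/

/-- Paper (4.12) in `ε`-form: `limsup_{l → 0+} S^-_l f (z) ≤ S^+_h f (z)` for every `h > 0`.
Only monotonicity of the forward slopes (at all base points) and continuity of the centre map
of `f` and of `envP h f` at `(x,t)` are used. -/
theorem slopeM_le_slopeP_eventually {f : X → ℝ → ℝ} (hf : SubQuadLoc f) {x : X} {t : ℝ}
    (hcf : ContinuousAt (fun z : X × ℝ => f z.1 z.2) (x, t))
    (hmono : ∀ (y : X) (s l₁ l₂ : ℝ), 0 < l₁ → l₁ ≤ l₂ → slopeP l₁ f y s ≤ slopeP l₂ f y s)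
    {h : ℝ} (hh : 0 < h)
    (hcP : ContinuousAt (fun z : X × ℝ => envP h f z.1 z.2) (x, t))
    {η : ℝ} (hη : 0 < η) :
    ∀ᶠ l in 𝓝[>] (0 : ℝ), slopeM l f x t ≤ slopeP h f x t + η := by
  -- continuity of the slope at fixed length
  have hcS : ContinuousAt (fun z : X × ℝ => slopeP h f z.1 z.2) (x, t) := by
    unfold slopeP
    exact (hcP.sub hcf).div_const h
  have hnear : ∀ᶠ z in 𝓝 (x, t), slopeP h f z.1 z.2 < slopeP h f x t + η / 2 :=
    hcS.eventually (gt_mem_nhds (by simp only; linarith))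
  obtain ⟨δ, hδ, hball⟩ := Metric.eventually_nhds_iff.1 hnear
  obtain ⟨A, hA0, hA⟩ := slope_confineM hf x t
  -- smallness conditions on the length
  have hsmall : ∀ᶠ l in 𝓝[>] (0 : ℝ), l < min (min h 1) (min δ (min (δ ^ 2 / (A + 1)) (2 / η))) := by
    apply Filter.Eventually.filter_mono nhdsWithin_le_nhds
    apply gt_mem_nhds
    have : 0 < δ ^ 2 / (A + 1) := by positivity
    have : 0 < 2 / η := by positivity
    simp only [lt_min_iff]
    refine ⟨⟨hh, one_pos⟩, hδ, ‹_›, ‹_›⟩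
  filter_upwards [hsmall, self_mem_nhdsWithin] with l hl hl0
  have hl0 : 0 < l := hl0
  simp only [lt_min_iff] at hl
  obtain ⟨⟨hlh, hl1⟩, hlδ, hlA, hlη⟩ := hl
  -- a near optimizer
  obtain ⟨y, hy⟩ := exists_lt_infConv (fun z => f z (t - l)) l x
    (η := η / 2 * l) (by positivity)
  have hy' : f y (t - l) + ‖y - x‖ ^ 2 / (2 * l) < envM l f x t + η / 2 * l := hy
  have hηl : η / 2 * l ≤ 1 := by
    rw [lt_div_iff₀ hη] at hlη
    nlinarith
  have hyx : ‖y - x‖ ^ 2 ≤ A * l := hA l hl0 hl1.le y (by linarith)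
  have hyδ : ‖y - x‖ < δ := by
    have h1 : A * l < δ ^ 2 := by
      rw [lt_div_iff₀ (by positivity)] at hlA
      nlinarith
    exact lt_of_pow_lt_pow_left₀ 2 hδ.le (lt_of_le_of_lt hyx h1)
  have hdist : dist ((y, t - l) : X × ℝ) (x, t) < δ := by
    rw [Prod.dist_eq]
    apply max_lt
    · simpa [dist_eq_norm] using hyδ
    · simp only [Real.dist_eq]
      rw [show t - l - t = -l by ring, abs_neg, abs_of_pos hl0]
      exact hlδ
  have h3 : slopeP h f y (t - l) < slopeP h f x t + η / 2 := hball hdist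
  have h2 : slopeP l f y (t - l) ≤ slopeP h f y (t - l) := hmono y (t - l) l h hl0 hlh.le
  have h1 := slope_competitor_le hf hl0 x y t
  have h0 : slopeM l f x t ≤ (f x t - (f y (t - l) + ‖y - x‖ ^ 2 / (2 * l))) / l + η / 2 := by
    unfold slopeM
    rw [div_add' _ _ _ hl0.ne']
    apply div_le_div_of_nonneg_right _ hl0.le
    linarith
  linarith

/-- Mirror image of `slopeM_le_slopeP_eventually`. -/
theorem slopeP_le_slopeM_eventually {f : X → ℝ → ℝ} (hf : SubQuadLoc f) {x : X} {t : ℝ}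
    (hcf : ContinuousAt (fun z : X × ℝ => f z.1 z.2) (x, t))
    (hmono : ∀ (y : X) (s l₁ l₂ : ℝ), 0 < l₁ → l₁ ≤ l₂ → slopeM l₁ f y s ≤ slopeM l₂ f y s)
    {h : ℝ} (hh : 0 < h)
    (hcM : ContinuousAt (fun z : X × ℝ => envM h f z.1 z.2) (x, t))
    {η : ℝ} (hη : 0 < η) :
    ∀ᶠ l in 𝓝[>] (0 : ℝ), slopeP l f x t ≤ slopeM h f x t + η := by
  have hflip : ContinuousAt (fun z : X × ℝ => ((z.1, -z.2) : X × ℝ)) (x, -t) :=
    (continuous_fst.prodMk continuous_snd.neg).continuousAt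
  have hpt : (fun z : X × ℝ => ((z.1, -z.2) : X × ℝ)) (x, -t) = (x, t) := by simp
  have key := slopeM_le_slopeP_eventually (f := reflT f) (hf.reflT)
    (x := x) (t := -t) ?_ ?_ hh ?_ hη
  · simpa only [slopeM_reflT, slopeP_reflT, neg_neg] using key
  · exact (ContinuousAt.comp_of_eq hcf hflip hpt).neg
  · intro y s l₁ l₂ h1 h12
    simpa only [slopeP_reflT] using hmono y (-s) l₁ l₂ h1 h12
  · have h2 := (ContinuousAt.comp_of_eq hcM hflip hpt).neg
    have e : (fun z : X × ℝ => envP h (reflT f) z.1 z.2) =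
        -((fun z : X × ℝ => envM h f z.1 z.2) ∘ fun z : X × ℝ => ((z.1, -z.2) : X × ℝ)) := by
      funext z
      simp [envP_reflT]
    rw [e]
    exact h2

/-! ### Transfer of lower bounds: the common limit -/

/-- If the backward slopes at short lengths are `≥ c`, so is every forward slope. -/
theorem slopeP_ge_of_eventually_slopeM_ge {f : X → ℝ → ℝ} (hf : SubQuadLoc f) {x : X} {t : ℝ}
    (hcf : ContinuousAt (fun z : X × ℝ => f z.1 z.2) (x, t))
    (hmono : ∀ (y : X) (s l₁ l₂ : ℝ), 0 < l₁ → l₁ ≤ l₂ → slopeP l₁ f y s ≤ slopeP l₂ f y s)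
    (hcP : ∀ h : ℝ, 0 < h → ContinuousAt (fun z : X × ℝ => envP h f z.1 z.2) (x, t))
    {c : ℝ} (hc : ∃ᶠ l in 𝓝[>] (0 : ℝ), c ≤ slopeM l f x t) {h : ℝ} (hh : 0 < h) :
    c ≤ slopeP h f x t := by
  refine le_of_forall_pos_le_add fun η hη => ?_
  obtain ⟨l, h1, h2⟩ :=
    (hc.and_eventually (slopeM_le_slopeP_eventually hf hcf hmono hh (hcP h hh) hη)).exists
  exact h1.trans h2

/-- If the forward slopes at short lengths are `≥ c`, so is every backward slope. -/
theorem slopeM_ge_of_eventually_slopeP_ge {f : X → ℝ → ℝ} (hf : SubQuadLoc f) {x : X} {t : ℝ}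
    (hcf : ContinuousAt (fun z : X × ℝ => f z.1 z.2) (x, t))
    (hmono : ∀ (y : X) (s l₁ l₂ : ℝ), 0 < l₁ → l₁ ≤ l₂ → slopeM l₁ f y s ≤ slopeM l₂ f y s)
    (hcM : ∀ h : ℝ, 0 < h → ContinuousAt (fun z : X × ℝ => envM h f z.1 z.2) (x, t))
    {c : ℝ} (hc : ∃ᶠ l in 𝓝[>] (0 : ℝ), c ≤ slopeP l f x t) {h : ℝ} (hh : 0 < h) :
    c ≤ slopeM h f x t := by
  refine le_of_forall_pos_le_add fun η hη => ?_
  obtain ⟨l, h1, h2⟩ :=
    (hc.and_eventually (slopeP_le_slopeM_eventually hf hcf hmono hh (hcM h hh) hη)).exists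
  exact h1.trans h2

end Slopes

/-! ### Functions with path convexity / concavity -/

section Path

variable {X : Type*} [NormedAddCommGroup X] [InnerProductSpace ℝ X]

/-- Monotone forward slopes, in the shape of the hypotheses of `rigid_affine_env`. -/
theorem slope_monoP {v : X → ℝ → ℝ} (hc : Continuous (fun z : X × ℝ => v z.1 z.2))
    (hg : SubQuadLoc v) (hP : PathConvexP v) (x : X) (t l₁ l₂ : ℝ) (h1 : 0 < l₁) (h12 : l₁ ≤ l₂) :
    slopeP l₁ v x t ≤ slopeP l₂ v x t :=
  slopeP_mono_of_convexOn (I := Set.Icc (t - 1) (t + 1))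
    (Icc_mem_nhds (by linarith) (by linarith)) hc.continuousAt (hg.on_Icc _ _)
    (hP.convexOn_envP x t) h1 h12

/-- Monotone backward slopes, in the shape of the hypotheses of `rigid_affine_env`. -/
theorem slope_monoM {v : X → ℝ → ℝ} (hc : Continuous (fun z : X × ℝ => v z.1 z.2))
    (hg : SubQuadLoc v) (hM : PathConcaveM v) (x : X) (t l₁ l₂ : ℝ) (h1 : 0 < l₁) (h12 : l₁ ≤ l₂) :
    slopeM l₁ v x t ≤ slopeM l₂ v x t :=
  slopeM_mono_of_concaveOn (I := Set.Icc (t - 1) (t + 1))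
    (Icc_mem_nhds (by linarith) (by linarith)) hc.continuousAt (hg.on_Icc _ _)
    (hM.concaveOn_envM x t) h1 h12

omit [InnerProductSpace ℝ X] in
/-- Continuity of the centre map of the forward envelope at a fixed positive length. -/
theorem slope_continuous_envP [ProperSpace X] {v : X → ℝ → ℝ}
    (hc : Continuous (fun z : X × ℝ => v z.1 z.2)) (hg : SubQuadLoc v) {h : ℝ} (hh : 0 < h) :
    Continuous (fun z : X × ℝ => envP h v z.1 z.2) := by
  rw [continuous_iff_continuousAt]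
  rintro ⟨x, t⟩
  exact tendsto_envP (F := 𝓝 ((x, t) : X × ℝ)) (I := Set.Icc (t + h - 1) (t + h + 1))
    (Icc_mem_nhds (by linarith) (by linarith)) (fun y => hc.continuousAt) (hg.on_Icc _ _) hh
    (continuous_fst.tendsto _) (continuous_snd.tendsto _) tendsto_const_nhds

omit [InnerProductSpace ℝ X] in
/-- Continuity of the centre map of the backward envelope at a fixed positive length. -/
theorem slope_continuous_envM [ProperSpace X] {v : X → ℝ → ℝ}
    (hc : Continuous (fun z : X × ℝ => v z.1 z.2)) (hg : SubQuadLoc v) {h : ℝ} (hh : 0 < h) :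
    Continuous (fun z : X × ℝ => envM h v z.1 z.2) := by
  rw [continuous_iff_continuousAt]
  rintro ⟨x, t⟩
  exact tendsto_envM (F := 𝓝 ((x, t) : X × ℝ)) (I := Set.Icc (t - h - 1) (t - h + 1))
    (Icc_mem_nhds (by linarith) (by linarith)) (fun y => hc.continuousAt) (hg.on_Icc _ _) hh
    (continuous_fst.tendsto _) (continuous_snd.tendsto _) tendsto_const_nhds

omit [InnerProductSpace ℝ X] in
/-- Continuity of the forward slope at a fixed positive length. -/
theorem slope_continuous_slopeP [ProperSpace X] {v : X → ℝ → ℝ}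
    (hc : Continuous (fun z : X × ℝ => v z.1 z.2)) (hg : SubQuadLoc v) {h : ℝ} (hh : 0 < h) :
    Continuous (fun z : X × ℝ => slopeP h v z.1 z.2) :=
  ((slope_continuous_envP hc hg hh).sub hc).div_const h

omit [InnerProductSpace ℝ X] in
/-- Continuity of the backward slope at a fixed positive length. -/
theorem slope_continuous_slopeM [ProperSpace X] {v : X → ℝ → ℝ}
    (hc : Continuous (fun z : X × ℝ => v z.1 z.2)) (hg : SubQuadLoc v) {h : ℝ} (hh : 0 < h) :
    Continuous (fun z : X × ℝ => slopeM h v z.1 z.2) :=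
  (hc.sub (slope_continuous_envM hc hg hh)).div_const h

/-- Paper (4.12) for a function with forward path convexity:
`limsup_{l → 0+} S^-_l v (z) ≤ S^+_h v (z)` for every `h > 0`, in `η`-form. -/
theorem slope_orderP [ProperSpace X] {v : X → ℝ → ℝ}
    (hc : Continuous (fun z : X × ℝ => v z.1 z.2)) (hg : SubQuadLoc v) (hP : PathConvexP v)
    (x : X) (t : ℝ) {h : ℝ} (hh : 0 < h) {η : ℝ} (hη : 0 < η) :
    ∀ᶠ l in 𝓝[>] (0 : ℝ), slopeM l v x t ≤ slopeP h v x t + η :=
  slopeM_le_slopeP_eventually hg hc.continuousAt (slope_monoP hc hg hP) hh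
    (slope_continuous_envP hc hg hh).continuousAt hη

/-- Mirror image of `slope_orderP`. -/
theorem slope_orderM [ProperSpace X] {v : X → ℝ → ℝ}
    (hc : Continuous (fun z : X × ℝ => v z.1 z.2)) (hg : SubQuadLoc v) (hM : PathConcaveM v)
    (x : X) (t : ℝ) {h : ℝ} (hh : 0 < h) {η : ℝ} (hη : 0 < η) :
    ∀ᶠ l in 𝓝[>] (0 : ℝ), slopeP l v x t ≤ slopeM h v x t + η :=
  slopeP_le_slopeM_eventually hg hc.continuousAt (slope_monoM hc hg hM) hh
    (slope_continuous_envM hc hg hh).continuousAt hη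

theorem slope_frequently_of_forall {P : ℝ → Prop} {l0 : ℝ} (h0 : 0 < l0)
    (h : ∀ l, 0 < l → l ≤ l0 → P l) : ∃ᶠ l in 𝓝[>] (0 : ℝ), P l := by
  apply Filter.Eventually.frequently
  filter_upwards [Ioo_mem_nhdsGT h0] with l hl
  exact h l hl.1 hl.2.le

/-- Paper (4.12): a lower bound for the short backward slopes is a lower bound for all forward
slopes. -/
theorem slope_h44a [ProperSpace X] {v : X → ℝ → ℝ}
    (hc : Continuous (fun z : X × ℝ => v z.1 z.2)) (hg : SubQuadLoc v) (hP : PathConvexP v) :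
    ∀ (x : X) (t Λ ℓ0 : ℝ), 0 < ℓ0 → (∀ ℓ, 0 < ℓ → ℓ ≤ ℓ0 → Λ ≤ slopeM ℓ v x t) →
      ∀ ℓ, 0 < ℓ → Λ ≤ slopeP ℓ v x t := by
  intro x t Λ ℓ0 h0 hΛ ℓ hℓ
  exact slopeP_ge_of_eventually_slopeM_ge hg hc.continuousAt (slope_monoP hc hg hP)
    (fun h hh => (slope_continuous_envP hc hg hh).continuousAt)
    (slope_frequently_of_forall h0 hΛ) hℓ

/-- Mirror image of `slope_h44a`. -/
theorem slope_h44b [ProperSpace X] {v : X → ℝ → ℝ}
    (hc : Continuous (fun z : X × ℝ => v z.1 z.2)) (hg : SubQuadLoc v) (hM : PathConcaveM v) :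
    ∀ (x : X) (t Λ ℓ0 : ℝ), 0 < ℓ0 → (∀ ℓ, 0 < ℓ → ℓ ≤ ℓ0 → Λ ≤ slopeP ℓ v x t) →
      ∀ ℓ, 0 < ℓ → Λ ≤ slopeM ℓ v x t := by
  intro x t Λ ℓ0 h0 hΛ ℓ hℓ
  exact slopeM_ge_of_eventually_slopeP_ge hg hc.continuousAt (slope_monoM hc hg hM)
    (fun h hh => (slope_continuous_envM hc hg hh).continuousAt)
    (slope_frequently_of_forall h0 hΛ) hℓ

/-- The common limit (paper (4.13)), as equality of the sets of lower bounds. -/
theorem slope_lowerBounds_eq [ProperSpace X] {v : X → ℝ → ℝ}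
    (hc : Continuous (fun z : X × ℝ => v z.1 z.2)) (hg : SubQuadLoc v) (hP : PathConvexP v)
    (hM : PathConcaveM v) (x : X) (t : ℝ) :
    lowerBounds ((fun l => slopeP l v x t) '' Set.Ioi 0) =
      lowerBounds ((fun l => slopeM l v x t) '' Set.Ioi 0) := by
  ext c
  constructor
  · rintro hcP _ ⟨l, hl, rfl⟩
    exact slope_h44b hc hg hM x t c 1 one_pos (fun ℓ h0 _ => hcP ⟨ℓ, h0, rfl⟩) l hl
  · rintro hcM _ ⟨l, hl, rfl⟩
    exact slope_h44a hc hg hP x t c 1 one_pos (fun ℓ h0 _ => hcM ⟨ℓ, h0, rfl⟩) l hl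

/-- The common limit, as equality of the two infima (both are `sInf` of sets which are bounded
below simultaneously; in the unbounded case both sides are the junk value `0`). -/
theorem slope_sInf_eq [ProperSpace X] {v : X → ℝ → ℝ}
    (hc : Continuous (fun z : X × ℝ => v z.1 z.2)) (hg : SubQuadLoc v) (hP : PathConvexP v)
    (hM : PathConcaveM v) (x : X) (t : ℝ) :
    sInf ((fun l => slopeP l v x t) '' Set.Ioi 0) = sInf ((fun l => slopeM l v x t) '' Set.Ioi 0) := by
  have hlb := slope_lowerBounds_eq hc hg hP hM x t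
  have hne1 : ((fun l => slopeP l v x t) '' Set.Ioi 0).Nonempty := ⟨_, 1, Set.mem_Ioi.2 one_pos, rfl⟩
  have hne2 : ((fun l => slopeM l v x t) '' Set.Ioi 0).Nonempty := ⟨_, 1, Set.mem_Ioi.2 one_pos, rfl⟩
  by_cases hb : BddBelow ((fun l => slopeP l v x t) '' Set.Ioi 0)
  · have hb2 : BddBelow ((fun l => slopeM l v x t) '' Set.Ioi 0) := by
      obtain ⟨c, hcb⟩ := hb
      exact ⟨c, hlb ▸ hcb⟩
    apply le_antisymm
    · apply le_csInf hne2
      have : sInf ((fun l => slopeP l v x t) '' Set.Ioi 0) ∈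
          lowerBounds ((fun l => slopeM l v x t) '' Set.Ioi 0) :=
        hlb ▸ (fun a ha => csInf_le hb ha)
      exact this
    · apply le_csInf hne1
      have : sInf ((fun l => slopeM l v x t) '' Set.Ioi 0) ∈
          lowerBounds ((fun l => slopeP l v x t) '' Set.Ioi 0) :=
        hlb.symm ▸ (fun a ha => csInf_le hb2 ha)
      exact this
  · have hb2 : ¬ BddBelow ((fun l => slopeM l v x t) '' Set.Ioi 0) := by
      rintro ⟨c, hcb⟩
      exact hb ⟨c, hlb.symm ▸ hcb⟩
    rw [Real.sInf_of_not_bddBelow hb, Real.sInf_of_not_bddBelow hb2]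

/-- Constant slopes at all lengths have the same constant (used in Section 8). -/
theorem slope_const_eq [ProperSpace X] {v : X → ℝ → ℝ}
    (hc : Continuous (fun z : X × ℝ => v z.1 z.2)) (hg : SubQuadLoc v) (hP : PathConvexP v)
    (hM : PathConcaveM v) {x : X} {t Bp Bm : ℝ} (hBp : ∀ l, 0 < l → slopeP l v x t = Bp)
    (hBm : ∀ l, 0 < l → slopeM l v x t = Bm) : Bp = Bm := by
  apply le_antisymm
  · have := slope_h44b hc hg hM x t Bp 1 one_pos (fun ℓ h0 _ => (hBp ℓ h0).ge) 1 one_pos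
    rwa [hBm 1 one_pos] at this
  · have := slope_h44a hc hg hP x t Bm 1 one_pos (fun ℓ h0 _ => (hBm ℓ h0).ge) 1 one_pos
    rwa [hBp 1 one_pos] at this

/-- Quantitative version of `slope_const_eq`: if both slopes vary by at most `η` over all of
`(0, ρ]`, then any forward and any backward slope at lengths `≤ ρ` differ by at most `η`. -/
theorem slope_near_const [ProperSpace X] {v : X → ℝ → ℝ}
    (hc : Continuous (fun z : X × ℝ => v z.1 z.2)) (hg : SubQuadLoc v) (hP : PathConvexP v)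
    (hM : PathConcaveM v) {x : X} {t ρ η : ℝ} (hρ : 0 < ρ)
    (hvP : ∀ l, 0 < l → l ≤ ρ → slopeP ρ v x t - η ≤ slopeP l v x t)
    (hvM : ∀ l, 0 < l → l ≤ ρ → slopeM ρ v x t - η ≤ slopeM l v x t) :
    |slopeP ρ v x t - slopeM ρ v x t| ≤ η := by
  rw [abs_le]
  constructor
  · have := slope_h44a hc hg hP x t _ ρ hρ hvM ρ hρ
    linarith
  · have := slope_h44b hc hg hM x t _ ρ hρ hvP ρ hρ
    linarith

end Path

end Claimed.Agent.R330
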