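import Mathlib
import Claimed.Agent.R330.PartBDefs

/-!
# Row 330, package L2a: dyadic chains of fits (paper Lemma 4.2, first half of the proof)

The two elementary comparisons of fits (same centre, radii within a factor two; displaced
centre, equal radii) enter as the abstract hypotheses `FitStep`, `FitShift`.  This file derives
the logarithmic drift of the fit parameters along dyadic chains.  Owner: helper217.
-/

namespace Claimed.Agent.R330

open scoped RealInnerProductSpace

variable {X : Type*} [NormedAddCommGroup X] [InnerProductSpace ℝ X]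

/-- Same-centre comparison of fits with radii within a factor two. -/
def FitStep (C₀ C₁ : ℝ) (v : X → ℝ → ℝ) : Prop :=
  ∀ (x : X) (t R R' : ℝ) (p : X) (a : ℝ) (p' : X) (a' : ℝ), 0 < R → R ≤ R' → R' ≤ 2 * R →
    IsFit C₀ v x t R p a → IsFit C₀ v x t R' p' a' → ‖p - p'‖ + |a - a'| ≤ C₁

/-- Displaced-centre comparison of fits with equal radii: the second centre lies in the quarter
of the sheared box of the first fit. -/
def FitShift (C₀ C₂ : ℝ) (v : X → ℝ → ℝ) : Prop :=
  ∀ (x : X) (t : ℝ) (x' : X) (t' R : ℝ) (p : X) (a : ℝ) (p' : X) (a' : ℝ), 0 < R →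
    |t' - t| ≤ R / 4 → ‖x' - x - (t' - t) • p‖ ≤ R / 4 →
    IsFit C₀ v x t R p a → IsFit C₀ v x' t' R p' a' → ‖p - p'‖ + |a - a'| ≤ C₂

omit [InnerProductSpace ℝ X] in
theorem fitch_tri (p p' p'' : X) (a a' a'' : ℝ) :
    ‖p - p'‖ + |a - a'| ≤ (‖p - p''‖ + |a - a''|) + (‖p'' - p'‖ + |a'' - a'|) := by
  have h1 : ‖p - p'‖ ≤ ‖p - p''‖ + ‖p'' - p'‖ := norm_sub_le_norm_sub_add_norm_sub p p'' p'
  have h2 : |a - a'| ≤ |a - a''| + |a'' - a'| := abs_sub_le a a'' a'
  linarith

theorem fitch_chain_aux {C₀ C₁ : ℝ} {v : X → ℝ → ℝ} (hfits : HasFits C₀ v)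
    (hstep : FitStep C₀ C₁ v) (hC1 : 0 ≤ C₁) (x : X) (t : ℝ) :
    ∀ (n : ℕ) (r R : ℝ) (p : X) (a : ℝ) (p' : X) (a' : ℝ), 0 < r → r ≤ R → R ≤ 2 ^ n * r →
      IsFit C₀ v x t r p a → IsFit C₀ v x t R p' a' →
      ‖p - p'‖ + |a - a'| ≤ C₁ * ((n : ℝ) + 1) := by
  intro n
  induction n with
  | zero =>
    intro r R p a p' a' hr hrR hR h1 h2
    have := hstep x t r R p a p' a' hr hrR (by simp at hR; linarith) h1 h2
    simpa using this
  | succ n ih =>
    intro r R p a p' a' hr hrR hR h1 h2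
    by_cases hc : R ≤ 2 * r
    · have := hstep x t r R p a p' a' hr hrR hc h1 h2
      have h3 : C₁ ≤ C₁ * (((n + 1 : ℕ) : ℝ) + 1) := by
        have : (1 : ℝ) ≤ ((n + 1 : ℕ) : ℝ) + 1 := by
          have : (0 : ℝ) ≤ ((n + 1 : ℕ) : ℝ) := Nat.cast_nonneg _
          linarith
        nlinarith
      linarith
    · have hc := not_le.1 hc
      obtain ⟨p'', a'', h3⟩ := hfits x t (R / 2) (by linarith)
      have e1 := ih r (R / 2) p a p'' a'' hr (by linarith)
        (by rw [pow_succ] at hR; linarith) h1 h3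
      have e2 := hstep x t (R / 2) R p'' a'' p' a' (by linarith) (by linarith) (by linarith) h3 h2
      have e3 := fitch_tri p p' p'' a a' a''
      push_cast
      nlinarith

/-- Dyadic chain: the parameters of two fits at one centre differ at most logarithmically in the
ratio of the radii. -/
theorem fitch_chain_le {C₀ C₁ : ℝ} {v : X → ℝ → ℝ} (hfits : HasFits C₀ v)
    (hstep : FitStep C₀ C₁ v) (hC1 : 0 ≤ C₁) {x : X} {t r R : ℝ} {p : X} {a : ℝ} {p' : X}
    {a' : ℝ} (hr : 0 < r) (hrR : r ≤ R) (h1 : IsFit C₀ v x t r p a)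
    (h2 : IsFit C₀ v x t R p' a') :
    ‖p - p'‖ + |a - a'| ≤ C₁ * (2 + Real.log (R / r) / Real.log 2) := by
  have hR : 0 < R := lt_of_lt_of_le hr hrR
  have hq : 1 ≤ R / r := by rw [le_div_iff₀ hr]; linarith
  have hlog2 : 0 < Real.log 2 := Real.log_pos (by norm_num)
  have hlq : 0 ≤ Real.log (R / r) / Real.log 2 := div_nonneg (Real.log_nonneg hq) hlog2.le
  set n : ℕ := ⌈Real.log (R / r) / Real.log 2⌉₊ with hn
  have hn1 : Real.log (R / r) / Real.log 2 ≤ n := Nat.le_ceil _
  have hn2 : (n : ℝ) < Real.log (R / r) / Real.log 2 + 1 := Nat.ceil_lt_add_one hlq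
  have hpow : R ≤ 2 ^ n * r := by
    have h3 : Real.log (R / r) ≤ n * Real.log 2 := by
      rwa [div_le_iff₀ hlog2] at hn1
    have h4 : R / r ≤ 2 ^ n := by
      have h5 : Real.log (R / r) ≤ Real.log ((2 : ℝ) ^ n) := by
        rw [Real.log_pow]; exact h3
      exact (Real.log_le_log_iff (by positivity) (by positivity)).1 h5
    rwa [div_le_iff₀ hr] at h4
  have := fitch_chain_aux hfits hstep hC1 x t n r R p a p' a' hr hrR hpow h1 h2
  have h6 : C₁ * ((n : ℝ) + 1) ≤ C₁ * (2 + Real.log (R / r) / Real.log 2) :=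
    mul_le_mul_of_nonneg_left (by linarith) hC1
  linarith

/-- Dyadic chain, symmetric form. -/
theorem fitch_chain {C₀ C₁ : ℝ} {v : X → ℝ → ℝ} (hfits : HasFits C₀ v)
    (hstep : FitStep C₀ C₁ v) (hC1 : 0 ≤ C₁) {x : X} {t r R : ℝ} {p : X} {a : ℝ} {p' : X}
    {a' : ℝ} (hr : 0 < r) (hR : 0 < R) (h1 : IsFit C₀ v x t r p a)
    (h2 : IsFit C₀ v x t R p' a') :
    ‖p - p'‖ + |a - a'| ≤ C₁ * (2 + |Real.log R - Real.log r| / Real.log 2) := by
  have hlog2 : 0 < Real.log 2 := Real.log_pos (by norm_num)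
  rcases le_total r R with h | h
  · have := fitch_chain_le hfits hstep hC1 hr h h1 h2
    rw [Real.log_div hR.ne' hr.ne'] at this
    have h3 : Real.log R - Real.log r ≤ |Real.log R - Real.log r| := le_abs_self _
    have h4 : C₁ * (2 + (Real.log R - Real.log r) / Real.log 2)
        ≤ C₁ * (2 + |Real.log R - Real.log r| / Real.log 2) := by
      apply mul_le_mul_of_nonneg_left _ hC1
      have := div_le_div_of_nonneg_right h3 hlog2.le
      linarith
    linarith
  · have := fitch_chain_le hfits hstep hC1 hR h h2 h1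
    rw [Real.log_div hr.ne' hR.ne'] at this
    have h3 : Real.log r - Real.log R ≤ |Real.log R - Real.log r| := by
      rw [abs_sub_comm]; exact le_abs_self _
    have h4 : C₁ * (2 + (Real.log r - Real.log R) / Real.log 2)
        ≤ C₁ * (2 + |Real.log R - Real.log r| / Real.log 2) := by
      apply mul_le_mul_of_nonneg_left _ hC1
      have := div_le_div_of_nonneg_right h3 hlog2.le
      linarith
    rw [norm_sub_rev, abs_sub_comm] at this
    linarith

/-- `1 / log 2 ≤ 3 / 2`. -/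
theorem fitch_inv_log_two : 1 / Real.log 2 ≤ 3 / 2 := by
  have h : (0.6931471803 : ℝ) < Real.log 2 := Real.log_two_gt_d9
  rw [div_le_iff₀ (by linarith)]
  linarith

/-- Dyadic chain with the constant `3/2` instead of `1 / log 2`. -/
theorem fitch_chain' {C₀ C₁ : ℝ} {v : X → ℝ → ℝ} (hfits : HasFits C₀ v)
    (hstep : FitStep C₀ C₁ v) (hC1 : 0 ≤ C₁) {x : X} {t r R : ℝ} {p : X} {a : ℝ} {p' : X}
    {a' : ℝ} (hr : 0 < r) (hR : 0 < R) (h1 : IsFit C₀ v x t r p a)
    (h2 : IsFit C₀ v x t R p' a') :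
    ‖p - p'‖ + |a - a'| ≤ C₁ * (2 + 3 / 2 * |Real.log R - Real.log r|) := by
  have := fitch_chain hfits hstep hC1 hr hR h1 h2
  have h3 : |Real.log R - Real.log r| / Real.log 2 ≤ 3 / 2 * |Real.log R - Real.log r| := by
    have := mul_le_mul_of_nonneg_right fitch_inv_log_two (abs_nonneg (Real.log R - Real.log r))
    calc |Real.log R - Real.log r| / Real.log 2
        = 1 / Real.log 2 * |Real.log R - Real.log r| := by ring
      _ ≤ _ := this
  have h4 := mul_le_mul_of_nonneg_left (add_le_add_left h3 2) hC1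
  linarith

/-- Bound (4.7) of the paper: fits at the centring point. -/
theorem fitch_center_bound {C₀ C₁ : ℝ} {v : X → ℝ → ℝ} (hfits : HasFits C₀ v)
    (hstep : FitStep C₀ C₁ v) (hC1 : 0 ≤ C₁) {xc : X} {tc : ℝ} (hc : CenteredAt C₀ v xc tc)
    {r : ℝ} {p : X} {a : ℝ} (hr : 0 < r) (h1 : IsFit C₀ v xc tc r p a) :
    ‖p‖ + |a| ≤ C₁ * (2 + 3 / 2 * |Real.log r|) := by
  have := fitch_chain' hfits hstep hC1 hr one_pos h1 hc.2
  simpa [abs_neg] using this

end Claimed.Agent.R330
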