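import Mathlib
import Claimed.Agent.R330.FitChain

/-!
# Row 330, package L2a: growth and parameter bounds on boxes (paper Lemma 4.2, (4.2), (4.3))

For a function with fits that is centred at `(0, tc)`, `|tc| ≤ 1`, we prove the growth bound
`|v| ≤ Cg K L(K)^2` on the box `|x|, |t| ≤ K` and the bound `|p| + |a| ≤ Cp (L(K) + |log r|)` for
every fit of radius `r` centred in that box, `L(K) = 1 + log K`.  The constants are explicit
functions of the constants of the two elementary comparisons.  Owner: helper217.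
-/

namespace Claimed.Agent.R330

open scoped RealInnerProductSpace

variable {X : Type*} [NormedAddCommGroup X] [InnerProductSpace ℝ X]

/-- The enclosing radius factor `A`. -/
noncomputable def fitboxA (C₁ : ℝ) : ℝ := 2 * (4 + 24 * C₁) + 16 * (12 * C₁) ^ 2 + 8

/-- The slope constant `P`: fits of radius `A K L(K)` at the centre have parameters `≤ P L(K)`. -/
noncomputable def fitboxP (C₁ : ℝ) : ℝ := C₁ * (3 + 3 / 2 * Real.log (fitboxA C₁))

/-- The growth constant. -/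
noncomputable def fitboxCg (C₀ C₁ : ℝ) : ℝ :=
  C₀ * fitboxA C₁ + 3 * fitboxP C₁ + fitboxP C₁ ^ 2

/-- The parameter constant. -/
noncomputable def fitboxCp (C₁ C₂ : ℝ) : ℝ := 2 * fitboxP C₁ + C₂ + 2 * C₁

theorem fitbox_A_ge {C₁ : ℝ} (hC1 : 0 ≤ C₁) : 8 ≤ fitboxA C₁ := by
  unfold fitboxA; nlinarith [sq_nonneg (12 * C₁)]

theorem fitbox_log_le_two_sqrt {A : ℝ} (hA : 0 < A) : Real.log A ≤ 2 * Real.sqrt A := by
  have hs : 0 < Real.sqrt A := Real.sqrt_pos.2 hA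
  have h1 : Real.log A = 2 * Real.log (Real.sqrt A) := by
    rw [Real.log_sqrt hA.le]; ring
  have h2 := Real.log_le_sub_one_of_pos hs
  linarith

theorem fitbox_A_spec {C₁ : ℝ} (hC1 : 0 ≤ C₁) :
    4 + 24 * C₁ + 12 * C₁ * Real.log (fitboxA C₁) ≤ fitboxA C₁ := by
  have hA8 := fitbox_A_ge hC1
  have hA : 0 < fitboxA C₁ := by linarith
  set A := fitboxA C₁ with hAdef
  set s := Real.sqrt A with hs
  have hs0 : 0 ≤ s := Real.sqrt_nonneg A
  have hss : s * s = A := Real.mul_self_sqrt hA.le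
  have hlog : Real.log A ≤ 2 * s := fitbox_log_le_two_sqrt hA
  have hβ : (4 * (12 * C₁)) ≤ s := by
    rw [hs]
    apply Real.le_sqrt_of_sq_le
    rw [hAdef]; unfold fitboxA; nlinarith [sq_nonneg (12 * C₁)]
  have h1 : 12 * C₁ * Real.log A ≤ 12 * C₁ * (2 * s) :=
    mul_le_mul_of_nonneg_left hlog (by linarith)
  have h2 : 12 * C₁ * (2 * s) ≤ A / 2 := by nlinarith
  have h3 : 4 + 24 * C₁ ≤ A / 2 := by
    rw [hAdef]; unfold fitboxA; nlinarith [sq_nonneg (12 * C₁)]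
  linarith

theorem fitbox_logA_nonneg {C₁ : ℝ} (hC1 : 0 ≤ C₁) : 0 ≤ Real.log (fitboxA C₁) :=
  Real.log_nonneg (by linarith [fitbox_A_ge hC1])

theorem fitbox_P_nonneg {C₁ : ℝ} (hC1 : 0 ≤ C₁) : 0 ≤ fitboxP C₁ := by
  unfold fitboxP
  have := fitbox_logA_nonneg hC1
  positivity

theorem fitbox_Cg_nonneg {C₀ C₁ : ℝ} (hC0 : 0 ≤ C₀) (hC1 : 0 ≤ C₁) : 0 ≤ fitboxCg C₀ C₁ := by
  unfold fitboxCg
  have := fitbox_P_nonneg hC1
  have := fitbox_A_ge hC1
  have : 0 ≤ fitboxA C₁ := by linarith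
  positivity

theorem fitbox_Cp_nonneg {C₁ C₂ : ℝ} (hC1 : 0 ≤ C₁) (hC2 : 0 ≤ C₂) : 0 ≤ fitboxCp C₁ C₂ := by
  unfold fitboxCp
  have := fitbox_P_nonneg hC1
  positivity

/-- `A ≥ 4 + 8 P`. -/
theorem fitbox_A_P {C₁ : ℝ} (hC1 : 0 ≤ C₁) : 4 + 8 * fitboxP C₁ ≤ fitboxA C₁ := by
  have := fitbox_A_spec hC1
  unfold fitboxP
  linarith

/-- Elementary facts on the enclosing radius `R = A K L(K)`. -/
theorem fitbox_radius {A K : ℝ} (hA : 8 ≤ A) (hK : 2 ≤ K) :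
    1 ≤ 1 + Real.log K ∧ 1 ≤ A * K * (1 + Real.log K) ∧
      Real.log (A * K * (1 + Real.log K)) ≤ Real.log A + 2 * Real.log K := by
  have hlogK : 0 ≤ Real.log K := Real.log_nonneg (by linarith)
  have hL : 1 ≤ 1 + Real.log K := by linarith
  have hA0 : 0 < A := by linarith
  have hK0 : 0 < K := by linarith
  have hL0 : 0 < 1 + Real.log K := by linarith
  refine ⟨hL, ?_, ?_⟩
  · have : 1 ≤ A * K := by nlinarith
    nlinarith
  · rw [Real.log_mul (by positivity) hL0.ne', Real.log_mul hA0.ne' hK0.ne']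
    have := Real.log_le_sub_one_of_pos hL0
    linarith

/-- Parameters of a fit of the enclosing radius at the centring point. -/
theorem fitbox_center_param {C₀ C₁ : ℝ} {v : X → ℝ → ℝ} (hfits : HasFits C₀ v)
    (hstep : FitStep C₀ C₁ v) (hC1 : 0 ≤ C₁) {xc : X} {tc : ℝ} (hc : CenteredAt C₀ v xc tc)
    {K : ℝ} (hK : 2 ≤ K) {p : X} {a : ℝ}
    (h1 : IsFit C₀ v xc tc (fitboxA C₁ * K * (1 + Real.log K)) p a) :
    ‖p‖ + |a| ≤ fitboxP C₁ * (1 + Real.log K) := by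
  obtain ⟨hL, hR1, hlogR⟩ := fitbox_radius (fitbox_A_ge hC1) hK
  have hlogK : 0 ≤ Real.log K := Real.log_nonneg (by linarith)
  have hlogA := fitbox_logA_nonneg hC1
  have h2 := fitch_center_bound hfits hstep hC1 hc (by linarith) h1
  rw [abs_of_nonneg (Real.log_nonneg hR1)] at h2
  have h3 : C₁ * (2 + 3 / 2 * Real.log (fitboxA C₁ * K * (1 + Real.log K)))
      ≤ C₁ * ((3 + 3 / 2 * Real.log (fitboxA C₁)) * (1 + Real.log K)) := by
    apply mul_le_mul_of_nonneg_left _ hC1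
    nlinarith
  unfold fitboxP
  calc ‖p‖ + |a| ≤ _ := h2
    _ ≤ _ := h3
    _ = _ := by ring

/-- The box `|x|, |t| ≤ K` lies in the quarter of the sheared box of radius `A K L(K)` of any fit
at the centring point `(0, tc)`. -/
theorem fitbox_enclose {C₁ : ℝ} (hC1 : 0 ≤ C₁) {K tc : ℝ} (hK : 2 ≤ K) (htc : |tc| ≤ 1) {p : X}
    (hp : ‖p‖ ≤ fitboxP C₁ * (1 + Real.log K)) {x : X} {t : ℝ} (hx : ‖x‖ ≤ K) (ht : |t| ≤ K) :
    |t - tc| ≤ 2 * K ∧ |t - tc| ≤ fitboxA C₁ * K * (1 + Real.log K) / 4 ∧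
      ‖x - (t - tc) • p‖ ≤ fitboxA C₁ * K * (1 + Real.log K) / 4 := by
  have hA8 := fitbox_A_ge hC1
  have hAP := fitbox_A_P hC1
  have hP := fitbox_P_nonneg hC1
  have hlogK : 0 ≤ Real.log K := Real.log_nonneg (by linarith)
  set L := 1 + Real.log K with hLdef
  have hL : 1 ≤ L := by linarith
  have h1 : |t - tc| ≤ 2 * K := by
    have := abs_sub t tc
    linarith
  have hKL : K ≤ K * L := by nlinarith
  refine ⟨h1, ?_, ?_⟩
  · have : 8 * (K * L) ≤ fitboxA C₁ * (K * L) :=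
      mul_le_mul_of_nonneg_right hA8 (by positivity)
    nlinarith
  · have h2 : ‖x - (t - tc) • p‖ ≤ ‖x‖ + |t - tc| * ‖p‖ := by
      have := norm_sub_le x ((t - tc) • p)
      rwa [norm_smul, Real.norm_eq_abs] at this
    have h3 : |t - tc| * ‖p‖ ≤ 2 * K * (fitboxP C₁ * L) :=
      mul_le_mul h1 hp (norm_nonneg _) (by linarith)
    have h4 : (4 + 8 * fitboxP C₁) * (K * L) ≤ fitboxA C₁ * (K * L) :=
      mul_le_mul_of_nonneg_right hAP (by positivity)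
    nlinarith

/-- **Growth bound (4.2)** of the paper. -/
theorem fitbox_growth {C₀ C₁ : ℝ} (hC0 : 0 ≤ C₀) (hC1 : 0 ≤ C₁) {v : X → ℝ → ℝ}
    (hfits : HasFits C₀ v) (hstep : FitStep C₀ C₁ v) {tc : ℝ} (htc : |tc| ≤ 1)
    (hc : CenteredAt C₀ v 0 tc) :
    ∀ K : ℝ, 2 ≤ K → ∀ (x : X) (t : ℝ), ‖x‖ ≤ K → |t| ≤ K →
      |v x t| ≤ fitboxCg C₀ C₁ * K * (1 + Real.log K) ^ 2 := by
  intro K hK x t hx ht
  obtain ⟨hL, hR1, -⟩ := fitbox_radius (fitbox_A_ge hC1) hK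
  obtain ⟨p, a, hfit⟩ := hfits 0 tc (fitboxA C₁ * K * (1 + Real.log K)) (by linarith)
  have hpa := fitbox_center_param hfits hstep hC1 hc hK hfit
  have hP := fitbox_P_nonneg hC1
  have hA8 := fitbox_A_ge hC1
  set L := 1 + Real.log K with hLdef
  set P := fitboxP C₁ with hPdef
  set A := fitboxA C₁ with hAdef
  have hp : ‖p‖ ≤ P * L := by linarith [abs_nonneg a]
  have ha : |a| ≤ P * L := by linarith [norm_nonneg p]
  obtain ⟨hl2, hl, hh⟩ := fitbox_enclose hC1 hK htc hp hx ht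
  have hR4 : A * K * L / 4 ≤ A * K * L := by linarith
  have key := hfit x (t - tc) (hl.trans hR4) (hh.trans hR4)
  rw [zero_add, add_sub_cancel, hc.1, sub_zero] at key
  have h1 : |⟪p, x⟫| ≤ P * L * K :=
    (abs_real_inner_le_norm p x).trans (mul_le_mul hp hx (norm_nonneg _) (by positivity))
  have hpp : ‖p‖ ^ 2 ≤ (P * L) ^ 2 := pow_le_pow_left₀ (norm_nonneg _) hp 2
  have h2 : |(a - ‖p‖ ^ 2 / 2) * (t - tc)| ≤ (P * L + (P * L) ^ 2 / 2) * (2 * K) := by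
    rw [abs_mul]
    apply mul_le_mul _ hl2 (abs_nonneg _) (by positivity)
    have : |a - ‖p‖ ^ 2 / 2| ≤ |a| + |‖p‖ ^ 2 / 2| := abs_sub a _
    rw [abs_of_nonneg (by positivity : (0 : ℝ) ≤ ‖p‖ ^ 2 / 2)] at this
    linarith
  have h3 : |v x t| ≤ C₀ * (A * K * L) + P * L * K + (P * L + (P * L) ^ 2 / 2) * (2 * K) := by
    have e : v x t = (v x t - ⟪p, x⟫ - (a - ‖p‖ ^ 2 / 2) * (t - tc)) + ⟪p, x⟫
        + (a - ‖p‖ ^ 2 / 2) * (t - tc) := by ring
    rw [e]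
    refine (abs_add_three _ _ _).trans ?_
    linarith
  have hK0 : 0 ≤ K := by linarith
  have hLL : L ≤ L ^ 2 := by nlinarith
  have h4 : C₀ * (A * K * L) + P * L * K + (P * L + (P * L) ^ 2 / 2) * (2 * K)
      = (C₀ * A + 3 * P) * K * L + P ^ 2 * K * L ^ 2 := by ring
  have h5 : (C₀ * A + 3 * P) * K * L ≤ (C₀ * A + 3 * P) * K * L ^ 2 :=
    mul_le_mul_of_nonneg_left hLL (by positivity)
  unfold fitboxCg
  rw [← hPdef, ← hAdef]
  calc |v x t| ≤ _ := h3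
    _ = _ := h4
    _ ≤ (C₀ * A + 3 * P) * K * L ^ 2 + P ^ 2 * K * L ^ 2 := by linarith
    _ = _ := by ring

/-- **Parameter bound (4.3)** of the paper. -/
theorem fitbox_param {C₀ C₁ C₂ : ℝ} (hC1 : 0 ≤ C₁) (hC2 : 0 ≤ C₂) {v : X → ℝ → ℝ}
    (hfits : HasFits C₀ v) (hstep : FitStep C₀ C₁ v) (hshift : FitShift C₀ C₂ v) {tc : ℝ}
    (htc : |tc| ≤ 1) (hc : CenteredAt C₀ v 0 tc) :
    ∀ K : ℝ, 2 ≤ K → ∀ (x : X) (t : ℝ), ‖x‖ ≤ K → |t| ≤ K → ∀ r : ℝ, 0 < r →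
      ∀ (p : X) (a : ℝ), IsFit C₀ v x t r p a →
        ‖p‖ + |a| ≤ fitboxCp C₁ C₂ * (1 + Real.log K + |Real.log r|) := by
  intro K hK x t hx ht r hr p a hfit
  obtain ⟨hL, hR1, hlogR⟩ := fitbox_radius (fitbox_A_ge hC1) hK
  have hR0 : 0 < fitboxA C₁ * K * (1 + Real.log K) := by linarith
  obtain ⟨pR, aR, hfitR⟩ := hfits 0 tc (fitboxA C₁ * K * (1 + Real.log K)) hR0
  obtain ⟨pz, az, hfitz⟩ := hfits x t (fitboxA C₁ * K * (1 + Real.log K)) hR0
  have hpa := fitbox_center_param hfits hstep hC1 hc hK hfitR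
  have hP := fitbox_P_nonneg hC1
  have hlogA := fitbox_logA_nonneg hC1
  have hlogK : 0 ≤ Real.log K := Real.log_nonneg (by linarith)
  have hp : ‖pR‖ ≤ fitboxP C₁ * (1 + Real.log K) := by linarith [abs_nonneg aR]
  obtain ⟨-, hl, hh⟩ := fitbox_enclose hC1 hK htc hp hx ht
  have e1 := hshift 0 tc x t _ pR aR pz az hR0 hl (by simpa using hh) hfitR hfitz
  have e2 := fitch_chain' hfits hstep hC1 hr hR0 hfit hfitz
  have e3 : |Real.log (fitboxA C₁ * K * (1 + Real.log K)) - Real.log r|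
      ≤ Real.log (fitboxA C₁) + 2 * Real.log K + |Real.log r| := by
    have := abs_sub (Real.log (fitboxA C₁ * K * (1 + Real.log K))) (Real.log r)
    rw [abs_of_nonneg (Real.log_nonneg hR1)] at this
    linarith
  have e4 : ‖p‖ + |a| ≤ (‖p - pz‖ + |a - az|) + (‖pR - pz‖ + |aR - az|) + (‖pR‖ + |aR|) := by
    have h1 : ‖p‖ ≤ ‖p - pz‖ + ‖pR - pz‖ + ‖pR‖ := by
      have e : p = (p - pz) - (pR - pz) + pR := by abel
      calc ‖p‖ = ‖(p - pz) - (pR - pz) + pR‖ := by rw [← e]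
        _ ≤ ‖(p - pz) - (pR - pz)‖ + ‖pR‖ := norm_add_le _ _
        _ ≤ _ := by linarith [norm_sub_le (p - pz) (pR - pz)]
    have h2 : |a| ≤ |a - az| + |aR - az| + |aR| := by
      have e : a = (a - az) - (aR - az) + aR := by ring
      calc |a| = |(a - az) - (aR - az) + aR| := by rw [← e]
        _ ≤ |(a - az) - (aR - az)| + |aR| := abs_add_le _ _
        _ ≤ _ := by linarith [abs_sub (a - az) (aR - az)]
    linarith
  have e5 : C₁ * (2 + 3 / 2 * |Real.log (fitboxA C₁ * K * (1 + Real.log K)) - Real.log r|)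
      ≤ C₁ * (2 + 3 / 2 * (Real.log (fitboxA C₁) + 2 * Real.log K + |Real.log r|)) :=
    mul_le_mul_of_nonneg_left (by linarith) hC1
  have habs := abs_nonneg (Real.log r)
  have e6 : C₁ * (2 + 3 / 2 * (Real.log (fitboxA C₁) + 2 * Real.log K + |Real.log r|))
      ≤ fitboxP C₁ * (1 + Real.log K) + 2 * C₁ * |Real.log r| := by
    unfold fitboxP
    nlinarith [mul_nonneg hC1 hlogK, mul_nonneg hC1 habs, mul_nonneg hC1 hlogA,
      mul_nonneg (mul_nonneg hC1 hlogA) hlogK]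
  unfold fitboxCp
  nlinarith [mul_nonneg hP habs, mul_nonneg hC2 habs, mul_nonneg hC2 hlogK,
    mul_nonneg hC1 hlogK, mul_nonneg hC1 habs]

end Claimed.Agent.R330
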