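import Mathlib
import Claimed.Agent.R330.PartBDefs

/-!
# Row 330, L2a (paper Lemma 4.2): comparison of two fits

Only the fits are used (no equation).  `fitc_step` compares two fits at one centre whose radii
differ by a factor at most two, `fitc_shift` compares two fits of one radius at displaced
centres.  Owner: helper225.
-/

namespace Claimed.Agent.R330

open scoped RealInnerProductSpace

variable {X : Type*} [NormedAddCommGroup X] [InnerProductSpace ℝ X]

/-- If `|⟪q,h⟫| ≤ B` for all `‖h‖ ≤ ρ` then `‖q‖ ρ ≤ B`. -/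
theorem fitc_norm_le_of_inner {q : X} {ρ B : ℝ} (hρ : 0 ≤ ρ)
    (H : ∀ h : X, ‖h‖ ≤ ρ → |⟪q, h⟫| ≤ B) : ‖q‖ * ρ ≤ B := by
  by_cases hq : q = 0
  · have := H 0 (by simpa using hρ)
    simp only [inner_zero_right, abs_zero] at this
    simpa [hq] using this
  · have hq' : 0 < ‖q‖ := norm_pos_iff.2 hq
    have h1 : ‖(ρ / ‖q‖) • q‖ ≤ ρ := by
      rw [norm_smul, Real.norm_eq_abs, abs_of_nonneg (by positivity)]
      field_simp
      exact le_refl _
    have h2 := H _ h1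
    rw [inner_smul_right, real_inner_self_eq_norm_sq] at h2
    have h3 : ρ / ‖q‖ * ‖q‖ ^ 2 = ‖q‖ * ρ := by field_simp
    rw [h3] at h2
    exact le_trans (le_abs_self _) h2

/-- `⟪p,p'⟫` in terms of norms. -/
theorem fitc_inner_eq (p p' : X) : ⟪p, p'⟫ = (‖p‖ ^ 2 + ‖p'‖ ^ 2 - ‖p - p'‖ ^ 2) / 2 := by
  have := norm_sub_sq_real p p'
  linarith

/-- The constant of `fitc_step`. -/
noncomputable def fitcC1 (C₀ : ℝ) : ℝ := 6 * C₀ + 14 * C₀ ^ 2

/-- The constant of `fitc_shift`. -/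
noncomputable def fitcC2 (C₀ : ℝ) : ℝ := 18 * C₀ + 90 * C₀ ^ 2

theorem fitcC1_nonneg {C₀ : ℝ} (h : 0 ≤ C₀) : 0 ≤ fitcC1 C₀ := by unfold fitcC1; positivity

theorem fitcC2_nonneg {C₀ : ℝ} (h : 0 ≤ C₀) : 0 ≤ fitcC2 C₀ := by unfold fitcC2; positivity

/-- Two fits at one centre, radii `R ≤ R' ≤ 2R`. -/
theorem fitc_step {C₀ : ℝ} (hC₀ : 0 ≤ C₀) {v : X → ℝ → ℝ} {x : X} {t R R' : ℝ} {p p' : X}
    {a a' : ℝ} (hR : 0 < R) (hRR : R ≤ R') (hR2 : R' ≤ 2 * R)
    (h1 : IsFit C₀ v x t R p a) (h2 : IsFit C₀ v x t R' p' a') :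
    ‖p - p'‖ + |a - a'| ≤ fitcC1 C₀ := by
  -- the slopes
  have hp : ‖p - p'‖ ≤ 3 * C₀ := by
    have H : ∀ h : X, ‖h‖ ≤ R → |⟪p - p', h⟫| ≤ 3 * C₀ * R := by
      intro h hh
      have e1 := h1 h 0 (by simpa using hR.le) (by simpa using hh)
      have e2 := h2 h 0 (by simpa using (hR.le.trans hRR)) (by simpa using hh.trans hRR)
      simp only [add_zero, mul_zero, sub_zero] at e1 e2
      rw [inner_sub_left]
      rw [abs_le] at e1 e2 ⊢
      have : C₀ * R' ≤ 2 * C₀ * R := by nlinarith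
      constructor <;> linarith [e1.1, e1.2, e2.1, e2.2]
    have := fitc_norm_le_of_inner hR.le H
    nlinarith
  -- the time coefficients
  set c : ℝ := 1 / (1 + 3 * C₀) with hc
  have hden : 0 < 1 + 3 * C₀ := by linarith
  have hc0 : 0 < c := by positivity
  have hc1 : c ≤ 1 := by
    rw [hc, div_le_one hden]; linarith
  have hc3 : 3 * C₀ * c ≤ 1 := by
    rw [hc, mul_one_div, div_le_one hden]; linarith
  set lam : ℝ := c * R with hlam
  have hlam0 : 0 < lam := by positivity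
  have hlamR : lam ≤ R := by nlinarith
  have e1 := h1 (lam • p) lam (by rw [abs_of_pos hlam0]; exact hlamR) (by simpa using hR.le)
  have e2 := h2 (lam • p) lam (by rw [abs_of_pos hlam0]; exact hlamR.trans hRR) (by
    rw [← smul_sub, norm_smul, Real.norm_eq_abs, abs_of_pos hlam0]
    have : lam * ‖p - p'‖ ≤ lam * (3 * C₀) := mul_le_mul_of_nonneg_left hp hlam0.le
    have h3 : lam * (3 * C₀) = (3 * C₀ * c) * R := by rw [hlam]; ring
    nlinarith)
  rw [inner_smul_right] at e1 e2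
  rw [real_inner_self_eq_norm_sq] at e1
  rw [real_inner_comm, fitc_inner_eq p p'] at e2
  have key : |lam * (a - a' + ‖p - p'‖ ^ 2 / 2)| ≤ 3 * C₀ * R := by
    rw [abs_le] at e1 e2 ⊢
    have : C₀ * R' ≤ 2 * C₀ * R := by nlinarith
    constructor <;> nlinarith [e1.1, e1.2, e2.1, e2.2]
  rw [abs_mul, abs_of_pos hlam0] at key
  have key2 : |a - a' + ‖p - p'‖ ^ 2 / 2| ≤ 3 * C₀ * (1 + 3 * C₀) := by
    have h4 : lam * (1 + 3 * C₀) = R := by rw [hlam, hc]; field_simp
    have h5 : lam * |a - a' + ‖p - p'‖ ^ 2 / 2| ≤ lam * (3 * C₀ * (1 + 3 * C₀)) := by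
      calc lam * |a - a' + ‖p - p'‖ ^ 2 / 2| ≤ 3 * C₀ * R := key
        _ = lam * (3 * C₀ * (1 + 3 * C₀)) := by rw [← h4]; ring
    exact le_of_mul_le_mul_left h5 hlam0
  have hsq : ‖p - p'‖ ^ 2 ≤ 9 * C₀ ^ 2 := by nlinarith [norm_nonneg (p - p')]
  have ha : |a - a'| ≤ 3 * C₀ * (1 + 3 * C₀) + 9 * C₀ ^ 2 / 2 := by
    rw [abs_le] at key2 ⊢
    constructor <;> nlinarith [key2.1, key2.2, sq_nonneg ‖p - p'‖]
  unfold fitcC1
  nlinarith [sq_nonneg C₀]

/-- Two fits of one radius at displaced centres: the second centre lies in the quarter box of the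
first fit. -/
theorem fitc_shift {C₀ : ℝ} (hC₀ : 0 ≤ C₀) {v : X → ℝ → ℝ} {x x' : X} {t t' R : ℝ} {p p' : X}
    {a a' : ℝ} (hR : 0 < R) (ht : |t' - t| ≤ R / 4) (hx : ‖x' - x - (t' - t) • p‖ ≤ R / 4)
    (h1 : IsFit C₀ v x t R p a) (h2 : IsFit C₀ v x' t' R p' a') :
    ‖p - p'‖ + |a - a'| ≤ fitcC2 C₀ := by
  set τ : ℝ := t' - t with hτ
  set ξ : X := x' - x with hξ
  have hxx : x + ξ = x' := by rw [hξ]; abel
  have htt : t + τ = t' := by rw [hτ]; ring
  -- the first fit at the second centre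
  have e0 := h1 ξ τ (by linarith) (by linarith)
  rw [hxx, htt] at e0
  -- the slopes
  have hp : ‖p - p'‖ ≤ 6 * C₀ := by
    have H : ∀ h : X, ‖h‖ ≤ R / 2 → |⟪p - p', h⟫| ≤ 3 * C₀ * R := by
      intro h hh
      have e1 := h1 (ξ + h) τ (by linarith) (by
        have : ξ + h - τ • p = (ξ - τ • p) + h := by abel
        rw [this]
        calc ‖(ξ - τ • p) + h‖ ≤ ‖ξ - τ • p‖ + ‖h‖ := norm_add_le _ _
          _ ≤ R := by linarith)
      have e2 := h2 h 0 (by simpa using hR.le) (by simpa using hh.trans (by linarith))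
      rw [← add_assoc, hxx, htt, inner_add_right] at e1
      simp only [add_zero, mul_zero, sub_zero] at e2
      rw [inner_sub_left]
      rw [abs_le] at e0 e1 e2 ⊢
      constructor <;> linarith [e0.1, e0.2, e1.1, e1.2, e2.1, e2.2]
    have := fitc_norm_le_of_inner (by linarith : (0:ℝ) ≤ R / 2) H
    nlinarith
  -- the time coefficients
  set c : ℝ := 1 / (4 * (1 + 6 * C₀)) with hc
  have hden : 0 < 4 * (1 + 6 * C₀) := by linarith
  have hc0 : 0 < c := by positivity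
  have hc1 : c ≤ 1 / 4 := by
    rw [hc]
    apply one_div_le_one_div_of_le (by norm_num) (by linarith)
  have hc3 : 6 * C₀ * c ≤ 1 / 4 := by
    rw [hc, mul_one_div, div_le_iff₀ hden]; linarith
  set lam : ℝ := c * R with hlam
  have hlam0 : 0 < lam := by positivity
  have hlamR : lam ≤ R / 4 := by nlinarith
  have e2 := h2 (lam • p') lam (by rw [abs_of_pos hlam0]; linarith) (by simpa using hR.le)
  have e1 := h1 (ξ + lam • p') (τ + lam) (by
      calc |τ + lam| ≤ |τ| + |lam| := abs_add_le _ _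
        _ ≤ R := by rw [abs_of_pos hlam0]; linarith) (by
      have : ξ + lam • p' - (τ + lam) • p = (ξ - τ • p) - lam • (p - p') := by
        rw [add_smul, smul_sub]; abel
      rw [this]
      calc ‖(ξ - τ • p) - lam • (p - p')‖ ≤ ‖ξ - τ • p‖ + ‖lam • (p - p')‖ := norm_sub_le _ _
        _ = ‖ξ - τ • p‖ + lam * ‖p - p'‖ := by
            rw [norm_smul, Real.norm_eq_abs, abs_of_pos hlam0]
        _ ≤ R / 4 + lam * (6 * C₀) := by
            have := mul_le_mul_of_nonneg_left hp hlam0.le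
            linarith
        _ ≤ R := by
            have h3 : lam * (6 * C₀) = (6 * C₀ * c) * R := by rw [hlam]; ring
            nlinarith)
  rw [← add_assoc, hxx, ← add_assoc, htt, inner_add_right, inner_smul_right,
    fitc_inner_eq p p'] at e1
  rw [inner_smul_right, real_inner_self_eq_norm_sq] at e2
  have key : |lam * (a - a' - ‖p - p'‖ ^ 2 / 2)| ≤ 3 * C₀ * R := by
    rw [abs_le] at e0 e1 e2 ⊢
    constructor <;> nlinarith [e0.1, e0.2, e1.1, e1.2, e2.1, e2.2]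
  rw [abs_mul, abs_of_pos hlam0] at key
  have key2 : |a - a' - ‖p - p'‖ ^ 2 / 2| ≤ 12 * C₀ * (1 + 6 * C₀) := by
    have h4 : lam * (4 * (1 + 6 * C₀)) = R := by rw [hlam, hc]; field_simp
    have h5 : lam * |a - a' - ‖p - p'‖ ^ 2 / 2| ≤ lam * (12 * C₀ * (1 + 6 * C₀)) := by
      calc lam * |a - a' - ‖p - p'‖ ^ 2 / 2| ≤ 3 * C₀ * R := key
        _ = lam * (12 * C₀ * (1 + 6 * C₀)) := by rw [← h4]; ring
    exact le_of_mul_le_mul_left h5 hlam0
  have hsq : ‖p - p'‖ ^ 2 ≤ 36 * C₀ ^ 2 := by nlinarith [norm_nonneg (p - p')]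
  have ha : |a - a'| ≤ 12 * C₀ * (1 + 6 * C₀) + 18 * C₀ ^ 2 := by
    rw [abs_le] at key2 ⊢
    constructor <;> nlinarith [key2.1, key2.2, sq_nonneg ‖p - p'‖]
  unfold fitcC2
  nlinarith [sq_nonneg C₀]

end Claimed.Agent.R330
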