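import Mathlib

/-!
# R330 / L2b : general lemmas on limits along (ultra)filters

Pointwise limits along an ultrafilter, eventual equicontinuity, uniform convergence on compact
sets, continuous convergence, limits of convex functions.  Owner: helper92.
-/

namespace Claimed.Agent.R330

open Filter Topology Set Metric

section real

variable {ι : Type*}

/-- An eventually bounded family in a proper metric space converges along an ultrafilter. -/
theorem ulim_exists_proper {Y : Type*} [PseudoMetricSpace Y] [ProperSpace Y]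
    (U : Ultrafilter ι) (a : ι → Y) (c : Y) (M : ℝ) (h : ∀ᶠ j in (U : Filter ι), dist (a j) c ≤ M) :
    ∃ a0, Tendsto a U (𝓝 a0) ∧ dist a0 c ≤ M := by
  have hK : IsCompact (closedBall c M) := isCompact_closedBall c M
  have hmem : closedBall c M ∈ (U.map a) := by
    rw [Ultrafilter.mem_map]
    exact h
  obtain ⟨a0, ha0, hle⟩ := hK.ultrafilter_le_nhds' (U.map a) hmem
  exact ⟨a0, hle, ha0⟩

/-- An eventually bounded real family converges along an ultrafilter. -/
theorem ulim_exists_real (U : Ultrafilter ι) (a : ι → ℝ) (M : ℝ)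
    (h : ∀ᶠ j in (U : Filter ι), |a j| ≤ M) :
    ∃ a0, Tendsto a U (𝓝 a0) ∧ |a0| ≤ M := by
  obtain ⟨a0, h1, h2⟩ := ulim_exists_proper U a 0 M (by simpa [Real.dist_eq] using h)
  exact ⟨a0, h1, by simpa [Real.dist_eq] using h2⟩

/-- An eventually bounded family in a finite dimensional (proper) normed space converges along an
ultrafilter. -/
theorem ulim_exists_norm {Y : Type*} [SeminormedAddCommGroup Y] [ProperSpace Y]
    (U : Ultrafilter ι) (a : ι → Y) (M : ℝ) (h : ∀ᶠ j in (U : Filter ι), ‖a j‖ ≤ M) :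
    ∃ a0, Tendsto a U (𝓝 a0) ∧ ‖a0‖ ≤ M := by
  obtain ⟨a0, h1, h2⟩ := ulim_exists_proper U a 0 M (by simpa [dist_zero_right] using h)
  exact ⟨a0, h1, by simpa [dist_zero_right] using h2⟩

/-- A pointwise eventually bounded family of real functions has a pointwise limit along an
ultrafilter. -/
theorem ulim_exists_fun {Z : Type*} (U : Ultrafilter ι) (f : ι → Z → ℝ)
    (hb : ∀ z, ∃ M, ∀ᶠ j in (U : Filter ι), |f j z| ≤ M) :
    ∃ g : Z → ℝ, ∀ z, Tendsto (fun j => f j z) U (𝓝 (g z)) := by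
  have : ∀ z, ∃ a0, Tendsto (fun j => f j z) U (𝓝 a0) := by
    intro z
    obtain ⟨M, hM⟩ := hb z
    obtain ⟨a0, h1, _⟩ := ulim_exists_real U (fun j => f j z) M hM
    exact ⟨a0, h1⟩
  choose g hg using this
  exact ⟨g, hg⟩

/-- Two-variable version of `ulim_exists_fun`. -/
theorem ulim_exists_fun₂ {X T : Type*} (U : Ultrafilter ι) (f : ι → X → T → ℝ)
    (hb : ∀ x t, ∃ M, ∀ᶠ j in (U : Filter ι), |f j x t| ≤ M) :
    ∃ g : X → T → ℝ, ∀ x t, Tendsto (fun j => f j x t) U (𝓝 (g x t)) := by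
  obtain ⟨g, hg⟩ := ulim_exists_fun U (fun j (z : X × T) => f j z.1 z.2) (fun z => hb z.1 z.2)
  exact ⟨fun x t => g (x, t), fun x t => hg (x, t)⟩

/-- A pointwise limit of eventually convex functions is convex. -/
theorem ulim_convexOn {E : Type*} [AddCommMonoid E] [Module ℝ E] {l : Filter ι} [l.NeBot]
    {s : Set E} {F : ι → E → ℝ} {G : E → ℝ} (hF : ∀ᶠ j in l, ConvexOn ℝ s (F j))
    (hlim : ∀ x ∈ s, Tendsto (fun j => F j x) l (𝓝 (G x))) : ConvexOn ℝ s G := by
  obtain ⟨j0, hj0⟩ := hF.exists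
  refine ⟨hj0.1, ?_⟩
  intro x hx y hy a b ha hb hab
  have hz : a • x + b • y ∈ s := hj0.1 hx hy ha hb hab
  refine le_of_tendsto_of_tendsto (hlim _ hz)
    (((hlim x hx).const_smul a).add ((hlim y hy).const_smul b)) ?_
  filter_upwards [hF] with j hj
  exact hj.2 hx hy ha hb hab

/-- A pointwise limit of eventually concave functions is concave. -/
theorem ulim_concaveOn {E : Type*} [AddCommMonoid E] [Module ℝ E] {l : Filter ι} [l.NeBot]
    {s : Set E} {F : ι → E → ℝ} {G : E → ℝ} (hF : ∀ᶠ j in l, ConcaveOn ℝ s (F j))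
    (hlim : ∀ x ∈ s, Tendsto (fun j => F j x) l (𝓝 (G x))) : ConcaveOn ℝ s G := by
  obtain ⟨j0, hj0⟩ := hF.exists
  refine ⟨hj0.1, ?_⟩
  intro x hx y hy a b ha hb hab
  have hz : a • x + b • y ∈ s := hj0.1 hx hy ha hb hab
  refine le_of_tendsto_of_tendsto
    (((hlim x hx).const_smul a).add ((hlim y hy).const_smul b)) (hlim _ hz) ?_
  filter_upwards [hF] with j hj
  exact hj.2 hx hy ha hb hab

end real

section equicont

variable {ι : Type*} {Z : Type*} [PseudoMetricSpace Z]

/-- Eventual equicontinuity (at every point) of a family of real functions along a filter. -/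
def UlimEquicont (l : Filter ι) (f : ι → Z → ℝ) : Prop :=
  ∀ z : Z, ∀ ε > 0, ∃ δ > 0, ∀ᶠ j in l, ∀ z', dist z' z < δ → |f j z' - f j z| ≤ ε

variable {l : Filter ι} {f : ι → Z → ℝ} {g : Z → ℝ}

omit [PseudoMetricSpace Z] in
/-- The limit inherits the modulus of continuity. -/
theorem ulim_modulus [l.NeBot] (hlim : ∀ z, Tendsto (fun j => f j z) l (𝓝 (g z)))
    {z z' : Z} {ε : ℝ} (h : ∀ᶠ j in l, |f j z' - f j z| ≤ ε) : |g z' - g z| ≤ ε :=
  le_of_tendsto ((hlim z').sub (hlim z)).abs h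

theorem ulim_continuous [l.NeBot] (hlim : ∀ z, Tendsto (fun j => f j z) l (𝓝 (g z)))
    (heq : UlimEquicont l f) : Continuous g := by
  rw [Metric.continuous_iff]
  intro z ε hε
  obtain ⟨δ, hδ, hj⟩ := heq z (ε / 2) (by positivity)
  refine ⟨δ, hδ, fun z' hz' => ?_⟩
  have : |g z' - g z| ≤ ε / 2 :=
    ulim_modulus hlim (hj.mono fun j hj => hj z' hz')
  rw [Real.dist_eq]
  linarith

/-- Continuous convergence: `f j (z j) → g z` whenever `z j → z`. -/
theorem ulim_tendsto_diag (hlim : ∀ z, Tendsto (fun j => f j z) l (𝓝 (g z)))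
    (heq : UlimEquicont l f) {zs : ι → Z} {z : Z} (hz : Tendsto zs l (𝓝 z)) :
    Tendsto (fun j => f j (zs j)) l (𝓝 (g z)) := by
  rw [Metric.tendsto_nhds]
  intro ε hε
  obtain ⟨δ, hδ, hj⟩ := heq z (ε / 2) (by positivity)
  have h1 : ∀ᶠ j in l, dist (zs j) z < δ := (Metric.tendsto_nhds.1 hz) δ hδ
  have h2 : ∀ᶠ j in l, dist (f j z) (g z) < ε / 2 :=
    (Metric.tendsto_nhds.1 (hlim z)) (ε / 2) (by positivity)
  filter_upwards [hj, h1, h2] with j hj h1 h2
  have h3 := hj _ h1
  rw [Real.dist_eq] at h2 ⊢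
  calc |f j (zs j) - g z| = |(f j (zs j) - f j z) + (f j z - g z)| := by ring_nf
    _ ≤ |f j (zs j) - f j z| + |f j z - g z| := abs_add_le _ _
    _ < ε := by linarith

/-- Uniform convergence on compact sets, `ε`-form. -/
theorem ulim_uniform_on_compact [l.NeBot] (hlim : ∀ z, Tendsto (fun j => f j z) l (𝓝 (g z)))
    (heq : UlimEquicont l f) {K : Set Z} (hK : IsCompact K) {ε : ℝ} (hε : 0 < ε) :
    ∀ᶠ j in l, ∀ z ∈ K, |f j z - g z| ≤ ε := by
  choose! δ hδ hj using fun z => heq z (ε / 3) (by positivity)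
  obtain ⟨T, hTK, hcov⟩ := hK.elim_nhds_subcover (fun z => ball z (δ z))
    (fun z _ => ball_mem_nhds z (hδ z))
  have h1 : ∀ᶠ j in l, ∀ c ∈ T, ∀ z', dist z' c < δ c → |f j z' - f j c| ≤ ε / 3 :=
    (eventually_all_finset T).2 fun c _ => hj c
  have h2 : ∀ᶠ j in l, ∀ c ∈ T, |f j c - g c| ≤ ε / 3 := by
    refine (eventually_all_finset T).2 fun c _ => ?_
    have := (Metric.tendsto_nhds.1 (hlim c)) (ε / 3) (by positivity)
    filter_upwards [this] with j hj
    rw [Real.dist_eq] at hj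
    exact hj.le
  filter_upwards [h1, h2] with j h1 h2 z hz
  obtain ⟨c, hcT, hzc⟩ : ∃ c ∈ T, z ∈ ball c (δ c) := by
    have := hcov hz
    simpa using this
  have hzc' : dist z c < δ c := hzc
  have e1 := h1 c hcT z hzc'
  have e2 := h2 c hcT
  have e3 : |g z - g c| ≤ ε / 3 := ulim_modulus hlim ((hj c).mono fun j hj => hj z hzc')
  calc |f j z - g z| = |(f j z - f j c) + (f j c - g c) + (g c - g z)| := by ring_nf
    _ ≤ |f j z - f j c| + |f j c - g c| + |g c - g z| := abs_add_three _ _ _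
    _ ≤ ε := by rw [abs_sub_comm (g c)]; linarith

/-- Uniform convergence on compact sets, Mathlib form. -/
theorem ulim_tendstoUniformlyOn [l.NeBot] (hlim : ∀ z, Tendsto (fun j => f j z) l (𝓝 (g z)))
    (heq : UlimEquicont l f) {K : Set Z} (hK : IsCompact K) :
    TendstoUniformlyOn f g l K := by
  rw [Metric.tendstoUniformlyOn_iff]
  intro ε hε
  filter_upwards [ulim_uniform_on_compact hlim heq hK (half_pos hε)] with j hj z hz
  rw [Real.dist_eq, abs_sub_comm]
  linarith [hj z hz]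

end equicont

end Claimed.Agent.R330
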