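import Mathlib
import Claimed.Agent.R330.PartBDefs
import Claimed.Agent.R330.UlimGen

/-!
# Row 330, L2a (paper Lemma 4.2): moduli of continuity and subquadratic growth from the fits

The two basic estimates of Lemma 4.2, the growth bound (4.2) and the parameter bound (4.3), are
taken here as abstract hypotheses `FitGrowth` and `FitParam`.  From them we derive
* the spatial modulus (4.4) and the time modulus (4.5),
* a joint modulus of continuity which is uniform over all functions with the same constants,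
  hence eventual equicontinuity of families (`UlimEquicont`),
* the uniform subquadratic growth (4.6).
Owner: helper223.
-/

namespace Claimed.Agent.R330

open scoped RealInnerProductSpace
open Filter Topology

variable {X : Type*} [NormedAddCommGroup X] [InnerProductSpace ℝ X]

/-- The growth bound (4.2): `|v| ≤ Cg K L(K)^2` on the box of size `K ≥ 2`. -/
def FitGrowth (Cg : ℝ) (v : X → ℝ → ℝ) : Prop :=
  ∀ K : ℝ, 2 ≤ K → ∀ (x : X) (t : ℝ), ‖x‖ ≤ K → |t| ≤ K →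
    |v x t| ≤ Cg * K * (1 + Real.log K) ^ 2

/-- The parameter bound (4.3): every fit at a centre in the box of size `K ≥ 2`, of any radius
`r > 0`, has `|p| + |a| ≤ Cp (L(K) + |log r|)`. -/
def FitParam (C₀ Cp : ℝ) (v : X → ℝ → ℝ) : Prop :=
  ∀ K : ℝ, 2 ≤ K → ∀ (x : X) (t : ℝ), ‖x‖ ≤ K → |t| ≤ K → ∀ r : ℝ, 0 < r →
    ∀ (p : X) (a : ℝ), IsFit C₀ v x t r p a →
      ‖p‖ + |a| ≤ Cp * (1 + Real.log K + |Real.log r|)

/-- The bracket `L(K) + |log r|` is at least one. -/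
theorem fitmod_one_le_bracket {K : ℝ} (hK : 2 ≤ K) (r : ℝ) :
    1 ≤ 1 + Real.log K + |Real.log r| := by
  have h1 : 0 ≤ Real.log K := Real.log_nonneg (by linarith)
  have h2 : 0 ≤ |Real.log r| := abs_nonneg _
  linarith

/-- Spatial modulus (4.4). -/
theorem fitmod_spatial {C₀ Cp : ℝ} {v : X → ℝ → ℝ} (hC₀ : 0 ≤ C₀) (hfit : HasFits C₀ v)
    (hpar : FitParam C₀ Cp v) {K : ℝ} (hK : 2 ≤ K) {x : X} {t : ℝ} (hx : ‖x‖ ≤ K)
    (ht : |t| ≤ K) {r : ℝ} (hr : 0 < r) {h : X} (hh : ‖h‖ ≤ r) :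
    |v (x + h) t - v x t| ≤ (C₀ + Cp) * r * (1 + Real.log K + |Real.log r|) := by
  obtain ⟨p, a, hpa⟩ := hfit x t r hr
  have hb := hpar K hK x t hx ht r hr p a hpa
  have hB := fitmod_one_le_bracket hK r
  set B := 1 + Real.log K + |Real.log r| with hBdef
  have h0 := hpa h 0 (by simpa using hr.le) (by simpa using hh)
  simp only [add_zero, mul_zero, sub_zero] at h0
  have h1 : |⟪p, h⟫| ≤ ‖p‖ * ‖h‖ := abs_real_inner_le_norm p h
  have h2 : ‖p‖ ≤ Cp * B := by linarith [abs_nonneg a]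
  have h3 : ‖p‖ * ‖h‖ ≤ (Cp * B) * r :=
    mul_le_mul h2 hh (norm_nonneg _) (le_trans (norm_nonneg _) h2)
  have h4 : C₀ * r ≤ C₀ * r * B := by
    have : 0 ≤ C₀ * r := by positivity
    nlinarith
  have h5 : |v (x + h) t - v x t| ≤ |v (x + h) t - v x t - ⟪p, h⟫| + |⟪p, h⟫| := by
    have := abs_add_le (v (x + h) t - v x t - ⟪p, h⟫) ⟪p, h⟫
    simpa using this
  calc |v (x + h) t - v x t| ≤ C₀ * r + (Cp * B) * r := by linarith
    _ ≤ (C₀ + Cp) * r * B := by nlinarith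

/-- The auxiliary constant `A'` of the proof of (4.5). -/
noncomputable def fitmodA (Cp : ℝ) : ℝ := 16 * (max Cp 1) ^ 2

theorem fitmod_one_le_A (Cp : ℝ) : 1 ≤ fitmodA Cp := by
  have : 1 ≤ max Cp 1 := le_max_right _ _
  unfold fitmodA
  nlinarith

theorem fitmod_A_spec (Cp : ℝ) : Cp * (2 + Real.log (fitmodA Cp)) ≤ fitmodA Cp := by
  set c := max Cp 1 with hc
  have h1 : 1 ≤ c := le_max_right _ _
  have h2 : Cp ≤ c := le_max_left _ _
  have hlog : Real.log (fitmodA Cp) ≤ 8 * c - 2 := by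
    have e : fitmodA Cp = (4 * c) ^ 2 := by unfold fitmodA; ring
    rw [e, Real.log_pow]
    have := Real.log_le_sub_one_of_pos (show 0 < 4 * c by linarith)
    push_cast
    linarith
  have hlog0 : 0 ≤ Real.log (fitmodA Cp) := Real.log_nonneg (fitmod_one_le_A Cp)
  have h3 : Cp * (2 + Real.log (fitmodA Cp)) ≤ c * (2 + Real.log (fitmodA Cp)) :=
    mul_le_mul_of_nonneg_right h2 (by linarith)
  have h4 : c * (2 + Real.log (fitmodA Cp)) ≤ c * (8 * c) :=
    mul_le_mul_of_nonneg_left (by linarith) (by linarith)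
  have h5 : c * (8 * c) ≤ fitmodA Cp := by unfold fitmodA; nlinarith
  linarith

/-- The constant of the time modulus. -/
noncomputable def fitmodCt (C₀ Cp : ℝ) : ℝ :=
  C₀ * fitmodA Cp + fitmodA Cp + fitmodA Cp ^ 2 / 2

theorem fitmod_Ct_nonneg {C₀ : ℝ} (hC₀ : 0 ≤ C₀) (Cp : ℝ) : 0 ≤ fitmodCt C₀ Cp := by
  have := fitmod_one_le_A Cp
  unfold fitmodCt
  positivity

/-- Time modulus (4.5), in the form: all increments `|τ| ≤ ρ` are controlled by
`C ρ (L(K) + |log ρ|)^2`. -/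
theorem fitmod_time {C₀ Cp : ℝ} {v : X → ℝ → ℝ} (hC₀ : 0 ≤ C₀) (hfit : HasFits C₀ v)
    (hpar : FitParam C₀ Cp v) {K : ℝ} (hK : 2 ≤ K) {x : X} {t : ℝ} (hx : ‖x‖ ≤ K)
    (ht : |t| ≤ K) {ρ : ℝ} (hρ : 0 < ρ) {τ : ℝ} (hτ : |τ| ≤ ρ) :
    |v x (t + τ) - v x t| ≤ fitmodCt C₀ Cp * ρ * (1 + Real.log K + |Real.log ρ|) ^ 2 := by
  have hB := fitmod_one_le_bracket hK ρ
  set B := 1 + Real.log K + |Real.log ρ| with hBdef
  have hA1 := fitmod_one_le_A Cp
  have hAs := fitmod_A_spec Cp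
  set A := fitmodA Cp with hAdef
  have hBpos : 0 < B := by linarith
  have hApos : 0 < A := by linarith
  set r := A * ρ * B with hrdef
  have hr : 0 < r := by positivity
  obtain ⟨p, a, hpa⟩ := hfit x t r hr
  have hb := hpar K hK x t hx ht r hr p a hpa
  -- the logarithm of the radius
  have hlogr : Real.log r = Real.log A + Real.log ρ + Real.log B := by
    rw [hrdef, Real.log_mul (by positivity) hBpos.ne', Real.log_mul hApos.ne' hρ.ne']
  have hlogA : 0 ≤ Real.log A := Real.log_nonneg hA1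
  have hlogB0 : 0 ≤ Real.log B := Real.log_nonneg hB
  have hlogB : Real.log B ≤ B - 1 := Real.log_le_sub_one_of_pos hBpos
  have habs : |Real.log r| ≤ Real.log A + |Real.log ρ| + Real.log B := by
    rw [hlogr]
    calc |Real.log A + Real.log ρ + Real.log B|
        ≤ |Real.log A| + |Real.log ρ| + |Real.log B| := abs_add_three _ _ _
      _ = Real.log A + |Real.log ρ| + Real.log B := by
          rw [abs_of_nonneg hlogA, abs_of_nonneg hlogB0]
  have hbr : 1 + Real.log K + |Real.log r| ≤ (2 + Real.log A) * B := by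
    have : 1 + Real.log K + |Real.log r| ≤ 2 * B + Real.log A := by
      have e : B = 1 + Real.log K + |Real.log ρ| := hBdef
      linarith
    nlinarith
  -- bound of the parameters by `A B`
  have hpa' : ‖p‖ + |a| ≤ A * B := by
    by_cases hCp : 0 ≤ Cp
    · calc ‖p‖ + |a| ≤ Cp * (1 + Real.log K + |Real.log r|) := hb
        _ ≤ Cp * ((2 + Real.log A) * B) := mul_le_mul_of_nonneg_left hbr hCp
        _ = (Cp * (2 + Real.log A)) * B := by ring
        _ ≤ A * B := mul_le_mul_of_nonneg_right hAs hBpos.le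
    · have h1 := fitmod_one_le_bracket hK r
      have : Cp * (1 + Real.log K + |Real.log r|) ≤ 0 := by
        have hCp' : Cp ≤ 0 := by linarith [not_le.1 hCp]
        exact mul_nonpos_of_nonpos_of_nonneg hCp' (by linarith)
      have : 0 ≤ A * B := by positivity
      linarith
  have hp : ‖p‖ ≤ A * B := by linarith [abs_nonneg a]
  have ha : |a| ≤ A * B := by linarith [norm_nonneg p]
  have hρr : ρ ≤ r := by
    have : 1 ≤ A * B := by nlinarith
    calc ρ = 1 * ρ := by ring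
      _ ≤ (A * B) * ρ := mul_le_mul_of_nonneg_right this hρ.le
      _ = r := by rw [hrdef]; ring
  have h0 := hpa 0 τ (hτ.trans hρr) (by
    rw [zero_sub, norm_neg, norm_smul, Real.norm_eq_abs]
    calc |τ| * ‖p‖ ≤ ρ * (A * B) := mul_le_mul hτ hp (norm_nonneg _) hρ.le
      _ = r := by rw [hrdef]; ring)
  simp only [add_zero, inner_zero_right, sub_zero] at h0
  have h1 : |(a - ‖p‖ ^ 2 / 2) * τ| ≤ (A * B + (A * B) ^ 2 / 2) * ρ := by
    rw [abs_mul]
    have h2 : |a - ‖p‖ ^ 2 / 2| ≤ A * B + (A * B) ^ 2 / 2 := by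
      have h3 : |a - ‖p‖ ^ 2 / 2| ≤ |a| + |‖p‖ ^ 2 / 2| := abs_sub _ _
      have h4 : |‖p‖ ^ 2 / 2| = ‖p‖ ^ 2 / 2 := abs_of_nonneg (by positivity)
      have h5 : ‖p‖ ^ 2 ≤ (A * B) ^ 2 := pow_le_pow_left₀ (norm_nonneg _) hp 2
      linarith
    exact mul_le_mul h2 hτ (abs_nonneg _) (by positivity)
  have h5 : |v x (t + τ) - v x t| ≤
      |v x (t + τ) - v x t - (a - ‖p‖ ^ 2 / 2) * τ| + |(a - ‖p‖ ^ 2 / 2) * τ| := by
    have := abs_add_le (v x (t + τ) - v x t - (a - ‖p‖ ^ 2 / 2) * τ) ((a - ‖p‖ ^ 2 / 2) * τ)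
    simpa using this
  have hBB : B ≤ B ^ 2 := by nlinarith
  have h6 : C₀ * r ≤ C₀ * A * ρ * B ^ 2 := by
    have : C₀ * r = C₀ * A * ρ * B := by rw [hrdef]; ring
    rw [this]
    exact mul_le_mul_of_nonneg_left hBB (by positivity)
  have h7 : (A * B + (A * B) ^ 2 / 2) * ρ ≤ (A + A ^ 2 / 2) * ρ * B ^ 2 := by
    have h8 : A * B ≤ A * B ^ 2 := mul_le_mul_of_nonneg_left hBB hApos.le
    have : (A * B + (A * B) ^ 2 / 2) ≤ (A + A ^ 2 / 2) * B ^ 2 := by
      have e : (A + A ^ 2 / 2) * B ^ 2 = A * B ^ 2 + (A * B) ^ 2 / 2 := by ring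
      rw [e]; linarith
    calc (A * B + (A * B) ^ 2 / 2) * ρ ≤ ((A + A ^ 2 / 2) * B ^ 2) * ρ :=
          mul_le_mul_of_nonneg_right this hρ.le
      _ = (A + A ^ 2 / 2) * ρ * B ^ 2 := by ring
  calc |v x (t + τ) - v x t| ≤ C₀ * r + (A * B + (A * B) ^ 2 / 2) * ρ := by linarith
    _ ≤ C₀ * A * ρ * B ^ 2 + (A + A ^ 2 / 2) * ρ * B ^ 2 := by linarith
    _ = fitmodCt C₀ Cp * ρ * B ^ 2 := by unfold fitmodCt; ring

/-! ### Elementary logarithmic inequalities -/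

/-- `(1 + log K)^2 ≤ 16 √K` for `K ≥ 1`. -/
theorem fitmod_sq_log_le {K : ℝ} (hK : 1 ≤ K) : (1 + Real.log K) ^ 2 ≤ 16 * Real.sqrt K := by
  set u := Real.sqrt K with hu
  set w := Real.sqrt u with hw
  have hK0 : 0 ≤ K := by linarith
  have hu0 : 0 ≤ u := Real.sqrt_nonneg _
  have hu2 : u ^ 2 = K := Real.sq_sqrt hK0
  have hw2 : w ^ 2 = u := Real.sq_sqrt hu0
  have hu1 : 1 ≤ u := by rw [hu]; exact Real.one_le_sqrt.2 hK
  have hw1 : 1 ≤ w := by rw [hw]; exact Real.one_le_sqrt.2 hu1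
  have hlog : Real.log K = 4 * Real.log w := by
    have : K = w ^ 4 := by
      calc K = u ^ 2 := hu2.symm
        _ = (w ^ 2) ^ 2 := by rw [hw2]
        _ = w ^ 4 := by ring
    rw [this, Real.log_pow]; push_cast; ring
  have h1 : Real.log w ≤ w - 1 := Real.log_le_sub_one_of_pos (by linarith)
  have h0 : 0 ≤ Real.log w := Real.log_nonneg hw1
  have h2 : 1 + Real.log K ≤ 4 * w := by rw [hlog]; linarith
  have h3 : 0 ≤ 1 + Real.log K := by rw [hlog]; linarith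
  calc (1 + Real.log K) ^ 2 ≤ (4 * w) ^ 2 := pow_le_pow_left₀ h3 h2 2
    _ = 16 * u := by rw [← hw2]; ring

/-- `K L(K)^2 ≤ ε K^2 + C_ε`. -/
theorem fitmod_KL_le {ε : ℝ} (hε : 0 < ε) {K : ℝ} (hK : 1 ≤ K) :
    K * (1 + Real.log K) ^ 2 ≤ ε * K ^ 2 + 16 * (16 / ε) ^ 3 := by
  have h1 := fitmod_sq_log_le hK
  set u := Real.sqrt K with hu
  have hK0 : 0 ≤ K := by linarith
  have hu0 : 0 ≤ u := Real.sqrt_nonneg _
  have hu2 : u ^ 2 = K := Real.sq_sqrt hK0
  have h2 : K * (1 + Real.log K) ^ 2 ≤ 16 * u ^ 3 := by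
    calc K * (1 + Real.log K) ^ 2 ≤ K * (16 * u) := mul_le_mul_of_nonneg_left h1 hK0
      _ = 16 * u ^ 3 := by rw [← hu2]; ring
  have h3 : 16 * u ^ 3 ≤ ε * K ^ 2 + 16 * (16 / ε) ^ 3 := by
    by_cases hc : 16 / ε ≤ u
    · have h4 : 16 ≤ ε * u := by
        rw [div_le_iff₀ hε] at hc; linarith
      have h5 : 16 * u ^ 3 ≤ (ε * u) * u ^ 3 :=
        mul_le_mul_of_nonneg_right h4 (by positivity)
      have h6 : (ε * u) * u ^ 3 = ε * K ^ 2 := by rw [← hu2]; ring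
      have h7 : 0 ≤ 16 * (16 / ε) ^ 3 := by positivity
      linarith
    · have hc' : u ≤ 16 / ε := (not_le.1 hc).le
      have h4 : u ^ 3 ≤ (16 / ε) ^ 3 := pow_le_pow_left₀ hu0 hc' 3
      have h5 : 0 ≤ ε * K ^ 2 := by positivity
      linarith
  linarith

/-- `r (L + |log r|)^2 ≤ √r (L + 4)^2` for `0 < r ≤ 1`, `L ≥ 0`. -/
theorem fitmod_small_log_le {L : ℝ} (hL : 0 ≤ L) {r : ℝ} (hr : 0 < r) (hr1 : r ≤ 1) :
    r * (L + |Real.log r|) ^ 2 ≤ Real.sqrt r * (L + 4) ^ 2 := by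
  set u := Real.sqrt r with hu
  set w := Real.sqrt u with hw
  have hu0 : 0 < u := Real.sqrt_pos.2 hr
  have hw0 : 0 < w := Real.sqrt_pos.2 hu0
  have hu2 : u ^ 2 = r := Real.sq_sqrt hr.le
  have hw2 : w ^ 2 = u := Real.sq_sqrt hu0.le
  have hu1 : u ≤ 1 := by rw [hu]; exact Real.sqrt_le_one.2 hr1
  have hw1 : w ≤ 1 := by rw [hw]; exact Real.sqrt_le_one.2 hu1
  have hr4 : r = w ^ 4 := by
    calc r = u ^ 2 := hu2.symm
      _ = (w ^ 2) ^ 2 := by rw [hw2]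
      _ = w ^ 4 := by ring
  have hlog : Real.log r = 4 * Real.log w := by
    rw [hr4, Real.log_pow]; push_cast; ring
  have hlw : Real.log w ≤ 0 := Real.log_nonpos hw0.le hw1
  have habs : |Real.log r| = -(4 * Real.log w) := by
    rw [hlog, abs_of_nonpos (by linarith)]
  have h1 : -Real.log w ≤ w⁻¹ - 1 := by
    have := Real.log_le_sub_one_of_pos (inv_pos.2 hw0)
    rwa [Real.log_inv] at this
  have h2 : w * |Real.log r| ≤ 4 := by
    rw [habs]
    have h3 : w * (-(4 * Real.log w)) = 4 * (w * (-Real.log w)) := by ring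
    have h4 : w * (-Real.log w) ≤ w * (w⁻¹ - 1) := mul_le_mul_of_nonneg_left h1 hw0.le
    have h5 : w * (w⁻¹ - 1) = 1 - w := by field_simp
    rw [h3]; linarith
  have h3 : w * (L + |Real.log r|) ≤ L + 4 := by
    have : w * L ≤ L := by nlinarith
    nlinarith
  have h4 : 0 ≤ w * (L + |Real.log r|) := by positivity
  have hr4' : r * (L + |Real.log r|) ^ 2 = w ^ 4 * (L + |Real.log r|) ^ 2 :=
    congrArg (fun s => s * (L + |Real.log r|) ^ 2) hr4
  calc r * (L + |Real.log r|) ^ 2 = w ^ 4 * (L + |Real.log r|) ^ 2 := hr4'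
    _ = w ^ 2 * (w * (L + |Real.log r|)) ^ 2 := by ring
    _ ≤ w ^ 2 * (L + 4) ^ 2 :=
        mul_le_mul_of_nonneg_left (pow_le_pow_left₀ h4 h3 2) (by positivity)
    _ = u * (L + 4) ^ 2 := by rw [hw2]

/-! ### Uniform subquadratic growth (4.6) -/

omit [InnerProductSpace ℝ X] in
/-- Uniform subquadratic growth (4.6): the constant is chosen before the function. -/
theorem fitmod_subQuadOn_unif {Cg : ℝ} (hCg : 0 ≤ Cg) (T : ℝ) {ε : ℝ} (hε : 0 < ε) :
    ∃ C : ℝ, ∀ v : X → ℝ → ℝ, FitGrowth Cg v →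
      ∀ x : X, ∀ t ∈ Set.Icc (-T) T, |v x t| ≤ ε * ‖x‖ ^ 2 + C := by
  set ε' := ε / (2 * (Cg + 1)) with hε'
  have hε'pos : 0 < ε' := by positivity
  refine ⟨Cg * (ε' * (2 * (|T| + 2) ^ 2) + 16 * (16 / ε') ^ 3), ?_⟩
  intro v hv x t ht
  set K := ‖x‖ + |T| + 2 with hKdef
  have hx0 : 0 ≤ ‖x‖ := norm_nonneg x
  have hT0 : 0 ≤ |T| := abs_nonneg T
  have hK2 : 2 ≤ K := by linarith
  have htK : |t| ≤ K := by
    have : |t| ≤ T := abs_le.2 ht
    have : T ≤ |T| := le_abs_self T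
    linarith
  have h1 := hv K hK2 x t (by linarith) htK
  have h2 := fitmod_KL_le hε'pos (show 1 ≤ K by linarith)
  have h3 : K ^ 2 ≤ 2 * ‖x‖ ^ 2 + 2 * (|T| + 2) ^ 2 := by
    have : K = ‖x‖ + (|T| + 2) := by rw [hKdef]; ring
    rw [this]; nlinarith [sq_nonneg (‖x‖ - (|T| + 2))]
  have h4 : Cg * (ε' * (2 * ‖x‖ ^ 2)) ≤ ε * ‖x‖ ^ 2 := by
    have e : Cg * (ε' * (2 * ‖x‖ ^ 2)) = (Cg / (Cg + 1)) * (ε * ‖x‖ ^ 2) := by
      rw [hε']; field_simp
    rw [e]
    have h5 : Cg / (Cg + 1) ≤ 1 := by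
      rw [div_le_one (by linarith)]; linarith
    have h6 : 0 ≤ ε * ‖x‖ ^ 2 := by positivity
    nlinarith
  calc |v x t| ≤ Cg * K * (1 + Real.log K) ^ 2 := h1
    _ = Cg * (K * (1 + Real.log K) ^ 2) := by ring
    _ ≤ Cg * (ε' * K ^ 2 + 16 * (16 / ε') ^ 3) := mul_le_mul_of_nonneg_left h2 hCg
    _ ≤ Cg * (ε' * (2 * ‖x‖ ^ 2 + 2 * (|T| + 2) ^ 2) + 16 * (16 / ε') ^ 3) := by
        apply mul_le_mul_of_nonneg_left _ hCg
        have := mul_le_mul_of_nonneg_left h3 hε'pos.le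
        linarith
    _ = Cg * (ε' * (2 * ‖x‖ ^ 2)) + Cg * (ε' * (2 * (|T| + 2) ^ 2) + 16 * (16 / ε') ^ 3) := by
        ring
    _ ≤ ε * ‖x‖ ^ 2 + Cg * (ε' * (2 * (|T| + 2) ^ 2) + 16 * (16 / ε') ^ 3) := by linarith

omit [InnerProductSpace ℝ X] in
theorem fitmod_subQuadOn {Cg : ℝ} (hCg : 0 ≤ Cg) {v : X → ℝ → ℝ} (hv : FitGrowth Cg v) (T : ℝ) :
    SubQuadOn (Set.Icc (-T) T) v := by
  intro ε hε
  obtain ⟨C, hC⟩ := fitmod_subQuadOn_unif (X := X) hCg T hε
  exact ⟨C, fun x t ht => hC v hv x t ht⟩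

omit [InnerProductSpace ℝ X] in
theorem fitmod_subQuadLoc {Cg : ℝ} (hCg : 0 ≤ Cg) {v : X → ℝ → ℝ} (hv : FitGrowth Cg v) :
    SubQuadLoc v := fun T => fitmod_subQuadOn hCg hv T

/-! ### Joint modulus of continuity, equicontinuity -/

/-- Joint modulus of continuity on boxes, uniform over all functions with the same constants. -/
theorem fitmod_joint {C₀ : ℝ} (hC₀ : 0 ≤ C₀) (Cp : ℝ) {K : ℝ} (hK : 2 ≤ K) {ε : ℝ}
    (hε : 0 < ε) :
    ∃ δ : ℝ, 0 < δ ∧ ∀ v : X → ℝ → ℝ, HasFits C₀ v → FitParam C₀ Cp v →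
      ∀ (x : X) (t : ℝ) (x' : X) (t' : ℝ), ‖x‖ ≤ K → |t| ≤ K → ‖x' - x‖ ≤ δ → |t' - t| ≤ δ →
        |v x' t' - v x t| ≤ ε := by
  set L := 1 + Real.log (2 * K) with hL
  have hL1 : 1 ≤ L := by
    have : 0 ≤ Real.log (2 * K) := Real.log_nonneg (by linarith)
    linarith
  have hCt := fitmod_Ct_nonneg hC₀ Cp
  set M := (|C₀ + Cp| + fitmodCt C₀ Cp) * (L + 4) ^ 2 + 1 with hM
  have hMpos : 0 < M := by positivity
  set δ := min 1 ((ε / M) ^ 2) with hδ
  have hδpos : 0 < δ := lt_min one_pos (by positivity)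
  have hδ1 : δ ≤ 1 := min_le_left _ _
  have hsq : Real.sqrt δ ≤ ε / M := by
    have : δ ≤ (ε / M) ^ 2 := min_le_right _ _
    calc Real.sqrt δ ≤ Real.sqrt ((ε / M) ^ 2) := Real.sqrt_le_sqrt this
      _ = ε / M := Real.sqrt_sq (by positivity)
  refine ⟨δ, hδpos, ?_⟩
  intro v hfit hpar x t x' t' hx ht hxx htt
  have h2K : 2 ≤ 2 * K := by linarith
  have hx' : ‖x'‖ ≤ 2 * K := by
    have : ‖x'‖ ≤ ‖x' - x‖ + ‖x‖ := by
      have := norm_add_le (x' - x) x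
      simpa using this
    linarith
  have hB1 := fitmod_one_le_bracket h2K δ
  have hsmall := fitmod_small_log_le (by linarith : 0 ≤ L) hδpos hδ1
  set B := L + |Real.log δ| with hB
  have hBB : B ≤ B ^ 2 := by nlinarith
  have e1 : |v x' t - v x t| ≤ |C₀ + Cp| * (δ * B ^ 2) := by
    have h := fitmod_spatial hC₀ hfit hpar h2K (x := x) (t := t) (by linarith) (by linarith)
      hδpos (h := x' - x) hxx
    rw [add_sub_cancel] at h
    calc |v x' t - v x t| ≤ (C₀ + Cp) * δ * B := h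
      _ = (C₀ + Cp) * (δ * B) := by ring
      _ ≤ |C₀ + Cp| * (δ * B) :=
          mul_le_mul_of_nonneg_right (le_abs_self _) (by positivity)
      _ ≤ |C₀ + Cp| * (δ * B ^ 2) := by
          apply mul_le_mul_of_nonneg_left _ (abs_nonneg _)
          exact mul_le_mul_of_nonneg_left hBB hδpos.le
  have e2 : |v x' t' - v x' t| ≤ fitmodCt C₀ Cp * (δ * B ^ 2) := by
    have h := fitmod_time hC₀ hfit hpar h2K (x := x') (t := t) hx' (by linarith)
      hδpos (τ := t' - t) htt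
    rw [add_sub_cancel] at h
    calc |v x' t' - v x' t| ≤ fitmodCt C₀ Cp * δ * B ^ 2 := h
      _ = fitmodCt C₀ Cp * (δ * B ^ 2) := by ring
  have e3 : |v x' t' - v x t| ≤ |v x' t' - v x' t| + |v x' t - v x t| := by
    have := abs_add_le (v x' t' - v x' t) (v x' t - v x t)
    simpa using this
  have e4 : (|C₀ + Cp| + fitmodCt C₀ Cp) * (δ * B ^ 2) ≤ M * Real.sqrt δ := by
    have hc : 0 ≤ |C₀ + Cp| + fitmodCt C₀ Cp := by positivity
    calc (|C₀ + Cp| + fitmodCt C₀ Cp) * (δ * B ^ 2)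
        ≤ (|C₀ + Cp| + fitmodCt C₀ Cp) * (Real.sqrt δ * (L + 4) ^ 2) :=
          mul_le_mul_of_nonneg_left hsmall hc
      _ = ((|C₀ + Cp| + fitmodCt C₀ Cp) * (L + 4) ^ 2) * Real.sqrt δ := by ring
      _ ≤ M * Real.sqrt δ := by
          apply mul_le_mul_of_nonneg_right _ (Real.sqrt_nonneg _)
          rw [hM]; linarith
  have e5 : M * Real.sqrt δ ≤ ε := by
    calc M * Real.sqrt δ ≤ M * (ε / M) := mul_le_mul_of_nonneg_left hsq hMpos.le
      _ = ε := by field_simp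
  calc |v x' t' - v x t| ≤ fitmodCt C₀ Cp * (δ * B ^ 2) + |C₀ + Cp| * (δ * B ^ 2) := by linarith
    _ = (|C₀ + Cp| + fitmodCt C₀ Cp) * (δ * B ^ 2) := by ring
    _ ≤ ε := e4.trans e5

/-- A function with fits and the parameter bound is jointly continuous. -/
theorem fitmod_continuous {C₀ Cp : ℝ} (hC₀ : 0 ≤ C₀) {v : X → ℝ → ℝ} (hfit : HasFits C₀ v)
    (hpar : FitParam C₀ Cp v) : Continuous (fun z : X × ℝ => v z.1 z.2) := by
  rw [Metric.continuous_iff]
  intro z ε hε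
  set K := ‖z.1‖ + |z.2| + 2 with hK
  have hK2 : 2 ≤ K := by
    have := norm_nonneg z.1
    have := abs_nonneg z.2
    linarith
  obtain ⟨δ, hδ, h⟩ := fitmod_joint (X := X) hC₀ Cp hK2 (half_pos hε)
  refine ⟨δ, hδ, fun z' hz' => ?_⟩
  have h1 : dist z'.1 z.1 ≤ dist z' z := by
    rw [Prod.dist_eq]; exact le_max_left _ _
  have h2 : dist z'.2 z.2 ≤ dist z' z := by
    rw [Prod.dist_eq]; exact le_max_right _ _
  have := h v hfit hpar z.1 z.2 z'.1 z'.2 (by linarith [abs_nonneg z.2])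
    (by linarith [norm_nonneg z.1]) (by rw [← dist_eq_norm]; linarith)
    (by rw [← Real.dist_eq]; linarith)
  rw [Real.dist_eq]
  linarith

/-- Eventual equicontinuity of a family with common constants. -/
theorem fitmod_ulimEquicont {ι : Type*} {l : Filter ι} {C₀ Cp : ℝ} (hC₀ : 0 ≤ C₀)
    {V : ι → X → ℝ → ℝ} (h : ∀ᶠ j in l, HasFits C₀ (V j) ∧ FitParam C₀ Cp (V j)) :
    UlimEquicont l (fun j (z : X × ℝ) => V j z.1 z.2) := by
  intro z ε hε
  set K := ‖z.1‖ + |z.2| + 2 with hK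
  have hK2 : 2 ≤ K := by
    have := norm_nonneg z.1
    have := abs_nonneg z.2
    linarith
  obtain ⟨δ, hδ, hj⟩ := fitmod_joint (X := X) hC₀ Cp hK2 hε
  refine ⟨δ, hδ, ?_⟩
  filter_upwards [h] with j hV z' hz'
  have h1 : dist z'.1 z.1 ≤ dist z' z := by
    rw [Prod.dist_eq]; exact le_max_left _ _
  have h2 : dist z'.2 z.2 ≤ dist z' z := by
    rw [Prod.dist_eq]; exact le_max_right _ _
  exact hj (V j) hV.1 hV.2 z.1 z.2 z'.1 z'.2 (by linarith [abs_nonneg z.2])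
    (by linarith [norm_nonneg z.1]) (by rw [← dist_eq_norm]; linarith)
    (by rw [← Real.dist_eq]; linarith)

omit [InnerProductSpace ℝ X] in
/-- Pointwise bound, uniform over the family. -/
theorem fitmod_pointwise_bound {Cg : ℝ} (x : X) (t : ℝ) :
    ∃ M : ℝ, ∀ v : X → ℝ → ℝ, FitGrowth Cg v → |v x t| ≤ M := by
  set K := ‖x‖ + |t| + 2 with hK
  refine ⟨Cg * K * (1 + Real.log K) ^ 2, fun v hv => ?_⟩
  exact hv K (by linarith [norm_nonneg x, abs_nonneg t]) x t (by linarith [abs_nonneg t])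
    (by linarith [norm_nonneg x])

end Claimed.Agent.R330
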