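import Mathlib
import Claimed.Agent.R330.EnvDefs
import Claimed.Agent.R330.FrameDefs

/-!
# Row 330: covariance of quadratic envelopes and slopes under changes of frame

Paper Lemma 4.1 (envelope part) and Lemma 6.3, identities (6.11)-(6.12).
-/

namespace Claimed.Agent.R330

open Set

variable {X : Type*} [NormedAddCommGroup X] [InnerProductSpace ℝ X]

section basic

variable (s0 : ℝ) (x0 : X) (t0 R : ℝ) (p0 : X) (a0 : ℝ) (v : X → ℝ → ℝ)

theorem frameT_add (s l : ℝ) : frameT s0 t0 R (s + l) = frameT s0 t0 R s + R * l := by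
  unfold frameT; ring

theorem frameT_sub (s l : ℝ) : frameT s0 t0 R (s - l) = frameT s0 t0 R s - R * l := by
  unfold frameT; ring

theorem frameT_base : frameT s0 t0 R s0 = t0 := by
  unfold frameT; simp

theorem frameX_base : frameX s0 x0 R p0 0 s0 = x0 := by
  unfold frameX; simp

theorem frameX_sub_add (y y' : X) (s l : ℝ) :
    frameX s0 x0 R p0 y' (s + l) - frameX s0 x0 R p0 y s = R • (y' - y + l • p0) := by
  unfold frameX
  simp only [smul_add, smul_sub, sub_smul, add_smul, smul_smul]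
  abel

theorem frameX_sub_sub (y y' : X) (s l : ℝ) :
    frameX s0 x0 R p0 y' (s - l) - frameX s0 x0 R p0 y s = R • (y' - y - l • p0) := by
  unfold frameX
  simp only [smul_add, smul_sub, sub_smul, smul_smul]
  abel

theorem frameX_add (y h : X) (s l : ℝ) :
    frameX s0 x0 R p0 (y + h) (s + l) = frameX s0 x0 R p0 y s + R • (h + l • p0) := by
  have := frameX_sub_add s0 x0 R p0 y (y + h) s l
  rw [add_sub_cancel_left] at this
  rw [← this]; abel

theorem frameX_add_smul (y d : X) (s l : ℝ) :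
    frameX s0 x0 R p0 (y + l • d) s = frameX s0 x0 R p0 y s + (R * l) • d := by
  unfold frameX
  simp only [smul_add, smul_smul]
  abel

theorem frame_apply (y : X) (s : ℝ) :
    frame s0 x0 t0 R p0 a0 v y s
      = (v (frameX s0 x0 R p0 y s) (frameT s0 t0 R s) - v x0 t0) / R
        - inner ℝ p0 y - (a0 + ‖p0‖ ^ 2 / 2) * (s - s0) := rfl

theorem frame_base : frame s0 x0 t0 R p0 a0 v 0 s0 = 0 := by
  rw [frame_apply, frameX_base, frameT_base]; simp

/-- The spatial coordinate change at a fixed new time, as an equivalence. -/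
noncomputable def frameEquiv (hR : R ≠ 0) (s : ℝ) : X ≃ X where
  toFun y := frameX s0 x0 R p0 y s
  invFun x := R⁻¹ • (x - x0) - (s - s0) • p0
  left_inv y := by
    unfold frameX
    dsimp only
    rw [add_sub_cancel_left, smul_smul, inv_mul_cancel₀ hR, one_smul, add_sub_cancel_right]
  right_inv x := by
    unfold frameX
    dsimp only
    rw [sub_add_cancel, smul_smul, mul_inv_cancel₀ hR, one_smul, add_sub_cancel]

theorem frameEquiv_apply (hR : R ≠ 0) (s : ℝ) (y : X) :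
    frameEquiv s0 x0 R p0 hR s y = frameX s0 x0 R p0 y s := rfl

/-- `v` is recovered from its frame change. -/
theorem frame_recover (hR : R ≠ 0) (x : X) (t : ℝ) :
    v x t = v x0 t0 + R * (frame s0 x0 t0 R p0 a0 v
        (R⁻¹ • (x - x0) - ((t - t0) / R) • p0) (s0 + (t - t0) / R)
      + inner ℝ p0 (R⁻¹ • (x - x0) - ((t - t0) / R) • p0)
      + (a0 + ‖p0‖ ^ 2 / 2) * ((t - t0) / R)) := by
  have hX : frameX s0 x0 R p0 (R⁻¹ • (x - x0) - ((t - t0) / R) • p0) (s0 + (t - t0) / R) = x := by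
    unfold frameX
    rw [add_sub_cancel_left, sub_add_cancel, smul_smul, mul_inv_cancel₀ hR, one_smul,
      add_sub_cancel]
  have hT : frameT s0 t0 R (s0 + (t - t0) / R) = t := by
    unfold frameT; field_simp; ring
  rw [frame_apply, hX, hT, add_sub_cancel_left]
  field_simp
  ring

end basic

section competitor

variable (s0 : ℝ) (x0 : X) (t0 : ℝ) {R : ℝ} (p0 : X) (a0 : ℝ) (v : X → ℝ → ℝ)

/-- Forward competitor identity: the pointwise form of (6.12), first line. -/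
theorem frame_compP (hR : R ≠ 0) {l : ℝ} (hl : l ≠ 0) (y y' : X) (s : ℝ) :
    frame s0 x0 t0 R p0 a0 v y' (s + l) - ‖y' - y‖ ^ 2 / (2 * l) - frame s0 x0 t0 R p0 a0 v y s
      = ((v (frameX s0 x0 R p0 y' (s + l)) (frameT s0 t0 R s + R * l)
            - ‖frameX s0 x0 R p0 y' (s + l) - frameX s0 x0 R p0 y s‖ ^ 2 / (2 * (R * l)))
          - v (frameX s0 x0 R p0 y s) (frameT s0 t0 R s)) / R - a0 * l := by
  rw [frameX_sub_add, norm_smul, mul_pow, Real.norm_eq_abs, sq_abs, frame_apply, frame_apply,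
    frameT_add, norm_add_sq_real (y' - y) (l • p0), norm_smul, mul_pow, Real.norm_eq_abs, sq_abs, inner_smul_right,
    real_inner_comm p0 (y' - y), inner_sub_right]
  field_simp
  ring

/-- Backward competitor identity: the pointwise form of (6.12), second line. -/
theorem frame_compM (hR : R ≠ 0) {l : ℝ} (hl : l ≠ 0) (y y' : X) (s : ℝ) :
    frame s0 x0 t0 R p0 a0 v y' (s - l) + ‖y' - y‖ ^ 2 / (2 * l) - frame s0 x0 t0 R p0 a0 v y s
      = ((v (frameX s0 x0 R p0 y' (s - l)) (frameT s0 t0 R s - R * l)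
            + ‖frameX s0 x0 R p0 y' (s - l) - frameX s0 x0 R p0 y s‖ ^ 2 / (2 * (R * l)))
          - v (frameX s0 x0 R p0 y s) (frameT s0 t0 R s)) / R + a0 * l := by
  rw [frameX_sub_sub, norm_smul, mul_pow, Real.norm_eq_abs, sq_abs, frame_apply, frame_apply,
    frameT_sub, norm_sub_sq_real (y' - y) (l • p0), norm_smul, mul_pow, Real.norm_eq_abs, sq_abs, inner_smul_right,
    real_inner_comm p0 (y' - y), inner_sub_right]
  field_simp
  ring

end competitor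

section env

variable (s0 : ℝ) (x0 : X) (t0 : ℝ) {R : ℝ} (p0 : X) (a0 : ℝ) (v : X → ℝ → ℝ)

omit [InnerProductSpace ℝ X] in
theorem frame_envP_def (l : ℝ) (f : X → ℝ → ℝ) (x : X) (t : ℝ) :
    envP l f x t = ⨆ y : X, (f y (t + l) - ‖y - x‖ ^ 2 / (2 * l)) := rfl

omit [InnerProductSpace ℝ X] in
theorem frame_envM_def (l : ℝ) (f : X → ℝ → ℝ) (x : X) (t : ℝ) :
    envM l f x t = ⨅ y : X, (f y (t - l) + ‖y - x‖ ^ 2 / (2 * l)) := rfl

/-- Value identity (6.12), first line, in gap form. -/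
theorem frame_envP (hR : 0 < R) {l : ℝ} (hl : l ≠ 0) (y : X) (s : ℝ)
    (hb : BddAbove (range fun x' : X => v x' (frameT s0 t0 R s + R * l)
      - ‖x' - frameX s0 x0 R p0 y s‖ ^ 2 / (2 * (R * l)))) :
    envP l (frame s0 x0 t0 R p0 a0 v) y s - frame s0 x0 t0 R p0 a0 v y s
      = (envP (R * l) v (frameX s0 x0 R p0 y s) (frameT s0 t0 R s)
          - v (frameX s0 x0 R p0 y s) (frameT s0 t0 R s)) / R - a0 * l := by
  set φ : X → ℝ := fun x' : X => v x' (frameT s0 t0 R s + R * l)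
      - ‖x' - frameX s0 x0 R p0 y s‖ ^ 2 / (2 * (R * l)) with hφ
  set c : ℝ := - v (frameX s0 x0 R p0 y s) (frameT s0 t0 R s) / R - a0 * l
      + frame s0 x0 t0 R p0 a0 v y s with hc
  have key : ∀ y' : X, frame s0 x0 t0 R p0 a0 v y' (s + l) - ‖y' - y‖ ^ 2 / (2 * l)
      = R⁻¹ * φ (frameEquiv s0 x0 R p0 hR.ne' (s + l) y') + c := by
    intro y'
    have := frame_compP s0 x0 t0 p0 a0 v hR.ne' hl y y' s
    rw [frameEquiv_apply, hφ, hc]
    dsimp only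
    have h2 : frame s0 x0 t0 R p0 a0 v y' (s + l) - ‖y' - y‖ ^ 2 / (2 * l)
        = ((v (frameX s0 x0 R p0 y' (s + l)) (frameT s0 t0 R s + R * l)
            - ‖frameX s0 x0 R p0 y' (s + l) - frameX s0 x0 R p0 y s‖ ^ 2 / (2 * (R * l)))
          - v (frameX s0 x0 R p0 y s) (frameT s0 t0 R s)) / R - a0 * l
          + frame s0 x0 t0 R p0 a0 v y s := by linarith
    rw [h2]; field_simp; ring
  have hb' : BddAbove (range fun x' : X => R⁻¹ * φ x') := by
    obtain ⟨M, hM⟩ := hb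
    refine ⟨R⁻¹ * M, ?_⟩
    rintro _ ⟨x', rfl⟩
    exact mul_le_mul_of_nonneg_left (hM ⟨x', rfl⟩) (inv_pos.mpr hR).le
  have h1 : envP l (frame s0 x0 t0 R p0 a0 v) y s = R⁻¹ * (⨆ x' : X, φ x') + c := by
    rw [frame_envP_def]
    simp_rw [key]
    rw [Equiv.iSup_comp (g := fun x' => R⁻¹ * φ x' + c) (frameEquiv s0 x0 R p0 hR.ne' (s + l)),
      ← ciSup_add hb', Real.mul_iSup_of_nonneg (inv_pos.mpr hR).le]
  have h2 : envP (R * l) v (frameX s0 x0 R p0 y s) (frameT s0 t0 R s) = ⨆ x' : X, φ x' := rfl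
  rw [h1, h2, hc]
  field_simp
  ring

/-- Value identity (6.12), second line, in gap form. -/
theorem frame_envM (hR : 0 < R) {l : ℝ} (hl : l ≠ 0) (y : X) (s : ℝ)
    (hb : BddBelow (range fun x' : X => v x' (frameT s0 t0 R s - R * l)
      + ‖x' - frameX s0 x0 R p0 y s‖ ^ 2 / (2 * (R * l)))) :
    frame s0 x0 t0 R p0 a0 v y s - envM l (frame s0 x0 t0 R p0 a0 v) y s
      = (v (frameX s0 x0 R p0 y s) (frameT s0 t0 R s)
          - envM (R * l) v (frameX s0 x0 R p0 y s) (frameT s0 t0 R s)) / R - a0 * l := by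
  set φ : X → ℝ := fun x' : X => v x' (frameT s0 t0 R s - R * l)
      + ‖x' - frameX s0 x0 R p0 y s‖ ^ 2 / (2 * (R * l)) with hφ
  set c : ℝ := - v (frameX s0 x0 R p0 y s) (frameT s0 t0 R s) / R + a0 * l
      + frame s0 x0 t0 R p0 a0 v y s with hc
  have key : ∀ y' : X, frame s0 x0 t0 R p0 a0 v y' (s - l) + ‖y' - y‖ ^ 2 / (2 * l)
      = R⁻¹ * φ (frameEquiv s0 x0 R p0 hR.ne' (s - l) y') + c := by
    intro y'
    have := frame_compM s0 x0 t0 p0 a0 v hR.ne' hl y y' s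
    rw [frameEquiv_apply, hφ, hc]
    dsimp only
    have h2 : frame s0 x0 t0 R p0 a0 v y' (s - l) + ‖y' - y‖ ^ 2 / (2 * l)
        = ((v (frameX s0 x0 R p0 y' (s - l)) (frameT s0 t0 R s - R * l)
            + ‖frameX s0 x0 R p0 y' (s - l) - frameX s0 x0 R p0 y s‖ ^ 2 / (2 * (R * l)))
          - v (frameX s0 x0 R p0 y s) (frameT s0 t0 R s)) / R + a0 * l
          + frame s0 x0 t0 R p0 a0 v y s := by linarith
    rw [h2]; field_simp; ring
  have hb' : BddBelow (range fun x' : X => R⁻¹ * φ x') := by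
    obtain ⟨M, hM⟩ := hb
    refine ⟨R⁻¹ * M, ?_⟩
    rintro _ ⟨x', rfl⟩
    exact mul_le_mul_of_nonneg_left (hM ⟨x', rfl⟩) (inv_pos.mpr hR).le
  have h1 : envM l (frame s0 x0 t0 R p0 a0 v) y s = R⁻¹ * (⨅ x' : X, φ x') + c := by
    rw [frame_envM_def]
    simp_rw [key]
    rw [Equiv.iInf_comp (g := fun x' => R⁻¹ * φ x' + c) (frameEquiv s0 x0 R p0 hR.ne' (s - l)),
      ← ciInf_add hb', Real.mul_iInf_of_nonneg (inv_pos.mpr hR).le]
  have h2 : envM (R * l) v (frameX s0 x0 R p0 y s) (frameT s0 t0 R s) = ⨅ x' : X, φ x' := rfl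
  rw [h1, h2, hc]
  field_simp
  ring

/-- Slope covariance (6.11'), forward. -/
theorem frame_slopeP (hR : 0 < R) {l : ℝ} (hl : l ≠ 0) (y : X) (s : ℝ)
    (hb : BddAbove (range fun x' : X => v x' (frameT s0 t0 R s + R * l)
      - ‖x' - frameX s0 x0 R p0 y s‖ ^ 2 / (2 * (R * l)))) :
    slopeP l (frame s0 x0 t0 R p0 a0 v) y s
      = slopeP (R * l) v (frameX s0 x0 R p0 y s) (frameT s0 t0 R s) - a0 := by
  unfold slopeP
  rw [frame_envP s0 x0 t0 p0 a0 v hR hl y s hb]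
  have := hR.ne'
  field_simp

/-- Slope covariance (6.11'), backward. -/
theorem frame_slopeM (hR : 0 < R) {l : ℝ} (hl : l ≠ 0) (y : X) (s : ℝ)
    (hb : BddBelow (range fun x' : X => v x' (frameT s0 t0 R s - R * l)
      + ‖x' - frameX s0 x0 R p0 y s‖ ^ 2 / (2 * (R * l)))) :
    slopeM l (frame s0 x0 t0 R p0 a0 v) y s
      = slopeM (R * l) v (frameX s0 x0 R p0 y s) (frameT s0 t0 R s) - a0 := by
  unfold slopeM
  rw [frame_envM s0 x0 t0 p0 a0 v hR hl y s hb]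
  have := hR.ne'
  field_simp

end env

section growth

omit [InnerProductSpace ℝ X] in
theorem frame_norm_sq_le (y x : X) : ‖y‖ ^ 2 ≤ 2 * ‖y - x‖ ^ 2 + 2 * ‖x‖ ^ 2 := by
  have h1 : ‖y‖ ≤ ‖y - x‖ + ‖x‖ := by
    calc ‖y‖ = ‖(y - x) + x‖ := by rw [sub_add_cancel]
      _ ≤ ‖y - x‖ + ‖x‖ := norm_add_le _ _
  have h0 : 0 ≤ ‖y‖ := norm_nonneg _
  nlinarith [sq_nonneg (‖y - x‖ - ‖x‖), norm_nonneg (y - x), norm_nonneg x]

omit [InnerProductSpace ℝ X] in
theorem frame_bddAbove_of_subQuadAbove {g : X → ℝ} (hg : SubQuadAbove g) {l : ℝ} (hl : 0 < l)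
    (x : X) : BddAbove (range fun y : X => g y - ‖y - x‖ ^ 2 / (2 * l)) := by
  obtain ⟨C, hC⟩ := hg (1 / (4 * l)) (by positivity)
  refine ⟨‖x‖ ^ 2 / (2 * l) + C, ?_⟩
  rintro _ ⟨y, rfl⟩
  dsimp only
  have h1 := hC y
  have h2 := frame_norm_sq_le y x
  have h3 : 1 / (4 * l) * ‖y‖ ^ 2 ≤ 1 / (4 * l) * (2 * ‖y - x‖ ^ 2 + 2 * ‖x‖ ^ 2) :=
    mul_le_mul_of_nonneg_left h2 (by positivity)
  have h4 : 1 / (4 * l) * (2 * ‖y - x‖ ^ 2 + 2 * ‖x‖ ^ 2)
      = ‖y - x‖ ^ 2 / (2 * l) + ‖x‖ ^ 2 / (2 * l) := by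
    field_simp; ring
  linarith

omit [InnerProductSpace ℝ X] in
theorem frame_bddBelow_of_subQuadBelow {g : X → ℝ} (hg : SubQuadBelow g) {l : ℝ} (hl : 0 < l)
    (x : X) : BddBelow (range fun y : X => g y + ‖y - x‖ ^ 2 / (2 * l)) := by
  obtain ⟨C, hC⟩ := hg (1 / (4 * l)) (by positivity)
  refine ⟨-(‖x‖ ^ 2 / (2 * l) + C), ?_⟩
  rintro _ ⟨y, rfl⟩
  dsimp only
  have h1 := hC y
  have h2 := frame_norm_sq_le y x
  have h3 : 1 / (4 * l) * ‖y‖ ^ 2 ≤ 1 / (4 * l) * (2 * ‖y - x‖ ^ 2 + 2 * ‖x‖ ^ 2) :=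
    mul_le_mul_of_nonneg_left h2 (by positivity)
  have h4 : 1 / (4 * l) * (2 * ‖y - x‖ ^ 2 + 2 * ‖x‖ ^ 2)
      = ‖y - x‖ ^ 2 / (2 * l) + ‖x‖ ^ 2 / (2 * l) := by
    field_simp; ring
  linarith

omit [InnerProductSpace ℝ X] in
theorem frame_subQuadAbove_slice {v : X → ℝ → ℝ} (hv : SubQuadLoc v) (τ : ℝ) :
    SubQuadAbove (fun y => v y τ) := by
  intro ε hε
  obtain ⟨C, hC⟩ := hv |τ| ε hε
  exact ⟨C, fun x => (le_abs_self _).trans (hC x τ ⟨neg_abs_le τ, le_abs_self τ⟩)⟩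

omit [InnerProductSpace ℝ X] in
theorem frame_subQuadBelow_slice {v : X → ℝ → ℝ} (hv : SubQuadLoc v) (τ : ℝ) :
    SubQuadBelow (fun y => v y τ) := by
  intro ε hε
  obtain ⟨C, hC⟩ := hv |τ| ε hε
  exact ⟨C, fun x => neg_le_of_abs_le (hC x τ ⟨neg_abs_le τ, le_abs_self τ⟩)⟩

variable (s0 : ℝ) (x0 : X) (t0 : ℝ) {R : ℝ} (p0 : X) (a0 : ℝ) {v : X → ℝ → ℝ}

/-- Subquadratic growth on bounded time intervals is preserved by changes of frame. -/
theorem frame_subQuadLoc (hR : 0 < R) (hv : SubQuadLoc v) :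
    SubQuadLoc (frame s0 x0 t0 R p0 a0 v) := by
  intro T ε hε
  obtain ⟨C, hC⟩ := hv (|t0| + R * (|T| + |s0|)) (ε / (4 * R)) (by positivity)
  set B : ℝ := ‖x0‖ + R * ((|T| + |s0|) * ‖p0‖) with hB
  refine ⟨(ε / (4 * R) * (2 * B ^ 2) + C) / R + |v x0 t0| / R + ‖p0‖ ^ 2 / (2 * ε)
      + |a0 + ‖p0‖ ^ 2 / 2| * (|T| + |s0|), ?_⟩
  intro y s hs
  have hsT : |s| ≤ |T| := by
    rw [abs_le]
    constructor
    · exact le_trans (neg_le_neg (le_abs_self T)) hs.1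
    · exact le_trans hs.2 (le_abs_self T)
  have hss : |s - s0| ≤ |T| + |s0| := (abs_sub _ _).trans (by linarith)
  have ht : frameT s0 t0 R s ∈ Icc (-(|t0| + R * (|T| + |s0|))) (|t0| + R * (|T| + |s0|)) := by
    rw [mem_Icc, ← abs_le]
    unfold frameT
    calc |t0 + R * (s - s0)| ≤ |t0| + |R * (s - s0)| := abs_add_le _ _
      _ = |t0| + R * |s - s0| := by rw [abs_mul, abs_of_pos hR]
      _ ≤ _ := by gcongr
  have h1 := hC (frameX s0 x0 R p0 y s) (frameT s0 t0 R s) ht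
  have hx : ‖frameX s0 x0 R p0 y s‖ ≤ R * ‖y‖ + B := by
    unfold frameX
    calc ‖x0 + R • (y + (s - s0) • p0)‖ ≤ ‖x0‖ + ‖R • (y + (s - s0) • p0)‖ := norm_add_le _ _
      _ = ‖x0‖ + R * ‖y + (s - s0) • p0‖ := by rw [norm_smul, Real.norm_eq_abs, abs_of_pos hR]
      _ ≤ ‖x0‖ + R * (‖y‖ + |s - s0| * ‖p0‖) := by
          gcongr
          calc ‖y + (s - s0) • p0‖ ≤ ‖y‖ + ‖(s - s0) • p0‖ := norm_add_le _ _
            _ = ‖y‖ + |s - s0| * ‖p0‖ := by rw [norm_smul, Real.norm_eq_abs]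
      _ ≤ ‖x0‖ + R * (‖y‖ + (|T| + |s0|) * ‖p0‖) := by gcongr
      _ = R * ‖y‖ + B := by rw [hB]; ring
  have hB0 : 0 ≤ B := by rw [hB]; positivity
  have hx2 : ‖frameX s0 x0 R p0 y s‖ ^ 2 ≤ 2 * R ^ 2 * ‖y‖ ^ 2 + 2 * B ^ 2 := by
    have h0 : 0 ≤ ‖frameX s0 x0 R p0 y s‖ := norm_nonneg _
    have : ‖frameX s0 x0 R p0 y s‖ ^ 2 ≤ (R * ‖y‖ + B) ^ 2 := by gcongr
    nlinarith [sq_nonneg (R * ‖y‖ - B)]
  have h2 : |v (frameX s0 x0 R p0 y s) (frameT s0 t0 R s)| / R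
      ≤ ε / 2 * ‖y‖ ^ 2 + (ε / (4 * R) * (2 * B ^ 2) + C) / R := by
    have h3 : |v (frameX s0 x0 R p0 y s) (frameT s0 t0 R s)|
        ≤ ε / (4 * R) * (2 * R ^ 2 * ‖y‖ ^ 2 + 2 * B ^ 2) + C := by
      refine h1.trans ?_
      gcongr
    calc |v (frameX s0 x0 R p0 y s) (frameT s0 t0 R s)| / R
        ≤ (ε / (4 * R) * (2 * R ^ 2 * ‖y‖ ^ 2 + 2 * B ^ 2) + C) / R := by gcongr
      _ = ε / 2 * ‖y‖ ^ 2 + (ε / (4 * R) * (2 * B ^ 2) + C) / R := by field_simp; ring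
  have h4 : |inner ℝ p0 y| ≤ ε / 2 * ‖y‖ ^ 2 + ‖p0‖ ^ 2 / (2 * ε) := by
    refine (abs_real_inner_le_norm p0 y).trans ?_
    have h5 : ε / 2 * ‖y‖ ^ 2 + ‖p0‖ ^ 2 / (2 * ε) - ‖p0‖ * ‖y‖
        = (ε * ‖y‖ - ‖p0‖) ^ 2 / (2 * ε) := by field_simp; ring
    have h6 : 0 ≤ (ε * ‖y‖ - ‖p0‖) ^ 2 / (2 * ε) := by positivity
    linarith
  have h7 : |(a0 + ‖p0‖ ^ 2 / 2) * (s - s0)| ≤ |a0 + ‖p0‖ ^ 2 / 2| * (|T| + |s0|) := by
    rw [abs_mul]; gcongr
  rw [frame_apply]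
  calc |(v (frameX s0 x0 R p0 y s) (frameT s0 t0 R s) - v x0 t0) / R - inner ℝ p0 y
        - (a0 + ‖p0‖ ^ 2 / 2) * (s - s0)|
      ≤ |(v (frameX s0 x0 R p0 y s) (frameT s0 t0 R s) - v x0 t0) / R| + |inner ℝ p0 y|
        + |(a0 + ‖p0‖ ^ 2 / 2) * (s - s0)| := by
        refine (abs_sub _ _).trans ?_
        gcongr
        exact abs_sub _ _
    _ ≤ (|v (frameX s0 x0 R p0 y s) (frameT s0 t0 R s)| / R + |v x0 t0| / R) + |inner ℝ p0 y|
        + |(a0 + ‖p0‖ ^ 2 / 2) * (s - s0)| := by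
        gcongr
        rw [abs_div, abs_of_pos hR, ← add_div]
        gcongr
        exact abs_sub _ _
    _ ≤ _ := by linarith

/-- (6.12), first line, under subquadratic growth. -/
theorem frame_envP_of_subQuad (hR : 0 < R) (hv : SubQuadLoc v) {l : ℝ} (hl : 0 < l) (y : X)
    (s : ℝ) :
    envP l (frame s0 x0 t0 R p0 a0 v) y s - frame s0 x0 t0 R p0 a0 v y s
      = (envP (R * l) v (frameX s0 x0 R p0 y s) (frameT s0 t0 R s)
          - v (frameX s0 x0 R p0 y s) (frameT s0 t0 R s)) / R - a0 * l :=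
  frame_envP s0 x0 t0 p0 a0 v hR hl.ne' y s
    (frame_bddAbove_of_subQuadAbove (frame_subQuadAbove_slice hv _) (mul_pos hR hl) _)

/-- (6.12), second line, under subquadratic growth. -/
theorem frame_envM_of_subQuad (hR : 0 < R) (hv : SubQuadLoc v) {l : ℝ} (hl : 0 < l) (y : X)
    (s : ℝ) :
    frame s0 x0 t0 R p0 a0 v y s - envM l (frame s0 x0 t0 R p0 a0 v) y s
      = (v (frameX s0 x0 R p0 y s) (frameT s0 t0 R s)
          - envM (R * l) v (frameX s0 x0 R p0 y s) (frameT s0 t0 R s)) / R - a0 * l :=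
  frame_envM s0 x0 t0 p0 a0 v hR hl.ne' y s
    (frame_bddBelow_of_subQuadBelow (frame_subQuadBelow_slice hv _) (mul_pos hR hl) _)

/-- Slope covariance under subquadratic growth, forward. -/
theorem frame_slopeP_of_subQuad (hR : 0 < R) (hv : SubQuadLoc v) {l : ℝ} (hl : 0 < l) (y : X)
    (s : ℝ) :
    slopeP l (frame s0 x0 t0 R p0 a0 v) y s
      = slopeP (R * l) v (frameX s0 x0 R p0 y s) (frameT s0 t0 R s) - a0 :=
  frame_slopeP s0 x0 t0 p0 a0 v hR hl.ne' y s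
    (frame_bddAbove_of_subQuadAbove (frame_subQuadAbove_slice hv _) (mul_pos hR hl) _)

/-- Slope covariance under subquadratic growth, backward. -/
theorem frame_slopeM_of_subQuad (hR : 0 < R) (hv : SubQuadLoc v) {l : ℝ} (hl : 0 < l) (y : X)
    (s : ℝ) :
    slopeM l (frame s0 x0 t0 R p0 a0 v) y s
      = slopeM (R * l) v (frameX s0 x0 R p0 y s) (frameT s0 t0 R s) - a0 :=
  frame_slopeM s0 x0 t0 p0 a0 v hR hl.ne' y s
    (frame_bddBelow_of_subQuadBelow (frame_subQuadBelow_slice hv _) (mul_pos hR hl) _)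

/-- Joint continuity is preserved by changes of frame. -/
theorem frame_continuous (R : ℝ) (hv : Continuous fun z : X × ℝ => v z.1 z.2) :
    Continuous fun z : X × ℝ => frame s0 x0 t0 R p0 a0 v z.1 z.2 := by
  have h1 : Continuous fun z : X × ℝ =>
      ((frameX s0 x0 R p0 z.1 z.2, frameT s0 t0 R z.2) : X × ℝ) := by
    unfold frameX frameT
    fun_prop
  have h2 : Continuous fun z : X × ℝ => v (frameX s0 x0 R p0 z.1 z.2) (frameT s0 t0 R z.2) :=
    hv.comp h1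
  simp only [frame_apply]
  fun_prop

end growth

end Claimed.Agent.R330
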