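import Mathlib
import Claimed.Agent.R330.PartBDefs
import Claimed.Agent.R330.Frame

/-!
# Row 330: the class `ClassA` is invariant under changes of frame (paper Lemma 4.1)

Fits, centring, path convexity / concavity, affinity.  Owner of this file: helper236.
-/

namespace Claimed.Agent.R330

open Set
open scoped RealInnerProductSpace

variable {X : Type*} [NormedAddCommGroup X] [InnerProductSpace ℝ X]

section fits

variable (s0 : ℝ) (x0 : X) (t0 : ℝ) {R : ℝ} (p0 : X) (a0 : ℝ) (v : X → ℝ → ℝ)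

/-- The fit defect in the new frame is the old fit defect divided by `R`. -/
theorem frame_fit_defect (hR : R ≠ 0) (y h : X) (s l : ℝ) (p : X) (a : ℝ) :
    frame s0 x0 t0 R p0 a0 v (y + h) (s + l) - frame s0 x0 t0 R p0 a0 v y s
        - ⟪p - p0, h⟫ - ((a - a0) - ‖p - p0‖ ^ 2 / 2) * l
      = (v (frameX s0 x0 R p0 y s + R • (h + l • p0)) (frameT s0 t0 R s + R * l)
          - v (frameX s0 x0 R p0 y s) (frameT s0 t0 R s)
          - ⟪p, R • (h + l • p0)⟫ - (a - ‖p‖ ^ 2 / 2) * (R * l)) / R := by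
  rw [frame_apply, frame_apply, frameX_add, frameT_add, norm_sub_sq_real p p0,
    inner_sub_left, inner_smul_right, inner_add_right, inner_add_right, inner_smul_right]
  field_simp
  ring

/-- Fits are covariant: forward direction. -/
theorem frame_isFit (hR : 0 < R) {C₀ : ℝ} {y : X} {s ρ : ℝ} {p : X} {a : ℝ}
    (h : IsFit C₀ v (frameX s0 x0 R p0 y s) (frameT s0 t0 R s) (R * ρ) p a) :
    IsFit C₀ (frame s0 x0 t0 R p0 a0 v) y s ρ (p - p0) (a - a0) := by
  intro k l hl hk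
  rw [frame_fit_defect s0 x0 t0 p0 a0 v hR.ne', abs_div, abs_of_pos hR, div_le_iff₀ hR]
  have h1 : |R * l| ≤ R * ρ := by
    rw [abs_mul, abs_of_pos hR]; gcongr
  have h2 : ‖R • (k + l • p0) - (R * l) • p‖ ≤ R * ρ := by
    have : R • (k + l • p0) - (R * l) • p = R • (k - l • (p - p0)) := by
      simp only [smul_add, smul_sub, smul_smul]
      abel
    rw [this, norm_smul, Real.norm_eq_abs, abs_of_pos hR]
    gcongr
  have := h (R • (k + l • p0)) (R * l) h1 h2
  linarith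

/-- Fits are covariant: backward direction. -/
theorem frame_isFit_inv (hR : 0 < R) {C₀ : ℝ} {y : X} {s ρ : ℝ} {p : X} {a : ℝ}
    (h : IsFit C₀ (frame s0 x0 t0 R p0 a0 v) y s ρ (p - p0) (a - a0)) :
    IsFit C₀ v (frameX s0 x0 R p0 y s) (frameT s0 t0 R s) (R * ρ) p a := by
  intro k l hl hk
  have hRne := hR.ne'
  have e1 : R * (l / R) = l := by field_simp
  have e2 : R • ((R⁻¹ • k - (l / R) • p0) + (l / R) • p0) = k := by
    rw [sub_add_cancel, smul_smul, mul_inv_cancel₀ hRne, one_smul]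
  have h1 : |l / R| ≤ ρ := by
    rw [abs_div, abs_of_pos hR, div_le_iff₀ hR]; linarith
  have h2 : ‖(R⁻¹ • k - (l / R) • p0) - (l / R) • (p - p0)‖ ≤ ρ := by
    have : (R⁻¹ • k - (l / R) • p0) - (l / R) • (p - p0) = R⁻¹ • (k - l • p) := by
      simp only [smul_sub, smul_smul, div_eq_inv_mul]
      abel
    rw [this, norm_smul, norm_inv, Real.norm_eq_abs, abs_of_pos hR, inv_mul_le_iff₀ hR]
    exact hk
  have := h (R⁻¹ • k - (l / R) • p0) (l / R) h1 h2
  rw [frame_fit_defect s0 x0 t0 p0 a0 v hRne, e1, e2, abs_div, abs_of_pos hR,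
    div_le_iff₀ hR] at this
  linarith

/-- Fits are covariant. -/
theorem frame_isFit_iff (hR : 0 < R) {C₀ : ℝ} {y : X} {s ρ : ℝ} {p : X} {a : ℝ} :
    IsFit C₀ (frame s0 x0 t0 R p0 a0 v) y s ρ (p - p0) (a - a0)
      ↔ IsFit C₀ v (frameX s0 x0 R p0 y s) (frameT s0 t0 R s) (R * ρ) p a :=
  ⟨frame_isFit_inv s0 x0 t0 p0 a0 v hR, frame_isFit s0 x0 t0 p0 a0 v hR⟩

/-- Fits of the new function, with arbitrary parameters, read in the old frame. -/
theorem frame_isFit_iff' (hR : 0 < R) {C₀ : ℝ} {y : X} {s ρ : ℝ} {p : X} {a : ℝ} :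
    IsFit C₀ (frame s0 x0 t0 R p0 a0 v) y s ρ p a
      ↔ IsFit C₀ v (frameX s0 x0 R p0 y s) (frameT s0 t0 R s) (R * ρ) (p + p0) (a + a0) := by
  rw [← frame_isFit_iff s0 x0 t0 p0 a0 v hR, add_sub_cancel_right, add_sub_cancel_right]

variable {v}

/-- Existence of fits at all centres and radii is preserved. -/
theorem frame_hasFits (hR : 0 < R) {C₀ : ℝ} (h : HasFits C₀ v) :
    HasFits C₀ (frame s0 x0 t0 R p0 a0 v) := by
  intro y s ρ hρ
  obtain ⟨p, a, hpa⟩ := h (frameX s0 x0 R p0 y s) (frameT s0 t0 R s) (R * ρ) (mul_pos hR hρ)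
  exact ⟨p - p0, a - a0, frame_isFit s0 x0 t0 p0 a0 v hR hpa⟩

/-- The fitted frame is centred at the new base point `(0, s0)`. -/
theorem frame_centeredAt (hR : 0 < R) {C₀ : ℝ} (h : IsFit C₀ v x0 t0 R p0 a0) :
    CenteredAt C₀ (frame s0 x0 t0 R p0 a0 v) 0 s0 := by
  refine ⟨frame_base s0 x0 t0 R p0 a0 v, ?_⟩
  have h' : IsFit C₀ v (frameX s0 x0 R p0 0 s0) (frameT s0 t0 R s0) (R * 1) p0 a0 := by
    rw [frameX_base, frameT_base, mul_one]; exact h
  have := frame_isFit s0 x0 t0 p0 a0 v hR h'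
  rwa [sub_self, sub_self] at this

end fits

section path

/-- Rescaling the variable, dividing by `R` and adding an affine function preserves convexity on
the positive half line. -/
theorem frame_convexOn_rescale {g : ℝ → ℝ} {R : ℝ} (hR : 0 < R) (A B : ℝ)
    (hg : ConvexOn ℝ (Ioi (0 : ℝ)) g) :
    ConvexOn ℝ (Ioi (0 : ℝ)) (fun l => g (R * l) / R + A * l + B) := by
  refine ⟨convex_Ioi 0, ?_⟩
  intro a ha b hb α β hα hβ hαβ
  have h1 := hg.2 (x := R * a) (y := R * b) (mul_pos hR ha) (mul_pos hR hb) hα hβ hαβ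
  simp only [smul_eq_mul] at h1 ⊢
  have e : R * (α * a + β * b) = α * (R * a) + β * (R * b) := by ring
  rw [e]
  have h2 : g (α * (R * a) + β * (R * b)) / R ≤ (α * g (R * a) + β * g (R * b)) / R := by
    gcongr
  have h3 : (α * g (R * a) + β * g (R * b)) / R = α * (g (R * a) / R) + β * (g (R * b) / R) := by
    ring
  have h4 : B = α * B + β * B := by rw [← add_mul, hαβ, one_mul]
  nlinarith

/-- Concave version of `frame_convexOn_rescale`. -/
theorem frame_concaveOn_rescale {g : ℝ → ℝ} {R : ℝ} (hR : 0 < R) (A B : ℝ)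
    (hg : ConcaveOn ℝ (Ioi (0 : ℝ)) g) :
    ConcaveOn ℝ (Ioi (0 : ℝ)) (fun l => g (R * l) / R + A * l + B) := by
  have h := frame_convexOn_rescale hR (-A) (-B) hg.neg
  have h' := h.neg
  refine h'.congr ?_
  intro l _
  simp only [Pi.neg_apply]
  ring

variable (s0 : ℝ) (x0 : X) (t0 : ℝ) {R : ℝ} (p0 : X) (a0 : ℝ) {v : X → ℝ → ℝ}

/-- Closed formula for the forward envelope in the new frame. -/
theorem frame_envP_eq (hR : 0 < R) {l : ℝ} (hl : 0 < l) (y : X) (s : ℝ)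
    (hb : SubQuadAbove fun x' => v x' (frameT s0 t0 R s + R * l)) :
    envP l (frame s0 x0 t0 R p0 a0 v) y s
      = (envP (R * l) v (frameX s0 x0 R p0 y s) (frameT s0 t0 R s) - v x0 t0) / R
        - ⟪p0, y⟫ - (a0 + ‖p0‖ ^ 2 / 2) * (s - s0) - a0 * l := by
  have h := frame_envP s0 x0 t0 p0 a0 v hR hl.ne' y s
    (frame_bddAbove_of_subQuadAbove hb (mul_pos hR hl) _)
  rw [frame_apply] at h
  have hRne := hR.ne'
  have : envP l (frame s0 x0 t0 R p0 a0 v) y s
      = (envP (R * l) v (frameX s0 x0 R p0 y s) (frameT s0 t0 R s)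
          - v (frameX s0 x0 R p0 y s) (frameT s0 t0 R s)) / R - a0 * l
        + ((v (frameX s0 x0 R p0 y s) (frameT s0 t0 R s) - v x0 t0) / R
        - ⟪p0, y⟫ - (a0 + ‖p0‖ ^ 2 / 2) * (s - s0)) := by linarith
  rw [this]
  ring

/-- Closed formula for the backward envelope in the new frame. -/
theorem frame_envM_eq (hR : 0 < R) {l : ℝ} (hl : 0 < l) (y : X) (s : ℝ)
    (hb : SubQuadBelow fun x' => v x' (frameT s0 t0 R s - R * l)) :
    envM l (frame s0 x0 t0 R p0 a0 v) y s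
      = (envM (R * l) v (frameX s0 x0 R p0 y s) (frameT s0 t0 R s) - v x0 t0) / R
        - ⟪p0, y⟫ - (a0 + ‖p0‖ ^ 2 / 2) * (s - s0) + a0 * l := by
  have h := frame_envM s0 x0 t0 p0 a0 v hR hl.ne' y s
    (frame_bddBelow_of_subQuadBelow hb (mul_pos hR hl) _)
  rw [frame_apply] at h
  have : envM l (frame s0 x0 t0 R p0 a0 v) y s
      = ((v (frameX s0 x0 R p0 y s) (frameT s0 t0 R s) - v x0 t0) / R
        - ⟪p0, y⟫ - (a0 + ‖p0‖ ^ 2 / 2) * (s - s0))
        - ((v (frameX s0 x0 R p0 y s) (frameT s0 t0 R s)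
          - envM (R * l) v (frameX s0 x0 R p0 y s) (frameT s0 t0 R s)) / R - a0 * l) := by
    linarith
  rw [this]
  ring

/-- Path convexity of the forward envelope is preserved, version with a set of base times. -/
theorem frame_pathConvexPOn (hR : 0 < R) {T T' : Set ℝ}
    (hT : ∀ s ∈ T, frameT s0 t0 R s ∈ T')
    (hb : ∀ t ∈ T', ∀ l : ℝ, 0 < l → SubQuadAbove fun x' => v x' (t + l))
    (h : PathConvexPOn T' v) : PathConvexPOn T (frame s0 x0 t0 R p0 a0 v) := by
  intro y0 d s hs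
  have h1 := h (frameX s0 x0 R p0 y0 s) d (frameT s0 t0 R s) (hT s hs)
  have h2 := frame_convexOn_rescale hR (- ⟪p0, d⟫ - a0 - ‖d‖ ^ 2 * Real.log R)
    (- v x0 t0 / R - ⟪p0, y0⟫ - (a0 + ‖p0‖ ^ 2 / 2) * (s - s0)) h1
  refine h2.congr ?_
  intro l hl
  have hl0 : (0 : ℝ) < l := hl
  dsimp only
  rw [frame_envP_eq s0 x0 t0 p0 a0 hR hl0 _ _ (hb _ (hT s hs) _ (mul_pos hR hl0)),
    frameX_add_smul, Real.log_mul hR.ne' hl0.ne', inner_add_right, inner_smul_right]
  have hRne := hR.ne'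
  field_simp
  ring

/-- Path convexity of the forward envelope is preserved. -/
theorem frame_pathConvexP (hR : 0 < R) (hb : ∀ t : ℝ, SubQuadAbove fun x' => v x' t)
    (h : PathConvexP v) : PathConvexP (frame s0 x0 t0 R p0 a0 v) := by
  have h1 : PathConvexPOn univ v := fun y0 d t _ => h y0 d t
  have h2 := frame_pathConvexPOn s0 x0 t0 p0 a0 hR (T := univ) (T' := univ)
    (fun _ _ => mem_univ _) (fun t _ l _ => hb (t + l)) h1
  exact fun y0 d s => h2 y0 d s (mem_univ s)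

/-- Path concavity of the backward envelope is preserved. -/
theorem frame_pathConcaveM (hR : 0 < R) (hb : ∀ t : ℝ, SubQuadBelow fun x' => v x' t)
    (h : PathConcaveM v) : PathConcaveM (frame s0 x0 t0 R p0 a0 v) := by
  intro y0 d s
  have h1 := h (frameX s0 x0 R p0 y0 s) d (frameT s0 t0 R s)
  have h2 := frame_concaveOn_rescale hR (- ⟪p0, d⟫ + a0 + ‖d‖ ^ 2 * Real.log R)
    (- v x0 t0 / R - ⟪p0, y0⟫ - (a0 + ‖p0‖ ^ 2 / 2) * (s - s0)) h1
  refine h2.congr ?_
  intro l hl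
  have hl0 : (0 : ℝ) < l := hl
  dsimp only
  rw [frame_envM_eq s0 x0 t0 p0 a0 hR hl0 _ _ (hb _),
    frameX_add_smul, Real.log_mul hR.ne' hl0.ne', inner_add_right, inner_smul_right]
  have hRne := hR.ne'
  field_simp
  ring

end path

section classA

variable (s0 : ℝ) (x0 : X) (t0 : ℝ) {R : ℝ} (p0 : X) (a0 : ℝ) {v : X → ℝ → ℝ}

/-- **Paper Lemma 4.1**: the class is invariant under changes of frame. -/
theorem frame_classA (hR : 0 < R) {C₀ : ℝ} (hsq : SubQuadLoc v) (hv : ClassA C₀ v) :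
    ClassA C₀ (frame s0 x0 t0 R p0 a0 v) where
  cont := frame_continuous s0 x0 t0 p0 a0 R hv.cont
  fits := frame_hasFits s0 x0 t0 p0 a0 hR hv.fits
  convP := frame_pathConvexP s0 x0 t0 p0 a0 hR (frame_subQuadAbove_slice hsq) hv.convP
  concM := frame_pathConcaveM s0 x0 t0 p0 a0 hR (frame_subQuadBelow_slice hsq) hv.concM

/-- Affine functions stay affine. -/
theorem frame_isAffineST (R : ℝ) (h : IsAffineST v) :
    IsAffineST (frame s0 x0 t0 R p0 a0 v) := by
  obtain ⟨p, q, c, hv⟩ := h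
  by_cases hR : R = 0
  · subst hR
    refine ⟨-p0, -(a0 + ‖p0‖ ^ 2 / 2), (a0 + ‖p0‖ ^ 2 / 2) * s0, ?_⟩
    intro y s
    rw [frame_apply, div_zero, inner_neg_left]
    ring
  · refine ⟨p - p0, ⟪p, p0⟫ + q - (a0 + ‖p0‖ ^ 2 / 2),
      - s0 * (⟪p, p0⟫ + q - (a0 + ‖p0‖ ^ 2 / 2)), ?_⟩
    intro y s
    rw [frame_apply, hv, hv]
    unfold frameX frameT
    rw [inner_add_right, inner_smul_right, inner_add_right, inner_smul_right, inner_sub_left]
    field_simp
    ring

/-- Affinity can be tested in any frame. -/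
theorem frame_isAffineST_iff (hR : R ≠ 0) :
    IsAffineST (frame s0 x0 t0 R p0 a0 v) ↔ IsAffineST v := by
  refine ⟨?_, frame_isAffineST s0 x0 t0 p0 a0 R⟩
  rintro ⟨p, q, c, hV⟩
  refine ⟨p + p0, q + (a0 + ‖p0‖ ^ 2 / 2) - ⟪p + p0, p0⟫,
    v x0 t0 + R * (q * s0 + c) - ⟪p + p0, x0⟫
      - (q + (a0 + ‖p0‖ ^ 2 / 2) - ⟪p + p0, p0⟫) * t0, ?_⟩
  intro x t
  rw [frame_recover s0 x0 t0 R p0 a0 v hR x t, hV]
  simp only [inner_sub_right, inner_smul_right, inner_add_left]
  field_simp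
  ring

end classA

end Claimed.Agent.R330
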