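import Claimed.Agent.R330.EnvST
import Claimed.Agent.R330.PartBDefs

/-!
# Row 330: glue between the envelope library and the Part B definitions

* time reflection exchanges `PathConvexP` and `PathConcaveM`;
* extension of (path) convexity from `Ioi 0` to the endpoint `0`, where the envelope has the
  limit value `f x₀ t`;
* the midpoint inequality with the `log 2` cost used in Section 6.
-/

namespace Claimed.Agent.R330

open Filter Topology Set

section Generic

/-- Convexity on `(0,∞)` plus a limit at `0+` gives the chord inequality from the endpoint. -/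
theorem env_convex_endpoint {φ : ℝ → ℝ} {c : ℝ} (hφ : ConvexOn ℝ (Ioi 0) φ)
    (hlim : Tendsto φ (𝓝[>] 0) (𝓝 c)) {l : ℝ} (hl : 0 < l) {θ : ℝ} (h0 : 0 < θ) (h1 : θ ≤ 1) :
    φ (θ * l) ≤ (1 - θ) * c + θ * φ l := by
  rcases eq_or_lt_of_le h1 with rfl | h1
  · simp
  -- for small `σ`, write `θ l = (1-τ) σ + τ l`
  have hθl : 0 < θ * l := by positivity
  have hev : ∀ᶠ σ in 𝓝[>] (0 : ℝ), φ (θ * l) ≤
      ((l - θ * l) / (l - σ)) * φ σ + ((θ * l - σ) / (l - σ)) * φ l := by
    have h2 : ∀ᶠ σ in 𝓝[>] (0 : ℝ), σ < θ * l :=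
      (nhdsWithin_le_nhds) (gt_mem_nhds hθl)
    filter_upwards [h2, self_mem_nhdsWithin] with σ hσ hσ0
    have hσ0' : (0 : ℝ) < σ := hσ0
    have hlt : θ * l < l := by nlinarith
    have hd : 0 < l - σ := by linarith
    have := hφ.2 hσ0 (show l ∈ Ioi (0 : ℝ) from hl)
      (div_nonneg (show 0 ≤ l - θ * l by linarith) hd.le)
      (div_nonneg (show 0 ≤ θ * l - σ by linarith) hd.le) (by field_simp; ring)
    simp only [smul_eq_mul] at this
    have he : (l - θ * l) / (l - σ) * σ + (θ * l - σ) / (l - σ) * l = θ * l := by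
      field_simp
      ring
    rwa [he] at this
  have hid : Tendsto (fun σ : ℝ => σ) (𝓝[>] (0 : ℝ)) (𝓝 0) := nhdsWithin_le_nhds
  have hlim2 : Tendsto (fun σ => ((l - θ * l) / (l - σ)) * φ σ + ((θ * l - σ) / (l - σ)) * φ l)
      (𝓝[>] (0 : ℝ)) (𝓝 (((l - θ * l) / (l - 0)) * c + ((θ * l - 0) / (l - 0)) * φ l)) := by
    refine Tendsto.add (Tendsto.mul (Tendsto.div tendsto_const_nhds
      (tendsto_const_nhds.sub hid) (by simpa using hl.ne')) hlim) (Tendsto.mul_const _
      (Tendsto.div (tendsto_const_nhds.sub hid) (tendsto_const_nhds.sub hid)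
      (by simpa using hl.ne')))
  have hfin := ge_of_tendsto hlim2 hev
  have e1 : (l - θ * l) / (l - 0) = 1 - θ := by
    rw [sub_zero]
    field_simp
  have e2 : (θ * l - 0) / (l - 0) = θ := by
    rw [sub_zero, sub_zero]
    field_simp
  rwa [e1, e2] at hfin

/-- Convexity on `(0,∞)` plus a limit at `0+`: the extension by the limit value is convex on
`[0,∞)`. -/
theorem env_convexOn_Ici {φ : ℝ → ℝ} {c : ℝ} (hφ : ConvexOn ℝ (Ioi 0) φ)
    (hlim : Tendsto φ (𝓝[>] 0) (𝓝 c)) :
    ConvexOn ℝ (Ici 0) (fun l => if l = 0 then c else φ l) := by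
  refine ⟨convex_Ici 0, ?_⟩
  intro x hx y hy a b ha hb hab
  simp only [smul_eq_mul]
  have hx' : (0 : ℝ) ≤ x := hx
  have hy' : (0 : ℝ) ≤ y := hy
  rcases eq_or_lt_of_le hx' with rfl | hx0
  · rcases eq_or_lt_of_le hy' with rfl | hy0
    · simp only [mul_zero, add_zero, if_true]
      rw [← add_mul, hab, one_mul]
    · rcases eq_or_lt_of_le hb with rfl | hb0
      · simp only [mul_zero, zero_mul, add_zero, if_true]
        have : a = 1 := by linarith
        rw [this, one_mul]
      · have hby : b * y ≠ 0 := by positivity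
        simp only [mul_zero, zero_add, if_true, hby, hy0.ne', if_false]
        have := env_convex_endpoint hφ hlim hy0 hb0 (by linarith)
        have ha' : a = 1 - b := by linarith
        rw [ha']
        exact this
  · rcases eq_or_lt_of_le hy' with rfl | hy0
    · rcases eq_or_lt_of_le ha with rfl | ha0
      · simp only [mul_zero, zero_mul, add_zero, if_true]
        have : b = 1 := by linarith
        rw [this, one_mul, zero_add]
      · have hax : a * x ≠ 0 := by positivity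
        simp only [mul_zero, add_zero, if_true, hax, hx0.ne', if_false]
        have := env_convex_endpoint hφ hlim hx0 ha0 (by linarith)
        have hb' : b = 1 - a := by linarith
        rw [hb']
        linarith
    · have hpos : 0 < a * x + b * y := by
        rcases eq_or_lt_of_le ha with rfl | ha0
        · have : b = 1 := by linarith
          rw [this]
          simpa using hy0
        · have : 0 ≤ b * y := by positivity
          have : 0 < a * x := by positivity
          linarith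
      simp only [hpos.ne', hx0.ne', hy0.ne', if_false]
      have := hφ.2 (show x ∈ Ioi (0 : ℝ) from hx0) (show y ∈ Ioi (0 : ℝ) from hy0) ha hb hab
      simpa only [smul_eq_mul] using this

/-- Monotone chord slopes from the endpoint. -/
theorem env_slope_mono_endpoint {φ : ℝ → ℝ} {c : ℝ} (hφ : ConvexOn ℝ (Ioi 0) φ)
    (hlim : Tendsto φ (𝓝[>] 0) (𝓝 c)) {l h : ℝ} (hl : 0 < l) (hlh : l ≤ h) :
    (φ l - c) / l ≤ (φ h - c) / h := by
  have hh : 0 < h := lt_of_lt_of_le hl hlh
  have := env_convex_endpoint hφ hlim hh (θ := l / h) (by positivity)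
    ((div_le_one hh).2 hlh)
  have e : l / h * h = l := by field_simp
  rw [e] at this
  rw [div_le_div_iff₀ hl hh]
  have h2 : φ l * h ≤ ((1 - l / h) * c + l / h * φ h) * h :=
    mul_le_mul_of_nonneg_right this hh.le
  have e2 : ((1 - l / h) * c + l / h * φ h) * h = (h - l) * c + l * φ h := by
    field_simp
  rw [e2] at h2
  nlinarith

end Generic

section Path

variable {X : Type*} [NormedAddCommGroup X] [InnerProductSpace ℝ X]

theorem pathConvexP_reflT_iff {f : X → ℝ → ℝ} : PathConvexP (reflT f) ↔ PathConcaveM f := by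
  unfold PathConvexP PathConcaveM
  constructor
  · intro h x₀ d t
    have := (h x₀ d (-t)).neg
    refine this.congr ?_
    intro l _
    simp only [envP_reflT, neg_neg, Pi.neg_apply]
    ring
  · intro h x₀ d t
    have := (h x₀ d (-t)).neg
    refine this.congr ?_
    intro l _
    simp only [envP_reflT, Pi.neg_apply]
    ring

theorem pathConcaveM_reflT_iff {f : X → ℝ → ℝ} : PathConcaveM (reflT f) ↔ PathConvexP f := by
  rw [← pathConvexP_reflT_iff, reflT_reflT]

/-- The path function of (4.8) tends to `f x₀ t` at the endpoint `0`. -/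
theorem tendsto_path_envP_zero {f : X → ℝ → ℝ} {I : Set ℝ} {x₀ : X} {t : ℝ} (hI : I ∈ 𝓝 t)
    (hc : ContinuousAt (fun p : X × ℝ => f p.1 p.2) (x₀, t)) (hg : SubQuadOn I f) (d : X) :
    Tendsto (fun l : ℝ => envP l f (x₀ + l • d) t + ‖d‖ ^ 2 * (l * Real.log l)) (𝓝[>] (0 : ℝ))
      (𝓝 (f x₀ t)) := by
  have hid : Tendsto (fun σ : ℝ => σ) (𝓝[>] (0 : ℝ)) (𝓝 0) := nhdsWithin_le_nhds
  have hx : Tendsto (fun l : ℝ => x₀ + l • d) (𝓝[>] (0 : ℝ)) (𝓝 x₀) := by
    have := (tendsto_const_nhds (x := x₀)).add (hid.smul_const d)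
    simpa using this
  have h1 := tendsto_envP_zero (F := 𝓝[>] (0 : ℝ)) hI hc hg hx tendsto_const_nhds tendsto_id
  have h2 : Tendsto (fun l : ℝ => ‖d‖ ^ 2 * (l * Real.log l)) (𝓝[>] (0 : ℝ)) (𝓝 0) := by
    have := (Real.continuous_mul_log.tendsto 0).mono_left
      (nhdsWithin_le_nhds (s := Ioi (0 : ℝ)))
    simp only [zero_mul] at this
    simpa using this.const_mul (‖d‖ ^ 2)
  simpa using h1.add h2

theorem tendsto_path_envM_zero {f : X → ℝ → ℝ} {I : Set ℝ} {x₀ : X} {t : ℝ} (hI : I ∈ 𝓝 t)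
    (hc : ContinuousAt (fun p : X × ℝ => f p.1 p.2) (x₀, t)) (hg : SubQuadOn I f) (d : X) :
    Tendsto (fun l : ℝ => envM l f (x₀ + l • d) t - ‖d‖ ^ 2 * (l * Real.log l)) (𝓝[>] (0 : ℝ))
      (𝓝 (f x₀ t)) := by
  have hid : Tendsto (fun σ : ℝ => σ) (𝓝[>] (0 : ℝ)) (𝓝 0) := nhdsWithin_le_nhds
  have hx : Tendsto (fun l : ℝ => x₀ + l • d) (𝓝[>] (0 : ℝ)) (𝓝 x₀) := by
    have := (tendsto_const_nhds (x := x₀)).add (hid.smul_const d)
    simpa using this
  have h1 := tendsto_envM_zero (F := 𝓝[>] (0 : ℝ)) hI hc hg hx tendsto_const_nhds tendsto_id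
  have h2 : Tendsto (fun l : ℝ => ‖d‖ ^ 2 * (l * Real.log l)) (𝓝[>] (0 : ℝ)) (𝓝 0) := by
    have := (Real.continuous_mul_log.tendsto 0).mono_left
      (nhdsWithin_le_nhds (s := Ioi (0 : ℝ)))
    simp only [zero_mul] at this
    simpa using this.const_mul (‖d‖ ^ 2)
  simpa using h1.sub h2

/-- Path convexity up to the endpoint `0` (paper (4.8) "on its allowed range `l ≥ 0`"). -/
theorem path_convexOn_Ici {f : X → ℝ → ℝ} {I : Set ℝ} {x₀ d : X} {t : ℝ} (hI : I ∈ 𝓝 t)
    (hc : ContinuousAt (fun p : X × ℝ => f p.1 p.2) (x₀, t)) (hg : SubQuadOn I f)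
    (hconv : ConvexOn ℝ (Ioi (0 : ℝ))
      (fun l => envP l f (x₀ + l • d) t + ‖d‖ ^ 2 * (l * Real.log l))) :
    ConvexOn ℝ (Ici (0 : ℝ)) (fun l => if l = 0 then f x₀ t else
      envP l f (x₀ + l • d) t + ‖d‖ ^ 2 * (l * Real.log l)) :=
  env_convexOn_Ici hconv (tendsto_path_envP_zero hI hc hg d)

/-- The midpoint inequality of Section 6:
`P_ε f (x₀+εd,t) ≤ (f(x₀,t) + P_{2ε} f (x₀+2εd,t))/2 + |d|² ε log 2`. -/
theorem path_midpoint_envP {f : X → ℝ → ℝ} {I : Set ℝ} {x₀ d : X} {t : ℝ} (hI : I ∈ 𝓝 t)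
    (hc : ContinuousAt (fun p : X × ℝ => f p.1 p.2) (x₀, t)) (hg : SubQuadOn I f)
    (hconv : ConvexOn ℝ (Ioi (0 : ℝ))
      (fun l => envP l f (x₀ + l • d) t + ‖d‖ ^ 2 * (l * Real.log l))) {ε : ℝ} (hε : 0 < ε) :
    envP ε f (x₀ + ε • d) t ≤ (f x₀ t + envP (2 * ε) f (x₀ + (2 * ε) • d) t) / 2
      + ‖d‖ ^ 2 * ε * Real.log 2 := by
  have h := env_convex_endpoint hconv (tendsto_path_envP_zero hI hc hg d) (l := 2 * ε)
    (by positivity) (θ := 1 / 2) (by norm_num) (by norm_num)
  have e : (1 / 2 : ℝ) * (2 * ε) = ε := by ring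
  simp only [e] at h
  have hlog : Real.log (2 * ε) = Real.log 2 + Real.log ε :=
    Real.log_mul two_ne_zero hε.ne'
  rw [hlog] at h
  nlinarith

/-- Fixed-centre convexity from path convexity (`d = 0`). -/
theorem PathConvexP.convexOn_envP {f : X → ℝ → ℝ} (h : PathConvexP f) (x : X) (t : ℝ) :
    ConvexOn ℝ (Ioi (0 : ℝ)) (fun l => envP l f x t) := by
  have := h x 0 t
  simpa using this

theorem PathConcaveM.concaveOn_envM {f : X → ℝ → ℝ} (h : PathConcaveM f) (x : X) (t : ℝ) :
    ConcaveOn ℝ (Ioi (0 : ℝ)) (fun l => envM l f x t) := by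
  have := h x 0 t
  simpa using this

theorem PathConvexPOn.convexOn_envP {T : Set ℝ} {f : X → ℝ → ℝ} (h : PathConvexPOn T f) (x : X)
    {t : ℝ} (ht : t ∈ T) : ConvexOn ℝ (Ioi (0 : ℝ)) (fun l => envP l f x t) := by
  have := h x 0 t ht
  simpa using this

omit [InnerProductSpace ℝ X] in
/-- Monotone forward slopes (first part of Lemma 4.4), local in time. -/
theorem slopeP_mono_of_convexOn {f : X → ℝ → ℝ} {I : Set ℝ} {x : X} {t : ℝ} (hI : I ∈ 𝓝 t)
    (hc : ContinuousAt (fun p : X × ℝ => f p.1 p.2) (x, t)) (hg : SubQuadOn I f)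
    (hconv : ConvexOn ℝ (Ioi (0 : ℝ)) (fun l => envP l f x t)) {l h : ℝ} (hl : 0 < l)
    (hlh : l ≤ h) : slopeP l f x t ≤ slopeP h f x t :=
  env_slope_mono_endpoint hconv
    (tendsto_envP_zero (F := 𝓝[>] (0 : ℝ)) hI hc hg tendsto_const_nhds tendsto_const_nhds
      tendsto_id) hl hlh

omit [InnerProductSpace ℝ X] in
/-- Monotone backward slopes (Lemma 4.4), local in time. -/
theorem slopeM_mono_of_concaveOn {f : X → ℝ → ℝ} {I : Set ℝ} {x : X} {t : ℝ} (hI : I ∈ 𝓝 t)
    (hc : ContinuousAt (fun p : X × ℝ => f p.1 p.2) (x, t)) (hg : SubQuadOn I f)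
    (hconc : ConcaveOn ℝ (Ioi (0 : ℝ)) (fun l => envM l f x t)) {l h : ℝ} (hl : 0 < l)
    (hlh : l ≤ h) : slopeM l f x t ≤ slopeM h f x t := by
  have h1 := env_slope_mono_endpoint (φ := fun l => - envM l f x t) (c := - f x t) hconc.neg
    ((tendsto_envM_zero (F := 𝓝[>] (0 : ℝ)) hI hc hg tendsto_const_nhds tendsto_const_nhds
      tendsto_id).neg) hl hlh
  unfold slopeM
  have e : ∀ l', (- envM l' f x t - - f x t) = f x t - envM l' f x t := fun l' => by ring
  simpa only [e] using h1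

end Path

end Claimed.Agent.R330
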