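import Claimed.Agent.R330.EnvConv

/-!
# Row 330: quadratic envelopes, space-time wrappers

Competitors, attainment, time reflection, composition, affine model, joint continuity and
stability for `envP`, `envM` (functions `f : X → ℝ → ℝ`).  All continuity statements are local
in time, so that they also apply to functions that are only meaningful on a time interval.
-/

namespace Claimed.Agent.R330

open Filter Topology Set

section ST

variable {X : Type*} [NormedAddCommGroup X] {α : Type*}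

theorem le_envP {f : X → ℝ → ℝ} {l t : ℝ} (hg : SubQuadAbove (fun y => f y (t + l)))
    (hl : 0 < l) (x y : X) : f y (t + l) - ‖y - x‖ ^ 2 / (2 * l) ≤ envP l f x t :=
  le_supConv hg hl x y

theorem envP_le {f : X → ℝ → ℝ} {l t a : ℝ} {x : X}
    (h : ∀ y, f y (t + l) - ‖y - x‖ ^ 2 / (2 * l) ≤ a) : envP l f x t ≤ a :=
  supConv_le h

theorem envM_le {f : X → ℝ → ℝ} {l t : ℝ} (hg : SubQuadBelow (fun y => f y (t - l)))
    (hl : 0 < l) (x y : X) : envM l f x t ≤ f y (t - l) + ‖y - x‖ ^ 2 / (2 * l) :=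
  infConv_le hg hl x y

theorem le_envM {f : X → ℝ → ℝ} {l t a : ℝ} {x : X}
    (h : ∀ y, a ≤ f y (t - l) + ‖y - x‖ ^ 2 / (2 * l)) : a ≤ envM l f x t :=
  le_infConv h

theorem exists_envP_eq [ProperSpace X] {f : X → ℝ → ℝ} {l t : ℝ}
    (hc : Continuous fun y => f y (t + l)) (hg : SubQuadAbove (fun y => f y (t + l)))
    (hl : 0 < l) (x : X) : ∃ y, envP l f x t = f y (t + l) - ‖y - x‖ ^ 2 / (2 * l) :=
  exists_supConv_eq hc hg hl x

theorem exists_envM_eq [ProperSpace X] {f : X → ℝ → ℝ} {l t : ℝ}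
    (hc : Continuous fun y => f y (t - l)) (hg : SubQuadBelow (fun y => f y (t - l)))
    (hl : 0 < l) (x : X) : ∃ y, envM l f x t = f y (t - l) + ‖y - x‖ ^ 2 / (2 * l) :=
  exists_infConv_eq hc hg hl x

omit [NormedAddCommGroup X] in
theorem reflT_reflT (f : X → ℝ → ℝ) : reflT (reflT f) = f := by
  ext x t
  simp [reflT]

theorem envP_reflT (l : ℝ) (f : X → ℝ → ℝ) (x : X) (t : ℝ) :
    envP l (reflT f) x t = - envM l f x (-t) := by
  unfold envP envM reflT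
  rw [infConv_eq_neg_supConv, neg_neg]
  congr 1
  ext y
  congr 2
  ring

theorem envM_reflT (l : ℝ) (f : X → ℝ → ℝ) (x : X) (t : ℝ) :
    envM l (reflT f) x t = - envP l f x (-t) := by
  have h := envP_reflT l (reflT f) x (-t)
  rw [reflT_reflT, neg_neg] at h
  rw [h, neg_neg]

theorem slopeP_reflT (l : ℝ) (f : X → ℝ → ℝ) (x : X) (t : ℝ) :
    slopeP l (reflT f) x t = slopeM l f x (-t) := by
  unfold slopeP slopeM
  rw [envP_reflT]
  simp only [reflT]
  congr 1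
  ring

theorem slopeM_reflT (l : ℝ) (f : X → ℝ → ℝ) (x : X) (t : ℝ) :
    slopeM l (reflT f) x t = slopeP l f x (-t) := by
  have h := slopeP_reflT l (reflT f) x (-t)
  rw [reflT_reflT, neg_neg] at h
  exact h.symm

theorem SubQuadOn.reflT {J : Set ℝ} {f : X → ℝ → ℝ} (hf : SubQuadOn J f) :
    SubQuadOn (Neg.neg ⁻¹' J) (reflT f) := by
  intro ε hε
  obtain ⟨C, hC⟩ := hf ε hε
  refine ⟨C, fun x t ht => ?_⟩
  simpa [Claimed.Agent.R330.reflT] using hC x (-t) ht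

theorem SubQuadLoc.reflT {f : X → ℝ → ℝ} (hf : SubQuadLoc f) : SubQuadLoc (reflT f) := by
  intro T
  refine (hf T).reflT.mono ?_
  intro t ht
  exact ⟨by simpa using ht.2, by simpa using neg_le.1 ht.1⟩

theorem continuous_reflT {f : X → ℝ → ℝ} (hf : Continuous fun p : X × ℝ => f p.1 p.2) :
    Continuous fun p : X × ℝ => reflT f p.1 p.2 := by
  unfold reflT
  exact (hf.comp (continuous_fst.prodMk continuous_snd.neg)).neg

theorem envP_eq_add_slopeP {l : ℝ} (hl : l ≠ 0) (f : X → ℝ → ℝ) (x : X) (t : ℝ) :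
    envP l f x t = f x t + l * slopeP l f x t := by
  unfold slopeP
  field_simp
  ring

theorem envM_eq_sub_slopeM {l : ℝ} (hl : l ≠ 0) (f : X → ℝ → ℝ) (x : X) (t : ℝ) :
    envM l f x t = f x t - l * slopeM l f x t := by
  unfold slopeM
  field_simp
  ring

/-- **Stability / joint continuity of the forward envelope** (positive limit length).
`V a → f` continuously in space-time at the points of the slice `t + l`, with an eventual common
subquadratic upper bound for times near `t + l`. -/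
theorem tendsto_envP_family [ProperSpace X] {F : Filter α} {V : α → X → ℝ → ℝ} {f : X → ℝ → ℝ}
    {x : X} {t l : ℝ}
    (hV : ∀ y, Tendsto (fun p : α × X × ℝ => V p.1 p.2.1 p.2.2) (F ×ˢ 𝓝 (y, t + l))
      (𝓝 (f y (t + l))))
    (hgrow : ∀ ε : ℝ, 0 < ε → ∃ C : ℝ, ∀ᶠ p in F ×ˢ 𝓝 (t + l), ∀ y, V p.1 y p.2 ≤ ε * ‖y‖ ^ 2 + C)
    (hl : 0 < l) {xs : α → X} {ts ls : α → ℝ} (hx : Tendsto xs F (𝓝 x))
    (ht : Tendsto ts F (𝓝 t)) (hls : Tendsto ls F (𝓝 l)) :
    Tendsto (fun a => envP (ls a) (V a) (xs a) (ts a)) F (𝓝 (envP l f x t)) := by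
  unfold envP
  have htl : Tendsto (fun a => ts a + ls a) F (𝓝 (t + l)) := ht.add hls
  refine tendsto_supConv (G := fun a y => V a y (ts a + ls a)) (g := fun y => f y (t + l))
    (fun y => ?_) (fun ε hε => ?_) hl hx hls
  · have h1 : Tendsto (fun p : α × X => (p.1, p.2, ts p.1 + ls p.1)) (F ×ˢ 𝓝 y)
        (F ×ˢ 𝓝 (y, t + l)) := by
      rw [nhds_prod_eq]
      exact tendsto_fst.prodMk (tendsto_snd.prodMk (htl.comp tendsto_fst))
    exact (hV y).comp h1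
  · obtain ⟨C, hC⟩ := hgrow ε hε
    refine ⟨C, ?_⟩
    have h1 : Tendsto (fun a => (a, ts a + ls a)) F (F ×ˢ 𝓝 (t + l)) := tendsto_id.prodMk htl
    exact h1.eventually hC

/-- Stability / joint continuity of the forward envelope as the length tends to `0+`. -/
theorem tendsto_envP_zero_family {F : Filter α} {V : α → X → ℝ → ℝ} {f : X → ℝ → ℝ}
    {x : X} {t : ℝ}
    (hV : Tendsto (fun p : α × X × ℝ => V p.1 p.2.1 p.2.2) (F ×ˢ 𝓝 (x, t)) (𝓝 (f x t)))
    {ε C : ℝ} (hε : 0 ≤ ε)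
    (hgrow : ∀ᶠ p in F ×ˢ 𝓝 t, ∀ y, V p.1 y p.2 ≤ ε * ‖y‖ ^ 2 + C)
    {xs : α → X} {ts ls : α → ℝ} (hx : Tendsto xs F (𝓝 x))
    (ht : Tendsto ts F (𝓝 t)) (hls : Tendsto ls F (𝓝[>] 0)) :
    Tendsto (fun a => envP (ls a) (V a) (xs a) (ts a)) F (𝓝 (f x t)) := by
  unfold envP
  have htl : Tendsto (fun a => ts a + ls a) F (𝓝 t) := by
    have := ht.add (hls.mono_right nhdsWithin_le_nhds)
    rwa [add_zero] at this
  refine tendsto_supConv_zero (G := fun a y => V a y (ts a + ls a)) (g := fun y => f y t)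
    (C := C) ?_ hε ?_ hx hls
  · have h1 : Tendsto (fun p : α × X => (p.1, p.2, ts p.1 + ls p.1)) (F ×ˢ 𝓝 x)
        (F ×ˢ 𝓝 (x, t)) := by
      rw [nhds_prod_eq]
      exact tendsto_fst.prodMk (tendsto_snd.prodMk (htl.comp tendsto_fst))
    exact hV.comp h1
  · have h1 : Tendsto (fun a => (a, ts a + ls a)) F (F ×ˢ 𝓝 t) := tendsto_id.prodMk htl
    exact h1.eventually hgrow

/-- Mirror of `tendsto_envP_family`. -/
theorem tendsto_envM_family [ProperSpace X] {F : Filter α} {V : α → X → ℝ → ℝ} {f : X → ℝ → ℝ}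
    {x : X} {t l : ℝ}
    (hV : ∀ y, Tendsto (fun p : α × X × ℝ => V p.1 p.2.1 p.2.2) (F ×ˢ 𝓝 (y, t - l))
      (𝓝 (f y (t - l))))
    (hgrow : ∀ ε : ℝ, 0 < ε → ∃ C : ℝ, ∀ᶠ p in F ×ˢ 𝓝 (t - l), ∀ y,
      -(ε * ‖y‖ ^ 2 + C) ≤ V p.1 y p.2)
    (hl : 0 < l) {xs : α → X} {ts ls : α → ℝ} (hx : Tendsto xs F (𝓝 x))
    (ht : Tendsto ts F (𝓝 t)) (hls : Tendsto ls F (𝓝 l)) :
    Tendsto (fun a => envM (ls a) (V a) (xs a) (ts a)) F (𝓝 (envM l f x t)) := by
  unfold envM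
  have htl : Tendsto (fun a => ts a - ls a) F (𝓝 (t - l)) := ht.sub hls
  refine tendsto_infConv (G := fun a y => V a y (ts a - ls a)) (g := fun y => f y (t - l))
    (fun y => ?_) (fun ε hε => ?_) hl hx hls
  · have h1 : Tendsto (fun p : α × X => (p.1, p.2, ts p.1 - ls p.1)) (F ×ˢ 𝓝 y)
        (F ×ˢ 𝓝 (y, t - l)) := by
      rw [nhds_prod_eq]
      exact tendsto_fst.prodMk (tendsto_snd.prodMk (htl.comp tendsto_fst))
    exact (hV y).comp h1
  · obtain ⟨C, hC⟩ := hgrow ε hε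
    refine ⟨C, ?_⟩
    have h1 : Tendsto (fun a => (a, ts a - ls a)) F (F ×ˢ 𝓝 (t - l)) := tendsto_id.prodMk htl
    exact h1.eventually hC

/-- Mirror of `tendsto_envP_zero_family`. -/
theorem tendsto_envM_zero_family {F : Filter α} {V : α → X → ℝ → ℝ} {f : X → ℝ → ℝ}
    {x : X} {t : ℝ}
    (hV : Tendsto (fun p : α × X × ℝ => V p.1 p.2.1 p.2.2) (F ×ˢ 𝓝 (x, t)) (𝓝 (f x t)))
    {ε C : ℝ} (hε : 0 ≤ ε)
    (hgrow : ∀ᶠ p in F ×ˢ 𝓝 t, ∀ y, -(ε * ‖y‖ ^ 2 + C) ≤ V p.1 y p.2)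
    {xs : α → X} {ts ls : α → ℝ} (hx : Tendsto xs F (𝓝 x))
    (ht : Tendsto ts F (𝓝 t)) (hls : Tendsto ls F (𝓝[>] 0)) :
    Tendsto (fun a => envM (ls a) (V a) (xs a) (ts a)) F (𝓝 (f x t)) := by
  unfold envM
  have htl : Tendsto (fun a => ts a - ls a) F (𝓝 t) := by
    have := ht.sub (hls.mono_right nhdsWithin_le_nhds)
    rwa [sub_zero] at this
  refine tendsto_infConv_zero (G := fun a y => V a y (ts a - ls a)) (g := fun y => f y t)
    (C := C) ?_ hε ?_ hx hls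
  · have h1 : Tendsto (fun p : α × X => (p.1, p.2, ts p.1 - ls p.1)) (F ×ˢ 𝓝 x)
        (F ×ˢ 𝓝 (x, t)) := by
      rw [nhds_prod_eq]
      exact tendsto_fst.prodMk (tendsto_snd.prodMk (htl.comp tendsto_fst))
    exact hV.comp h1
  · have h1 : Tendsto (fun a => (a, ts a - ls a)) F (F ×ˢ 𝓝 t) := tendsto_id.prodMk htl
    exact h1.eventually hgrow

/-- Constant families converge continuously. -/
theorem contConv_const {F : Filter α} {f : X → ℝ → ℝ} {y : X} {s : ℝ}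
    (hc : ContinuousAt (fun p : X × ℝ => f p.1 p.2) (y, s)) :
    Tendsto (fun p : α × X × ℝ => f p.2.1 p.2.2) (F ×ˢ 𝓝 (y, s)) (𝓝 (f y s)) :=
  hc.tendsto.comp tendsto_snd

/-- **Joint continuity** of `(x,t,l) ↦ P_l f (x,t)` at positive length, local in time. -/
theorem tendsto_envP [ProperSpace X] {F : Filter α} {f : X → ℝ → ℝ} {I : Set ℝ}
    {x : X} {t l : ℝ} (hI : I ∈ 𝓝 (t + l))
    (hc : ∀ y, ContinuousAt (fun p : X × ℝ => f p.1 p.2) (y, t + l)) (hg : SubQuadOn I f)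
    (hl : 0 < l) {xs : α → X} {ts ls : α → ℝ} (hx : Tendsto xs F (𝓝 x))
    (ht : Tendsto ts F (𝓝 t)) (hls : Tendsto ls F (𝓝 l)) :
    Tendsto (fun a => envP (ls a) f (xs a) (ts a)) F (𝓝 (envP l f x t)) := by
  refine tendsto_envP_family (V := fun _ => f) (fun y => contConv_const (hc y)) (fun ε hε => ?_)
    hl hx ht hls
  obtain ⟨C, hC⟩ := hg ε hε
  refine ⟨C, ?_⟩
  have : ∀ᶠ p in F ×ˢ 𝓝 (t + l), p.2 ∈ I := tendsto_snd.eventually hI
  filter_upwards [this] with p hp y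
  exact (le_abs_self _).trans (hC y p.2 hp)

theorem tendsto_envM [ProperSpace X] {F : Filter α} {f : X → ℝ → ℝ} {I : Set ℝ}
    {x : X} {t l : ℝ} (hI : I ∈ 𝓝 (t - l))
    (hc : ∀ y, ContinuousAt (fun p : X × ℝ => f p.1 p.2) (y, t - l)) (hg : SubQuadOn I f)
    (hl : 0 < l) {xs : α → X} {ts ls : α → ℝ} (hx : Tendsto xs F (𝓝 x))
    (ht : Tendsto ts F (𝓝 t)) (hls : Tendsto ls F (𝓝 l)) :
    Tendsto (fun a => envM (ls a) f (xs a) (ts a)) F (𝓝 (envM l f x t)) := by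
  refine tendsto_envM_family (V := fun _ => f) (fun y => contConv_const (hc y)) (fun ε hε => ?_)
    hl hx ht hls
  obtain ⟨C, hC⟩ := hg ε hε
  refine ⟨C, ?_⟩
  have : ∀ᶠ p in F ×ˢ 𝓝 (t - l), p.2 ∈ I := tendsto_snd.eventually hI
  filter_upwards [this] with p hp y
  exact (abs_le.1 (hC y p.2 hp)).1

/-- `P_l f (x',t') → f (x,t)` as `(x',t',l) → (x,t,0+)`. -/
theorem tendsto_envP_zero {F : Filter α} {f : X → ℝ → ℝ} {I : Set ℝ}
    {x : X} {t : ℝ} (hI : I ∈ 𝓝 t)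
    (hc : ContinuousAt (fun p : X × ℝ => f p.1 p.2) (x, t)) (hg : SubQuadOn I f)
    {xs : α → X} {ts ls : α → ℝ} (hx : Tendsto xs F (𝓝 x))
    (ht : Tendsto ts F (𝓝 t)) (hls : Tendsto ls F (𝓝[>] 0)) :
    Tendsto (fun a => envP (ls a) f (xs a) (ts a)) F (𝓝 (f x t)) := by
  obtain ⟨C, hC⟩ := hg 1 one_pos
  refine tendsto_envP_zero_family (V := fun _ => f) (ε := 1) (C := C) (contConv_const hc)
    zero_le_one ?_ hx ht hls
  have : ∀ᶠ p in F ×ˢ 𝓝 t, p.2 ∈ I := tendsto_snd.eventually hI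
  filter_upwards [this] with p hp y
  exact (le_abs_self _).trans (hC y p.2 hp)

theorem tendsto_envM_zero {F : Filter α} {f : X → ℝ → ℝ} {I : Set ℝ}
    {x : X} {t : ℝ} (hI : I ∈ 𝓝 t)
    (hc : ContinuousAt (fun p : X × ℝ => f p.1 p.2) (x, t)) (hg : SubQuadOn I f)
    {xs : α → X} {ts ls : α → ℝ} (hx : Tendsto xs F (𝓝 x))
    (ht : Tendsto ts F (𝓝 t)) (hls : Tendsto ls F (𝓝[>] 0)) :
    Tendsto (fun a => envM (ls a) f (xs a) (ts a)) F (𝓝 (f x t)) := by
  obtain ⟨C, hC⟩ := hg 1 one_pos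
  refine tendsto_envM_zero_family (V := fun _ => f) (ε := 1) (C := C) (contConv_const hc)
    zero_le_one ?_ hx ht hls
  have : ∀ᶠ p in F ×ˢ 𝓝 t, p.2 ∈ I := tendsto_snd.eventually hI
  filter_upwards [this] with p hp y
  exact (abs_le.1 (hC y p.2 hp)).1

/-- Backward optimizers (or `η`-optimizers relative to the trivial competitor) of `M_l f (x,t)`
tend to `x` as `l → 0+`. -/
theorem tendsto_envM_opt_zero {f : X → ℝ → ℝ} {I : Set ℝ} {x : X} {t : ℝ} (hI : I ∈ 𝓝 t)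
    (hc : ContinuousAt (fun p : X × ℝ => f p.1 p.2) (x, t)) (hg : SubQuadOn I f) (η : ℝ)
    {ys : ℝ → X}
    (hys : ∀ᶠ l in 𝓝[>] (0 : ℝ), f (ys l) (t - l) + ‖ys l - x‖ ^ 2 / (2 * l) ≤ f x (t - l) + η) :
    Tendsto ys (𝓝[>] (0 : ℝ)) (𝓝 x) := by
  obtain ⟨C, hC⟩ := hg 1 one_pos
  have htl : Tendsto (fun l : ℝ => t - l) (𝓝[>] (0 : ℝ)) (𝓝 t) := by
    have : Tendsto (fun l : ℝ => t - l) (𝓝 (0 : ℝ)) (𝓝 (t - 0)) :=
      tendsto_const_nhds.sub tendsto_id
    rw [sub_zero] at this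
    exact this.mono_left nhdsWithin_le_nhds
  refine tendsto_nearopt_zero (F := 𝓝[>] (0 : ℝ)) (G := fun l y => - f y (t - l))
    (g := fun y => - f y t) (ε := 1) (C := C) (xs := fun _ => x) (ls := fun l => l) ?_ zero_le_one
    ?_ tendsto_const_nhds tendsto_id η ?_
  · have h1 : Tendsto (fun p : ℝ × X => (p.2, t - p.1)) (𝓝[>] (0 : ℝ) ×ˢ 𝓝 x) (𝓝 (x, t)) := by
      rw [nhds_prod_eq]
      exact tendsto_snd.prodMk (htl.comp tendsto_fst)
    exact (hc.tendsto.comp h1).neg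
  · filter_upwards [htl.eventually hI] with l hl y
    have := (abs_le.1 (hC y _ hl)).1
    linarith
  · filter_upwards [hys] with l hl
    linarith

/-- Forward optimizers of `P_l f (x,t)` tend to `x` as `l → 0+`. -/
theorem tendsto_envP_opt_zero {f : X → ℝ → ℝ} {I : Set ℝ} {x : X} {t : ℝ} (hI : I ∈ 𝓝 t)
    (hc : ContinuousAt (fun p : X × ℝ => f p.1 p.2) (x, t)) (hg : SubQuadOn I f) (η : ℝ)
    {ys : ℝ → X}
    (hys : ∀ᶠ l in 𝓝[>] (0 : ℝ), f x (t + l) - η ≤ f (ys l) (t + l) - ‖ys l - x‖ ^ 2 / (2 * l)) :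
    Tendsto ys (𝓝[>] (0 : ℝ)) (𝓝 x) := by
  obtain ⟨C, hC⟩ := hg 1 one_pos
  have htl : Tendsto (fun l : ℝ => t + l) (𝓝[>] (0 : ℝ)) (𝓝 t) := by
    have : Tendsto (fun l : ℝ => t + l) (𝓝 (0 : ℝ)) (𝓝 (t + 0)) :=
      tendsto_const_nhds.add tendsto_id
    rw [add_zero] at this
    exact this.mono_left nhdsWithin_le_nhds
  refine tendsto_nearopt_zero (F := 𝓝[>] (0 : ℝ)) (G := fun l y => f y (t + l))
    (g := fun y => f y t) (ε := 1) (C := C) (xs := fun _ => x) (ls := fun l => l) ?_ zero_le_one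
    ?_ tendsto_const_nhds tendsto_id η hys
  · have h1 : Tendsto (fun p : ℝ × X => (p.2, t + p.1)) (𝓝[>] (0 : ℝ) ×ˢ 𝓝 x) (𝓝 (x, t)) := by
      rw [nhds_prod_eq]
      exact tendsto_snd.prodMk (htl.comp tendsto_fst)
    exact hc.tendsto.comp h1
  · filter_upwards [htl.eventually hI] with l hl y
    exact (le_abs_self _).trans (hC y _ hl)

end ST

section STAlg

variable {X : Type*} [NormedAddCommGroup X] [NormedSpace ℝ X]

/-- Composition law (4.9) for the forward envelope. -/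
theorem envP_envP {f : X → ℝ → ℝ} {l h t : ℝ} (hg : SubQuadAbove (fun y => f y (t + (l + h))))
    (hl : 0 < l) (hh : 0 < h) (x : X) : envP l (envP h f) x t = envP (l + h) f x t := by
  unfold envP
  have h1 : (fun y => supConv h (fun y' => f y' (t + l + h)) y)
      = supConv h (fun y' => f y' (t + (l + h))) := by
    ext y
    rw [add_assoc]
  rw [h1]
  exact supConv_supConv hg hl hh x

/-- Composition law (4.9) for the backward envelope. -/
theorem envM_envM {f : X → ℝ → ℝ} {l h t : ℝ} (hg : SubQuadBelow (fun y => f y (t - (l + h))))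
    (hl : 0 < l) (hh : 0 < h) (x : X) : envM l (envM h f) x t = envM (l + h) f x t := by
  unfold envM
  have h1 : (fun y => infConv h (fun y' => f y' (t - l - h)) y)
      = infConv h (fun y' => f y' (t - (l + h))) := by
    ext y
    rw [sub_sub]
  rw [h1]
  exact infConv_infConv hg hl hh x

end STAlg

section STAffine

variable {X : Type*} [NormedAddCommGroup X] [InnerProductSpace ℝ X]

/-- The exact affine model: `P_l f = f + a l` for `f = ⟪p,x⟫ + (a - |p|²/2) t + c`. -/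
theorem envP_affine {l : ℝ} (hl : 0 < l) (p : X) (a c : ℝ) (x : X) (t : ℝ) :
    envP l (fun y s => inner ℝ p y + (a - ‖p‖ ^ 2 / 2) * s + c) x t
      = inner ℝ p x + (a - ‖p‖ ^ 2 / 2) * t + c + a * l := by
  unfold envP
  have h := supConv_affine hl p ((a - ‖p‖ ^ 2 / 2) * (t + l) + c) x
  have h2 : (fun y => inner ℝ p y + (a - ‖p‖ ^ 2 / 2) * (t + l) + c)
      = fun y => inner ℝ p y + ((a - ‖p‖ ^ 2 / 2) * (t + l) + c) := by
    ext y
    ring
  rw [h2, h]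
  ring

theorem envM_affine {l : ℝ} (hl : 0 < l) (p : X) (a c : ℝ) (x : X) (t : ℝ) :
    envM l (fun y s => inner ℝ p y + (a - ‖p‖ ^ 2 / 2) * s + c) x t
      = inner ℝ p x + (a - ‖p‖ ^ 2 / 2) * t + c - a * l := by
  unfold envM
  have h := infConv_affine hl p ((a - ‖p‖ ^ 2 / 2) * (t - l) + c) x
  have h2 : (fun y => inner ℝ p y + (a - ‖p‖ ^ 2 / 2) * (t - l) + c)
      = fun y => inner ℝ p y + ((a - ‖p‖ ^ 2 / 2) * (t - l) + c) := by
    ext y
    ring
  rw [h2, h]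
  ring

theorem slopeP_affine {l : ℝ} (hl : 0 < l) (p : X) (a c : ℝ) (x : X) (t : ℝ) :
    slopeP l (fun y s => inner ℝ p y + (a - ‖p‖ ^ 2 / 2) * s + c) x t = a := by
  unfold slopeP
  rw [envP_affine hl]
  field_simp
  ring

theorem slopeM_affine {l : ℝ} (hl : 0 < l) (p : X) (a c : ℝ) (x : X) (t : ℝ) :
    slopeM l (fun y s => inner ℝ p y + (a - ‖p‖ ^ 2 / 2) * s + c) x t = a := by
  unfold slopeM
  rw [envM_affine hl]
  field_simp
  ring

end STAffine

end Claimed.Agent.R330
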