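import Mathlib
import Claimed.Agent.R330.PartBDefs
import Claimed.Agent.R330.EnvST
import Claimed.Agent.R330.EnvGlue

/-!
# Row 330: the time reflection `reflT` preserves fits, the class `ClassA` and affinity

Paper Section 4.1: the class is invariant under `v ↦ - v (x, -t)`.
Owner of this file: helper37.
-/

namespace Claimed.Agent.R330

open scoped RealInnerProductSpace

variable {X : Type*} [NormedAddCommGroup X] [InnerProductSpace ℝ X]

omit [InnerProductSpace ℝ X] [NormedAddCommGroup X] in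
theorem framerefl_apply (v : X → ℝ → ℝ) (x : X) (t : ℝ) : reflT v x t = - v x (-t) := rfl

/-- A fit `(p,a)` of `v` at `(x,-t)` is the fit `(-p,a)` of the reflection at `(x,t)`. -/
theorem framerefl_isFit {C₀ : ℝ} {v : X → ℝ → ℝ} {x : X} {t R : ℝ} {p : X} {a : ℝ}
    (h : IsFit C₀ v x (-t) R p a) : IsFit C₀ (reflT v) x t R (-p) a := by
  intro k l hl hk
  have h1 := h k (-l) (by rwa [abs_neg]) (by
    have e : k - -l • p = k - l • -p := by rw [neg_smul, smul_neg]
    rwa [e])
  have e : reflT v (x + k) (t + l) - reflT v x t - ⟪-p, k⟫ - (a - ‖-p‖ ^ 2 / 2) * l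
      = -(v (x + k) (-t + -l) - v x (-t) - ⟪p, k⟫ - (a - ‖p‖ ^ 2 / 2) * -l) := by
    rw [framerefl_apply, framerefl_apply, inner_neg_left, norm_neg, neg_add]
    ring
  rw [e, abs_neg]
  exact h1

/-- Variant: a fit of `v` at `(x,t)` is a fit of the reflection at `(x,-t)`. -/
theorem framerefl_isFit_neg {C₀ : ℝ} {v : X → ℝ → ℝ} {x : X} {t R : ℝ} {p : X} {a : ℝ}
    (h : IsFit C₀ v x t R p a) : IsFit C₀ (reflT v) x (-t) R (-p) a :=
  framerefl_isFit (by rwa [neg_neg])

theorem framerefl_isFit_iff {C₀ : ℝ} {v : X → ℝ → ℝ} {x : X} {t R : ℝ} {p : X} {a : ℝ} :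
    IsFit C₀ (reflT v) x t R (-p) a ↔ IsFit C₀ v x (-t) R p a := by
  refine ⟨fun h => ?_, framerefl_isFit⟩
  have := framerefl_isFit_neg h
  rwa [reflT_reflT, neg_neg] at this

theorem framerefl_hasFits {C₀ : ℝ} {v : X → ℝ → ℝ} (h : HasFits C₀ v) :
    HasFits C₀ (reflT v) := by
  intro x t R hR
  obtain ⟨p, a, hpa⟩ := h x (-t) R hR
  exact ⟨-p, a, framerefl_isFit hpa⟩

theorem framerefl_hasFits_iff {C₀ : ℝ} {v : X → ℝ → ℝ} :
    HasFits C₀ (reflT v) ↔ HasFits C₀ v := by
  refine ⟨fun h => ?_, framerefl_hasFits⟩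
  have := framerefl_hasFits h
  rwa [reflT_reflT] at this

/-- The centre `(xc,tc)` becomes `(xc,-tc)`. -/
theorem framerefl_centeredAt {C₀ : ℝ} {v : X → ℝ → ℝ} {xc : X} {tc : ℝ}
    (h : CenteredAt C₀ v xc tc) : CenteredAt C₀ (reflT v) xc (-tc) := by
  refine ⟨?_, ?_⟩
  · rw [framerefl_apply, neg_neg, h.1, neg_zero]
  · have := framerefl_isFit_neg h.2
    rwa [neg_zero] at this

/-- The class is invariant under the time reflection. -/
theorem framerefl_classA {C₀ : ℝ} {v : X → ℝ → ℝ} (h : ClassA C₀ v) : ClassA C₀ (reflT v) where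
  cont := continuous_reflT h.cont
  fits := framerefl_hasFits h.fits
  convP := pathConvexP_reflT_iff.2 h.concM
  concM := pathConcaveM_reflT_iff.2 h.convP

theorem framerefl_classA_iff {C₀ : ℝ} {v : X → ℝ → ℝ} : ClassA C₀ (reflT v) ↔ ClassA C₀ v := by
  refine ⟨fun h => ?_, framerefl_classA⟩
  have := framerefl_classA h
  rwa [reflT_reflT] at this

theorem framerefl_isAffineST {v : X → ℝ → ℝ} (h : IsAffineST v) : IsAffineST (reflT v) := by
  obtain ⟨p, q, c, hv⟩ := h
  refine ⟨-p, q, -c, fun x t => ?_⟩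
  rw [framerefl_apply, hv, inner_neg_left]
  ring

theorem framerefl_isAffineST_iff {v : X → ℝ → ℝ} : IsAffineST (reflT v) ↔ IsAffineST v := by
  refine ⟨fun h => ?_, framerefl_isAffineST⟩
  have := framerefl_isAffineST h
  rwa [reflT_reflT] at this

end Claimed.Agent.R330
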