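import Mathlib
import Claimed.Agent.R330.EnvBasic
import Claimed.Agent.R330.BaryDefs

/-!
# Row 330, package L6: the quadratic envelope commutes with the barycentric envelope

Replaces the paper's Lemma 5.2 (common-time rule) and Corollary 5.3.  On one slice `g : X → ℝ`
and for `t, l > 0`

  `supConv l (bary (t + l) g) x = bary t (supConv l g) x`.

Consequently `W (x,t) = C_t v (x,t) - G t` satisfies
`P_l W (x,t) = C_t [P_l v (·,t)] (x) - G (t + l)` and inherits the path convexity of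
`l ↦ P_l v (x0 + l d, t) + |d|^2 l log l`.
-/

namespace Claimed.Agent.R330

open Finset

section Basic

variable {X : Type*} [NormedAddCommGroup X] [NormedSpace ℝ X]

omit [NormedSpace ℝ X] in
theorem wconv_baryVal_eq {ι : Type*} [Fintype ι] (s : ℝ) (g : X → ℝ) (x : X) (θ : ι → ℝ)
    (y : ι → X) :
    baryVal s g x θ y = ∑ i, θ i * (g (y i) - ‖y i - x‖ ^ 2 / (2 * s)) := by
  unfold baryVal
  rw [Finset.sum_div, ← Finset.sum_sub_distrib]
  refine Finset.sum_congr rfl fun i _ => ?_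
  ring

theorem wconv_baryVal_le_supConv {ι : Type*} [Fintype ι] {g : X → ℝ} (hg : SubQuadAbove g)
    {s : ℝ} (hs : 0 < s) {x : X} {θ : ι → ℝ} {y : ι → X} (hc : IsConfig x θ y) :
    baryVal s g x θ y ≤ supConv s g x := by
  rw [wconv_baryVal_eq]
  calc ∑ i, θ i * (g (y i) - ‖y i - x‖ ^ 2 / (2 * s))
      ≤ ∑ i, θ i * supConv s g x :=
        Finset.sum_le_sum fun i _ =>
          mul_le_mul_of_nonneg_left (le_supConv hg hs x (y i)) (hc.1 i)
    _ = supConv s g x := by rw [← Finset.sum_mul, hc.2.1, one_mul]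

theorem wconv_bary_bddAbove {g : X → ℝ} (hg : SubQuadAbove g) {s : ℝ} (hs : 0 < s) (x : X) :
    BddAbove {r : ℝ | ∃ (N : ℕ) (θ : Fin N → ℝ) (y : Fin N → X),
      IsConfig x θ y ∧ r = baryVal s g x θ y} := by
  refine ⟨supConv s g x, ?_⟩
  rintro _ ⟨N, θ, y, hc, rfl⟩
  exact wconv_baryVal_le_supConv hg hs hc

theorem wconv_le_bary {g : X → ℝ} (hg : SubQuadAbove g) {s : ℝ} (hs : 0 < s) {x : X} {N : ℕ}
    {θ : Fin N → ℝ} {y : Fin N → X} (hc : IsConfig x θ y) :
    baryVal s g x θ y ≤ bary s g x :=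
  le_csSup (wconv_bary_bddAbove hg hs x) ⟨N, θ, y, hc, rfl⟩

theorem wconv_isConfig_single (x : X) :
    IsConfig x (fun _ : Fin 1 => (1 : ℝ)) (fun _ : Fin 1 => x) := by
  refine ⟨fun _ => zero_le_one, by simp, by simp⟩

theorem wconv_bary_le {g : X → ℝ} {s a : ℝ} {x : X}
    (h : ∀ (N : ℕ) (θ : Fin N → ℝ) (y : Fin N → X), IsConfig x θ y → baryVal s g x θ y ≤ a) :
    bary s g x ≤ a := by
  refine csSup_le ⟨_, 1, _, _, wconv_isConfig_single x, rfl⟩ ?_
  rintro _ ⟨N, θ, y, hc, rfl⟩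
  exact h N θ y hc

theorem wconv_bary_le_supConv {g : X → ℝ} (hg : SubQuadAbove g) {s : ℝ} (hs : 0 < s) (x : X) :
    bary s g x ≤ supConv s g x :=
  wconv_bary_le fun _ _ _ hc => wconv_baryVal_le_supConv hg hs hc

theorem wconv_subQuadAbove_bary {g : X → ℝ} (hg : SubQuadAbove g) {s : ℝ} (hs : 0 < s) :
    SubQuadAbove (bary s g) := by
  intro ε hε
  obtain ⟨C, hC⟩ := (hg.supConv hs) ε hε
  exact ⟨C, fun x => (wconv_bary_le_supConv hg hs x).trans (hC x)⟩

/-- Translating a configuration. -/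
theorem wconv_isConfig_add {ι : Type*} [Fintype ι] {x : X} {θ : ι → ℝ} {y : ι → X}
    (hc : IsConfig x θ y) (a : X) : IsConfig (x + a) θ (fun i => y i + a) := by
  refine ⟨hc.1, hc.2.1, ?_⟩
  simp only [smul_add, Finset.sum_add_distrib, hc.2.2, ← Finset.sum_smul, hc.2.1, one_smul]

omit [NormedSpace ℝ X] in
theorem wconv_baryVal_translate {ι : Type*} [Fintype ι] (s : ℝ) (g : X → ℝ) (a x : X)
    (θ : ι → ℝ) (y : ι → X) :
    baryVal s g (x + a) θ (fun i => y i + a) = baryVal s (fun z => g (z + a)) x θ y := by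
  unfold baryVal
  simp

theorem wconv_bary_translate (s : ℝ) (g : X → ℝ) (a x : X) :
    bary s (fun z => g (z + a)) x = bary s g (x + a) := by
  unfold bary
  congr 1
  ext r
  constructor
  · rintro ⟨N, θ, y, hc, rfl⟩
    exact ⟨N, θ, fun i => y i + a, wconv_isConfig_add hc a,
      (wconv_baryVal_translate s g a x θ y).symm⟩
  · rintro ⟨N, θ, y, hc, rfl⟩
    refine ⟨N, θ, fun i => y i + -a, ?_, ?_⟩
    · have := wconv_isConfig_add hc (-a)
      simpa using this
    · rw [← wconv_baryVal_translate]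
      simp

end Basic

section Inner

variable {X : Type*} [NormedAddCommGroup X] [InnerProductSpace ℝ X]

/-- Variance decomposition around the mean. -/
theorem wconv_variance {ι : Type*} [Fintype ι] (θ : ι → ℝ) (u : ι → X) (h1 : ∑ i, θ i = 1) :
    ∑ i, θ i * ‖u i‖ ^ 2
      = ‖∑ j, θ j • u j‖ ^ 2 + ∑ i, θ i * ‖u i - ∑ j, θ j • u j‖ ^ 2 := by
  set m : X := ∑ j, θ j • u j with hm
  have h2 : ∀ i, θ i * ‖u i‖ ^ 2
      = θ i * ‖m‖ ^ 2 + 2 * inner ℝ m (θ i • (u i - m)) + θ i * ‖u i - m‖ ^ 2 := by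
    intro i
    have : ‖u i‖ ^ 2 = ‖m + (u i - m)‖ ^ 2 := by congr 2; abel
    rw [this, norm_add_sq_real, inner_smul_right]
    ring
  have h3 : ∑ i, θ i • (u i - m) = 0 := by
    simp only [smul_sub, Finset.sum_sub_distrib, ← Finset.sum_smul, h1, one_smul]
    rw [← hm]; simp
  calc ∑ i, θ i * ‖u i‖ ^ 2
      = ∑ i, (θ i * ‖m‖ ^ 2 + 2 * inner ℝ m (θ i • (u i - m)) + θ i * ‖u i - m‖ ^ 2) :=
        Finset.sum_congr rfl fun i _ => h2 i
    _ = (∑ i, θ i) * ‖m‖ ^ 2 + 2 * inner ℝ m (∑ i, θ i • (u i - m))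
          + ∑ i, θ i * ‖u i - m‖ ^ 2 := by
        rw [Finset.sum_add_distrib, Finset.sum_add_distrib, ← Finset.sum_mul, ← Finset.mul_sum,
          inner_sum]
    _ = _ := by rw [h1, h3]; simp

/-- The pointwise inf-convolution inequality of two quadratic costs. -/
theorem wconv_cost_le {t l : ℝ} (ht : 0 < t) (hl : 0 < l) (a ξ : X) :
    ‖a‖ ^ 2 / (2 * (t + l)) ≤ ‖a - ξ‖ ^ 2 / (2 * l) + ‖ξ‖ ^ 2 / (2 * t) := by
  have h0 : 0 ≤ ‖t • a - (t + l) • ξ‖ ^ 2 := sq_nonneg _
  rw [norm_sub_sq_real, norm_smul, norm_smul, inner_smul_left, inner_smul_right] at h0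
  have h1 : ‖a - ξ‖ ^ 2 = ‖a‖ ^ 2 - 2 * inner ℝ a ξ + ‖ξ‖ ^ 2 := norm_sub_sq_real a ξ
  simp only [Real.norm_eq_abs, abs_of_pos ht, abs_of_pos (add_pos ht hl),
    RCLike.conj_to_real] at h0
  rw [h1, div_add_div _ _ (by positivity) (by positivity), div_le_div_iff₀ (by positivity)
    (by positivity)]
  have htl : 0 < t * l := mul_pos ht hl
  nlinarith [h0, mul_nonneg htl.le h0]

/-- Cost comparison for the inequality `bary t (supConv l g) ≤ supConv l (bary (t+l) g)`. -/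
theorem wconv_cost_sum_le {ι : Type*} [Fintype ι] {t l : ℝ} (ht : 0 < t) (hl : 0 < l) {x : X}
    {θ : ι → ℝ} {ξ : ι → X} (hc : IsConfig x θ ξ) (y : ι → X) :
    ‖(∑ j, θ j • y j) - x‖ ^ 2 / (2 * l)
        + (∑ i, θ i * ‖y i - ∑ j, θ j • y j‖ ^ 2) / (2 * (t + l))
      ≤ (∑ i, θ i * ‖y i - ξ i‖ ^ 2) / (2 * l) + (∑ i, θ i * ‖ξ i - x‖ ^ 2) / (2 * t) := by
  set m : X := ∑ j, θ j • y j with hm
  have hmean : ∑ j, θ j • (y j - ξ j) = m - x := by
    simp only [smul_sub, Finset.sum_sub_distrib, hc.2.2, ← hm]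
  have hvar := wconv_variance θ (fun i => y i - ξ i) hc.2.1
  simp only [hmean] at hvar
  rw [hvar, add_div, add_assoc]
  refine add_le_add le_rfl ?_
  rw [Finset.sum_div, Finset.sum_div, Finset.sum_div, ← Finset.sum_add_distrib]
  refine Finset.sum_le_sum fun i _ => ?_
  have h := wconv_cost_le ht hl (y i - m) (ξ i - x)
  have h2 : y i - m - (ξ i - x) = y i - ξ i - (m - x) := by abel
  rw [h2] at h
  have := mul_le_mul_of_nonneg_left h (hc.1 i)
  calc θ i * ‖y i - m‖ ^ 2 / (2 * (t + l)) = θ i * (‖y i - m‖ ^ 2 / (2 * (t + l))) := by ring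
    _ ≤ _ := this
    _ = _ := by ring

/-- The optimal intermediate configuration, and its cost. -/
theorem wconv_cost_sum_eq {ι : Type*} [Fintype ι] {t l : ℝ} (ht : 0 < t) (hl : 0 < l) (x : X)
    {z : X} {θ : ι → ℝ} {y : ι → X} (hc : IsConfig z θ y) :
    IsConfig x θ (fun i => x + (t / (t + l)) • (y i - z)) ∧
    (∑ i, θ i * ‖y i - (x + (t / (t + l)) • (y i - z))‖ ^ 2) / (2 * l)
        + (∑ i, θ i * ‖(x + (t / (t + l)) • (y i - z)) - x‖ ^ 2) / (2 * t)
      = ‖z - x‖ ^ 2 / (2 * l) + (∑ i, θ i * ‖y i - z‖ ^ 2) / (2 * (t + l)) := by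
  have htl : 0 < t + l := add_pos ht hl
  have h0 : ∑ i, θ i • (y i - z) = 0 := by
    simp only [smul_sub, Finset.sum_sub_distrib, hc.2.2, ← Finset.sum_smul, hc.2.1, one_smul,
      sub_self]
  have hcfg : IsConfig x θ (fun i => x + (t / (t + l)) • (y i - z)) := by
    refine ⟨hc.1, hc.2.1, ?_⟩
    have : ∀ i, θ i • (x + (t / (t + l)) • (y i - z))
        = θ i • x + (t / (t + l)) • (θ i • (y i - z)) := by
      intro i
      rw [smul_add, smul_comm]
    simp only [this, Finset.sum_add_distrib, ← Finset.sum_smul, hc.2.1, one_smul,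
      ← Finset.smul_sum, h0, smul_zero, add_zero]
  refine ⟨hcfg, ?_⟩
  have hu : ∀ i, y i - (x + (t / (t + l)) • (y i - z))
      = (z - x) + (l / (t + l)) • (y i - z) := by
    intro i
    have : (l / (t + l)) = 1 - t / (t + l) := by field_simp; ring
    rw [this, sub_smul, one_smul]
    abel
  have hmean : ∑ j, θ j • ((z - x) + (l / (t + l)) • (y j - z)) = z - x := by
    have : ∀ i, θ i • ((z - x) + (l / (t + l)) • (y i - z))
        = θ i • (z - x) + (l / (t + l)) • (θ i • (y i - z)) := by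
      intro i
      rw [smul_add, smul_comm]
    simp only [this, Finset.sum_add_distrib, ← Finset.sum_smul, hc.2.1, one_smul,
      ← Finset.smul_sum, h0, smul_zero, add_zero]
  have hvar := wconv_variance θ (fun i => (z - x) + (l / (t + l)) • (y i - z)) hc.2.1
  simp only [hmean, add_sub_cancel_left, norm_smul, Real.norm_eq_abs,
    abs_of_pos (div_pos hl htl), mul_pow] at hvar
  simp only [hu, hvar, add_sub_cancel_left, norm_smul, Real.norm_eq_abs,
    abs_of_pos (div_pos ht htl), mul_pow]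
  have e1 : ∑ i, θ i * ((l / (t + l)) ^ 2 * ‖y i - z‖ ^ 2)
      = (l / (t + l)) ^ 2 * ∑ i, θ i * ‖y i - z‖ ^ 2 := by
    rw [Finset.mul_sum]
    exact Finset.sum_congr rfl fun i _ => by ring
  have e2 : ∑ i, θ i * ((t / (t + l)) ^ 2 * ‖y i - z‖ ^ 2)
      = (t / (t + l)) ^ 2 * ∑ i, θ i * ‖y i - z‖ ^ 2 := by
    rw [Finset.mul_sum]
    exact Finset.sum_congr rfl fun i _ => by ring
  rw [e1, e2]
  field_simp
  ring

/-- One half of the commutation (the one that uses only competitors). -/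
theorem wconv_supConv_bary_le {g : X → ℝ} (hg : SubQuadAbove g) {t l : ℝ} (ht : 0 < t)
    (hl : 0 < l) (x : X) :
    supConv l (bary (t + l) g) x ≤ bary t (supConv l g) x := by
  refine supConv_le fun z => ?_
  rw [sub_le_iff_le_add]
  refine wconv_bary_le fun N θ y hc => ?_
  obtain ⟨hcfg, hcost⟩ := wconv_cost_sum_eq ht hl x hc
  have h1 := wconv_le_bary (hg.supConv hl) ht hcfg
  refine le_trans ?_ (add_le_add h1 le_rfl)
  unfold baryVal
  have h2 : ∑ i, θ i * (g (y i) - ‖y i - (x + (t / (t + l)) • (y i - z))‖ ^ 2 / (2 * l))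
      ≤ ∑ i, θ i * supConv l g (x + (t / (t + l)) • (y i - z)) :=
    Finset.sum_le_sum fun i _ => mul_le_mul_of_nonneg_left (le_supConv hg hl _ _) (hc.1 i)
  have h3 : ∑ i, θ i * (g (y i) - ‖y i - (x + (t / (t + l)) • (y i - z))‖ ^ 2 / (2 * l))
      = ∑ i, θ i * g (y i)
        - (∑ i, θ i * ‖y i - (x + (t / (t + l)) • (y i - z))‖ ^ 2) / (2 * l) := by
    rw [Finset.sum_div, ← Finset.sum_sub_distrib]
    exact Finset.sum_congr rfl fun i _ => by ring
  rw [h3] at h2
  linarith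

/-- The other half of the commutation. -/
theorem wconv_bary_supConv_le {g : X → ℝ} (hg : SubQuadAbove g) {t l : ℝ} (ht : 0 < t)
    (hl : 0 < l) (x : X) :
    bary t (supConv l g) x ≤ supConv l (bary (t + l) g) x := by
  have htl : 0 < t + l := add_pos ht hl
  refine wconv_bary_le fun N θ ξ hc => ?_
  refine le_of_forall_pos_le_add fun η hη => ?_
  choose y hy using fun i => exists_supConv_lt g l (ξ i) hη
  set m : X := ∑ j, θ j • y j with hm
  have hcy : IsConfig m θ y := ⟨hc.1, hc.2.1, rfl⟩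
  have h1 := wconv_le_bary hg htl hcy
  have h2 := le_supConv (wconv_subQuadAbove_bary hg htl) hl x m
  have h3 := wconv_cost_sum_le ht hl hc y
  rw [← hm] at h3
  have h4 : ∑ i, θ i * supConv l g (ξ i)
      ≤ ∑ i, θ i * (g (y i) - ‖y i - ξ i‖ ^ 2 / (2 * l) + η) :=
    Finset.sum_le_sum fun i _ =>
      mul_le_mul_of_nonneg_left (by have := hy i; linarith) (hc.1 i)
  have h5 : ∑ i, θ i * (g (y i) - ‖y i - ξ i‖ ^ 2 / (2 * l) + η)
      = ∑ i, θ i * g (y i) - (∑ i, θ i * ‖y i - ξ i‖ ^ 2) / (2 * l) + η := by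
    have : η = ∑ i, θ i * η := by rw [← Finset.sum_mul, hc.2.1, one_mul]
    rw [Finset.sum_div, ← Finset.sum_sub_distrib]
    nth_rewrite 2 [this]
    rw [← Finset.sum_add_distrib]
    exact Finset.sum_congr rfl fun i _ => by ring
  unfold baryVal at h1 ⊢
  linarith

/-- **Commutation of the quadratic and the barycentric envelope** on one slice. -/
theorem wconv_comm {g : X → ℝ} (hg : SubQuadAbove g) {t l : ℝ} (ht : 0 < t) (hl : 0 < l)
    (x : X) : supConv l (bary (t + l) g) x = bary t (supConv l g) x :=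
  le_antisymm (wconv_supConv_bary_le hg ht hl x) (wconv_bary_supConv_le hg ht hl x)

end Inner

end Claimed.Agent.R330
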