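import Mathlib
import Claimed.Agent.R330.WConv
import Claimed.Agent.R330.PartBDefs

/-!
# Row 330, package L6 (continued): `W = C_t v - G t` inherits path convexity

`P_l W (x,t) = C_t [P_l v (·,t)] (x) - G (t + l)` for `t, l > 0`, hence
`l ↦ P_l W (x0 + l d, t) + |d|^2 l log l` is convex on `(0,∞)` whenever the same holds for `v`.
This replaces the paper's Lemma 5.2 and Corollary 5.3.
-/

namespace Claimed.Agent.R330

open Finset

variable {X : Type*} [NormedAddCommGroup X] [InnerProductSpace ℝ X]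

/-- The forward envelope of `W` is the barycentric envelope of the forward envelope of `v`. -/
theorem wconv_envP_Wk {v : X → ℝ → ℝ} (hv : ∀ t, SubQuadAbove (fun y => v y t)) (G : ℝ)
    {t l : ℝ} (ht : 0 < t) (hl : 0 < l) (x : X) :
    envP l (Wk G v) x t = bary t (fun y => envP l v y t) x - G * (t + l) := by
  have htl : 0 < t + l := add_pos ht hl
  have h1 : envP l (Wk G v) x t
      = supConv l (fun y => bary (t + l) (fun z => v z (t + l)) y + -(G * (t + l))) x := by
    unfold envP Wk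
    simp only [sub_eq_add_neg]
  rw [h1, supConv_add_const (wconv_subQuadAbove_bary (hv (t + l)) htl) hl,
    wconv_comm (hv (t + l)) ht hl]
  rfl

/-- Lower bound for the forward envelope of `W` by one configuration (competitor form). -/
theorem wconv_le_envP_Wk {v : X → ℝ → ℝ} (hv : ∀ t, SubQuadAbove (fun y => v y t)) (G : ℝ)
    {t l : ℝ} (ht : 0 < t) (hl : 0 < l) {x : X} {N : ℕ} {θ : Fin N → ℝ} {y : Fin N → X}
    (hc : IsConfig x θ y) :
    ∑ i, θ i * envP l v (y i) t - (∑ i, θ i * ‖y i - x‖ ^ 2) / (2 * t) - G * (t + l)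
      ≤ envP l (Wk G v) x t := by
  rw [wconv_envP_Wk hv G ht hl]
  have := wconv_le_bary (g := fun y => envP l v y t) ((hv (t + l)).supConv hl) ht hc
  unfold baryVal at this
  linarith

/-- **Path convexity of `W`** (replaces paper Lemma 5.2 + Corollary 5.3). -/
theorem wconv_pathConvexPOn_Wk {v : X → ℝ → ℝ} (hv : ∀ t, SubQuadAbove (fun y => v y t))
    (hconv : PathConvexP v) (G : ℝ) : PathConvexPOn (Set.Ioi (0 : ℝ)) (Wk G v) := by
  intro x₀ d t ht
  have ht : 0 < t := ht
  refine ⟨convex_Ioi 0, ?_⟩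
  intro l₁ hl₁ l₂ hl₂ a b ha hb hab
  have hl₁ : 0 < l₁ := hl₁
  have hl₂ : 0 < l₂ := hl₂
  have hl : 0 < a • l₁ + b • l₂ := (convex_Ioi (0 : ℝ)) hl₁ hl₂ ha hb hab
  set l : ℝ := a • l₁ + b • l₂ with hldef
  simp only [smul_eq_mul]
  -- reduce to configurations at `x₀`
  have key : ∀ {l' : ℝ}, 0 < l' → envP l' (Wk G v) (x₀ + l' • d) t
      = bary t (fun y => envP l' v (y + l' • d) t) x₀ - G * (t + l') := by
    intro l' hl'
    rw [wconv_envP_Wk hv G ht hl', wconv_bary_translate t (fun y => envP l' v y t)]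
  have hsq : ∀ {l' : ℝ}, 0 < l' → SubQuadAbove (fun y => envP l' v (y + l' • d) t) := by
    intro l' hl' ε hε
    obtain ⟨C, hC⟩ := ((hv (t + l')).supConv hl') (ε / 2) (by positivity)
    refine ⟨C + ε * ‖l' • d‖ ^ 2, fun y => ?_⟩
    have h1 := hC (y + l' • d)
    have h2 : ‖y + l' • d‖ ^ 2 ≤ 2 * ‖y‖ ^ 2 + 2 * ‖l' • d‖ ^ 2 := by
      have := norm_add_le y (l' • d)
      nlinarith [norm_nonneg y, norm_nonneg (l' • d), norm_nonneg (y + l' • d),
        sq_nonneg (‖y‖ - ‖l' • d‖)]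
    have h3 : envP l' v (y + l' • d) t ≤ ε / 2 * ‖y + l' • d‖ ^ 2 + C := h1
    nlinarith
  rw [key hl, key hl₁, key hl₂]
  have hmain : bary t (fun y => envP l v (y + l • d) t) x₀ + ‖d‖ ^ 2 * (l * Real.log l)
      ≤ a * (bary t (fun y => envP l₁ v (y + l₁ • d) t) x₀ + ‖d‖ ^ 2 * (l₁ * Real.log l₁))
        + b * (bary t (fun y => envP l₂ v (y + l₂ • d) t) x₀
          + ‖d‖ ^ 2 * (l₂ * Real.log l₂)) := by
    rw [← le_sub_iff_add_le]
    refine wconv_bary_le fun N θ y hc => ?_
    have e1 := wconv_le_bary (hsq hl₁) ht hc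
    have e2 := wconv_le_bary (hsq hl₂) ht hc
    have e3 : ∀ i, envP l v (y i + l • d) t + ‖d‖ ^ 2 * (l * Real.log l)
        ≤ a * (envP l₁ v (y i + l₁ • d) t + ‖d‖ ^ 2 * (l₁ * Real.log l₁))
          + b * (envP l₂ v (y i + l₂ • d) t + ‖d‖ ^ 2 * (l₂ * Real.log l₂)) := by
      intro i
      have := (hconv (y i) d t).2 (show l₁ ∈ Set.Ioi (0 : ℝ) from hl₁)
        (show l₂ ∈ Set.Ioi (0 : ℝ) from hl₂) ha hb hab
      have h' : a * l₁ + b * l₂ = l := by rw [hldef]; simp only [smul_eq_mul]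
      simp only [smul_eq_mul, h'] at this
      exact this
    have e4 : ∑ i, θ i * (envP l v (y i + l • d) t + ‖d‖ ^ 2 * (l * Real.log l))
        ≤ ∑ i, θ i * (a * (envP l₁ v (y i + l₁ • d) t + ‖d‖ ^ 2 * (l₁ * Real.log l₁))
          + b * (envP l₂ v (y i + l₂ • d) t + ‖d‖ ^ 2 * (l₂ * Real.log l₂))) :=
      Finset.sum_le_sum fun i _ => mul_le_mul_of_nonneg_left (e3 i) (hc.1 i)
    have e5 : ∑ i, θ i * (envP l v (y i + l • d) t + ‖d‖ ^ 2 * (l * Real.log l))
        = ∑ i, θ i * envP l v (y i + l • d) t + ‖d‖ ^ 2 * (l * Real.log l) := by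
      simp only [mul_add, Finset.sum_add_distrib, ← Finset.sum_mul, hc.2.1, one_mul]
    have e6 : ∑ i, θ i * (a * (envP l₁ v (y i + l₁ • d) t + ‖d‖ ^ 2 * (l₁ * Real.log l₁))
          + b * (envP l₂ v (y i + l₂ • d) t + ‖d‖ ^ 2 * (l₂ * Real.log l₂)))
        = a * (∑ i, θ i * envP l₁ v (y i + l₁ • d) t + ‖d‖ ^ 2 * (l₁ * Real.log l₁))
          + b * (∑ i, θ i * envP l₂ v (y i + l₂ • d) t + ‖d‖ ^ 2 * (l₂ * Real.log l₂)) := by
      have : ∀ i, θ i * (a * (envP l₁ v (y i + l₁ • d) t + ‖d‖ ^ 2 * (l₁ * Real.log l₁))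
          + b * (envP l₂ v (y i + l₂ • d) t + ‖d‖ ^ 2 * (l₂ * Real.log l₂)))
          = a * (θ i * envP l₁ v (y i + l₁ • d) t) + b * (θ i * envP l₂ v (y i + l₂ • d) t)
            + θ i * (a * (‖d‖ ^ 2 * (l₁ * Real.log l₁)) + b * (‖d‖ ^ 2 * (l₂ * Real.log l₂))) := by
        intro i; ring
      simp only [this, Finset.sum_add_distrib, ← Finset.mul_sum, ← Finset.sum_mul, hc.2.1]
      ring
    unfold baryVal at e1 e2 ⊢
    set V : ℝ := (∑ i, θ i * ‖y i - x₀‖ ^ 2) / (2 * t) with hV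
    have e7 := mul_le_mul_of_nonneg_left e1 ha
    have e8 := mul_le_mul_of_nonneg_left e2 hb
    have e9 : V = a * V + b * V := by rw [← add_mul, hab, one_mul]
    rw [e5, e6] at e4
    nlinarith
  have hlin : G * (t + l) = a * (G * (t + l₁)) + b * (G * (t + l₂)) := by
    have hb' : b = 1 - a := by linarith
    rw [hldef, hb']
    simp only [smul_eq_mul]
    ring
  linarith

/-- A convex function on `(0,∞)` with a limit at `0+` satisfies the convexity inequality with the
limit value at the endpoint `0`. -/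
theorem wconv_convex_endpoint {φ : ℝ → ℝ} {c : ℝ} (h : ConvexOn ℝ (Set.Ioi (0 : ℝ)) φ)
    (hlim : Filter.Tendsto φ (nhdsWithin 0 (Set.Ioi 0)) (nhds c)) {y a b : ℝ} (hy : 0 < y)
    (ha : 0 ≤ a) (hb : 0 < b) (hab : a + b = 1) : φ (b * y) ≤ a * c + b * φ y := by
  have hby : 0 < b * y := mul_pos hb hy
  have hcont : ContinuousAt φ (b * y) :=
    (h.continuousOn isOpen_Ioi).continuousAt (Ioi_mem_nhds hby)
  have h1 : Filter.Tendsto (fun δ : ℝ => a * δ + b * y) (nhdsWithin 0 (Set.Ioi 0))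
      (nhds (b * y)) := by
    have : Filter.Tendsto (fun δ : ℝ => a * δ + b * y) (nhds 0) (nhds (a * 0 + b * y)) :=
      (Continuous.tendsto (by fun_prop) 0)
    simp only [mul_zero, zero_add] at this
    exact this.mono_left nhdsWithin_le_nhds
  have h2 : Filter.Tendsto (fun δ : ℝ => φ (a * δ + b * y)) (nhdsWithin 0 (Set.Ioi 0))
      (nhds (φ (b * y))) := hcont.tendsto.comp h1
  have h3 : Filter.Tendsto (fun δ : ℝ => a * φ δ + b * φ y) (nhdsWithin 0 (Set.Ioi 0))
      (nhds (a * c + b * φ y)) := (hlim.const_mul a).add_const _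
  refine le_of_tendsto_of_tendsto h2 h3 ?_
  filter_upwards [self_mem_nhdsWithin] with δ hδ
  have := h.2 hδ (show y ∈ Set.Ioi (0 : ℝ) from hy) ha hb.le hab
  simpa only [smul_eq_mul] using this

/-- Extension of convexity to the closed half line. -/
theorem wconv_convexOn_Ici {φ : ℝ → ℝ} {c : ℝ} (h : ConvexOn ℝ (Set.Ioi (0 : ℝ)) φ)
    (hlim : Filter.Tendsto φ (nhdsWithin 0 (Set.Ioi 0)) (nhds c)) :
    ConvexOn ℝ (Set.Ici (0 : ℝ)) (Function.update φ 0 c) := by
  refine ⟨convex_Ici 0, ?_⟩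
  intro x hx y hy a b ha hb hab
  simp only [smul_eq_mul]
  have hx : 0 ≤ x := hx
  have hy : 0 ≤ y := hy
  rcases hx.eq_or_lt with rfl | hx
  · rcases hy.eq_or_lt with rfl | hy
    · simp only [mul_zero, add_zero, Function.update_self]
      rw [← add_mul, hab, one_mul]
    · rcases hb.eq_or_lt with rfl | hb
      · have ha1 : a = 1 := by linarith
        simp [ha1]
      · have hby : b * y ≠ 0 := (mul_pos hb hy).ne'
        simp only [mul_zero, zero_add, Function.update_self,
          Function.update_of_ne hby, Function.update_of_ne hy.ne']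
        exact wconv_convex_endpoint h hlim hy ha hb hab
  · rcases hy.eq_or_lt with rfl | hy
    · rcases ha.eq_or_lt with rfl | ha
      · have hb1 : b = 1 := by linarith
        simp [hb1]
      · have hax : a * x ≠ 0 := (mul_pos ha hx).ne'
        simp only [mul_zero, add_zero, Function.update_self,
          Function.update_of_ne hax, Function.update_of_ne hx.ne']
        have := wconv_convex_endpoint h hlim hx hb ha (by linarith)
        linarith
    · have hxy : 0 < a * x + b * y := by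
        have := (convex_Ioi (0 : ℝ)) (show x ∈ Set.Ioi (0 : ℝ) from hx)
          (show y ∈ Set.Ioi (0 : ℝ) from hy) ha hb hab
        simpa only [smul_eq_mul, Set.mem_Ioi] using this
      simp only [Function.update_of_ne hxy.ne', Function.update_of_ne hx.ne',
        Function.update_of_ne hy.ne']
      have := h.2 (show x ∈ Set.Ioi (0 : ℝ) from hx) (show y ∈ Set.Ioi (0 : ℝ) from hy) ha hb hab
      simpa only [smul_eq_mul] using this

/-- The midpoint inequality (paper (6.8)) for any `f` with path convexity at time `t` and the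
zero-length limit along the path. -/
theorem wconv_path_midpoint {f : X → ℝ → ℝ} {x₀ d : X} {t : ℝ}
    (h : ConvexOn ℝ (Set.Ioi (0 : ℝ))
      (fun l => envP l f (x₀ + l • d) t + ‖d‖ ^ 2 * (l * Real.log l)))
    (hlim : Filter.Tendsto (fun l => envP l f (x₀ + l • d) t) (nhdsWithin 0 (Set.Ioi 0))
      (nhds (f x₀ t))) {ε : ℝ} (hε : 0 < ε) :
    -(‖d‖ ^ 2 * (2 * ε * Real.log 2))
      ≤ f x₀ t + envP (2 * ε) f (x₀ + (2 * ε) • d) t - 2 * envP ε f (x₀ + ε • d) t := by
  have hl0 : Filter.Tendsto (fun l : ℝ => ‖d‖ ^ 2 * (l * Real.log l))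
      (nhdsWithin 0 (Set.Ioi 0)) (nhds 0) := by
    have : Filter.Tendsto (fun l : ℝ => ‖d‖ ^ 2 * (l * Real.log l)) (nhds 0)
        (nhds (‖d‖ ^ 2 * (0 * Real.log 0))) :=
      (Real.continuous_mul_log.tendsto 0).const_mul _
    simp only [zero_mul, mul_zero] at this
    exact this.mono_left nhdsWithin_le_nhds
  have hlim' := hlim.add hl0
  rw [add_zero] at hlim'
  have h2ε : (0 : ℝ) < 2 * ε := by positivity
  have := wconv_convex_endpoint h hlim' h2ε (a := 1 / 2) (b := 1 / 2) (by norm_num)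
    (by norm_num) (by norm_num)
  have e : (1 / 2 : ℝ) * (2 * ε) = ε := by ring
  simp only [e] at this
  have hlog : Real.log (2 * ε) = Real.log 2 + Real.log ε :=
    Real.log_mul (by norm_num) hε.ne'
  rw [hlog] at this
  nlinarith

end Claimed.Agent.R330
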