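import Mathlib
import Claimed.Agent.R330.PartBDefs
import Claimed.Agent.R330.EnvBasic
import Claimed.Agent.R330.BaryBasic
import Claimed.Agent.R330.BaryCov
import Claimed.Agent.R330.WConvW
import Claimed.Agent.R330.ContactE2
import Claimed.Agent.R330.BaryDual
import Claimed.Agent.R330.BaryCont
import Claimed.Agent.R330.FitCompare
import Claimed.Agent.R330.FitBox
import Claimed.Agent.R330.FitModuli
import Claimed.Agent.R330.FrameClass
import Claimed.Agent.R330.UlimMain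
import Claimed.Agent.R330.EnvSlope
import Claimed.Agent.R330.FrameRefl
import Claimed.Agent.R330.ContactA2

/-!
# Row 330, L7 (paper Prop 5.4): statements consumed from the other packages

Every lemma of this file is a statement which package L7 consumes from another package, in the
shape in which L7 uses it, proved by short calls of the suppliers' lemmas.
Owner of this file: helper53.
-/

set_option linter.unusedSectionVars false
set_option linter.unusedVariables false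

namespace Claimed.Agent.R330

open scoped RealInnerProductSpace
open Filter Topology

variable {X : Type*} [NormedAddCommGroup X] [InnerProductSpace ℝ X] [FiniteDimensional ℝ X]

/-! ### Growth (supplier: L2a, helper225; frames helper236) -/

theorem ctI_C₀_nonneg {C₀ : ℝ} {v : X → ℝ → ℝ} (h : HasFits C₀ v) : 0 ≤ C₀ := by
  obtain ⟨p, a, hpa⟩ := h 0 0 1 one_pos
  exact ulim_nonneg_of_isFit one_pos hpa

/-- Growth (4.2) and parameter bound (4.3) for centred functions with fits. -/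
theorem ctI_fitGP {C₀ tc : ℝ} (htc : |tc| ≤ 1) (w : X → ℝ → ℝ) (hf : HasFits C₀ w)
    (hc : CenteredAt C₀ w 0 tc) :
    FitGrowth (fitboxCg C₀ (fitcC1 C₀)) w ∧
      FitParam C₀ (fitboxCp (fitcC1 C₀) (fitcC2 C₀)) w := by
  have hC0 := ctI_C₀_nonneg hf
  have hstep : FitStep C₀ (fitcC1 C₀) w :=
    fun x t R R' p a p' a' hR h1 h2 f1 f2 => fitc_step hC0 hR h1 h2 f1 f2
  have hshift : FitShift C₀ (fitcC2 C₀) w :=
    fun x t x' t' R p a p' a' hR h1 h2 f1 f2 => fitc_shift hC0 hR h1 h2 f1 f2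
  exact ⟨fitbox_growth hC0 (fitcC1_nonneg hC0) hf hstep htc hc,
    fitbox_param (fitcC1_nonneg hC0) (fitcC2_nonneg hC0) hf hstep hshift htc hc⟩

/-- Uniform subquadratic growth of the members centred at `(0,1)` (paper (4.6)). -/
theorem ctI_unif_subquad (C₀ T ε : ℝ) (hε : 0 < ε) :
    ∃ C : ℝ, ∀ v : X → ℝ → ℝ, HasFits C₀ v → CenteredAt C₀ v 0 1 →
      ∀ x : X, ∀ t ∈ Set.Icc (-T) T, |v x t| ≤ ε * ‖x‖ ^ 2 + C := by
  by_cases hC0 : 0 ≤ C₀
  · obtain ⟨C, hC⟩ := fitmod_subQuadOn_unif (X := X)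
      (fitbox_Cg_nonneg hC0 (fitcC1_nonneg hC0)) T hε
    exact ⟨C, fun v hf hc => hC v (ctI_fitGP (by norm_num) v hf hc).1⟩
  · exact ⟨0, fun v hf _ => absurd (ctI_C₀_nonneg hf) hC0⟩

/-- Every function with fits has subquadratic growth on bounded time intervals. -/
theorem ctI_subQuadLoc {C₀ : ℝ} {v : X → ℝ → ℝ} (hv : HasFits C₀ v) : SubQuadLoc v := by
  have hC0 := ctI_C₀_nonneg hv
  obtain ⟨p0, a0, hfit⟩ := hv 0 0 1 one_pos
  set w := frame 0 0 0 1 p0 a0 v with hw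
  have hwf : HasFits C₀ w := frame_hasFits 0 0 0 p0 a0 one_pos hv
  have hwc : CenteredAt C₀ w 0 0 := frame_centeredAt 0 0 0 p0 a0 one_pos hfit
  have hwq : SubQuadLoc w :=
    fitmod_subQuadLoc (fitbox_Cg_nonneg hC0 (fitcC1_nonneg hC0))
      (ctI_fitGP (by norm_num) w hwf hwc).1
  have hw2 : SubQuadLoc (frame 0 0 0 1 (-p0) (-a0) w) :=
    frame_subQuadLoc 0 0 0 (-p0) (-a0) one_pos hwq
  have hrec : ∀ x t, v x t = frame 0 0 0 1 (-p0) (-a0) w x t + v 0 0 := by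
    intro x t
    simp only [hw, frame, frameX, frameT]
    simp only [sub_zero, one_smul, zero_add, one_mul, div_one, smul_zero, add_zero, zero_smul,
      mul_zero, inner_zero_right, norm_neg, inner_neg_left, smul_neg, inner_add_right,
      inner_neg_right, inner_smul_right, real_inner_self_eq_norm_sq]
    have h1 : x + -(t • p0) + t • p0 = x := by abel
    rw [h1]
    ring
  intro T ε hε
  obtain ⟨C, hC⟩ := hw2 T ε hε
  refine ⟨C + |v 0 0|, fun x t ht => ?_⟩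
  rw [hrec x t]
  calc |frame 0 0 0 1 (-p0) (-a0) w x t + v 0 0|
      ≤ |frame 0 0 0 1 (-p0) (-a0) w x t| + |v 0 0| := abs_add_le _ _
    _ ≤ ε * ‖x‖ ^ 2 + (C + |v 0 0|) := by have := hC x t ht; linarith

/-! ### Frames (supplier: L1, helper236) -/

/-- Normalisation of a gap: centre at `(0,1)` by a fitted frame of radius `s`. -/
theorem ctI_frame_norm {C₀ : ℝ} {v : X → ℝ → ℝ} (hv : ClassA C₀ v) (x : X) (t s : ℝ)
    (hs : 0 < s) :
    ∃ w : X → ℝ → ℝ, ClassA C₀ w ∧ CenteredAt C₀ w 0 1 ∧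
      bary 1 (fun y => w y 1) 0 - w 0 1 = (bary s (fun y => v y t) x - v x t) / s := by
  have hsq := ctI_subQuadLoc hv.fits
  obtain ⟨p0, a0, hfit⟩ := hv.fits x t s hs
  refine ⟨frame 1 x t s p0 a0 v, frame_classA 1 x t p0 a0 hs hsq hv,
    frame_centeredAt 1 x t p0 a0 hs hfit, ?_⟩
  have h := bary_gap_cov hs one_pos (hsq.slice t).above x p0 (v x t / s) (0 : X)
  have hfun : (fun y => frame 1 x t s p0 a0 v y 1)
      = fun z => v (x + s • z) t / s - inner ℝ p0 z - v x t / s := by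
    funext z
    simp only [frame, frameX, frameT, sub_self, zero_smul, add_zero, mul_zero]
    ring
  have h0 : frame 1 x t s p0 a0 v 0 1
      = v (x + s • (0 : X)) t / s - inner ℝ p0 (0 : X) - v x t / s := congrFun hfun 0
  rw [hfun, h0, h]
  simp

/-! ### Compactness (supplier: L2b, helper92) -/

/-- Ultralimit compactness of the members centred at `(0,1)`. -/
theorem ctI_compact {C₀ : ℝ} (w : ℕ → X → ℝ → ℝ)
    (hw : ∀ j, ClassA C₀ (w j) ∧ CenteredAt C₀ (w j) 0 1) :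
    ∃ w' : X → ℝ → ℝ, ClassA C₀ w' ∧ CenteredAt C₀ w' 0 1 ∧
      ∀ K : Set (X × ℝ), IsCompact K →
        TendstoUniformlyOn (fun j (z : X × ℝ) => w j z.1 z.2) (fun z => w' z.1 z.2)
          (Filter.hyperfilter ℕ : Filter ℕ) K := by
  have hC0 := ctI_C₀_nonneg (hw 0).1.fits
  obtain ⟨vh, h1, h2, -, -, h3⟩ := ulim_classA_centered_of (Filter.hyperfilter ℕ)
    (fitbox_Cg_nonneg hC0 (fitcC1_nonneg hC0))
    (fun w hf hc => ctI_fitGP (by norm_num : |(1 : ℝ)| ≤ 1) w hf hc)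
    (Filter.Eventually.of_forall hw)
  exact ⟨vh, h1, h2, h3⟩

/-! ### Barycentric envelope (supplier: L5, helper182) -/

theorem ctI_le_bary {g : X → ℝ} (hg : SubQuadAbove g) {s : ℝ} (hs : 0 < s)
    {ι : Type*} [Fintype ι] {x : X} {θ : ι → ℝ} {y : ι → X} (h : IsConfig x θ y) :
    baryVal s g x θ y ≤ bary s g x :=
  bary_le_bary hs hg h

theorem ctI_bary_le {g : X → ℝ} {s a : ℝ} {x : X}
    (h : ∀ (N : ℕ) (θ : Fin N → ℝ) (y : Fin N → X), IsConfig x θ y → baryVal s g x θ y ≤ a) :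
    bary s g x ≤ a :=
  bary_le_of_forall h

theorem ctI_self_le_bary {g : X → ℝ} (hg : SubQuadAbove g) {s : ℝ} (hs : 0 < s) (x : X) :
    g x ≤ bary s g x :=
  bary_self_le hs hg x

/-- Attainment and supporting slope (paper (5.4)). -/
theorem ctI_bary_attained {g : X → ℝ} (hc : Continuous g) (hg : SubQuad g) {s : ℝ} (hs : 0 < s)
    (x : X) :
    ∃ (A : X) (N : ℕ) (θ : Fin N → ℝ) (y : Fin N → X), IsConfig x θ y ∧ (∀ i, 0 < θ i) ∧
      baryVal s g x θ y = bary s g x ∧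
      (∀ z, g z - ‖z‖ ^ 2 / (2 * s) - ⟪A, z - x⟫ ≤ bary s g x - ‖x‖ ^ 2 / (2 * s)) ∧
      (∀ i, g (y i) - ‖y i‖ ^ 2 / (2 * s) - ⟪A, y i - x⟫ = bary s g x - ‖x‖ ^ 2 / (2 * s)) :=
  barydual_attained hs hc hg.above x

theorem ctI_bary_concave {g : X → ℝ} (hc : Continuous g) (hg : SubQuad g) {s : ℝ} (hs : 0 < s) :
    ConcaveOn ℝ Set.univ (fun x => bary s g x - ‖x‖ ^ 2 / (2 * s)) :=
  bary_concave hs hg.above

/-- Stability of the barycentric envelope along any filter. -/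
theorem ctI_bary_tendsto {ι : Type*} {l : Filter ι} {gs : ι → X → ℝ} {g : X → ℝ}
    {ss : ι → ℝ} {s : ℝ} {xs : ι → X} {x : X} (hc : Continuous g)
    (hunif : ∀ R : ℝ, TendstoUniformlyOn gs g l (Metric.closedBall 0 R))
    (hgrow : ∀ ε : ℝ, 0 < ε → ∃ C : ℝ, ∀ᶠ j in l, ∀ y, |gs j y| ≤ ε * ‖y‖ ^ 2 + C)
    (hs : 0 < s) (hss : Tendsto ss l (𝓝 s)) (hxs : Tendsto xs l (𝓝 x)) :
    Tendsto (fun j => bary (ss j) (gs j) (xs j)) l (𝓝 (bary s g x)) :=
  barycont_tendsto_unif hc hunif hgrow hs hss hxs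

/-! ### Commutation (supplier: L6, helper101) -/

/-- The inequality `P_l C_{t+l} g ≥ C_t P_l g` (half of the exact commutation). -/
theorem ctI_commute_ge {g : X → ℝ} (hc : Continuous g) (hg : SubQuad g) {t l : ℝ} (ht : 0 < t)
    (hl : 0 < l) (x : X) :
    bary t (supConv l g) x ≤ supConv l (bary (t + l) g) x :=
  wconv_bary_supConv_le hg.above ht hl x

/-- Path convexity of `W` (replaces paper Lemma 5.2 and Corollary 5.3). -/
theorem ctI_W_pathConvex {G : ℝ} {v : X → ℝ → ℝ}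
    (hc : Continuous (fun z : X × ℝ => v z.1 z.2)) (hg : SubQuadLoc v) (hP : PathConvexP v) :
    PathConvexPOn (Set.Ioi 0) (Wk G v) :=
  wconv_pathConvexPOn_Wk (fun t => (hg.slice t).above) hP G

/-! ### Envelope slopes (supplier: L3/L4, helper213; paper Lemma 4.4) -/

/-- Paper (4.12): a lower bound for the small backward slopes is a lower bound for all forward
slopes. -/
theorem ctI_h44a {v : X → ℝ → ℝ}
    (hc : Continuous (fun z : X × ℝ => v z.1 z.2)) (hg : SubQuadLoc v) (hP : PathConvexP v) :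
    ∀ (x : X) (t Λ ℓ0 : ℝ), 0 < ℓ0 → (∀ ℓ, 0 < ℓ → ℓ ≤ ℓ0 → Λ ≤ slopeM ℓ v x t) →
      ∀ ℓ, 0 < ℓ → Λ ≤ slopeP ℓ v x t :=
  slope_h44a hc hg hP

/-- Mirror image of `ctI_h44a`. -/
theorem ctI_h44b {v : X → ℝ → ℝ}
    (hc : Continuous (fun z : X × ℝ => v z.1 z.2)) (hg : SubQuadLoc v) (hM : PathConcaveM v) :
    ∀ (x : X) (t Λ ℓ0 : ℝ), 0 < ℓ0 → (∀ ℓ, 0 < ℓ → ℓ ≤ ℓ0 → Λ ≤ slopeP ℓ v x t) →
      ∀ ℓ, 0 < ℓ → Λ ≤ slopeM ℓ v x t :=
  slope_h44b hc hg hM

/-! ### Positive defect (supplier: L7a, helper31) -/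

/-- A non-affine member produces a member with a positive horizontal midpoint defect. -/
theorem ctI_pos_defect {C₀ : ℝ} {v₀ : X → ℝ → ℝ} (hv : ClassA C₀ v₀) (hna : ¬ IsAffineST v₀) :
    ∃ v : X → ℝ → ℝ, ClassA C₀ v ∧ ∃ (x₁ x₂ : X) (t : ℝ),
      v ((1 / 2 : ℝ) • (x₁ + x₂)) t < (v x₁ t + v x₂ t) / 2 := by
  have hsq := ctI_subQuadLoc hv.fits
  obtain ⟨p0, a0, hfit⟩ := hv.fits 0 0 1 one_pos
  have hw : ClassA C₀ (frame 0 0 0 1 p0 a0 v₀) := frame_classA 0 0 0 p0 a0 one_pos hsq hv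
  have hwc : CenteredAt C₀ (frame 0 0 0 1 p0 a0 v₀) 0 0 :=
    frame_centeredAt 0 0 0 p0 a0 one_pos hfit
  have hna' : ¬ IsAffineST (frame 0 0 0 1 p0 a0 v₀) := fun h =>
    hna ((frame_isAffineST_iff 0 0 0 p0 a0 one_ne_zero).1 h)
  have hgrow := (ctI_fitGP (by norm_num : |(0 : ℝ)| ≤ 1) _ hw.fits hwc).1
  rcases cta_exists_pos_midpoint_defect hw ⟨_, hgrow⟩ hna' with ⟨t, x, y, h⟩ | ⟨t, x, y, h⟩
  · exact ⟨_, hw, x, y, t, by linarith⟩
  · exact ⟨_, framerefl_classA hw, x, y, t, by linarith⟩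

end Claimed.Agent.R330
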