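import Mathlib
import Claimed.Agent.R330.ContactCore
import Claimed.Agent.R330.ContactIface

/-!
# Row 330, L7bc (paper Prop 5.4, extremal construction)

The supremum `G` of the scale invariant gap `(C_s v - v)/s` over the whole class is positive,
finite, and attained by a member centred at `(0,1)`.
-/

namespace Claimed.Agent.R330

open scoped RealInnerProductSpace
open Filter Topology

variable {X : Type*} [NormedAddCommGroup X] [InnerProductSpace ℝ X] [FiniteDimensional ℝ X]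

/-- The normalised gap is bounded on the members centred at `(0,1)`. -/
theorem ct_gap_bdd (C₀ : ℝ) : ∃ C : ℝ, ∀ w : X → ℝ → ℝ, ClassA C₀ w → CenteredAt C₀ w 0 1 →
    bary 1 (fun y => w y 1) 0 - w 0 1 ≤ C := by
  obtain ⟨C, hC⟩ := ctI_unif_subquad (X := X) C₀ 1 (1 / 2) (by norm_num)
  refine ⟨C, fun w hw hc => ?_⟩
  rw [hc.1, sub_zero]
  refine ctI_bary_le fun N θ y hcfg => ?_
  obtain ⟨hθ, hsum, -⟩ := hcfg
  unfold baryVal
  have h1 : ∑ i, θ i * w (y i) 1 ≤ ∑ i, θ i * (1 / 2 * ‖y i‖ ^ 2 + C) := by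
    refine Finset.sum_le_sum fun i _ => mul_le_mul_of_nonneg_left ?_ (hθ i)
    exact (le_abs_self _).trans (hC w hw.fits hc (y i) 1 ⟨by norm_num, le_rfl⟩)
  have h2 : ∑ i, θ i * (1 / 2 * ‖y i‖ ^ 2 + C) = (∑ i, θ i * ‖y i - 0‖ ^ 2) / (2 * 1) + C := by
    have : ∀ i, θ i * (1 / 2 * ‖y i‖ ^ 2 + C) = (θ i * ‖y i - 0‖ ^ 2) / (2 * 1) + θ i * C := by
      intro i; rw [sub_zero]; ring
    simp_rw [this]
    rw [Finset.sum_add_distrib, ← Finset.sum_div, ← Finset.sum_mul, hsum, one_mul]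
  linarith

/-- A positive midpoint defect gives a positive gap at a large parameter. -/
theorem ct_gap_pos {g : X → ℝ} (hg : SubQuadAbove g) {x₁ x₂ : X}
    (h : g ((1 / 2 : ℝ) • (x₁ + x₂)) < (g x₁ + g x₂) / 2) :
    ∃ (x : X) (s : ℝ), 0 < s ∧ 0 < bary s g x - g x := by
  set x : X := (1 / 2 : ℝ) • (x₁ + x₂) with hx
  set V : ℝ := (‖x₁ - x‖ ^ 2 + ‖x₂ - x‖ ^ 2) / 2 with hV
  set D : ℝ := (g x₁ + g x₂) / 2 - g x with hD
  have hDpos : 0 < D := by rw [hD]; linarith
  have hVnn : 0 ≤ V := by rw [hV]; positivity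
  have hs : 0 < (V + 1) / D := by positivity
  refine ⟨x, (V + 1) / D, hs, ?_⟩
  have hcfg : IsConfig x (fun _ : Fin 2 => (1 / 2 : ℝ)) ![x₁, x₂] := by
    refine ⟨fun _ => by norm_num, by simp, ?_⟩
    simp [Fin.sum_univ_two, hx, smul_add]
  have hle := ctI_le_bary hg hs hcfg
  have hval : baryVal ((V + 1) / D) g x (fun _ : Fin 2 => (1 / 2 : ℝ)) ![x₁, x₂]
      = (g x₁ + g x₂) / 2 - V / (2 * ((V + 1) / D)) := by
    unfold baryVal
    simp only [Fin.sum_univ_two, Matrix.cons_val_zero, Matrix.cons_val_one]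
    rw [hV]; ring
  have h3 : V / (2 * ((V + 1) / D)) < D := by
    have : V / (2 * ((V + 1) / D)) = D * (V / (2 * (V + 1))) := by
      field_simp
    rw [this]
    have h4 : V / (2 * (V + 1)) < 1 := by
      rw [div_lt_one (by positivity)]; linarith
    calc D * (V / (2 * (V + 1))) < D * 1 := mul_lt_mul_of_pos_left h4 hDpos
      _ = D := mul_one D
  rw [hval] at hle
  have : (g x₁ + g x₂) / 2 = D + g x := by rw [hD]; ring
  linarith

/-- Compactness of the normalised gap. -/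
theorem ct_gap_compact {C₀ : ℝ} (w : ℕ → X → ℝ → ℝ)
    (hw : ∀ j, ClassA C₀ (w j) ∧ CenteredAt C₀ (w j) 0 1) :
    ∃ (w' : X → ℝ → ℝ) (U : Filter ℕ), U.NeBot ∧ U ≤ Filter.atTop ∧ ClassA C₀ w' ∧
      CenteredAt C₀ w' 0 1 ∧
      Filter.Tendsto (fun j => bary 1 (fun y => w j y 1) 0 - w j 0 1) U
        (nhds (bary 1 (fun y => w' y 1) 0 - w' 0 1)) := by
  obtain ⟨w', hA, hC, hunif⟩ := ctI_compact w hw
  refine ⟨w', (Filter.hyperfilter ℕ : Filter ℕ), inferInstance, Nat.hyperfilter_le_atTop, hA, hC, ?_⟩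
  have hcont : Continuous (fun y => w' y 1) :=
    hA.cont.comp (continuous_id.prodMk continuous_const)
  have h1 : Tendsto (fun j => bary 1 (fun y => w j y 1) (0 : X)) (Filter.hyperfilter ℕ : Filter ℕ)
      (𝓝 (bary 1 (fun y => w' y 1) 0)) := by
    refine ctI_bary_tendsto (gs := fun j y => w j y 1) (ss := fun _ => 1) (xs := fun _ => 0)
      hcont ?_ ?_ one_pos tendsto_const_nhds tendsto_const_nhds
    · intro R
      have hK : IsCompact ((Metric.closedBall (0 : X) R) ×ˢ ({1} : Set ℝ)) :=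
        (isCompact_closedBall 0 R).prod isCompact_singleton
      have := (hunif _ hK).comp (fun y : X => (y, (1 : ℝ)))
      refine this.mono ?_
      intro y hy
      exact ⟨hy, rfl⟩
    · intro ε hε
      obtain ⟨C, hC'⟩ := ctI_unif_subquad (X := X) C₀ 1 ε hε
      exact ⟨C, Filter.Eventually.of_forall fun j y =>
        hC' (w j) (hw j).1.fits (hw j).2 y 1 ⟨by norm_num, le_rfl⟩⟩
  have h2 : (fun j => bary 1 (fun y => w j y 1) (0 : X) - w j 0 1)
      = fun j => bary 1 (fun y => w j y 1) (0 : X) := by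
    funext j; rw [(hw j).2.1, sub_zero]
  rw [h2, hC.1, sub_zero]
  exact h1

/-- **L7bc.**  If the class has a non-affine member then the supremum `G` of the scale invariant
gap is positive and attained by a member centred at `(0,1)`. -/
theorem ct_ext {C₀ : ℝ} (h : ∃ v₀ : X → ℝ → ℝ, ClassA C₀ v₀ ∧ ¬ IsAffineST v₀) :
    ∃ (G : ℝ) (v : X → ℝ → ℝ), 0 < G ∧ ClassA C₀ v ∧ CenteredAt C₀ v 0 1 ∧ GapBound G v ∧
      bary 1 (fun y => v y 1) 0 - v 0 1 = G := by
  obtain ⟨v₀, hv₀, hna⟩ := h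
  obtain ⟨v₁, hv₁, x₁, x₂, t, hdef⟩ := ctI_pos_defect hv₀ hna
  have hg : SubQuadAbove (fun y => v₁ y t) := ((ctI_subQuadLoc hv₁.fits).slice t).above
  obtain ⟨x, s, hs, hpos⟩ := ct_gap_pos hg hdef
  exact ct_ext_core (ClassA C₀) (fun w => CenteredAt C₀ w 0 1)
    (fun v hv x t s hs => ctI_frame_norm hv x t s hs) (ct_gap_bdd C₀)
    (fun w hw => ct_gap_compact w hw) ⟨v₁, hv₁, x, t, s, hs, hpos⟩

end Claimed.Agent.R330
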