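import Mathlib
import Claimed.Agent.R330.ContactIface

/-!
# Row 330, L7d: standing properties of `W = C_t v - G t` (paper (5.10), Section 6 preamble)

`v` is continuous with subquadratic growth and satisfies the gap bound with constant `G`.
-/

set_option linter.unusedSectionVars false

namespace Claimed.Agent.R330

open scoped RealInnerProductSpace
open Filter Topology

variable {X : Type*} [NormedAddCommGroup X] [InnerProductSpace ℝ X] [FiniteDimensional ℝ X]

theorem ct_slice_continuous {v : X → ℝ → ℝ} (hc : Continuous (fun z : X × ℝ => v z.1 z.2))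
    (t : ℝ) : Continuous (fun y => v y t) :=
  hc.comp (continuous_id.prodMk continuous_const)

/-- Upper half of the sandwich (5.10). -/
theorem ct_W_le {G : ℝ} {v : X → ℝ → ℝ} (hG : GapBound G v) (x : X) {t : ℝ} (ht : 0 < t) :
    Wk G v x t ≤ v x t := by
  have := hG x t t ht
  unfold Wk
  linarith

/-- Lower half of the sandwich (5.10). -/
theorem ct_le_W {G : ℝ} {v : X → ℝ → ℝ} (hg : SubQuadLoc v) (x : X) {t : ℝ} (ht : 0 < t) :
    v x t - G * t ≤ Wk G v x t := by
  have := ctI_self_le_bary (hg.slice t).above ht x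
  unfold Wk
  linarith

/-- At a contact the barycentric gap is exactly `G t` (paper (5.11)). -/
theorem ct_gap_of_contact {G : ℝ} {v : X → ℝ → ℝ} {x : X} {t : ℝ} (h : Wk G v x t = v x t) :
    bary t (fun y => v y t) x - v x t = G * t := by
  unfold Wk at h
  linarith

theorem ct_contact_of_gap {G : ℝ} {v : X → ℝ → ℝ} {x : X} {t : ℝ}
    (h : bary t (fun y => v y t) x - v x t = G * t) : Wk G v x t = v x t := by
  unfold Wk
  linarith

/-- Spatial semiconcavity of `W`. -/
theorem ct_W_concave {G : ℝ} {v : X → ℝ → ℝ} (hc : Continuous (fun z : X × ℝ => v z.1 z.2))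
    (hg : SubQuadLoc v) {t : ℝ} (ht : 0 < t) :
    ConcaveOn ℝ Set.univ (fun x => Wk G v x t - ‖x‖ ^ 2 / (2 * t)) := by
  have h := ctI_bary_concave (ct_slice_continuous hc t) (hg.slice t) ht
  have h2 : (fun x => Wk G v x t - ‖x‖ ^ 2 / (2 * t))
      = fun x => (bary t (fun y => v y t) x - ‖x‖ ^ 2 / (2 * t)) + (-(G * t)) := by
    funext x; unfold Wk; ring
  rw [h2]
  exact h.add (concaveOn_const _ convex_univ)

/-- Subquadratic growth of `W` on compact positive time intervals. -/
theorem ct_W_subQuadOn {G : ℝ} {v : X → ℝ → ℝ} (hg : SubQuadLoc v) (hG : GapBound G v)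
    {a b : ℝ} (ha : 0 < a) : SubQuadOn (Set.Icc a b) (Wk G v) := by
  intro ε hε
  obtain ⟨C, hC⟩ := hg.on_Icc a b ε hε
  refine ⟨C + |G| * |b|, fun x t ht => ?_⟩
  have ht0 : 0 < t := lt_of_lt_of_le ha ht.1
  have h1 := ct_W_le hG x ht0
  have h2 := ct_le_W (G := G) hg x ht0
  have h3 := hC x t ht
  have h4 : |G * t| ≤ |G| * |b| := by
    rw [abs_mul]
    refine mul_le_mul_of_nonneg_left ?_ (abs_nonneg _)
    rw [abs_of_pos ht0]
    exact ht.2.trans (le_abs_self b)
  have h5 := abs_le.1 h3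
  have h6 := abs_le.1 h4
  rw [abs_le]
  constructor <;> linarith [h5.1, h5.2, h6.1, h6.2]

/-- Joint continuity of `W` at positive times, sequential-filter form. -/
theorem ct_W_tendsto {G : ℝ} {v : X → ℝ → ℝ} (hc : Continuous (fun z : X × ℝ => v z.1 z.2))
    (hg : SubQuadLoc v) {ι : Type*} {l : Filter ι} {xs : ι → X} {ts : ι → ℝ} {x : X} {t : ℝ}
    (ht : 0 < t) (hxs : Tendsto xs l (𝓝 x)) (hts : Tendsto ts l (𝓝 t)) :
    Tendsto (fun j => Wk G v (xs j) (ts j)) l (𝓝 (Wk G v x t)) := by
  unfold Wk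
  refine Tendsto.sub ?_ (hts.const_mul G)
  refine ctI_bary_tendsto (gs := fun j y => v y (ts j)) (ct_slice_continuous hc t) ?_ ?_ ht hts hxs
  · -- uniform convergence of the slices on closed balls
    intro R
    have hK : IsCompact ((Metric.closedBall (0 : X) R) ×ˢ (Set.Icc (t - 1) (t + 1))) :=
      (isCompact_closedBall 0 R).prod isCompact_Icc
    have huc : UniformContinuousOn (fun z : X × ℝ => v z.1 z.2)
        ((Metric.closedBall (0 : X) R) ×ˢ (Set.Icc (t - 1) (t + 1))) :=
      hK.uniformContinuousOn_of_continuous hc.continuousOn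
    rw [Metric.tendstoUniformlyOn_iff]
    intro ε hε
    obtain ⟨δ, hδ, hδ'⟩ := Metric.uniformContinuousOn_iff.1 huc ε hε
    have h1 : ∀ᶠ j in l, dist (ts j) t < min δ 1 :=
      (Metric.tendsto_nhds.1 hts) _ (lt_min hδ one_pos)
    filter_upwards [h1] with j hj y hy
    have hj1 : dist (ts j) t < 1 := lt_of_lt_of_le hj (min_le_right _ _)
    have hjδ : dist (ts j) t < δ := lt_of_lt_of_le hj (min_le_left _ _)
    rw [Real.dist_eq, abs_lt] at hj1
    refine hδ' (y, t) ⟨hy, ⟨by linarith, by linarith⟩⟩ (y, ts j)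
      ⟨hy, ⟨by linarith [hj1.1], by linarith [hj1.2]⟩⟩ ?_
    rw [Prod.dist_eq, dist_self, dist_comm]
    exact max_lt hδ hjδ
  · intro ε hε
    obtain ⟨C, hC⟩ := hg.on_Icc (t - 1) (t + 1) ε hε
    have h1 : ∀ᶠ j in l, dist (ts j) t < 1 := (Metric.tendsto_nhds.1 hts) _ one_pos
    refine ⟨C, ?_⟩
    filter_upwards [h1] with j hj y
    rw [Real.dist_eq, abs_lt] at hj
    exact hC y (ts j) ⟨by linarith [hj.1], by linarith [hj.2]⟩

/-- Joint continuity of `W` on the open half space of positive times. -/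
theorem ct_W_continuousOn {G : ℝ} {v : X → ℝ → ℝ}
    (hc : Continuous (fun z : X × ℝ => v z.1 z.2)) (hg : SubQuadLoc v) :
    ContinuousOn (fun z : X × ℝ => Wk G v z.1 z.2) {z | 0 < z.2} := by
  intro z hz
  refine ContinuousAt.continuousWithinAt ?_
  exact ct_W_tendsto (l := 𝓝 z) (xs := fun z => z.1) (ts := fun z => z.2) hc hg hz
    (continuous_fst.tendsto z) (continuous_snd.tendsto z)

end Claimed.Agent.R330
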