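import Mathlib
import Claimed.Agent.R330.ContactW

/-!
# Row 330, L7f: finite slopes at the contact (paper (5.12))

Only lower bounds of the forward slopes of `W` and of the backward slopes of `v` at the contact
point `(0,1)` are used later.  The forward slopes of `W` are bounded below through the
inequality `P_l C_{t+l} ≥ C_t P_l`, tested with the extremal configuration.
-/

set_option linter.unusedSectionVars false

namespace Claimed.Agent.R330

open scoped RealInnerProductSpace
open Filter Topology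

variable {X : Type*} [NormedAddCommGroup X] [InnerProductSpace ℝ X] [FiniteDimensional ℝ X]

/-- The forward envelope of `W` in terms of slices. -/
theorem ct_envP_W {G : ℝ} {v : X → ℝ → ℝ}
    (hg : SubQuadLoc v) (hG : GapBound G v) {t l : ℝ} (ht : 0 < t) (hl : 0 < l) (x : X) :
    envP l (Wk G v) x t
      = supConv l (bary (t + l) (fun y => v y (t + l))) x - G * (t + l) := by
  have htl : 0 < t + l := by linarith
  have habove : SubQuadAbove (bary (t + l) (fun y => v y (t + l))) := by
    intro ε hε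
    obtain ⟨C, hC⟩ := (hg.slice (t + l)).above ε hε
    refine ⟨C + G * (t + l), fun y => ?_⟩
    have h1 := hG y (t + l) (t + l) htl
    have h2 := hC y
    linarith
  have := supConv_add_const habove hl (-(G * (t + l))) x
  unfold envP Wk
  simpa [sub_eq_add_neg] using this

/-- Forward slopes of `W` at a point where an extremal configuration sits. -/
theorem ct_slopeP_W_ge {G : ℝ} {v : X → ℝ → ℝ} (hc : Continuous (fun z : X × ℝ => v z.1 z.2))
    (hg : SubQuadLoc v) (hG : GapBound G v) {t : ℝ} (ht : 0 < t) {x : X}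
    {N : ℕ} {θ : Fin N → ℝ} {y : Fin N → X} (hcfg : IsConfig x θ y)
    (hval : baryVal t (fun y => v y t) x θ y = v x t + G * t) {ε : ℝ} (hε : 0 < ε) :
    ∑ i, θ i * slopeP ε v (y i) t - G ≤ slopeP ε (Wk G v) x t := by
  have hcs := ct_slice_continuous hc (t + ε)
  have hgs := hg.slice (t + ε)
  -- value of `W` at the contact
  have hWle : Wk G v x t ≤ v x t := ct_W_le hG x ht
  -- the envelope of `W`
  have h1 := ct_envP_W hg hG ht hε x
  have h2 := ctI_commute_ge hcs hgs ht hε x
  have h3 : baryVal t (supConv ε (fun y => v y (t + ε))) x θ y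
      ≤ bary t (supConv ε (fun y => v y (t + ε))) x :=
    ctI_le_bary (hgs.above.supConv hε) ht hcfg
  have h4 : baryVal t (supConv ε (fun y => v y (t + ε))) x θ y
      = baryVal t (fun y => v y t) x θ y + ε * ∑ i, θ i * slopeP ε v (y i) t := by
    unfold baryVal slopeP envP
    rw [Finset.mul_sum]
    have : ∀ i, ε * (θ i * ((supConv ε (fun y => v y (t + ε)) (y i) - v (y i) t) / ε))
        = θ i * supConv ε (fun y => v y (t + ε)) (y i) - θ i * v (y i) t := by
      intro i; field_simp
    simp_rw [this]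
    rw [Finset.sum_sub_distrib]
    ring
  have h5 : (∑ i, θ i * slopeP ε v (y i) t - G) * ε
      = ε * ∑ i, θ i * slopeP ε v (y i) t - G * ε := by ring
  have h6 : slopeP ε (Wk G v) x t = (envP ε (Wk G v) x t - Wk G v x t) / ε := rfl
  rw [h6, le_div_iff₀ hε, h5]
  linarith

/-- At a contact the forward slopes of `v` dominate those of `W`. -/
theorem ct_slopeP_W_le {G : ℝ} {v : X → ℝ → ℝ} (hg : SubQuadLoc v) (hG : GapBound G v)
    {t : ℝ} (ht : 0 < t) {x : X} (hcontact : Wk G v x t = v x t) {ε : ℝ} (hε : 0 < ε) :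
    slopeP ε (Wk G v) x t ≤ slopeP ε v x t := by
  unfold slopeP
  rw [hcontact]
  refine div_le_div_of_nonneg_right ?_ hε.le
  refine sub_le_sub_right ?_ _
  exact supConv_mono (hg.slice (t + ε)).above (fun y => ct_W_le hG y (by linarith)) hε x

/-- **L7e/f.**  Lower bounds for the slopes at the extremal contact `(0,1)`. -/
theorem ct_slopes {C₀ G : ℝ} {v : X → ℝ → ℝ} (hv : ClassA C₀ v) (hG : GapBound G v)
    (hgap : bary 1 (fun y => v y 1) 0 - v 0 1 = G) :
    ∃ Λ : ℝ, (∀ ε, 0 < ε → -Λ ≤ slopeP ε (Wk G v) 0 1) ∧ (∀ ε, 0 < ε → -Λ ≤ slopeM ε v 0 1) := by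
  have hc := hv.cont
  have hg : SubQuadLoc v := ctI_subQuadLoc hv.fits
  obtain ⟨A, N, θ, y, hcfg, hθ, hval, hmaj, heq⟩ :=
    ctI_bary_attained (ct_slice_continuous hc 1) (hg.slice 1) one_pos (0 : X)
  have hgap' : bary 1 (fun y => v y 1) 0 - v 0 1 = G * 1 := by rw [hgap, mul_one]
  obtain ⟨Λ₁, hP, -, hMv⟩ := cte_slopes_lower hv hg hG (ctI_h44a hc hg hv.convP)
    (ctI_h44b hc hg hv.concM) θ y A 0 1 1 one_pos
    (fun t σ x z hσ hz => ctI_le_bary (hg.slice t).above hσ hz) hcfg hval hgap' hmaj heq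
  have hval' : baryVal 1 (fun y => v y 1) 0 θ y = v 0 1 + G * 1 := by
    rw [hval]; linarith
  have hW : ∀ ε, 0 < ε → -Λ₁ - G ≤ slopeP ε (Wk G v) 0 1 := by
    intro ε hε
    have h1 := ct_slopeP_W_ge hc hg hG one_pos hcfg hval' hε
    have h2 : -Λ₁ ≤ ∑ i, θ i * slopeP ε v (y i) 1 := by
      calc -Λ₁ = ∑ i, θ i * (-Λ₁) := by rw [← Finset.sum_mul, hcfg.2.1, one_mul]
        _ ≤ ∑ i, θ i * slopeP ε v (y i) 1 :=
          Finset.sum_le_sum fun i _ => mul_le_mul_of_nonneg_left (hP i ε hε) (hθ i).le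
    linarith
  have hG0 : 0 ≤ G := by
    have := ctI_self_le_bary (hg.slice 1).above one_pos (0 : X)
    linarith
  exact ⟨Λ₁ + G, fun ε hε => by have := hW ε hε; linarith,
    fun ε hε => by have := hMv ε hε; linarith⟩

end Claimed.Agent.R330
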