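import Mathlib
import Claimed.Agent.R330.ContactExt
import Claimed.Agent.R330.ContactSlope

/-!
# Row 330, L7: extremal envelope contact (paper Prop 5.4), final statement
-/

namespace Claimed.Agent.R330

open scoped RealInnerProductSpace

variable {X : Type*} [NormedAddCommGroup X] [InnerProductSpace ℝ X] [FiniteDimensional ℝ X]

/-- **Paper Proposition 5.4** in the form used by Sections 6-8. -/
theorem ct_extremal_contact {C₀ : ℝ} (h : ∃ v₀ : X → ℝ → ℝ, ClassA C₀ v₀ ∧ ¬ IsAffineST v₀) :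
    ∃ (v : X → ℝ → ℝ) (G Λ : ℝ), 0 < G ∧ ClassA C₀ v ∧ CenteredAt C₀ v 0 1 ∧ GapBound G v ∧
      bary 1 (fun y => v y 1) 0 - v 0 1 = G ∧
      (∀ ε, 0 < ε → -Λ ≤ slopeP ε (Wk G v) 0 1) ∧ (∀ ε, 0 < ε → -Λ ≤ slopeM ε v 0 1) := by
  obtain ⟨G, v, hG, hv, hcen, hgb, hgap⟩ := ct_ext h
  obtain ⟨Λ, h1, h2⟩ := ct_slopes hv hgb hgap
  exact ⟨v, G, Λ, hG, hv, hcen, hgb, hgap, h1, h2⟩

end Claimed.Agent.R330
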