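import Mathlib

/-!
# Row 330, package L7a (part of paper Prop 5.4)

A function `v : X → ℝ → ℝ` all of whose horizontal slices satisfy the midpoint identity, with
logarithmic growth on boxes, convex forward envelopes and concave backward envelopes (in the
length), is affine.  Contrapositive: a nonaffine member of the class has a nonzero horizontal
midpoint defect.

The envelopes are written out as `⨆ y, ..` and `⨅ y, ..`, so that the statements apply
definitionally to `envP / envM` (or `Penv / Menv`) of the envelope library.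
-/

namespace Claimed.Agent.R330

open Set Filter Topology
open scoped RealInnerProductSpace

variable {X : Type*} [NormedAddCommGroup X] [InnerProductSpace ℝ X]

/-- completing the square for the quadratic cost. -/
theorem cta_square_identity (p x y : X) (ℓ : ℝ) (hℓ : 0 < ℓ) :
    ⟪p, y⟫ - ‖y - x‖ ^ 2 / (2 * ℓ)
      = ⟪p, x⟫ + ℓ * ‖p‖ ^ 2 / 2 - ‖y - x - ℓ • p‖ ^ 2 / (2 * ℓ) := by
  have h1 : ‖y - x - ℓ • p‖ ^ 2 = ‖y - x‖ ^ 2 - 2 * ℓ * ⟪p, y - x⟫ + ℓ ^ 2 * ‖p‖ ^ 2 := by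
    rw [norm_sub_sq_real, inner_smul_right, norm_smul, mul_pow, Real.norm_eq_abs, sq_abs,
      real_inner_comm]
    ring
  rw [h1, inner_sub_right]
  field_simp
  ring

/-- forward envelope of an affine function. -/
theorem cta_iSup_affine (p x : X) (c ℓ : ℝ) (hℓ : 0 < ℓ) :
    (⨆ y : X, (⟪p, y⟫ + c - ‖y - x‖ ^ 2 / (2 * ℓ))) = ⟪p, x⟫ + c + ℓ * ‖p‖ ^ 2 / 2 := by
  have key : ∀ y : X, ⟪p, y⟫ + c - ‖y - x‖ ^ 2 / (2 * ℓ)
      = ⟪p, x⟫ + c + ℓ * ‖p‖ ^ 2 / 2 - ‖y - x - ℓ • p‖ ^ 2 / (2 * ℓ) := by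
    intro y
    have := cta_square_identity p x y ℓ hℓ
    linarith
  have hle : ∀ y : X, ⟪p, y⟫ + c - ‖y - x‖ ^ 2 / (2 * ℓ) ≤ ⟪p, x⟫ + c + ℓ * ‖p‖ ^ 2 / 2 := by
    intro y
    rw [key y]
    have : 0 ≤ ‖y - x - ℓ • p‖ ^ 2 / (2 * ℓ) := by positivity
    linarith
  apply le_antisymm
  · exact ciSup_le hle
  · have hb : BddAbove (range fun y : X => (⟪p, y⟫ + c - ‖y - x‖ ^ 2 / (2 * ℓ))) :=
      ⟨_, by rintro _ ⟨y, rfl⟩; exact hle y⟩
    refine le_trans (le_of_eq ?_) (le_ciSup hb (x + ℓ • p))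
    rw [key (x + ℓ • p)]
    simp

/-- backward envelope of an affine function. -/
theorem cta_iInf_affine (p x : X) (c ℓ : ℝ) (hℓ : 0 < ℓ) :
    (⨅ y : X, (⟪p, y⟫ + c + ‖y - x‖ ^ 2 / (2 * ℓ))) = ⟪p, x⟫ + c - ℓ * ‖p‖ ^ 2 / 2 := by
  have key : ∀ y : X, ⟪p, y⟫ + c + ‖y - x‖ ^ 2 / (2 * ℓ)
      = ⟪p, x⟫ + c - ℓ * ‖p‖ ^ 2 / 2 + ‖y - x - ℓ • (-p)‖ ^ 2 / (2 * ℓ) := by
    intro y
    have := cta_square_identity (-p) x y ℓ hℓ
    simp only [inner_neg_left, norm_neg] at this
    linarith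
  have hle : ∀ y : X, ⟪p, x⟫ + c - ℓ * ‖p‖ ^ 2 / 2 ≤ ⟪p, y⟫ + c + ‖y - x‖ ^ 2 / (2 * ℓ) := by
    intro y
    rw [key y]
    have : 0 ≤ ‖y - x - ℓ • (-p)‖ ^ 2 / (2 * ℓ) := by positivity
    linarith
  apply le_antisymm
  · have hb : BddBelow (range fun y : X => (⟪p, y⟫ + c + ‖y - x‖ ^ 2 / (2 * ℓ))) :=
      ⟨_, by rintro _ ⟨y, rfl⟩; exact hle y⟩
    refine le_trans (ciInf_le hb (x + ℓ • (-p))) (le_of_eq ?_)
    rw [key (x + ℓ • (-p))]
    simp
  · exact le_ciInf hle

/-- A real function satisfying the affine interpolation identity on every interval is affine. -/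
theorem cta_affine_of_interp (g : ℝ → ℝ)
    (h : ∀ a b s : ℝ, 0 ≤ s → s ≤ 1 → g ((1 - s) * a + s * b) = (1 - s) * g a + s * g b) :
    ∀ t, g t = g 0 + t * (g 1 - g 0) := by
  intro t
  rcases le_total t 0 with ht | ht
  · -- `0` lies between `t` and `1`
    have h1 : (0:ℝ) < 1 - t := by linarith
    have := h t 1 (-t / (1 - t)) (div_nonneg (by linarith) h1.le)
      (by rw [div_le_one h1]; linarith)
    have e : (1 - -t / (1 - t)) * t + -t / (1 - t) * 1 = 0 := by field_simp; ring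
    rw [e] at this
    field_simp at this
    nlinarith [this]
  · rcases le_total t 1 with ht1 | ht1
    · have := h 0 1 t ht ht1
      have e : (1 - t) * 0 + t * 1 = t := by ring
      rw [e] at this
      rw [this]; ring
    · have h1 : (0:ℝ) < t := by linarith
      have := h 0 t (1 / t) (by positivity) (by rw [div_le_one h1]; exact ht1)
      have e : (1 - 1 / t) * 0 + 1 / t * t = 1 := by field_simp; ring
      rw [e] at this
      field_simp at this
      nlinarith [this]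

/-- A continuous function satisfying the midpoint identity is affine. -/
theorem cta_slice_linear [FiniteDimensional ℝ X] (w : X → ℝ) (hc : Continuous w)
    (hmid : ∀ x y, w x + w y = 2 * w ((1 / 2 : ℝ) • (x + y))) :
    ∃ p : X, ∀ x, w x = ⟪p, x⟫ + w 0 := by
  have : CompleteSpace X := FiniteDimensional.complete ℝ X
  let f : X → ℝ := fun x => w x - w 0
  have h0 : f 0 = 0 := by simp [f]
  have hm : ∀ x y, f (midpoint ℝ x y) = midpoint ℝ (f x) (f y) := by
    intro x y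
    have e1 : midpoint ℝ x y = (1 / 2 : ℝ) • (x + y) := by
      rw [midpoint_eq_smul_add]; norm_num
    have e2 : midpoint ℝ (f x) (f y) = (f x + f y) / 2 := by
      rw [midpoint_eq_smul_add]; simp; ring
    rw [e1, e2]
    have := hmid x y
    simp only [f]
    linarith
  have hfc : Continuous (AddMonoidHom.ofMapMidpoint ℝ ℝ f h0 hm) := by
    rw [AddMonoidHom.coe_ofMapMidpoint]
    exact hc.sub continuous_const
  let L : X →L[ℝ] ℝ := (AddMonoidHom.ofMapMidpoint ℝ ℝ f h0 hm).toRealLinearMap hfc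
  refine ⟨(InnerProductSpace.toDual ℝ X).symm L, fun x => ?_⟩
  rw [InnerProductSpace.toDual_symm_apply]
  have : L x = f x := rfl
  rw [this]
  simp [f]

/-- if `k * E + F ≤ 0` for every real `k` then `E = 0`. -/
theorem cta_coeff_zero (E F : ℝ) (h : ∀ k : ℝ, k * E + F ≤ 0) : E = 0 := by
  by_contra hE
  have := h ((1 - F) / E)
  rw [div_mul_cancel₀ _ hE] at this
  linarith

/-- `K` beats `(1 + log K)^2`. -/
theorem cta_log_growth_contra (a C D : ℝ) (ha : 0 < a) :
    ∃ K : ℝ, 2 ≤ K ∧ C * (1 + Real.log K) ^ 2 + D < K * a := by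
  set m : ℝ := max 2 ((16 * |C| + |D| + 1) / a) with hm
  have hm2 : 2 ≤ m := le_max_left _ _
  have hma : 16 * |C| + |D| + 1 ≤ m * a := by
    have : (16 * |C| + |D| + 1) / a ≤ m := le_max_right _ _
    rwa [div_le_iff₀ ha] at this
  refine ⟨m ^ 4, by nlinarith [sq_nonneg (m ^ 2 - 4), sq_nonneg m], ?_⟩
  have hlog : Real.log (m ^ 4) = 4 * Real.log m := by
    rw [Real.log_pow]; norm_num
  have hl1 : Real.log m ≤ m - 1 := Real.log_le_sub_one_of_pos (by linarith)
  have hl0 : 0 ≤ Real.log m := Real.log_nonneg (by linarith)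
  have hsq : (1 + Real.log (m ^ 4)) ^ 2 ≤ 16 * m ^ 2 := by
    rw [hlog]
    have h1 : 1 + 4 * Real.log m ≤ 4 * m := by linarith
    have h0 : 0 ≤ 1 + 4 * Real.log m := by linarith
    nlinarith
  have hC : C * (1 + Real.log (m ^ 4)) ^ 2 ≤ |C| * (16 * m ^ 2) := by
    calc C * (1 + Real.log (m ^ 4)) ^ 2 ≤ |C| * (1 + Real.log (m ^ 4)) ^ 2 :=
          mul_le_mul_of_nonneg_right (le_abs_self C) (sq_nonneg _)
      _ ≤ |C| * (16 * m ^ 2) := mul_le_mul_of_nonneg_left hsq (abs_nonneg C)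
  have hD : D ≤ |D| * m ^ 2 := by
    have : |D| * 1 ≤ |D| * m ^ 2 := mul_le_mul_of_nonneg_left (by nlinarith) (abs_nonneg D)
    linarith [le_abs_self D]
  have hbig : (16 * |C| + |D| + 1) * m ^ 2 ≤ m ^ 4 * a := by
    have h1 : (16 * |C| + |D| + 1) * m ^ 2 ≤ (m * a) * m ^ 2 :=
      mul_le_mul_of_nonneg_right hma (sq_nonneg m)
    have h2 : (m * a) * m ^ 2 ≤ m ^ 4 * a := by
      have : m ^ 3 ≤ m ^ 4 := by nlinarith [sq_nonneg m, pow_pos (by linarith : (0:ℝ) < m) 3]
      nlinarith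
    linarith
  nlinarith [sq_nonneg m]

/-- **L7a**.  If every horizontal slice of `v` satisfies the midpoint identity, `v` has the
logarithmic growth of the class on boxes, the forward envelopes are convex in the length and the
backward envelopes are concave in the length, then `v` is affine. -/
theorem cta_affine_of_slices_midpoint [FiniteDimensional ℝ X] (v : X → ℝ → ℝ)
    (hcont : ∀ t, Continuous (fun x => v x t))
    (hgrow : ∃ C : ℝ, ∀ K : ℝ, 2 ≤ K → ∀ x t, ‖x‖ ≤ K → |t| ≤ K →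
      |v x t| ≤ C * K * (1 + Real.log K) ^ 2)
    (hP : ∀ x t, ConvexOn ℝ (Ioi 0) (fun ℓ : ℝ => ⨆ y : X, (v y (t + ℓ) - ‖y - x‖ ^ 2 / (2 * ℓ))))
    (hM : ∀ x t, ConcaveOn ℝ (Ioi 0) (fun ℓ : ℝ => ⨅ y : X, (v y (t - ℓ) + ‖y - x‖ ^ 2 / (2 * ℓ))))
    (hmid : ∀ t x y, v x t + v y t = 2 * v ((1 / 2 : ℝ) • (x + y)) t) :
    ∃ (p : X) (q c : ℝ), ∀ x t, v x t = ⟪p, x⟫ + q * t + c := by
  have hsl : ∀ t, ∃ p : X, ∀ x, v x t = ⟪p, x⟫ + v 0 t := fun t =>
    cta_slice_linear (fun x => v x t) (hcont t) (hmid t)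
  choose p hp using hsl
  set c : ℝ → ℝ := fun t => v 0 t with hc
  -- explicit envelopes
  have hPf : ∀ x t ℓ, 0 < ℓ → (⨆ y : X, (v y (t + ℓ) - ‖y - x‖ ^ 2 / (2 * ℓ)))
      = ⟪p (t + ℓ), x⟫ + c (t + ℓ) + ℓ * ‖p (t + ℓ)‖ ^ 2 / 2 := by
    intro x t ℓ hℓ
    rw [← cta_iSup_affine (p (t + ℓ)) x (c (t + ℓ)) ℓ hℓ]
    congr 1; funext y; rw [hp (t + ℓ) y]
  have hMf : ∀ x t ℓ, 0 < ℓ → (⨅ y : X, (v y (t - ℓ) + ‖y - x‖ ^ 2 / (2 * ℓ)))
      = ⟪p (t - ℓ), x⟫ + c (t - ℓ) - ℓ * ‖p (t - ℓ)‖ ^ 2 / 2 := by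
    intro x t ℓ hℓ
    rw [← cta_iInf_affine (p (t - ℓ)) x (c (t - ℓ)) ℓ hℓ]
    congr 1; funext y; rw [hp (t - ℓ) y]
  -- convexity inequality in explicit form
  have hconv : ∀ (x : X) (a b s : ℝ), 0 ≤ s → s ≤ 1 → ∀ t, t < a → t < b →
      ⟪p ((1 - s) * a + s * b), x⟫ + c ((1 - s) * a + s * b)
        + ((1 - s) * a + s * b - t) * ‖p ((1 - s) * a + s * b)‖ ^ 2 / 2
      ≤ (1 - s) * (⟪p a, x⟫ + c a + (a - t) * ‖p a‖ ^ 2 / 2)
        + s * (⟪p b, x⟫ + c b + (b - t) * ‖p b‖ ^ 2 / 2) := by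
    intro x a b s hs0 hs1 t hta htb
    have h1 : (0:ℝ) < a - t := by linarith
    have h2 : (0:ℝ) < b - t := by linarith
    have h3 : (0:ℝ) < (1 - s) * (a - t) + s * (b - t) := by
      rcases eq_or_lt_of_le hs0 with h | h
      · rw [← h]; linarith
      · have : 0 ≤ (1 - s) * (a - t) := mul_nonneg (by linarith) h1.le
        have : 0 < s * (b - t) := mul_pos h h2
        linarith
    have := (hP x t).2 (mem_Ioi.2 h1) (mem_Ioi.2 h2) (by linarith : (0:ℝ) ≤ 1 - s) hs0 (by ring)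
    simp only [smul_eq_mul] at this
    rw [hPf x t _ h3, hPf x t _ h1, hPf x t _ h2] at this
    have e1 : t + ((1 - s) * (a - t) + s * (b - t)) = (1 - s) * a + s * b := by ring
    have e2 : t + (a - t) = a := by ring
    have e3 : t + (b - t) = b := by ring
    have e4 : (1 - s) * (a - t) + s * (b - t) = (1 - s) * a + s * b - t := by ring
    rw [e1, e2, e3, e4] at this
    exact this
  have hconc : ∀ (x : X) (a b s : ℝ), 0 ≤ s → s ≤ 1 → ∀ t, a < t → b < t →
      (1 - s) * (⟪p a, x⟫ + c a - (t - a) * ‖p a‖ ^ 2 / 2)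
        + s * (⟪p b, x⟫ + c b - (t - b) * ‖p b‖ ^ 2 / 2)
      ≤ ⟪p ((1 - s) * a + s * b), x⟫ + c ((1 - s) * a + s * b)
        - (t - ((1 - s) * a + s * b)) * ‖p ((1 - s) * a + s * b)‖ ^ 2 / 2 := by
    intro x a b s hs0 hs1 t hta htb
    have h1 : (0:ℝ) < t - a := by linarith
    have h2 : (0:ℝ) < t - b := by linarith
    have h3 : (0:ℝ) < (1 - s) * (t - a) + s * (t - b) := by
      rcases eq_or_lt_of_le hs0 with h | h
      · rw [← h]; linarith
      · have : 0 ≤ (1 - s) * (t - a) := mul_nonneg (by linarith) h1.le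
        have : 0 < s * (t - b) := mul_pos h h2
        linarith
    have := (hM x t).2 (mem_Ioi.2 h1) (mem_Ioi.2 h2) (by linarith : (0:ℝ) ≤ 1 - s) hs0 (by ring)
    simp only [smul_eq_mul] at this
    rw [hMf x t _ h3, hMf x t _ h1, hMf x t _ h2] at this
    have e1 : t - ((1 - s) * (t - a) + s * (t - b)) = (1 - s) * a + s * b := by ring
    have e2 : t - (t - a) = a := by ring
    have e3 : t - (t - b) = b := by ring
    have e4 : (1 - s) * (t - a) + s * (t - b) = t - ((1 - s) * a + s * b) := by ring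
    rw [e1, e2, e3, e4] at this
    exact this
  -- Step 1: `τ ↦ ⟪p τ, x⟫` satisfies the interpolation identity
  have hinterp : ∀ (x : X) (a b s : ℝ), 0 ≤ s → s ≤ 1 →
      ⟪p ((1 - s) * a + s * b), x⟫ = (1 - s) * ⟪p a, x⟫ + s * ⟪p b, x⟫ := by
    intro x a b s hs0 hs1
    set t := min a b - 1 with ht
    have hta : t < a := by have := min_le_left a b; linarith
    have htb : t < b := by have := min_le_right a b; linarith
    have hE := cta_coeff_zero
      (⟪p ((1 - s) * a + s * b), x⟫ - ((1 - s) * ⟪p a, x⟫ + s * ⟪p b, x⟫))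
      (c ((1 - s) * a + s * b)
        + ((1 - s) * a + s * b - t) * ‖p ((1 - s) * a + s * b)‖ ^ 2 / 2
        - ((1 - s) * (c a + (a - t) * ‖p a‖ ^ 2 / 2) + s * (c b + (b - t) * ‖p b‖ ^ 2 / 2)))
      (by
        intro k
        have := hconv (k • x) a b s hs0 hs1 t hta htb
        simp only [inner_smul_right] at this
        nlinarith [this])
    linarith
  -- Step 2: `p` is affine in time
  have hpaff : ∀ τ, p τ = p 0 + τ • (p 1 - p 0) := by
    intro τ
    apply ext_inner_right ℝ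
    intro x
    have := cta_affine_of_interp (fun τ => ⟪p τ, x⟫) (fun a b s h0 h1 => hinterp x a b s h0 h1) τ
    rw [this, inner_add_left, inner_smul_left, inner_sub_left]
    simp
  -- Step 3: growth forces the time derivative of `p` to vanish
  have hp1 : p 1 - p 0 = 0 := by
    by_contra hne
    obtain ⟨C, hC⟩ := hgrow
    set p1 := p 1 - p 0 with hp1def
    have hn : 0 < ‖p1‖ := norm_pos_iff.2 hne
    obtain ⟨K, hK2, hK⟩ := cta_log_growth_contra (‖p1‖ ^ 2) (C * ‖p1‖) (|⟪p 0, p1⟫|) (by positivity)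
    have hK0 : 0 < K := by linarith
    set x : X := (K / ‖p1‖) • p1 with hx
    have hxn : ‖x‖ = K := by
      rw [hx, norm_smul, Real.norm_eq_abs, abs_of_pos (div_pos hK0 hn), div_mul_cancel₀ _ hn.ne']
    have hb1 := hC K hK2 x K hxn.le (by rw [abs_of_pos hK0])
    have hb2 := hC K hK2 (-x) K (by rw [norm_neg]; exact hxn.le) (by rw [abs_of_pos hK0])
    rw [hp K x] at hb1
    rw [hp K (-x), inner_neg_right] at hb2
    have hin : ⟪p K, x⟫ = (K / ‖p1‖) * (⟪p 0, p1⟫ + K * ‖p1‖ ^ 2) := by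
      rw [hpaff K, hx, inner_smul_right, inner_add_left, inner_smul_left,
        real_inner_self_eq_norm_sq]
      simp
    have h3 : ⟪p K, x⟫ ≤ C * K * (1 + Real.log K) ^ 2 := by
      have a1 := (abs_le.1 hb1).2
      have a2 := (abs_le.1 hb2).1
      linarith
    rw [hin] at h3
    have h4 : ⟪p 0, p1⟫ + K * ‖p1‖ ^ 2 ≤ C * ‖p1‖ * (1 + Real.log K) ^ 2 := by
      have hpos : 0 < K / ‖p1‖ := div_pos hK0 hn
      have e : C * K * (1 + Real.log K) ^ 2
          = (K / ‖p1‖) * (C * ‖p1‖ * (1 + Real.log K) ^ 2) := by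
        field_simp
      rw [e] at h3
      exact le_of_mul_le_mul_left h3 hpos
    have h5 : -|⟪p 0, p1⟫| ≤ ⟪p 0, p1⟫ := neg_abs_le _
    linarith
  have hpc : ∀ τ, p τ = p 0 := by
    intro τ; rw [hpaff τ, hp1]; simp
  -- Step 4: `c` is convex and concave
  have hcint : ∀ a b s : ℝ, 0 ≤ s → s ≤ 1 →
      c ((1 - s) * a + s * b) = (1 - s) * c a + s * c b := by
    intro a b s hs0 hs1
    apply le_antisymm
    · set t := min a b - 1 with ht
      have hta : t < a := by have := min_le_left a b; linarith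
      have htb : t < b := by have := min_le_right a b; linarith
      have := hconv 0 a b s hs0 hs1 t hta htb
      simp only [inner_zero_right, hpc] at this
      nlinarith [this]
    · set t := max a b + 1 with ht
      have hta : a < t := by have := le_max_left a b; linarith
      have htb : b < t := by have := le_max_right a b; linarith
      have := hconc 0 a b s hs0 hs1 t hta htb
      simp only [inner_zero_right, hpc] at this
      nlinarith [this]
  have hcaff := cta_affine_of_interp c hcint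
  refine ⟨p 0, c 1 - c 0, c 0, fun x t => ?_⟩
  rw [hp t x, hpc t]
  have := hcaff t
  simp only [hc] at this ⊢
  rw [this]; ring

end Claimed.Agent.R330
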