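import Mathlib

/-!
# Row 330, package L7e (part of paper Prop 5.4): a finite slope at the contact

Everything is stated for abstract envelopes `P M : ℝ → X → ℝ → ℝ` which are least upper bounds /
greatest lower bounds of the competitor values, so the file does not depend on the way the
envelopes are defined.
-/

namespace Claimed.Agent.R330

open Set Filter Topology
open scoped RealInnerProductSpace

variable {X : Type*} [NormedAddCommGroup X] [InnerProductSpace ℝ X]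
variable {ι : Type*}

/-- weighted Cauchy-Schwarz inequality. -/
theorem cte_weighted_cs (s : Finset ι) (θ : ι → ℝ) (hθ : ∀ i ∈ s, 0 ≤ θ i) (u w : ι → X) :
    ∑ i ∈ s, θ i * ⟪u i, w i⟫
      ≤ √(∑ i ∈ s, θ i * ‖u i‖ ^ 2) * √(∑ i ∈ s, θ i * ‖w i‖ ^ 2) := by
  calc ∑ i ∈ s, θ i * ⟪u i, w i⟫
      ≤ ∑ i ∈ s, (√(θ i) * ‖u i‖) * (√(θ i) * ‖w i‖) := by
        apply Finset.sum_le_sum
        intro i hi
        have h1 : ⟪u i, w i⟫ ≤ ‖u i‖ * ‖w i‖ := real_inner_le_norm _ _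
        have h2 : √(θ i) * √(θ i) = θ i := Real.mul_self_sqrt (hθ i hi)
        calc θ i * ⟪u i, w i⟫ ≤ θ i * (‖u i‖ * ‖w i‖) :=
              mul_le_mul_of_nonneg_left h1 (hθ i hi)
          _ = (√(θ i) * √(θ i)) * (‖u i‖ * ‖w i‖) := by rw [h2]
          _ = (√(θ i) * ‖u i‖) * (√(θ i) * ‖w i‖) := by ring
    _ ≤ √(∑ i ∈ s, (√(θ i) * ‖u i‖) ^ 2) * √(∑ i ∈ s, (√(θ i) * ‖w i‖) ^ 2) :=
        Real.sum_mul_le_sqrt_mul_sqrt _ _ _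
    _ = √(∑ i ∈ s, θ i * ‖u i‖ ^ 2) * √(∑ i ∈ s, θ i * ‖w i‖ ^ 2) := by
        have e1 : ∑ i ∈ s, (√(θ i) * ‖u i‖) ^ 2 = ∑ i ∈ s, θ i * ‖u i‖ ^ 2 :=
          Finset.sum_congr rfl fun i hi => by rw [mul_pow, Real.sq_sqrt (hθ i hi)]
        have e2 : ∑ i ∈ s, (√(θ i) * ‖w i‖) ^ 2 = ∑ i ∈ s, θ i * ‖w i‖ ^ 2 :=
          Finset.sum_congr rfl fun i hi => by rw [mul_pow, Real.sq_sqrt (hθ i hi)]
        rw [e1, e2]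

/-- reverse triangle inequality in the weighted Euclidean space. -/
theorem cte_reverse_triangle (s : Finset ι) (θ : ι → ℝ) (hθ : ∀ i ∈ s, 0 ≤ θ i) (u w : ι → X) :
    (√(∑ i ∈ s, θ i * ‖u i‖ ^ 2) - √(∑ i ∈ s, θ i * ‖w i‖ ^ 2)) ^ 2
      ≤ ∑ i ∈ s, θ i * ‖u i - w i‖ ^ 2 := by
  have hU : 0 ≤ ∑ i ∈ s, θ i * ‖u i‖ ^ 2 :=
    Finset.sum_nonneg fun i hi => mul_nonneg (hθ i hi) (sq_nonneg _)
  have hW : 0 ≤ ∑ i ∈ s, θ i * ‖w i‖ ^ 2 :=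
    Finset.sum_nonneg fun i hi => mul_nonneg (hθ i hi) (sq_nonneg _)
  have e : ∑ i ∈ s, θ i * ‖u i - w i‖ ^ 2
      = ∑ i ∈ s, θ i * ‖u i‖ ^ 2 - 2 * ∑ i ∈ s, θ i * ⟪u i, w i⟫ + ∑ i ∈ s, θ i * ‖w i‖ ^ 2 := by
    rw [Finset.mul_sum, ← Finset.sum_sub_distrib, ← Finset.sum_add_distrib]
    apply Finset.sum_congr rfl
    intro i _
    rw [norm_sub_sq_real]; ring
  have hcs := cte_weighted_cs s θ hθ u w
  rw [e]
  nlinarith [Real.sq_sqrt hU, Real.sq_sqrt hW]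

/-- orthogonal decomposition of a weighted second moment. -/
theorem cte_variance_decomp (s : Finset ι) (θ : ι → ℝ) (hsum : ∑ i ∈ s, θ i = 1) (w : ι → X) :
    ∑ i ∈ s, θ i * ‖w i‖ ^ 2
      = ‖∑ j ∈ s, θ j • w j‖ ^ 2 + ∑ i ∈ s, θ i * ‖w i - ∑ j ∈ s, θ j • w j‖ ^ 2 := by
  set m := ∑ j ∈ s, θ j • w j with hm
  have e1 : ∑ i ∈ s, θ i * ‖w i - m‖ ^ 2
      = ∑ i ∈ s, θ i * ‖w i‖ ^ 2 - 2 * ∑ i ∈ s, θ i * ⟪w i, m⟫ + (∑ i ∈ s, θ i) * ‖m‖ ^ 2 := by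
    rw [Finset.mul_sum, Finset.sum_mul, ← Finset.sum_sub_distrib, ← Finset.sum_add_distrib]
    apply Finset.sum_congr rfl
    intro i _
    rw [norm_sub_sq_real]; ring
  have e2 : ∑ i ∈ s, θ i * ⟪w i, m⟫ = ‖m‖ ^ 2 := by
    have e3 : ⟪m, m⟫ = ∑ i ∈ s, ⟪θ i • w i, m⟫ := by
      conv_lhs => rw [hm]
      rw [sum_inner]
    rw [← real_inner_self_eq_norm_sq m, e3]
    apply Finset.sum_congr rfl
    intro i _
    rw [inner_smul_left]; simp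
  rw [e1, e2, hsum]; ring

/-- the transport cost between two configurations with the same weights controls the displacement
of the means and the difference of the root mean square radii. -/
theorem cte_transport_cost (s : Finset ι) (θ : ι → ℝ) (hθ : ∀ i ∈ s, 0 ≤ θ i)
    (hsum : ∑ i ∈ s, θ i = 1) (y z : ι → X) :
    ‖(∑ j ∈ s, θ j • z j) - ∑ j ∈ s, θ j • y j‖ ^ 2
      + (√(∑ i ∈ s, θ i * ‖z i - ∑ j ∈ s, θ j • z j‖ ^ 2)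
          - √(∑ i ∈ s, θ i * ‖y i - ∑ j ∈ s, θ j • y j‖ ^ 2)) ^ 2
      ≤ ∑ i ∈ s, θ i * ‖z i - y i‖ ^ 2 := by
  have h1 := cte_variance_decomp s θ hsum (fun i => z i - y i)
  have hmean : ∑ j ∈ s, θ j • (z j - y j) = (∑ j ∈ s, θ j • z j) - ∑ j ∈ s, θ j • y j := by
    rw [← Finset.sum_sub_distrib]
    exact Finset.sum_congr rfl fun i _ => smul_sub _ _ _
  simp only [hmean] at h1
  have h2 := cte_reverse_triangle s θ hθ (fun i => z i - ∑ j ∈ s, θ j • z j)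
    (fun i => y i - ∑ j ∈ s, θ j • y j)
  have e : ∑ i ∈ s, θ i * ‖(z i - ∑ j ∈ s, θ j • z j) - (y i - ∑ j ∈ s, θ j • y j)‖ ^ 2
      = ∑ i ∈ s, θ i * ‖z i - y i - ((∑ j ∈ s, θ j • z j) - ∑ j ∈ s, θ j • y j)‖ ^ 2 := by
    apply Finset.sum_congr rfl
    intro i _
    congr 3
    abel
  rw [e] at h2
  rw [h1]
  linarith

/-- equality case of the scalar optimisation `κ r - r^2/(2 s) ≤ κ^2 s / 2`. -/
theorem cte_equality_case (D r κ s0 : ℝ) (hs0 : 0 < s0)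
    (hatt : D - r ^ 2 / (2 * s0) = κ ^ 2 * s0 / 2) (hJ : D ≤ κ * r) :
    r = κ * s0 ∧ D = κ * r := by
  have h1 : (r - κ * s0) ^ 2 ≤ 0 := by
    have h2 : κ ^ 2 * s0 / 2 + r ^ 2 / (2 * s0) ≤ κ * r := by linarith
    have h3 : (κ ^ 2 * s0 / 2 + r ^ 2 / (2 * s0)) * (2 * s0) ≤ κ * r * (2 * s0) :=
      mul_le_mul_of_nonneg_right h2 (by positivity)
    have h4 : (κ ^ 2 * s0 / 2 + r ^ 2 / (2 * s0)) * (2 * s0) = κ ^ 2 * s0 ^ 2 + r ^ 2 := by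
      field_simp
    rw [h4] at h3
    nlinarith
  have h5 : r - κ * s0 = 0 := by
    have := le_antisymm h1 (sq_nonneg _)
    exact pow_eq_zero_iff (two_ne_zero) |>.1 this
  have hr : r = κ * s0 := by linarith
  refine ⟨hr, ?_⟩
  have : r ^ 2 / (2 * s0) = κ ^ 2 * s0 / 2 := by
    rw [hr]; field_simp
  rw [this] at hatt
  rw [hr]; nlinarith

/-- chord inequality for a convex function on `(0, ∞)`. -/
theorem cte_chord (h : ℝ → ℝ) (hc : ConvexOn ℝ (Ioi 0) h) (s0 ℓ : ℝ) (hs0 : 0 < s0)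
    (hℓ0 : 0 < ℓ) (hℓ : ℓ ≤ s0 / 2) :
    (h s0 - h (s0 / 2)) / (s0 / 2) * ℓ ≤ h s0 - h (s0 - ℓ) := by
  have hlam : 0 ≤ 1 - 2 * ℓ / s0 := by
    rw [sub_nonneg, div_le_one hs0]; linarith
  have hmu : 0 ≤ 2 * ℓ / s0 := by positivity
  have := hc.2 (mem_Ioi.2 (by positivity : (0:ℝ) < s0 / 2)) (mem_Ioi.2 hs0) hmu hlam (by ring)
  simp only [smul_eq_mul] at this
  have e : 2 * ℓ / s0 * (s0 / 2) + (1 - 2 * ℓ / s0) * s0 = s0 - ℓ := by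
    field_simp; ring
  rw [e] at this
  have e2 : (h s0 - h (s0 / 2)) / (s0 / 2) * ℓ = 2 * ℓ / s0 * (h s0 - h (s0 / 2)) := by
    field_simp
  rw [e2]
  nlinarith [this]

/-- **Backward slopes at an optimiser of a forward paraboloid.**  If `y` optimises
`P_{s0} v (b, t0 - s0)` then `v(y,t0) - M_ℓ v(y,t0) ≥ P_{s0} v(b,t0-s0) - P_{s0-ℓ} v(b,t0-s0)`. -/
theorem cte_backward_gap (v : X → ℝ → ℝ) (P M : ℝ → X → ℝ → ℝ)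
    (hP : ∀ ℓ, 0 < ℓ → ∀ x t, IsLUB (range fun y : X => v y (t + ℓ) - ‖y - x‖ ^ 2 / (2 * ℓ))
      (P ℓ x t))
    (hM : ∀ ℓ, 0 < ℓ → ∀ x t, IsGLB (range fun y : X => v y (t - ℓ) + ‖y - x‖ ^ 2 / (2 * ℓ))
      (M ℓ x t))
    (b y : X) (t0 s0 : ℝ)
    (hopt : v y t0 - ‖y - b‖ ^ 2 / (2 * s0) = P s0 b (t0 - s0))
    (ℓ : ℝ) (hℓ0 : 0 < ℓ) (hℓ : ℓ < s0) :
    P s0 b (t0 - s0) - P (s0 - ℓ) b (t0 - s0) ≤ v y t0 - M ℓ y t0 := by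
  have hs0 : 0 < s0 := by linarith
  have hd : 0 < s0 - ℓ := by linarith
  set ym : X := b + ((s0 - ℓ) / s0) • (y - b) with hym
  have h1 : M ℓ y t0 ≤ v ym (t0 - ℓ) + ‖ym - y‖ ^ 2 / (2 * ℓ) := (hM ℓ hℓ0 y t0).1 ⟨ym, rfl⟩
  have h2 : v ym (t0 - s0 + (s0 - ℓ)) - ‖ym - b‖ ^ 2 / (2 * (s0 - ℓ)) ≤ P (s0 - ℓ) b (t0 - s0) :=
    (hP (s0 - ℓ) hd b (t0 - s0)).1 ⟨ym, rfl⟩
  have et : t0 - s0 + (s0 - ℓ) = t0 - ℓ := by ring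
  rw [et] at h2
  have e1 : ym - y = (-(ℓ / s0)) • (y - b) := by
    have : (-(ℓ / s0)) = (s0 - ℓ) / s0 - 1 := by field_simp; ring
    rw [hym, this, sub_smul, one_smul]; abel
  have e2 : ym - b = ((s0 - ℓ) / s0) • (y - b) := by
    rw [hym]; abel
  have n1 : ‖ym - y‖ ^ 2 / (2 * ℓ) = ℓ * ‖y - b‖ ^ 2 / (2 * s0 ^ 2) := by
    rw [e1, norm_smul, mul_pow, Real.norm_eq_abs, sq_abs]
    field_simp
  have n2 : ‖ym - b‖ ^ 2 / (2 * (s0 - ℓ)) = (s0 - ℓ) * ‖y - b‖ ^ 2 / (2 * s0 ^ 2) := by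
    rw [e2, norm_smul, mul_pow, Real.norm_eq_abs, sq_abs]
    field_simp
  rw [n1] at h1
  rw [n2] at h2
  have n3 : ℓ * ‖y - b‖ ^ 2 / (2 * s0 ^ 2) + (s0 - ℓ) * ‖y - b‖ ^ 2 / (2 * s0 ^ 2)
      = ‖y - b‖ ^ 2 / (2 * s0) := by
    field_simp; ring
  linarith

/-- **Transfer of forward slopes to the barycentre** through equality in the Jensen bound. -/
theorem cte_forward_transfer (v : X → ℝ → ℝ) (P : ℝ → X → ℝ → ℝ)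
    (hP : ∀ ℓ, 0 < ℓ → ∀ x t, IsLUB (range fun y : X => v y (t + ℓ) - ‖y - x‖ ^ 2 / (2 * ℓ))
      (P ℓ x t))
    (s : Finset ι) (θ : ι → ℝ) (hθ : ∀ i ∈ s, 0 ≤ θ i) (hsum : ∑ i ∈ s, θ i = 1)
    (y : ι → X) (t0 κ : ℝ)
    (hJ : ∀ (z : ι → X) (t : ℝ), ∑ i ∈ s, θ i * v (z i) t - v (∑ j ∈ s, θ j • z j) t
      ≤ κ * √(∑ i ∈ s, θ i * ‖z i - ∑ j ∈ s, θ j • z j‖ ^ 2))
    (hJeq : ∑ i ∈ s, θ i * v (y i) t0 - v (∑ j ∈ s, θ j • y j) t0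
      = κ * √(∑ i ∈ s, θ i * ‖y i - ∑ j ∈ s, θ j • y j‖ ^ 2))
    (ℓ : ℝ) (hℓ : 0 < ℓ) :
    ∑ i ∈ s, θ i * (P ℓ (y i) t0 - v (y i) t0)
      ≤ P ℓ (∑ j ∈ s, θ j • y j) t0 - v (∑ j ∈ s, θ j • y j) t0 + κ ^ 2 * ℓ / 2 := by
  apply le_of_forall_pos_le_add
  intro ε hε
  -- almost optimal competitors
  have hex : ∀ i, ∃ z : X, P ℓ (y i) t0 - ε < v z (t0 + ℓ) - ‖z - y i‖ ^ 2 / (2 * ℓ) := by
    intro i
    obtain ⟨_, ⟨z, rfl⟩, hz⟩ := (hP ℓ hℓ (y i) t0).exists_between (sub_lt_self _ hε)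
    exact ⟨z, hz.1⟩
  choose z hz using hex
  set x := ∑ j ∈ s, θ j • y j with hx
  set xh := ∑ j ∈ s, θ j • z j with hxh
  set r := √(∑ i ∈ s, θ i * ‖y i - x‖ ^ 2) with hr
  set r' := √(∑ i ∈ s, θ i * ‖z i - xh‖ ^ 2) with hr'
  have hcost := cte_transport_cost s θ hθ hsum y z
  rw [← hx, ← hxh, ← hr, ← hr'] at hcost
  have h1 : ∑ i ∈ s, θ i * (P ℓ (y i) t0 - ε)
      ≤ ∑ i ∈ s, θ i * (v (z i) (t0 + ℓ) - ‖z i - y i‖ ^ 2 / (2 * ℓ)) :=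
    Finset.sum_le_sum fun i hi => mul_le_mul_of_nonneg_left (hz i).le (hθ i hi)
  have h2 : ∑ i ∈ s, θ i * (P ℓ (y i) t0 - ε) = ∑ i ∈ s, θ i * P ℓ (y i) t0 - ε := by
    simp_rw [mul_sub]
    rw [Finset.sum_sub_distrib, ← Finset.sum_mul, hsum, one_mul]
  have h3 : ∑ i ∈ s, θ i * (v (z i) (t0 + ℓ) - ‖z i - y i‖ ^ 2 / (2 * ℓ))
      = ∑ i ∈ s, θ i * v (z i) (t0 + ℓ) - (∑ i ∈ s, θ i * ‖z i - y i‖ ^ 2) / (2 * ℓ) := by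
    simp_rw [mul_sub]
    rw [Finset.sum_sub_distrib, Finset.sum_div]
    congr 1
    exact Finset.sum_congr rfl fun i _ => by ring
  have h4 := hJ z (t0 + ℓ)
  rw [← hxh, ← hr'] at h4
  have h5 : v xh (t0 + ℓ) - ‖xh - x‖ ^ 2 / (2 * ℓ) ≤ P ℓ x t0 := (hP ℓ hℓ x t0).1 ⟨xh, rfl⟩
  have h6 : (‖xh - x‖ ^ 2 + (r' - r) ^ 2) / (2 * ℓ) ≤ (∑ i ∈ s, θ i * ‖z i - y i‖ ^ 2) / (2 * ℓ) :=
    div_le_div_of_nonneg_right hcost (by positivity)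
  rw [add_div] at h6
  have h7 : κ * (r' - r) - (r' - r) ^ 2 / (2 * ℓ) ≤ κ ^ 2 * ℓ / 2 := by
    have : κ ^ 2 * ℓ / 2 - (κ * (r' - r) - (r' - r) ^ 2 / (2 * ℓ))
        = (r' - r - κ * ℓ) ^ 2 / (2 * ℓ) := by
      field_simp; ring
    have h8 : 0 ≤ (r' - r - κ * ℓ) ^ 2 / (2 * ℓ) := by positivity
    linarith
  have h9 : ∑ i ∈ s, θ i * (P ℓ (y i) t0 - v (y i) t0)
      = ∑ i ∈ s, θ i * P ℓ (y i) t0 - ∑ i ∈ s, θ i * v (y i) t0 := by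
    simp_rw [mul_sub]
    rw [Finset.sum_sub_distrib]
  rw [h9]
  rw [h2, h3] at h1
  linarith

/-- **L7e** (finite slope at the contact, paper Prop 5.4, fourth step).

Data: a configuration `(θ, y)` all of whose points optimise one forward paraboloid
`P_{s0} v (b, t0 - s0)`, with equality in the Jensen bound.  Hypothesis `h44` is the consequence of
paper Lemma 4.4 for the solution `v`: a lower bound for small backward slopes is a lower bound for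
all forward slopes.  Conclusion: all forward slopes at the barycentre are bounded below. -/
theorem cte_finite_slope (v : X → ℝ → ℝ) (P M : ℝ → X → ℝ → ℝ)
    (hP : ∀ ℓ, 0 < ℓ → ∀ x t, IsLUB (range fun y : X => v y (t + ℓ) - ‖y - x‖ ^ 2 / (2 * ℓ))
      (P ℓ x t))
    (hM : ∀ ℓ, 0 < ℓ → ∀ x t, IsGLB (range fun y : X => v y (t - ℓ) + ‖y - x‖ ^ 2 / (2 * ℓ))
      (M ℓ x t))
    (h44 : ∀ (x : X) (t Λ ℓ0 : ℝ), 0 < ℓ0 → (∀ ℓ, 0 < ℓ → ℓ ≤ ℓ0 → Λ * ℓ ≤ v x t - M ℓ x t) →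
      ∀ ℓ, 0 < ℓ → Λ * ℓ ≤ P ℓ x t - v x t)
    (s : Finset ι) (θ : ι → ℝ) (hθ : ∀ i ∈ s, 0 ≤ θ i) (hsum : ∑ i ∈ s, θ i = 1)
    (y : ι → X) (b : X) (t0 s0 κ : ℝ) (hs0 : 0 < s0)
    (hconv : ConvexOn ℝ (Ioi 0) (fun σ => P σ b (t0 - s0)))
    (hopt : ∀ i ∈ s, v (y i) t0 - ‖y i - b‖ ^ 2 / (2 * s0) = P s0 b (t0 - s0))
    (hJ : ∀ (z : ι → X) (t : ℝ), ∑ i ∈ s, θ i * v (z i) t - v (∑ j ∈ s, θ j • z j) t
      ≤ κ * √(∑ i ∈ s, θ i * ‖z i - ∑ j ∈ s, θ j • z j‖ ^ 2))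
    (hJeq : ∑ i ∈ s, θ i * v (y i) t0 - v (∑ j ∈ s, θ j • y j) t0
      = κ * √(∑ i ∈ s, θ i * ‖y i - ∑ j ∈ s, θ j • y j‖ ^ 2)) :
    ∀ ℓ, 0 < ℓ →
      ((P s0 b (t0 - s0) - P (s0 / 2) b (t0 - s0)) / (s0 / 2) - κ ^ 2 / 2) * ℓ
        ≤ P ℓ (∑ j ∈ s, θ j • y j) t0 - v (∑ j ∈ s, θ j • y j) t0 := by
  intro ℓ hℓ
  set Λ0 := (P s0 b (t0 - s0) - P (s0 / 2) b (t0 - s0)) / (s0 / 2) with hΛ0
  have hfw : ∀ i ∈ s, Λ0 * ℓ ≤ P ℓ (y i) t0 - v (y i) t0 := by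
    intro i hi
    refine h44 (y i) t0 Λ0 (s0 / 2) (by positivity) ?_ ℓ hℓ
    intro ℓ' hℓ'0 hℓ'
    have h1 := cte_backward_gap v P M hP hM b (y i) t0 s0 (hopt i hi) ℓ' hℓ'0 (by linarith)
    have h2 : Λ0 * ℓ' ≤ P s0 b (t0 - s0) - P (s0 - ℓ') b (t0 - s0) :=
      cte_chord (fun σ => P σ b (t0 - s0)) hconv s0 ℓ' hs0 hℓ'0 hℓ'
    linarith
  have htr := cte_forward_transfer v P hP s θ hθ hsum y t0 κ hJ hJeq ℓ hℓ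
  have hsumΛ : Λ0 * ℓ ≤ ∑ i ∈ s, θ i * (P ℓ (y i) t0 - v (y i) t0) := by
    calc Λ0 * ℓ = ∑ i ∈ s, θ i * (Λ0 * ℓ) := by rw [← Finset.sum_mul, hsum, one_mul]
      _ ≤ _ := Finset.sum_le_sum fun i hi => mul_le_mul_of_nonneg_left (hfw i hi) (hθ i hi)
  nlinarith

end Claimed.Agent.R330
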