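/-
Row 330 (S0589), package W7b: cylinder fits (paper Section 3.1, eq. (3.3)), definitions and
basic facts.  Owner: helper13.
-/
import Mathlib

set_option autoImplicit false

namespace Claimed.Agent.R330

open scoped RealInnerProductSpace

variable {E : Type*} [NormedAddCommGroup E] [InnerProductSpace ℝ E]

/-- The unit vector `P / ‖P‖` (junk value `0` at `P = 0`). -/
noncomputable def cylN (P : E) : E := (‖P‖⁻¹) • P

/-- The increment `h` lies in the closed cylinder with axis `P`, axial radius `r` and transverse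
radius `√lam * r`. -/
def InCyl (lam r : ℝ) (P h : E) : Prop :=
  |⟪h, cylN P⟫| ≤ r ∧ ‖h - ⟪h, cylN P⟫ • cylN P‖ ≤ Real.sqrt lam * r

/-- Paper (3.3): `P ≠ 0` is a cylinder fit for `U` at `(z, r)` with parameter `lam`. -/
def CylFit (U : E → ℝ) (lam : ℝ) (z : E) (r : ℝ) (P : E) : Prop :=
  P ≠ 0 ∧ ∀ h, InCyl lam r P h → |U (z + h) - U z - ⟪P, h⟫| ≤ lam * r

theorem cyl_norm_cylN {P : E} (hP : P ≠ 0) : ‖cylN P‖ = 1 := by
  unfold cylN
  rw [norm_smul, norm_inv, norm_norm, inv_mul_cancel₀ (norm_ne_zero_iff.mpr hP)]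

theorem cyl_norm_cylN_le (P : E) : ‖cylN P‖ ≤ 1 := by
  by_cases hP : P = 0
  · simp [cylN, hP]
  · exact (cyl_norm_cylN hP).le

theorem cyl_smul_cylN (P : E) : ‖P‖ • cylN P = P := by
  by_cases hP : P = 0
  · simp [cylN, hP]
  · unfold cylN
    rw [smul_smul, mul_inv_cancel₀ (norm_ne_zero_iff.mpr hP), one_smul]

theorem cyl_inner_cylN_self (P : E) : ⟪P, cylN P⟫ = ‖P‖ := by
  by_cases hP : P = 0
  · simp [cylN, hP]
  · unfold cylN
    rw [real_inner_smul_right, real_inner_self_eq_norm_sq, pow_two, ← mul_assoc,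
      inv_mul_cancel₀ (norm_ne_zero_iff.mpr hP), one_mul]

/-- The transverse part has norm at most the norm of the vector. -/
theorem cyl_norm_transverse_le (P h : E) : ‖h - ⟪h, cylN P⟫ • cylN P‖ ≤ ‖h‖ := by
  by_cases hP : P = 0
  · simp [cylN, hP]
  have h1 : ‖cylN P‖ = 1 := cyl_norm_cylN hP
  have key : ‖h - ⟪h, cylN P⟫ • cylN P‖ ^ 2 = ‖h‖ ^ 2 - ⟪h, cylN P⟫ ^ 2 := by
    rw [norm_sub_sq_real, real_inner_smul_right, norm_smul, h1]
    simp only [Real.norm_eq_abs, mul_one, sq_abs]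
    ring
  have h2 : ‖h - ⟪h, cylN P⟫ • cylN P‖ ^ 2 ≤ ‖h‖ ^ 2 := by
    rw [key]; nlinarith [sq_nonneg ⟪h, cylN P⟫]
  exact (sq_le_sq₀ (norm_nonneg _) (norm_nonneg _)).mp h2

/-- The transverse part of `h` is also the transverse part of `h - t • n`. -/
theorem cyl_norm_transverse_le_sub (P h : E) (t : ℝ) :
    ‖h - ⟪h, cylN P⟫ • cylN P‖ ≤ ‖h - t • cylN P‖ := by
  by_cases hP : P = 0
  · simp [cylN, hP]
  have h1 : ‖cylN P‖ = 1 := cyl_norm_cylN hP
  have h2 : ⟪cylN P, cylN P⟫ = 1 := by rw [real_inner_self_eq_norm_sq, h1]; norm_num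
  have := cyl_norm_transverse_le P (h - t • cylN P)
  have e : (h - t • cylN P) - ⟪h - t • cylN P, cylN P⟫ • cylN P = h - ⟪h, cylN P⟫ • cylN P := by
    rw [inner_sub_left, real_inner_smul_left, h2, mul_one, sub_smul]
    abel
  rwa [e] at this

theorem cyl_abs_inner_cylN_le (P h : E) : |⟪h, cylN P⟫| ≤ ‖h‖ := by
  calc |⟪h, cylN P⟫| ≤ ‖h‖ * ‖cylN P‖ := abs_real_inner_le_norm _ _
    _ ≤ ‖h‖ * 1 := by gcongr; exact cyl_norm_cylN_le P
    _ = ‖h‖ := mul_one _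

/-- The cylinder contains the inscribed ball of radius `√lam * r` (for `lam ≤ 1`). -/
theorem cyl_inCyl_of_norm_le {lam r : ℝ} (hlam1 : lam ≤ 1) (hr : 0 ≤ r) (P : E) {h : E}
    (hh : ‖h‖ ≤ Real.sqrt lam * r) : InCyl lam r P h := by
  refine ⟨?_, (cyl_norm_transverse_le P h).trans hh⟩
  have : Real.sqrt lam ≤ 1 := Real.sqrt_le_one.mpr hlam1 |>.trans le_rfl
  calc |⟪h, cylN P⟫| ≤ ‖h‖ := cyl_abs_inner_cylN_le P h
    _ ≤ Real.sqrt lam * r := hh
    _ ≤ 1 * r := by gcongr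
    _ = r := one_mul r

/-- The cylinder is contained in the ball of radius `2 r` (for `lam ≤ 1`). -/
theorem cyl_norm_le_of_inCyl {lam r : ℝ} (hlam1 : lam ≤ 1) (hr : 0 ≤ r) {P h : E}
    (hh : InCyl lam r P h) : ‖h‖ ≤ 2 * r := by
  have hs : Real.sqrt lam ≤ 1 := Real.sqrt_le_one.mpr hlam1 |>.trans le_rfl
  have e : h = ⟪h, cylN P⟫ • cylN P + (h - ⟪h, cylN P⟫ • cylN P) := by abel
  calc ‖h‖ = ‖⟪h, cylN P⟫ • cylN P + (h - ⟪h, cylN P⟫ • cylN P)‖ := by rw [← e]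
    _ ≤ ‖⟪h, cylN P⟫ • cylN P‖ + ‖h - ⟪h, cylN P⟫ • cylN P‖ := norm_add_le _ _
    _ ≤ r + 1 * r := by
        gcongr
        · rw [norm_smul, Real.norm_eq_abs]
          calc |⟪h, cylN P⟫| * ‖cylN P‖ ≤ r * 1 := by
                gcongr
                · exact hh.1
                · exact cyl_norm_cylN_le P
            _ = r := mul_one r
        · exact hh.2.trans (by gcongr)
    _ = 2 * r := by ring

end Claimed.Agent.R330
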