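/-
Row 330 (S0589), package W7b: comparison of cylinder fits (paper Lemma 3.5).  Owner: helper13.
-/
import Claimed.Agent.R330.CylFit

set_option autoImplicit false

namespace Claimed.Agent.R330

open scoped RealInnerProductSpace

variable {E : Type*} [NormedAddCommGroup E] [InnerProductSpace ℝ E]

/-- A vector which pairs to at most `e` with all vectors of the ball of radius `ρ`. -/
theorem cyl_norm_mul_le_of_forall_inner {Q : E} {ρ e : ℝ} (hρ : 0 ≤ ρ)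
    (h : ∀ h : E, ‖h‖ ≤ ρ → |⟪Q, h⟫| ≤ e) : ‖Q‖ * ρ ≤ e := by
  by_cases hQ : Q = 0
  · have := h 0 (by simpa using hρ)
    simpa [hQ] using this
  have hQn : ‖Q‖ ≠ 0 := norm_ne_zero_iff.mpr hQ
  have h1 : ‖(ρ * ‖Q‖⁻¹) • Q‖ ≤ ρ := by
    rw [norm_smul, norm_mul, norm_inv, norm_norm, Real.norm_eq_abs, abs_of_nonneg hρ, mul_assoc,
      inv_mul_cancel₀ hQn, mul_one]
  have h2 := h _ h1
  rw [real_inner_smul_right, real_inner_self_eq_norm_sq] at h2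
  have h3 : ρ * ‖Q‖⁻¹ * ‖Q‖ ^ 2 = ‖Q‖ * ρ := by
    field_simp
  rw [h3] at h2
  exact (le_abs_self _).trans h2

/-- Normalisation is Lipschitz away from the origin. -/
theorem cyl_norm_cylN_sub_le {P P' : E} (hP : P ≠ 0) (hP' : P' ≠ 0) :
    ‖cylN P - cylN P'‖ ≤ 2 * ‖P - P'‖ / ‖P‖ := by
  have hn : 0 < ‖P‖ := norm_pos_iff.mpr hP
  have hn' : 0 < ‖P'‖ := norm_pos_iff.mpr hP'
  have e : cylN P - cylN P' = ‖P‖⁻¹ • (P - P') + (‖P‖⁻¹ * (‖P'‖ - ‖P‖)) • cylN P' := by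
    unfold cylN
    rw [smul_sub, smul_smul]
    have : ‖P‖⁻¹ * (‖P'‖ - ‖P‖) * ‖P'‖⁻¹ = ‖P‖⁻¹ - ‖P'‖⁻¹ := by field_simp
    rw [this, sub_smul]
    abel
  rw [e]
  calc ‖‖P‖⁻¹ • (P - P') + (‖P‖⁻¹ * (‖P'‖ - ‖P‖)) • cylN P'‖
      ≤ ‖‖P‖⁻¹ • (P - P')‖ + ‖(‖P‖⁻¹ * (‖P'‖ - ‖P‖)) • cylN P'‖ := norm_add_le _ _
    _ = ‖P‖⁻¹ * ‖P - P'‖ + ‖P‖⁻¹ * |‖P'‖ - ‖P‖| := by
        rw [norm_smul, norm_smul, cyl_norm_cylN hP', norm_inv, norm_norm, mul_one, norm_mul,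
          norm_inv, norm_norm, Real.norm_eq_abs]
    _ ≤ ‖P‖⁻¹ * ‖P - P'‖ + ‖P‖⁻¹ * ‖P - P'‖ := by
        gcongr
        rw [abs_sub_comm]
        exact abs_norm_sub_norm_le P P'
    _ = 2 * ‖P - P'‖ / ‖P‖ := by field_simp; ring

theorem cyl_inner_cylN_cylN {P P' : E} (hP : P ≠ 0) (hP' : P' ≠ 0) :
    ⟪cylN P, cylN P'⟫ = 1 - ‖cylN P - cylN P'‖ ^ 2 / 2 := by
  rw [norm_sub_sq_real, cyl_norm_cylN hP, cyl_norm_cylN hP']
  ring

/-- `‖P‖ - ‖P'‖ = ⟪P - P', n⟫ - ‖P'‖ ‖n - n'‖² / 2`. -/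
theorem cyl_norm_sub_norm_eq {P P' : E} (hP : P ≠ 0) (hP' : P' ≠ 0) :
    ‖P‖ - ‖P'‖ = ⟪P - P', cylN P⟫ - ‖P'‖ * (‖cylN P - cylN P'‖ ^ 2 / 2) := by
  have h1 : ⟪P', cylN P⟫ = ‖P'‖ * ⟪cylN P, cylN P'⟫ := by
    conv_lhs => rw [← cyl_smul_cylN P']
    rw [real_inner_smul_left, real_inner_comm]
  rw [inner_sub_left, cyl_inner_cylN_self, h1, cyl_inner_cylN_cylN hP hP']
  ring

/-- Abstract core of Lemma 3.5.  If `P - P'` is small on a ball of radius `ρ` (error `e₁`) and at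
the point `a • n` (error `e₂`), then we control the vectors, the directions and the norms. -/
theorem cyl_compare_core {P P' : E} (hP : P ≠ 0) (hP' : P' ≠ 0) {c C ρ e₁ a e₂ : ℝ}
    (hc : 0 < c) (hcP : c ≤ ‖P‖) (hPC' : ‖P'‖ ≤ C) (hρ : 0 < ρ) (ha : 0 < a)
    (hball : ∀ h : E, ‖h‖ ≤ ρ → |⟪P - P', h⟫| ≤ e₁)
    (hpt : |⟪P - P', a • cylN P⟫| ≤ e₂) :
    ‖P - P'‖ ≤ e₁ / ρ ∧ ‖cylN P - cylN P'‖ ≤ 2 * (e₁ / ρ) / c ∧
      |‖P‖ - ‖P'‖| ≤ e₂ / a + C * ((2 * (e₁ / ρ) / c) ^ 2 / 2) := by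
  have h1 : ‖P - P'‖ ≤ e₁ / ρ := by
    rw [le_div_iff₀ hρ]
    exact cyl_norm_mul_le_of_forall_inner hρ.le hball
  have h2 : ‖cylN P - cylN P'‖ ≤ 2 * (e₁ / ρ) / c := by
    refine (cyl_norm_cylN_sub_le hP hP').trans ?_
    have h0 : 0 ≤ ‖P - P'‖ := norm_nonneg _
    have h0' : 0 ≤ 2 * (e₁ / ρ) := by linarith
    gcongr
  refine ⟨h1, h2, ?_⟩
  rw [cyl_norm_sub_norm_eq hP hP']
  have h3 : |⟪P - P', cylN P⟫| ≤ e₂ / a := by
    rw [real_inner_smul_right, abs_mul, abs_of_pos ha] at hpt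
    rw [le_div_iff₀ ha]
    linarith
  have h4 : 0 ≤ ‖P'‖ * (‖cylN P - cylN P'‖ ^ 2 / 2) := by positivity
  have h5 : ‖P'‖ * (‖cylN P - cylN P'‖ ^ 2 / 2) ≤ C * ((2 * (e₁ / ρ) / c) ^ 2 / 2) := by
    have : 0 ≤ ‖cylN P - cylN P'‖ := norm_nonneg _
    have hC : 0 ≤ C := (norm_nonneg _).trans hPC'
    gcongr
  rw [abs_le] at h3 ⊢
  constructor <;> linarith [h3.1, h3.2]

/-- **Lemma 3.5, common centre.**  Two cylinder fits of the same function with the same parameter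
`θ²` at the same centre, with radii `H ≤ H' ≤ 2 H`. -/
theorem cyl_compare_same {U : E → ℝ} {θ c C H H' : ℝ} {z P P' : E}
    (hθ0 : 0 < θ) (hθ1 : θ < 1) (hc : 0 < c) (hH : 0 < H) (hHH' : H ≤ H') (hH'2 : H' ≤ 2 * H)
    (hfit : CylFit U (θ ^ 2) z H P) (hfit' : CylFit U (θ ^ 2) z H' P')
    (hcP : c ≤ ‖P‖) (hPC' : ‖P'‖ ≤ C) :
    ‖P - P'‖ ≤ 3 * θ ∧ ‖cylN P - cylN P'‖ ≤ 6 / c * θ ∧
      |‖P‖ - ‖P'‖| ≤ (3 / min 1 (c / 6) + 18 * C / c ^ 2) * θ ^ 2 := by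
  obtain ⟨hP, hf⟩ := hfit
  obtain ⟨hP', hf'⟩ := hfit'
  have hsq : Real.sqrt (θ ^ 2) = θ := Real.sqrt_sq hθ0.le
  have hθsq1 : θ ^ 2 ≤ 1 := by nlinarith
  have hH' : 0 < H' := hH.trans_le hHH'
  -- difference of the two fits at a common point
  have hdiff : ∀ h : E, InCyl (θ ^ 2) H P h → InCyl (θ ^ 2) H' P' h →
      |⟪P - P', h⟫| ≤ 3 * θ ^ 2 * H := by
    intro h h1 h2
    have a1 := hf h h1
    have a2 := hf' h h2
    rw [inner_sub_left]
    rw [abs_le] at a1 a2 ⊢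
    have : θ ^ 2 * H' ≤ θ ^ 2 * (2 * H) := by gcongr
    constructor <;> nlinarith [a1.1, a1.2, a2.1, a2.2]
  have hball : ∀ h : E, ‖h‖ ≤ θ * H → |⟪P - P', h⟫| ≤ 3 * θ ^ 2 * H := by
    intro h hh
    refine hdiff h (cyl_inCyl_of_norm_le hθsq1 hH.le P (by rwa [hsq]))
      (cyl_inCyl_of_norm_le hθsq1 hH'.le P' ?_)
    rw [hsq]
    exact hh.trans (by gcongr)
  have hρ : 0 < θ * H := by positivity
  have e1 : 3 * θ ^ 2 * H / (θ * H) = 3 * θ := by field_simp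
  -- first two bounds
  have hPP : ‖P - P'‖ ≤ 3 * θ := by
    rw [← e1, le_div_iff₀ hρ]
    exact cyl_norm_mul_le_of_forall_inner hρ.le hball
  have hnn : ‖cylN P - cylN P'‖ ≤ 6 / c * θ := by
    refine (cyl_norm_cylN_sub_le hP hP').trans ?_
    calc 2 * ‖P - P'‖ / ‖P‖ ≤ 2 * (3 * θ) / c := by gcongr
      _ = 6 / c * θ := by ring
  -- the axial point
  set a : ℝ := min 1 (c / 6) * H with ha_def
  have hm0 : 0 < min 1 (c / 6) := lt_min one_pos (by positivity)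
  have ha : 0 < a := by positivity
  have haH : a ≤ H := by
    calc a ≤ 1 * H := by rw [ha_def]; gcongr; exact min_le_left _ _
      _ = H := one_mul H
  have hin1 : InCyl (θ ^ 2) H P (a • cylN P) := by
    have hnn1 : ⟪cylN P, cylN P⟫ = 1 := by
      rw [real_inner_self_eq_norm_sq, cyl_norm_cylN hP]; norm_num
    constructor
    · rw [real_inner_smul_left, hnn1, mul_one, abs_of_pos ha]; exact haH
    · rw [real_inner_smul_left, hnn1, mul_one, sub_self, norm_zero]; positivity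
  have hin2 : InCyl (θ ^ 2) H' P' (a • cylN P) := by
    constructor
    · refine (cyl_abs_inner_cylN_le P' _).trans ?_
      rw [norm_smul, cyl_norm_cylN hP, mul_one, Real.norm_eq_abs, abs_of_pos ha]
      exact haH.trans hHH'
    · refine (cyl_norm_transverse_le_sub P' _ a).trans ?_
      rw [← smul_sub, norm_smul, Real.norm_eq_abs, abs_of_pos ha, hsq]
      calc a * ‖cylN P - cylN P'‖ ≤ (c / 6 * H) * (6 / c * θ) := by
            gcongr
            rw [ha_def]; gcongr; exact min_le_right _ _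
        _ = θ * H := by field_simp
        _ ≤ θ * H' := by gcongr
  have hpt := hdiff _ hin1 hin2
  have hcore := (cyl_compare_core hP hP' hc hcP hPC' hρ ha hball hpt).2.2
  refine ⟨hPP, hnn, hcore.trans (le_of_eq ?_)⟩
  rw [e1, ha_def]
  field_simp
  ring

/-- Axial and transverse offsets add. -/
theorem cyl_inCyl_add {lam r r₁ r₂ t₁ t₂ : ℝ} {P k h : E}
    (hk1 : |⟪k, cylN P⟫| ≤ r₁) (hk2 : ‖k - ⟪k, cylN P⟫ • cylN P‖ ≤ t₁)
    (hh1 : |⟪h, cylN P⟫| ≤ r₂) (hh2 : ‖h - ⟪h, cylN P⟫ • cylN P‖ ≤ t₂)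
    (hr : r₁ + r₂ ≤ r) (ht : t₁ + t₂ ≤ Real.sqrt lam * r) : InCyl lam r P (k + h) := by
  constructor
  · rw [inner_add_left]
    exact (abs_add_le _ _).trans ((add_le_add hk1 hh1).trans hr)
  · have e : k + h - ⟪k + h, cylN P⟫ • cylN P
        = (k - ⟪k, cylN P⟫ • cylN P) + (h - ⟪h, cylN P⟫ • cylN P) := by
      rw [inner_add_left, add_smul]; abel
    rw [e]
    exact (norm_add_le _ _).trans ((add_le_add hk2 hh2).trans ht)

/-- **Lemma 3.5, displaced centres.**  Two cylinder fits of the same function with the same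
parameter `θ²` and the same radius `H`, at centres `z` and `z + k`, where `k` has axial offset at
most `H / 4` and transverse offset at most `θ H / 4` in the first cylinder. -/
theorem cyl_compare_displaced {U : E → ℝ} {θ c C H : ℝ} {z k P P' : E}
    (hθ0 : 0 < θ) (hθ1 : θ < 1) (hc : 0 < c) (hH : 0 < H)
    (hk1 : |⟪k, cylN P⟫| ≤ H / 4) (hk2 : ‖k - ⟪k, cylN P⟫ • cylN P‖ ≤ θ * H / 4)
    (hfit : CylFit U (θ ^ 2) z H P) (hfit' : CylFit U (θ ^ 2) (z + k) H P')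
    (hcP' : c ≤ ‖P'‖) (hPC : ‖P‖ ≤ C) :
    ‖P - P'‖ ≤ 6 * θ ∧ ‖cylN P - cylN P'‖ ≤ 12 / c * θ ∧
      |‖P‖ - ‖P'‖| ≤ (3 / min (3 / 4) (c / 16) + 72 * C / c ^ 2) * θ ^ 2 := by
  obtain ⟨hP, hf⟩ := hfit
  obtain ⟨hP', hf'⟩ := hfit'
  have hsq : Real.sqrt (θ ^ 2) = θ := Real.sqrt_sq hθ0.le
  have hθsq1 : θ ^ 2 ≤ 1 := by nlinarith
  have hθH : 0 < θ * H := by positivity
  have hkin : InCyl (θ ^ 2) H P k := by
    refine ⟨hk1.trans (by linarith), hk2.trans ?_⟩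
    rw [hsq]; linarith
  -- difference of the two fits at a common point
  have hdiff : ∀ h : E, InCyl (θ ^ 2) H P (k + h) → InCyl (θ ^ 2) H P' h →
      |⟪P' - P, h⟫| ≤ 3 * θ ^ 2 * H := by
    intro h h1 h2
    have a0 := hf k hkin
    have a1 := hf (k + h) h1
    have a2 := hf' h h2
    rw [← add_assoc, inner_add_right] at a1
    rw [inner_sub_left]
    rw [abs_le] at a0 a1 a2 ⊢
    constructor <;> nlinarith [a0.1, a0.2, a1.1, a1.2, a2.1, a2.2]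
  have hball : ∀ h : E, ‖h‖ ≤ θ * H / 2 → |⟪P' - P, h⟫| ≤ 3 * θ ^ 2 * H := by
    intro h hh
    refine hdiff h (cyl_inCyl_add hk1 hk2 ((cyl_abs_inner_cylN_le P h).trans hh)
      ((cyl_norm_transverse_le P h).trans hh) ?_ ?_) (cyl_inCyl_of_norm_le hθsq1 hH.le P' ?_)
    · nlinarith
    · rw [hsq]; linarith
    · rw [hsq]; linarith
  have hρ : 0 < θ * H / 2 := by positivity
  have e1 : 3 * θ ^ 2 * H / (θ * H / 2) = 6 * θ := by field_simp; ring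
  have hPP : ‖P' - P‖ ≤ 6 * θ := by
    rw [← e1, le_div_iff₀ hρ]
    exact cyl_norm_mul_le_of_forall_inner hρ.le hball
  have hnn : ‖cylN P' - cylN P‖ ≤ 12 / c * θ := by
    refine (cyl_norm_cylN_sub_le hP' hP).trans ?_
    calc 2 * ‖P' - P‖ / ‖P'‖ ≤ 2 * (6 * θ) / c := by gcongr
      _ = 12 / c * θ := by ring
  -- the axial point of the second cylinder
  set a : ℝ := min (3 / 4) (c / 16) * H with ha_def
  have hm0 : 0 < min (3 / 4 : ℝ) (c / 16) := lt_min (by norm_num) (by positivity)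
  have ha : 0 < a := by positivity
  have haH : a ≤ 3 / 4 * H := by
    rw [ha_def]; gcongr; exact min_le_left _ _
  have hin2 : InCyl (θ ^ 2) H P' (a • cylN P') := by
    have hnn1 : ⟪cylN P', cylN P'⟫ = 1 := by
      rw [real_inner_self_eq_norm_sq, cyl_norm_cylN hP']; norm_num
    constructor
    · rw [real_inner_smul_left, hnn1, mul_one, abs_of_pos ha]; linarith
    · rw [real_inner_smul_left, hnn1, mul_one, sub_self, norm_zero]; positivity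
  have hin1 : InCyl (θ ^ 2) H P (k + a • cylN P') := by
    refine cyl_inCyl_add hk1 hk2 (r₂ := 3 / 4 * H) (t₂ := 3 / 4 * (θ * H)) ?_ ?_ ?_ ?_
    · refine (cyl_abs_inner_cylN_le P _).trans ?_
      rw [norm_smul, cyl_norm_cylN hP', mul_one, Real.norm_eq_abs, abs_of_pos ha]
      exact haH
    · refine (cyl_norm_transverse_le_sub P _ a).trans ?_
      rw [← smul_sub, norm_smul, Real.norm_eq_abs, abs_of_pos ha]
      calc a * ‖cylN P' - cylN P‖ ≤ (c / 16 * H) * (12 / c * θ) := by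
            gcongr
            rw [ha_def]; gcongr; exact min_le_right _ _
        _ = 3 / 4 * (θ * H) := by field_simp; ring
    · linarith
    · rw [hsq]; linarith
  have hpt := hdiff _ hin1 hin2
  have hcore := (cyl_compare_core hP' hP hc hcP' hPC hρ ha hball hpt).2.2
  refine ⟨by rwa [norm_sub_rev], by rwa [norm_sub_rev], ?_⟩
  rw [abs_sub_comm]
  refine hcore.trans (le_of_eq ?_)
  rw [e1, ha_def]
  field_simp
  ring

end Claimed.Agent.R330
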