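/-
Row 330 (S0589), package W7b: chains of comparisons of cylinder fits (paper (3.13), (3.14)).
Owner: helper13.
-/
import Claimed.Agent.R330.CylCompare

set_option autoImplicit false

namespace Claimed.Agent.R330

open scoped RealInnerProductSpace

variable {E : Type*} [NormedAddCommGroup E] [InnerProductSpace ℝ E]

/-- The constant of the norm comparison in `cyl_compare_same`. -/
noncomputable def cylK (c C : ℝ) : ℝ := 3 / min 1 (c / 6) + 18 * C / c ^ 2

/-- The constant of the norm comparison in `cyl_compare_displaced`. -/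
noncomputable def cylK' (c C : ℝ) : ℝ := 3 / min (3 / 4) (c / 16) + 72 * C / c ^ 2

theorem cyl_cylK_nonneg {c C : ℝ} (hc : 0 < c) (hC : 0 ≤ C) : 0 ≤ cylK c C := by
  have : 0 < min (1 : ℝ) (c / 6) := lt_min one_pos (by positivity)
  unfold cylK; positivity

theorem cyl_cylK'_nonneg {c C : ℝ} (hc : 0 < c) (hC : 0 ≤ C) : 0 ≤ cylK' c C := by
  have : 0 < min (3 / 4 : ℝ) (c / 16) := lt_min (by norm_num) (by positivity)
  unfold cylK'; positivity

/-- **Chain of doublings (paper (3.13)).**  Suppose that at the centre `z` every radius in `[a, b]`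
has a cylinder fit with parameter `θ²` and slope of norm in `[c, C]`.  Then any two such fits at
radii `r ≤ r' ≤ 2 ^ k * r` in `[a, b]`, `k ≥ 1`, differ by `k` elementary comparisons. -/
theorem cyl_chain {U : E → ℝ} {θ c C a b : ℝ} {z : E}
    (hθ0 : 0 < θ) (hθ1 : θ < 1) (hc : 0 < c) (ha : 0 < a)
    (hfits : ∀ r, a ≤ r → r ≤ b → ∃ P, c ≤ ‖P‖ ∧ ‖P‖ ≤ C ∧ CylFit U (θ ^ 2) z r P)
    (k : ℕ) :
    ∀ r r' : ℝ, a ≤ r → r ≤ r' → r' ≤ b → r' ≤ 2 ^ (k + 1) * r → ∀ P P' : E,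
      c ≤ ‖P‖ → ‖P‖ ≤ C → CylFit U (θ ^ 2) z r P →
      c ≤ ‖P'‖ → ‖P'‖ ≤ C → CylFit U (θ ^ 2) z r' P' →
      ‖P - P'‖ ≤ (k + 1) * (3 * θ) ∧ ‖cylN P - cylN P'‖ ≤ (k + 1) * (6 / c * θ) ∧
        |‖P‖ - ‖P'‖| ≤ (k + 1) * (cylK c C * θ ^ 2) := by
  induction k with
  | zero =>
    intro r r' har hrr' _ hr'2 P P' hcP _ hf _ hPC' hf'
    have := cyl_compare_same hθ0 hθ1 hc (ha.trans_le har) hrr' (by simpa using hr'2) hf hf' hcP hPC'
    simpa [cylK] using this
  | succ k ih =>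
    intro r r' har hrr' hr'b hr'2 P P' hcP hPC hf hcP' hPC' hf'
    have hr : 0 < r := ha.trans_le har
    have hC : 0 ≤ C := (norm_nonneg _).trans hPC
    have hK := cyl_cylK_nonneg hc hC
    by_cases hcase : r' ≤ 2 * r
    · have := cyl_compare_same hθ0 hθ1 hc hr hrr' hcase hf hf' hcP hPC'
      obtain ⟨h1, h2, h3⟩ := this
      have hk : (1 : ℝ) ≤ ((k + 1 : ℕ) : ℝ) + 1 := by
        have : (0 : ℝ) ≤ ((k + 1 : ℕ) : ℝ) := Nat.cast_nonneg _
        linarith
      refine ⟨h1.trans ?_, h2.trans ?_, h3.trans ?_⟩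
      · exact le_mul_of_one_le_left (by positivity) hk
      · exact le_mul_of_one_le_left (by positivity) hk
      · exact le_mul_of_one_le_left (by unfold cylK at hK; positivity) hk
    · have hcase : 2 * r < r' := not_le.mp hcase
      -- intermediate radius `r' / 2`
      have hm1 : r ≤ r' / 2 := by linarith
      have hm2 : r' / 2 ≤ b := by linarith
      obtain ⟨P'', hcP'', hPC'', hf''⟩ := hfits (r' / 2) (har.trans hm1) hm2
      have hm3 : r' / 2 ≤ 2 ^ (k + 1) * r := by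
        have : (2 : ℝ) ^ (k + 1 + 1) * r = 2 * (2 ^ (k + 1) * r) := by ring
        linarith
      obtain ⟨h1, h2, h3⟩ := ih r (r' / 2) har hm1 hm2 hm3 P P'' hcP hPC hf hcP'' hPC'' hf''
      obtain ⟨g1, g2, g3⟩ := cyl_compare_same hθ0 hθ1 hc (hr.trans_le hm1) (by linarith)
        (by linarith) hf'' hf' hcP'' hPC'
      push_cast
      refine ⟨?_, ?_, ?_⟩
      · calc ‖P - P'‖ = ‖(P - P'') + (P'' - P')‖ := by congr 1; abel
          _ ≤ ‖P - P''‖ + ‖P'' - P'‖ := norm_add_le _ _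
          _ ≤ (k + 1) * (3 * θ) + 3 * θ := add_le_add h1 g1
          _ = (k + 1 + 1) * (3 * θ) := by ring
      · calc ‖cylN P - cylN P'‖ = ‖(cylN P - cylN P'') + (cylN P'' - cylN P')‖ := by
              congr 1; abel
          _ ≤ ‖cylN P - cylN P''‖ + ‖cylN P'' - cylN P'‖ := norm_add_le _ _
          _ ≤ (k + 1) * (6 / c * θ) + 6 / c * θ := add_le_add h2 g2
          _ = (k + 1 + 1) * (6 / c * θ) := by ring
      · calc |‖P‖ - ‖P'‖| = |(‖P‖ - ‖P''‖) + (‖P''‖ - ‖P'‖)| := by congr 1; abel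
          _ ≤ |‖P‖ - ‖P''‖| + |‖P''‖ - ‖P'‖| := abs_add_le _ _
          _ ≤ (k + 1) * (cylK c C * θ ^ 2) + cylK c C * θ ^ 2 := add_le_add h3 g3
          _ = (k + 1 + 1) * (cylK c C * θ ^ 2) := by ring

/-- **Coordinates of a slope relative to a reference unit vector (paper, before (3.14)).**
If the direction of `P` is within `A` of the unit vector `n₀` and `‖P‖` is within `B` of `c₀`, then
the transverse part of `P` is at most `‖P‖ A` and the axial part is within `B + ‖P‖ A² / 2` of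
`c₀`. -/
theorem cyl_coords {P n₀ : E} {A B c₀ : ℝ} (hP : P ≠ 0) (hn₀ : ‖n₀‖ = 1)
    (hdir : ‖cylN P - n₀‖ ≤ A) (hnorm : |‖P‖ - c₀| ≤ B) :
    ‖P - ⟪P, n₀⟫ • n₀‖ ≤ ‖P‖ * A ∧ |⟪P, n₀⟫ - c₀| ≤ B + ‖P‖ * (A ^ 2 / 2) := by
  have hn₀' : n₀ ≠ 0 := by
    intro h; rw [h, norm_zero] at hn₀; exact zero_ne_one hn₀
  have hN : cylN n₀ = n₀ := by unfold cylN; rw [hn₀, inv_one, one_smul]
  have hA : 0 ≤ A := (norm_nonneg _).trans hdir
  constructor
  · have h1 := cyl_norm_transverse_le_sub n₀ P ‖P‖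
    rw [hN] at h1
    refine h1.trans ?_
    have e : P - ‖P‖ • n₀ = ‖P‖ • (cylN P - n₀) := by
      rw [smul_sub, cyl_smul_cylN]
    rw [e, norm_smul, norm_norm]
    gcongr
  · have h2 : ⟪P, n₀⟫ = ‖P‖ * (1 - ‖cylN P - n₀‖ ^ 2 / 2) := by
      have := cyl_inner_cylN_cylN hP hn₀'
      rw [hN] at this
      rw [← this]
      conv_lhs => rw [← cyl_smul_cylN P]
      rw [real_inner_smul_left]
    have h3 : ‖P‖ * (‖cylN P - n₀‖ ^ 2 / 2) ≤ ‖P‖ * (A ^ 2 / 2) := by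
      have : 0 ≤ ‖cylN P - n₀‖ := norm_nonneg _
      gcongr
    have h4 : 0 ≤ ‖P‖ * (‖cylN P - n₀‖ ^ 2 / 2) := by positivity
    rw [h2]
    rw [abs_le] at hnorm ⊢
    constructor <;> nlinarith [hnorm.1, hnorm.2]

end Claimed.Agent.R330
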