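/-
Row 330 (S0589), package L8 (paper Sec. 6, discrete propagation), file 1: slice-level
sup/inf-convolutions, supergradients of concave functions, Lemma 6.1 (spatial regularity).
Owner: helper97.
-/
import Mathlib
import Claimed.Agent.R330.EnvDefs

namespace Claimed.Agent.R330

open Set Filter Topology
open scoped RealInnerProductSpace

variable {X : Type*} [NormedAddCommGroup X] [InnerProductSpace ℝ X]

set_option linter.unusedSectionVars false

/-- `y` maximises `y' ↦ g y' - ‖y' - x‖²/(2l)`. -/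
def DpIsMax (l : ℝ) (g : X → ℝ) (x y : X) : Prop :=
  ∀ y', g y' - ‖y' - x‖ ^ 2 / (2 * l) ≤ g y - ‖y - x‖ ^ 2 / (2 * l)

/-- `y` minimises `y' ↦ g y' + ‖y' - x‖²/(2l)`. -/
def DpIsMin (l : ℝ) (g : X → ℝ) (x y : X) : Prop :=
  ∀ y', g y + ‖y - x‖ ^ 2 / (2 * l) ≤ g y' + ‖y' - x‖ ^ 2 / (2 * l)

theorem dp_supConv_eq_of_isMax {l : ℝ} {g : X → ℝ} {x y : X} (h : DpIsMax l g x y) :
    supConv l g x = g y - ‖y - x‖ ^ 2 / (2 * l) :=
  IsGreatest.csSup_eq ⟨⟨y, rfl⟩, by rintro _ ⟨y', rfl⟩; exact h y'⟩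

theorem dp_infConv_eq_of_isMin {l : ℝ} {g : X → ℝ} {x y : X} (h : DpIsMin l g x y) :
    infConv l g x = g y + ‖y - x‖ ^ 2 / (2 * l) :=
  IsLeast.csInf_eq ⟨⟨y, rfl⟩, by rintro _ ⟨y', rfl⟩; exact h y'⟩

theorem dp_le_supc_of_isMax {l : ℝ} {g : X → ℝ} {x y : X} (h : DpIsMax l g x y) (y' : X) :
    g y' - ‖y' - x‖ ^ 2 / (2 * l) ≤ supConv l g x := by
  rw [dp_supConv_eq_of_isMax h]; exact h y'

theorem dp_infc_le_of_isMin {l : ℝ} {g : X → ℝ} {x y : X} (h : DpIsMin l g x y) (y' : X) :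
    infConv l g x ≤ g y' + ‖y' - x‖ ^ 2 / (2 * l) := by
  rw [dp_infConv_eq_of_isMin h]; exact h y'

/-- A finite concave function on a finite-dimensional space has a supergradient at each point. -/
theorem dp_exists_supergradient [FiniteDimensional ℝ X] {k : X → ℝ}
    (hk : ConcaveOn ℝ univ k) (x : X) : ∃ q : X, ∀ y, k y ≤ k x + ⟪q, y - x⟫ := by
  classical
  have hcont : Continuous k := by
    have := hk.continuousOn isOpen_univ
    exact continuousOn_univ.mp this
  have hconv : ConvexOn ℝ univ (fun y => - k y) := hk.neg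
  set S : Set (X × ℝ) := {p | p.1 ∈ (univ : Set X) ∧ - k p.1 < p.2} with hS
  have hSconv : Convex ℝ S := hconv.convex_strict_epigraph
  have hSopen : IsOpen S := by
    have : S = {p : X × ℝ | - k p.1 < p.2} := by ext p; simp [hS]
    rw [this]
    exact isOpen_lt (hcont.comp continuous_fst).neg continuous_snd
  have hx : (x, - k x) ∉ S := by simp [hS]
  obtain ⟨f, hf⟩ := geometric_hahn_banach_open_point hSconv hSopen hx
  have hsplit : ∀ (y : X) (r : ℝ), f (y, r) = f (y, 0) + r * f (0, 1) := by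
    intro y r
    have : (y, r) = (y, (0:ℝ)) + r • ((0 : X), (1:ℝ)) := by simp
    rw [this, map_add, map_smul, smul_eq_mul]
  set c := f (0, 1) with hc
  have hcneg : c < 0 := by
    have h1 : (x, - k x + 1) ∈ S := by simp [hS]
    have h2 := hf _ h1
    rw [hsplit x (- k x + 1), hsplit x (- k x)] at h2
    nlinarith
  have : CompleteSpace X := FiniteDimensional.complete ℝ X
  let u : X →L[ℝ] ℝ := f.comp (ContinuousLinearMap.inl ℝ X ℝ)
  have hu : ∀ y, u y = f (y, 0) := fun y => rfl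
  refine ⟨(InnerProductSpace.toDual ℝ X).symm (c⁻¹ • u), fun y => ?_⟩
  rw [InnerProductSpace.toDual_symm_apply]
  have key : f (y, 0) + (- k y) * c ≤ f (x, 0) + (- k x) * c := by
    apply le_of_forall_pos_le_add
    intro δ hδ
    have h1 : (y, - k y + δ / (-c)) ∈ S := by
      have : 0 < δ / (-c) := div_pos hδ (by linarith)
      simp [hS, this]
    have h2 := hf _ h1
    rw [hsplit y, hsplit x (- k x)] at h2
    have h3 : δ / (-c) * c = - δ := by
      have hc0 : c ≠ 0 := hcneg.ne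
      field_simp
    nlinarith
  have hlin : u (y - x) = f (y, 0) - f (x, 0) := by
    rw [map_sub, hu, hu]
  simp only [smul_apply, smul_eq_mul, hlin]
  have hci : c⁻¹ < 0 := inv_lt_zero.mpr hcneg
  have h4 : c⁻¹ * c = 1 := inv_mul_cancel₀ hcneg.ne
  -- key : f y0 - f x0 ≤ (k y - k x) * c
  have h5 : f (y, 0) - f (x, 0) ≤ (k y - k x) * c := by linarith
  have h6 : c⁻¹ * ((k y - k x) * c) ≤ c⁻¹ * (f (y, 0) - f (x, 0)) :=
    mul_le_mul_of_nonpos_left h5 hci.le
  have h7 : c⁻¹ * ((k y - k x) * c) = k y - k x := by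
    rw [mul_comm (k y - k x) c, ← mul_assoc, h4, one_mul]
  linarith


/-! ### Elementary inequalities -/

theorem dp_le_of_forall_small {a b c : ℝ} (h : ∀ r : ℝ, 0 < r → r ≤ 1 → a ≤ b + r * c) : a ≤ b := by
  by_contra hab
  rw [not_le] at hab
  rcases le_or_gt c 0 with hc | hc
  · have := h 1 one_pos le_rfl
    linarith
  · have hpos : 0 < (a - b) / (2 * c) := div_pos (by linarith) (by linarith)
    have h1 := h (min 1 ((a - b) / (2 * c))) (lt_min one_pos hpos) (min_le_left _ _)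
    have h2 : min 1 ((a - b) / (2 * c)) * c ≤ (a - b) / (2 * c) * c :=
      mul_le_mul_of_nonneg_right (min_le_right _ _) hc.le
    have h3 : (a - b) / (2 * c) * c = (a - b) / 2 := by field_simp
    linarith

/-- `‖a+b‖²/(2(l+t)) ≤ ‖a‖²/(2l) + ‖b‖²/(2t)`: additivity of the quadratic cost. -/
theorem dp_cost_add_le {l t : ℝ} (hl : 0 < l) (ht : 0 < t) (a b : X) :
    ‖a + b‖ ^ 2 / (2 * (l + t)) ≤ ‖a‖ ^ 2 / (2 * l) + ‖b‖ ^ 2 / (2 * t) := by
  have h0 : 0 ≤ ‖t • a - l • b‖ ^ 2 := sq_nonneg _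
  rw [norm_sub_sq_real, norm_smul, norm_smul, real_inner_smul_left, real_inner_smul_right,
    Real.norm_of_nonneg ht.le, Real.norm_of_nonneg hl.le] at h0
  rw [norm_add_sq_real]
  set A := ‖a‖ ^ 2
  set B := ‖b‖ ^ 2
  set I := ⟪a, b⟫
  have hA : (t * ‖a‖) ^ 2 = t ^ 2 * A := by simp only [A]; ring
  have hB : (l * ‖b‖) ^ 2 = l ^ 2 * B := by simp only [B]; ring
  rw [hA, hB] at h0
  rw [div_add_div _ _ (by positivity) (by positivity), div_le_div_iff₀ (by positivity) (by positivity)]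
  have : 0 ≤ 4 * (t ^ 2 * A - 2 * (t * (l * I)) + l ^ 2 * B) := by linarith
  nlinarith [this]

/-! ### Lemma 6.1 at the level of one slice -/

/-- semiconcavity with constant `1/s` -/
def DpSemiconc (s : ℝ) (g : X → ℝ) : Prop :=
  ConcaveOn ℝ univ (fun y => g y - ‖y‖ ^ 2 / (2 * s))

theorem DpSemiconc.continuous [FiniteDimensional ℝ X] {s : ℝ} {g : X → ℝ} (hg : DpSemiconc s g) :
    Continuous g := by
  have h1 : Continuous (fun y => g y - ‖y‖ ^ 2 / (2 * s)) :=
    continuousOn_univ.mp (ConcaveOn.continuousOn isOpen_univ hg)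
  have h2 : Continuous (fun y : X => ‖y‖ ^ 2 / (2 * s)) := by fun_prop
  have h3 := h1.add h2
  have h4 : ((fun y => g y - ‖y‖ ^ 2 / (2 * s)) + fun y => ‖y‖ ^ 2 / (2 * s)) = g := by
    funext y; simp
  rwa [h4] at h3

/-- upper supporting paraboloid of a semiconcave function at any point -/
theorem DpSemiconc.exists_support [FiniteDimensional ℝ X] {s : ℝ} {g : X → ℝ}
    (hg : DpSemiconc s g) (x : X) :
    ∃ p : X, ∀ h, g (x + h) ≤ g x + ⟪p, h⟫ + ‖h‖ ^ 2 / (2 * s) := by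
  obtain ⟨q, hq⟩ := dp_exists_supergradient hg x
  refine ⟨q + (1 / s) • x, fun h => ?_⟩
  have h1 := hq (x + h)
  simp only [add_sub_cancel_left] at h1
  rw [norm_add_sq_real] at h1
  rw [inner_add_left, real_inner_smul_left]
  have : (‖x‖ ^ 2 + 2 * ⟪x, h⟫ + ‖h‖ ^ 2) / (2 * s) =
      ‖x‖ ^ 2 / (2 * s) + 1 / s * ⟪x, h⟫ + ‖h‖ ^ 2 / (2 * s) := by
    rcases eq_or_ne s 0 with rfl | hs
    · simp
    · field_simp
  rw [this] at h1
  linarith


/-- Existence of the maximiser in `P_l` for a `1/s`-semiconcave slice, `0 < l < s`. -/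
theorem DpSemiconc.exists_isMax [FiniteDimensional ℝ X] {s l : ℝ} {g : X → ℝ}
    (hg : DpSemiconc s g) (hl : 0 < l) (hls : l < s) (x : X) : ∃ y, DpIsMax l g x y := by
  have hs : 0 < s := hl.trans hls
  obtain ⟨p, hp⟩ := hg.exists_support x
  have hcont : Continuous (fun y => g y - ‖y - x‖ ^ 2 / (2 * l)) := by
    have := hg.continuous
    fun_prop
  set c : ℝ := 1 / (2 * l) - 1 / (2 * s) with hc
  have hcpos : 0 < c := by
    rw [hc, sub_pos]
    exact one_div_lt_one_div_of_lt (by positivity) (by linarith)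
  have hbound : ∀ y, g y - ‖y - x‖ ^ 2 / (2 * l) ≤ g x + ‖y - x‖ * (‖p‖ - c * ‖y - x‖) := by
    intro y
    have h1 := hp (y - x)
    rw [add_sub_cancel] at h1
    have h2 : ⟪p, y - x⟫ ≤ ‖p‖ * ‖y - x‖ := real_inner_le_norm _ _
    have h3 : ‖y - x‖ * (‖p‖ - c * ‖y - x‖) =
        ‖p‖ * ‖y - x‖ + ‖y - x‖ ^ 2 / (2 * s) - ‖y - x‖ ^ 2 / (2 * l) := by
      rw [hc]; field_simp; ring
    linarith
  have hlim : Tendsto (fun y => g y - ‖y - x‖ ^ 2 / (2 * l)) (cocompact X) atBot := by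
    refine tendsto_atBot_mono hbound ?_
    have hn : Tendsto (fun y : X => ‖y - x‖) (cocompact X) atTop := by
      have h1 : Tendsto (fun y : X => ‖y‖ - ‖x‖) (cocompact X) atTop :=
        tendsto_atTop_add_const_right _ _ (tendsto_norm_cocompact_atTop)
      exact tendsto_atTop_mono (fun y => norm_sub_norm_le y x) h1
    have h2 : Tendsto (fun r : ℝ => ‖p‖ - c * r) atTop atBot := by
      have : Tendsto (fun r : ℝ => c * r) atTop atTop := tendsto_id.const_mul_atTop hcpos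
      have h3 := tendsto_atBot_add_const_left atTop ‖p‖ (tendsto_neg_atTop_atBot.comp this)
      simpa [sub_eq_add_neg] using h3
    have h4 : Tendsto (fun r : ℝ => r * (‖p‖ - c * r)) atTop atBot :=
      tendsto_id.atTop_mul_atBot₀ h2
    exact tendsto_atBot_add_const_left _ _ (h4.comp hn)
  obtain ⟨y, hy⟩ := hcont.exists_forall_ge hlim
  exact ⟨y, hy⟩

/-- First-order condition at a maximiser: `(y-x)/l` is an upper supporting slope of `g` at `y`. -/
theorem DpSemiconc.support_of_isMax {s l : ℝ} {g : X → ℝ} (hg : DpSemiconc s g) (hl : 0 < l)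
    (hs : 0 < s) {x y : X} (hy : DpIsMax l g x y) (w : X) :
    g (y + w) ≤ g y + ⟪(1 / l) • (y - x), w⟫ + ‖w‖ ^ 2 / (2 * s) := by
  have key : ∀ r : ℝ, 0 < r → r ≤ 1 →
      g (y + w) ≤ (g y + ⟪(1 / l) • (y - x), w⟫ + ‖w‖ ^ 2 / (2 * s)) + r * (‖w‖ ^ 2 / (2 * l)) := by
    intro r hr hr1
    have hconc := hg.2 (mem_univ y) (mem_univ (y + w)) (by linarith : 0 ≤ 1 - r) hr.le (by ring)
    have hpt : (1 - r) • y + r • (y + w) = y + r • w := by
      rw [smul_add, sub_smul, one_smul]; abel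
    simp only [smul_eq_mul] at hconc
    rw [hpt] at hconc
    have hmax := hy (y + r • w)
    have e1 : y + r • w - x = (y - x) + r • w := by abel
    rw [e1] at hmax
    rw [norm_add_sq_real (y - x), real_inner_smul_right, norm_smul, Real.norm_of_nonneg hr.le] at hmax
    rw [norm_add_sq_real y (r • w), real_inner_smul_right, norm_smul, Real.norm_of_nonneg hr.le,
      norm_add_sq_real y w] at hconc
    rw [real_inner_smul_left]
    set Y := ‖y‖ ^ 2
    set W := ‖w‖ ^ 2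
    set I := ⟪y, w⟫
    set D := ‖y - x‖ ^ 2
    set K := ⟪y - x, w⟫
    have hW : (r * ‖w‖) ^ 2 = r ^ 2 * W := by simp only [W]; ring
    rw [hW] at hmax hconc
    -- clear denominators by introducing the reciprocals
    set a := (2 * s)⁻¹ with ha
    set b := (2 * l)⁻¹ with hb
    have hbl : 1 / l = 2 * b := by rw [hb]; field_simp
    simp only [div_eq_mul_inv] at hmax hconc ⊢
    rw [← ha] at hconc ⊢
    rw [← hb] at hmax ⊢
    have hbl' : 1 * l⁻¹ = 2 * b := by rw [← hbl]; ring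
    rw [hbl']
    have hapos : 0 ≤ a := by rw [ha]; positivity
    have hWnn : 0 ≤ W := sq_nonneg _
    -- combine
    have h1 : r * g (y + w) ≤ r * (g y + 2 * b * K + W * a + r * (W * b)) := by
      have : 0 ≤ r ^ 2 * (W * a) := by positivity
      nlinarith
    exact le_of_mul_le_mul_left h1 hr
  exact dp_le_of_forall_small key

/-- Uniqueness of the maximiser. -/
theorem DpSemiconc.isMax_unique {s l : ℝ} {g : X → ℝ} (hg : DpSemiconc s g) (hl : 0 < l)
    (hls : l < s) {x y₁ y₂ : X} (h₁ : DpIsMax l g x y₁) (h₂ : DpIsMax l g x y₂) : y₁ = y₂ := by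
  have hs : 0 < s := hl.trans hls
  have a1 := hg.support_of_isMax hl hs h₁ (y₂ - y₁)
  have a2 := h₂ y₁
  rw [add_sub_cancel] at a1
  have e : y₂ - x = (y₁ - x) + (y₂ - y₁) := by abel
  rw [e, norm_add_sq_real] at a2
  rw [real_inner_smul_left] at a1
  set W := ‖y₂ - y₁‖ ^ 2 with hW
  set K := ⟪y₁ - x, y₂ - y₁⟫
  set D := ‖y₁ - x‖ ^ 2
  have h3 : (D + 2 * K + W) / (2 * l) = D / (2 * l) + 1 / l * K + W / (2 * l) := by
    field_simp
  rw [h3] at a2
  have h4 : W / (2 * l) ≤ W / (2 * s) := by linarith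
  have hWnn : 0 ≤ W := sq_nonneg _
  have hW0 : W = 0 := by
    by_contra hne
    have hWpos : 0 < W := lt_of_le_of_ne hWnn (Ne.symm hne)
    have : W / (2 * s) < W / (2 * l) := by
      apply div_lt_div_of_pos_left hWpos (by positivity) (by linarith)
    linarith
  have : ‖y₂ - y₁‖ = 0 := by
    rw [hW] at hW0
    exact pow_eq_zero_iff (two_ne_zero) |>.mp hW0
  exact (sub_eq_zero.mp (norm_eq_zero.mp this)).symm


/-- Lower supporting paraboloid of the sup-convolution (first half of (6.5)); no concavity needed. -/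
theorem dp_supc_lower {l : ℝ} {g : X → ℝ} (hl : 0 < l) {x y h y' : X} (hy : DpIsMax l g x y)
    (hy' : DpIsMax l g (x + h) y') :
    supConv l g x + ⟪(1 / l) • (y - x), h⟫ - ‖h‖ ^ 2 / (2 * l) ≤ supConv l g (x + h) := by
  have h1 := dp_le_supc_of_isMax hy' y
  rw [dp_supConv_eq_of_isMax hy]
  have e : y - (x + h) = (y - x) - h := by abel
  rw [e, norm_sub_sq_real] at h1
  rw [real_inner_smul_left]
  have h3 : (‖y - x‖ ^ 2 - 2 * ⟪y - x, h⟫ + ‖h‖ ^ 2) / (2 * l) =
      ‖y - x‖ ^ 2 / (2 * l) - 1 / l * ⟪y - x, h⟫ + ‖h‖ ^ 2 / (2 * l) := by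
    field_simp
  rw [h3] at h1
  linarith

/-- Upper supporting paraboloid of the sup-convolution (second half of (6.5)). -/
theorem DpSemiconc.supc_upper {s l : ℝ} {g : X → ℝ} (hg : DpSemiconc s g) (hl : 0 < l)
    (hls : l < s) {x y h y' : X} (hy : DpIsMax l g x y) (hy' : DpIsMax l g (x + h) y') :
    supConv l g (x + h) ≤ supConv l g x + ⟪(1 / l) • (y - x), h⟫ + ‖h‖ ^ 2 / (2 * (s - l)) := by
  have hs : 0 < s := hl.trans hls
  rw [dp_supConv_eq_of_isMax hy, dp_supConv_eq_of_isMax hy']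
  set w := y' - y with hw
  have a1 := hg.support_of_isMax hl hs hy w
  have e0 : y + w = y' := by rw [hw]; abel
  rw [e0] at a1
  have e : y' - (x + h) = (y - x) + (w - h) := by rw [hw]; abel
  rw [e, norm_add_sq_real]
  have hcost := dp_cost_add_le hl (sub_pos.mpr hls) (w - h) h
  rw [sub_add_cancel, add_sub_cancel] at hcost
  rw [real_inner_smul_left] at a1 ⊢
  rw [inner_sub_right]
  have h3 : (‖y - x‖ ^ 2 + 2 * (⟪y - x, w⟫ - ⟪y - x, h⟫) + ‖w - h‖ ^ 2) / (2 * l) =
      ‖y - x‖ ^ 2 / (2 * l) + 1 / l * ⟪y - x, w⟫ - 1 / l * ⟪y - x, h⟫ + ‖w - h‖ ^ 2 / (2 * l) := by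
    field_simp
    ring
  rw [h3]
  linarith

/-- Lemma 6.1, packaged: for a `1/s`-semiconcave slice and `0 < l < s` there is a slope field `Q`
such that `x + l • Q x` is the unique maximiser and both supporting inequalities (6.5) hold. -/
theorem DpSemiconc.exists_slope [FiniteDimensional ℝ X] {s l : ℝ} {g : X → ℝ}
    (hg : DpSemiconc s g) (hl : 0 < l) (hls : l < s) (x : X) :
    ∃ Q : X, DpIsMax l g x (x + l • Q) ∧ (∀ y, DpIsMax l g x y → y = x + l • Q) ∧
      (∀ h, supConv l g x + ⟪Q, h⟫ - ‖h‖ ^ 2 / (2 * l) ≤ supConv l g (x + h)) ∧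
      (∀ h, supConv l g (x + h) ≤ supConv l g x + ⟪Q, h⟫ + ‖h‖ ^ 2 / (2 * (s - l))) := by
  obtain ⟨y, hy⟩ := hg.exists_isMax hl hls x
  have hQ : x + l • ((1 / l) • (y - x)) = y := by
    rw [smul_smul, mul_one_div_cancel hl.ne', one_smul]; abel
  refine ⟨(1 / l) • (y - x), by rwa [hQ], fun y₂ h₂ => ?_, fun h => ?_, fun h => ?_⟩
  · rw [hQ]; exact hg.isMax_unique hl hls h₂ hy
  · obtain ⟨y', hy'⟩ := hg.exists_isMax hl hls (x + h)
    exact dp_supc_lower hl hy hy'
  · obtain ⟨y', hy'⟩ := hg.exists_isMax hl hls (x + h)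
    exact hg.supc_upper hl hls hy hy'

end Claimed.Agent.R330
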