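/-
Row 330 (S0589), package L8 (paper Sec. 6, discrete propagation), file 2: the one-step drift
inequality (Lemma 6.2).  Owner: helper97.
-/
import Mathlib
import Claimed.Agent.R330.PartBDefs
import Claimed.Agent.R330.DPBasic

namespace Claimed.Agent.R330

open Set Filter Topology
open scoped RealInnerProductSpace

variable {X : Type*} [NormedAddCommGroup X] [InnerProductSpace ℝ X]

set_option linter.unusedSectionVars false

/-! ### One-dimensional convexity with the endpoint `0` -/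

/-- Midpoint inequality for a function convex on `(0,∞)` with a limit at `0+`. -/
theorem dp_convex_midpoint_zero {φ : ℝ → ℝ} {φ0 ε : ℝ} (hε : 0 < ε)
    (hφ : ConvexOn ℝ (Ioi (0:ℝ)) φ) (hlim : Tendsto φ (𝓝[>] 0) (𝓝 φ0)) :
    2 * φ ε ≤ φ0 + φ (2 * ε) := by
  have hcont : ContinuousAt φ (2 * ε) :=
    (hφ.continuousOn isOpen_Ioi).continuousAt (Ioi_mem_nhds (by positivity))
  have h1 : Tendsto (fun l : ℝ => 2 * ε - l) (𝓝[>] 0) (𝓝 (2 * ε)) := by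
    have : Tendsto (fun l : ℝ => 2 * ε - l) (𝓝 0) (𝓝 (2 * ε - 0)) :=
      (continuous_const.sub continuous_id).tendsto 0
    rw [sub_zero] at this
    exact this.mono_left nhdsWithin_le_nhds
  have h2 : Tendsto (fun l : ℝ => φ l + φ (2 * ε - l)) (𝓝[>] 0) (𝓝 (φ0 + φ (2 * ε))) :=
    hlim.add (hcont.tendsto.comp h1)
  refine ge_of_tendsto h2 ?_
  have hmem : Ioo (0:ℝ) ε ∈ 𝓝[>] (0:ℝ) := Ioo_mem_nhdsGT hε
  filter_upwards [hmem] with l hl
  have hl1 : (0:ℝ) < l := hl.1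
  have hl2 : (0:ℝ) < 2 * ε - l := by linarith [hl.2]
  have := hφ.2 (mem_Ioi.2 hl1) (mem_Ioi.2 hl2) (by norm_num : (0:ℝ) ≤ 1 / 2)
    (by norm_num : (0:ℝ) ≤ 1 / 2) (by norm_num)
  simp only [smul_eq_mul] at this
  have e : 1 / 2 * l + 1 / 2 * (2 * ε - l) = ε := by ring
  rw [e] at this
  linarith

/-- Mirror image for concave functions. -/
theorem dp_concave_midpoint_zero {φ : ℝ → ℝ} {φ0 ε : ℝ} (hε : 0 < ε)
    (hφ : ConcaveOn ℝ (Ioi (0:ℝ)) φ) (hlim : Tendsto φ (𝓝[>] 0) (𝓝 φ0)) :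
    φ0 + φ (2 * ε) ≤ 2 * φ ε := by
  have := dp_convex_midpoint_zero hε hφ.neg (φ0 := -φ0) hlim.neg
  simp only [Pi.neg_apply] at this
  linarith

/-- The path midpoint inequality (6.9). -/
theorem dp_path_midpoint {f : X → ℝ → ℝ} {t ε : ℝ} (hε : 0 < ε) (x b d : X)
    (hconv : ConvexOn ℝ (Ioi (0:ℝ)) (fun l => envP l f ((x + d) + l • ((1 / (2 * ε)) • (b - d))) t
      + ‖(1 / (2 * ε)) • (b - d)‖ ^ 2 * (l * Real.log l)))
    (hlim : Tendsto (fun l => envP l f ((x + d) + l • ((1 / (2 * ε)) • (b - d))) t) (𝓝[>] 0)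
      (𝓝 (f (x + d) t))) :
    -(Real.log 2 / (2 * ε)) * ‖b - d‖ ^ 2 ≤
      f (x + d) t + envP (2 * ε) f (x + b) t - 2 * envP ε f (x + (1 / 2 : ℝ) • (b + d)) t := by
  have hlog : Tendsto (fun l : ℝ => ‖(1 / (2 * ε)) • (b - d)‖ ^ 2 * (l * Real.log l)) (𝓝[>] 0)
      (𝓝 0) := by
    have h0 : Tendsto (fun l : ℝ => l * Real.log l) (𝓝 0) (𝓝 (0 * Real.log 0)) :=
      Real.continuous_mul_log.tendsto 0
    rw [zero_mul] at h0
    have h00 : Tendsto (fun l : ℝ => l * Real.log l) (𝓝[>] 0) (𝓝 0) :=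
      h0.mono_left nhdsWithin_le_nhds
    have := h00.const_mul (‖(1 / (2 * ε)) • (b - d)‖ ^ 2)
    rwa [mul_zero] at this
  have hl := hlim.add hlog
  rw [add_zero] at hl
  have key := dp_convex_midpoint_zero hε hconv hl
  have e1 : (x + d) + ε • ((1 / (2 * ε)) • (b - d)) = x + (1 / 2 : ℝ) • (b + d) := by
    rw [smul_smul]
    have : ε * (1 / (2 * ε)) = 1 / 2 := by field_simp
    rw [this, smul_sub, smul_add]
    have hd : d = (1 / 2 : ℝ) • d + (1 / 2 : ℝ) • d := by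
      rw [← add_smul]; norm_num
    nth_rewrite 1 [hd]
    abel
  have e2 : (x + d) + (2 * ε) • ((1 / (2 * ε)) • (b - d)) = x + b := by
    rw [smul_smul]
    have : 2 * ε * (1 / (2 * ε)) = 1 := by field_simp
    rw [this, one_smul]
    abel
  rw [e1, e2] at key
  have e3 : ‖(1 / (2 * ε)) • (b - d)‖ ^ 2 = ‖b - d‖ ^ 2 / (4 * ε ^ 2) := by
    rw [norm_smul, Real.norm_of_nonneg (by positivity)]
    field_simp
    ring
  rw [e3, Real.log_mul (by norm_num) hε.ne'] at key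
  have e4 : ‖b - d‖ ^ 2 / (4 * ε ^ 2) * (2 * ε * (Real.log 2 + Real.log ε))
      - 2 * (‖b - d‖ ^ 2 / (4 * ε ^ 2) * (ε * Real.log ε)) =
      (Real.log 2 / (2 * ε)) * ‖b - d‖ ^ 2 := by
    field_simp
    ring
  linarith

/-! ### Half steps along optimal straight paths, (6.6) -/

theorem dp_isMin_iff_isMax_neg {l : ℝ} {g : X → ℝ} {x y : X} :
    DpIsMin l g x y ↔ DpIsMax l (fun z => - g z) x y := by
  constructor
  · intro h y'
    have := h y'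
    linarith
  · intro h y'
    have := h y'
    linarith

theorem dp_norm_sq_smul (c : ℝ) (Q : X) : ‖c • Q‖ ^ 2 = c ^ 2 * ‖Q‖ ^ 2 := by
  rw [norm_smul, mul_pow, Real.norm_eq_abs, sq_abs]

/-- The `2ε` maximiser is the `ε` maximiser seen from the midpoint of the straight path. -/
theorem dp_isMax_half {g : X → ℝ} {ε : ℝ} (hε : 0 < ε) {x Q : X}
    (h : DpIsMax (2 * ε) g x (x + (2 * ε) • Q)) :
    DpIsMax ε g (x + ε • Q) (x + (2 * ε) • Q) := by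
  intro y'
  have h1 := h y'
  have h2 := dp_cost_add_le hε hε (y' - (x + ε • Q)) (ε • Q)
  have e1 : y' - (x + ε • Q) + ε • Q = y' - x := by abel
  have e2 : x + (2 * ε) • Q - x = (2 * ε) • Q := by abel
  have e3 : x + (2 * ε) • Q - (x + ε • Q) = ε • Q := by
    rw [two_mul, add_smul]; abel
  rw [e1] at h2
  rw [e2] at h1
  rw [e3]
  rw [dp_norm_sq_smul] at h1 h2 ⊢
  have e4 : (2 * ε) ^ 2 * ‖Q‖ ^ 2 / (2 * (2 * ε)) = ε * ‖Q‖ ^ 2 := by field_simp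
  have e5 : ε ^ 2 * ‖Q‖ ^ 2 / (2 * ε) = ε * ‖Q‖ ^ 2 / 2 := by field_simp
  have e6 : 2 * (ε + ε) = 2 * (2 * ε) := by ring
  rw [e4] at h1
  rw [e5, e6] at h2
  rw [e5]
  linarith

theorem dp_supConv_half {g : X → ℝ} {ε : ℝ} (hε : 0 < ε) {x Q : X}
    (h : DpIsMax (2 * ε) g x (x + (2 * ε) • Q)) :
    supConv ε g (x + ε • Q) = supConv (2 * ε) g x + ε / 2 * ‖Q‖ ^ 2 := by
  rw [dp_supConv_eq_of_isMax h, dp_supConv_eq_of_isMax (dp_isMax_half hε h)]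
  have e2 : x + (2 * ε) • Q - x = (2 * ε) • Q := by abel
  have e3 : x + (2 * ε) • Q - (x + ε • Q) = ε • Q := by
    rw [two_mul, add_smul]; abel
  rw [e2, e3, dp_norm_sq_smul, dp_norm_sq_smul]
  field_simp
  ring

/-- The `2ε` minimiser is the `ε` minimiser seen from the midpoint of the straight path. -/
theorem dp_isMin_half {g : X → ℝ} {ε : ℝ} (hε : 0 < ε) {x Q : X}
    (h : DpIsMin (2 * ε) g x (x - (2 * ε) • Q)) :
    DpIsMin ε g (x - ε • Q) (x - (2 * ε) • Q) := by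
  rw [dp_isMin_iff_isMax_neg] at h ⊢
  have := dp_isMax_half (g := fun z => - g z) hε (x := x) (Q := -Q)
    (by simpa [sub_eq_add_neg] using h)
  simpa [sub_eq_add_neg] using this

theorem dp_infConv_half {g : X → ℝ} {ε : ℝ} (hε : 0 < ε) {x Q : X}
    (h : DpIsMin (2 * ε) g x (x - (2 * ε) • Q)) :
    infConv ε g (x - ε • Q) = infConv (2 * ε) g x - ε / 2 * ‖Q‖ ^ 2 := by
  rw [dp_infConv_eq_of_isMin h, dp_infConv_eq_of_isMin (dp_isMin_half hε h)]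
  have e2 : x - (2 * ε) • Q - x = -((2 * ε) • Q) := by abel
  have e3 : x - (2 * ε) • Q - (x - ε • Q) = -(ε • Q) := by
    rw [two_mul, add_smul]; abel
  rw [e2, e3, norm_neg, norm_neg, dp_norm_sq_smul, dp_norm_sq_smul]
  field_simp
  ring

/-! ### The velocity estimate in Lemma 6.2, abstract form -/

theorem dp_velocity_core {f0 f1 f2 : X → ℝ} {ε t e : ℝ} {Qp Qm Q0 : X} (hε : 0 < ε) (ht : ε < t)
    (h1 : ∀ b d, -(Real.log 2 / (2 * ε)) * ‖b - d‖ ^ 2 ≤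
      f0 d + f2 b - 2 * f1 ((1 / 2 : ℝ) • (b + d)))
    (h2 : ∀ d, f0 d ≤ f0 0 + e + ⟪Qm, d⟫ + ‖d‖ ^ 2 / (2 * ε))
    (h3 : ∀ b, f2 b ≤ f2 0 + ⟪Qp, b⟫ + ‖b‖ ^ 2 / (2 * t))
    (h4 : ∀ k, f1 0 + ⟪Q0, k⟫ - ‖k‖ ^ 2 / (2 * ε) ≤ f1 k) :
    ε * (‖Qp - Q0‖ ^ 2 + ‖Qm - Q0‖ ^ 2) / (4 * (1 + Real.log 2)) ≤
      (f0 0 + f2 0 - 2 * f1 0) + e := by
  have hlog : 0 < Real.log 2 := Real.log_pos (by norm_num)
  set Λ : ℝ := 1 + Real.log 2 with hΛ
  have hΛpos : 0 < Λ := by linarith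
  set c : ℝ := ε / (2 * Λ) with hc
  set b : X := c • (Q0 - Qp) with hb
  set d : X := c • (Q0 - Qm) with hd
  have a1 := h1 b d
  have a2 := h2 d
  have a3 := h3 b
  have a4 := h4 ((1 / 2 : ℝ) • (b + d))
  -- parallelogram
  have hpar : ‖b + d‖ ^ 2 + ‖b - d‖ ^ 2 = 2 * (‖b‖ ^ 2 + ‖d‖ ^ 2) := by
    have := parallelogram_law_with_norm ℝ b d
    nlinarith [this]
  have hk : ‖(1 / 2 : ℝ) • (b + d)‖ ^ 2 = ‖b + d‖ ^ 2 / 4 := by
    rw [dp_norm_sq_smul]; ring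
  have hik : ⟪Q0, (1 / 2 : ℝ) • (b + d)⟫ = (⟪Q0, b⟫ + ⟪Q0, d⟫) / 2 := by
    rw [real_inner_smul_right, inner_add_right]; ring
  rw [hk, hik] at a4
  have hbt : ‖b‖ ^ 2 / (2 * t) ≤ ‖b‖ ^ 2 / (2 * ε) :=
    div_le_div_of_nonneg_left (sq_nonneg _) (by positivity) (by linarith)
  -- inner products
  have ib : ⟪Q0, b⟫ - ⟪Qp, b⟫ = c * ‖Qp - Q0‖ ^ 2 := by
    rw [← inner_sub_left, hb, real_inner_smul_right, real_inner_self_eq_norm_sq, norm_sub_rev]
  have id : ⟪Q0, d⟫ - ⟪Qm, d⟫ = c * ‖Qm - Q0‖ ^ 2 := by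
    rw [← inner_sub_left, hd, real_inner_smul_right, real_inner_self_eq_norm_sq, norm_sub_rev]
  have nb : ‖b‖ ^ 2 = c ^ 2 * ‖Qp - Q0‖ ^ 2 := by
    rw [hb, dp_norm_sq_smul, norm_sub_rev]
  have nd : ‖d‖ ^ 2 = c ^ 2 * ‖Qm - Q0‖ ^ 2 := by
    rw [hd, dp_norm_sq_smul, norm_sub_rev]
  set P := ‖Qp - Q0‖ ^ 2
  set M := ‖Qm - Q0‖ ^ 2
  set S := ‖b + d‖ ^ 2
  set T := ‖b - d‖ ^ 2
  have hS : 0 ≤ S := sq_nonneg _
  have hT : 0 ≤ T := sq_nonneg _
  -- bound of all the quadratic errors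
  have herr : ‖d‖ ^ 2 / (2 * ε) + ‖b‖ ^ 2 / (2 * ε) + S / 4 / (2 * ε) * 2
      + Real.log 2 / (2 * ε) * T ≤ Λ / ε * (‖b‖ ^ 2 + ‖d‖ ^ 2) := by
    have hS' : S ≤ 2 * (‖b‖ ^ 2 + ‖d‖ ^ 2) := by linarith
    have hT' : T ≤ 2 * (‖b‖ ^ 2 + ‖d‖ ^ 2) := by linarith
    have q1 : S / 4 / (2 * ε) * 2 ≤ (2 * (‖b‖ ^ 2 + ‖d‖ ^ 2)) / 4 / (2 * ε) * 2 := by
      gcongr
    have q2 : Real.log 2 / (2 * ε) * T ≤ Real.log 2 / (2 * ε) * (2 * (‖b‖ ^ 2 + ‖d‖ ^ 2)) := by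
      gcongr
    have q3 : ‖d‖ ^ 2 / (2 * ε) + ‖b‖ ^ 2 / (2 * ε) + (2 * (‖b‖ ^ 2 + ‖d‖ ^ 2)) / 4 / (2 * ε) * 2
        + Real.log 2 / (2 * ε) * (2 * (‖b‖ ^ 2 + ‖d‖ ^ 2)) = Λ / ε * (‖b‖ ^ 2 + ‖d‖ ^ 2) := by
      rw [hΛ]; field_simp; ring
    linarith
  rw [nb, nd] at herr
  have hfin : c * P + c * M - Λ / ε * (c ^ 2 * P + c ^ 2 * M) = ε * (P + M) / (4 * Λ) := by
    rw [hc]; field_simp; ring
  rw [nb] at a3 hbt
  rw [nd] at a2
  linarith

/-! ### Lemma 6.2: the one-step drift inequality -/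

/-- The constant `c = 1/(16 (1 + log 2))` of Lemma 6.2. -/
noncomputable def dpC : ℝ := 1 / (16 * (1 + Real.log 2))

theorem dpC_pos : 0 < dpC := by
  have hlog : 0 < Real.log 2 := Real.log_pos (by norm_num)
  unfold dpC
  positivity

/-- Lemma 6.2, abstract pointwise form.  `f` plays the role of `W`. -/
theorem dp_drift [FiniteDimensional ℝ X] {f v : X → ℝ → ℝ} {ε t : ℝ} {x Qm : X}
    (hε : 0 < ε) (ht : ε < t)
    (hsc : ∀ s, 0 < s → DpSemiconc s (fun y => f y s))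
    (hmid : ∀ b d : X, -(Real.log 2 / (2 * ε)) * ‖b - d‖ ^ 2 ≤
      f (x + d) t + envP (2 * ε) f (x + b) t - 2 * envP ε f (x + (1 / 2 : ℝ) • (b + d)) t)
    (hmidM : v x t + envM (2 * ε) v x t ≤ 2 * envM ε v x t)
    (hbdd : ∀ x' : X, BddBelow (range fun y => v y t + ‖y - x'‖ ^ 2 / (2 * ε)))
    (hQm : DpIsMin (2 * ε) (fun y => v y (t - 2 * ε)) x (x - (2 * ε) • Qm)) :
    ∃ Qp Q0 : X, DpIsMax (2 * ε) (fun y => f y (t + 2 * ε)) x (x + (2 * ε) • Qp) ∧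
      DpIsMax ε (fun y => f y (t + ε)) x (x + ε • Q0) ∧
      dpC * (‖Qp - Q0‖ ^ 2 + ‖Qm - Q0‖ ^ 2) ≤
        (Jeps ε f v (x + ε • Qp) (t + ε) + Jeps ε f v (x - ε • Qm) (t - ε)) / 2
          - Jeps ε f v x t := by
  have hlog : 0 < Real.log 2 := Real.log_pos (by norm_num)
  have ht0 : 0 < t := hε.trans ht
  obtain ⟨Qp, hQp, -, -, hQpU⟩ :=
    (hsc (t + 2 * ε) (by linarith)).exists_slope (l := 2 * ε) (by linarith) (by linarith) x
  obtain ⟨Q0, hQ0, -, hQ0L, -⟩ :=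
    (hsc (t + ε) (by linarith)).exists_slope (l := ε) hε (by linarith) x
  refine ⟨Qp, Q0, hQp, hQ0, ?_⟩
  -- the four envelope values at the two steps
  have EPp : envP ε f (x + ε • Qp) (t + ε) = envP (2 * ε) f x t + ε / 2 * ‖Qp‖ ^ 2 := by
    have := dp_supConv_half hε hQp
    unfold envP
    have e : t + ε + ε = t + 2 * ε := by ring
    rw [e]
    exact this
  have EMm : envM ε v (x - ε • Qm) (t - ε) = envM (2 * ε) v x t - ε / 2 * ‖Qm‖ ^ 2 := by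
    have := dp_infConv_half hε hQm
    unfold envM
    have e : t - ε - ε = t - 2 * ε := by ring
    rw [e]
    exact this
  -- competitors
  obtain ⟨ym, hym⟩ := (hsc t ht0).exists_isMax hε ht (x - ε • Qm)
  have EPm : ∀ d : X, f (x + d) t - ‖x + d - (x - ε • Qm)‖ ^ 2 / (2 * ε) ≤
      envP ε f (x - ε • Qm) (t - ε) := by
    intro d
    unfold envP
    have e : t - ε + ε = t := by ring
    rw [e]
    exact dp_le_supc_of_isMax hym (x + d)
  have EMp : envM ε v (x + ε • Qp) (t + ε) ≤ v x t + ε / 2 * ‖Qp‖ ^ 2 := by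
    unfold envM infConv
    have e : t + ε - ε = t := by ring
    rw [e]
    have h1 := ciInf_le (hbdd (x + ε • Qp)) x
    have e2 : x - (x + ε • Qp) = -(ε • Qp) := by abel
    rw [e2, norm_neg, dp_norm_sq_smul] at h1
    have e3 : ε ^ 2 * ‖Qp‖ ^ 2 / (2 * ε) = ε / 2 * ‖Qp‖ ^ 2 := by field_simp
    rw [e3] at h1
    exact h1
  set e : ℝ := envP ε f (x - ε • Qm) (t - ε) + ε / 2 * ‖Qm‖ ^ 2 - f x t with he
  have hcomp : ∀ d : X, f (x + d) t ≤ f x t + e + ⟪Qm, d⟫ + ‖d‖ ^ 2 / (2 * ε) := by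
    intro d
    have h1 := EPm d
    have e2 : x + d - (x - ε • Qm) = ε • Qm + d := by abel
    rw [e2, norm_add_sq_real, dp_norm_sq_smul, real_inner_smul_left] at h1
    have e3 : (ε ^ 2 * ‖Qm‖ ^ 2 + 2 * (ε * ⟪Qm, d⟫) + ‖d‖ ^ 2) / (2 * ε) =
        ε / 2 * ‖Qm‖ ^ 2 + ⟪Qm, d⟫ + ‖d‖ ^ 2 / (2 * ε) := by field_simp
    rw [e3] at h1
    rw [he]
    linarith
  -- the velocity estimate
  have hvel := dp_velocity_core (f0 := fun d => f (x + d) t)
    (f1 := fun k => envP ε f (x + k) t) (f2 := fun b => envP (2 * ε) f (x + b) t)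
    (e := e) (Qp := Qp) (Qm := Qm) (Q0 := Q0) hε ht hmid
    (by simpa using hcomp)
    (by
      intro b
      have := hQpU b
      have e1 : t + 2 * ε - 2 * ε = t := by ring
      rw [e1] at this
      simpa [envP] using this)
    (by
      intro k
      have := hQ0L k
      simpa [envP] using this)
  simp only [add_zero] at hvel
  -- assemble
  unfold Jeps
  rw [EPp, EMm]
  set F2 := envP (2 * ε) f x t
  set F1 := envP ε f x t
  set M2 := envM (2 * ε) v x t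
  set M1 := envM ε v x t
  set A := envP ε f (x - ε • Qm) (t - ε)
  set B := envM ε v (x + ε • Qp) (t + ε)
  set P := ‖Qp - Q0‖ ^ 2 + ‖Qm - Q0‖ ^ 2
  have hid : ((F2 + ε / 2 * ‖Qp‖ ^ 2 - B) / (2 * ε) + (A - (M2 - ε / 2 * ‖Qm‖ ^ 2)) / (2 * ε)) / 2
      - (F1 - M1) / (2 * ε) =
      (F2 + ε / 2 * ‖Qp‖ ^ 2 - B + A - M2 + ε / 2 * ‖Qm‖ ^ 2 - 2 * F1 + 2 * M1) / (4 * ε) := by
    field_simp
    ring
  rw [hid, le_div_iff₀ (by positivity)]
  have hc : dpC * P * (4 * ε) = ε * P / (4 * (1 + Real.log 2)) := by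
    unfold dpC
    field_simp
    ring
  rw [hc]
  linarith

/-! ### Packaged form for the walk of Section 7 -/

/-- The standing properties of the pair `(f, v) = (W, v)` used in Section 6. -/
structure DpStanding (f v : X → ℝ → ℝ) : Prop where
  semiconc : ∀ s, 0 < s → DpSemiconc s (fun y => f y s)
  convP : PathConvexPOn (Set.Ioi 0) f
  limP : ∀ (x d : X) (t : ℝ), 0 < t →
    Tendsto (fun l => envP l f (x + l • d) t) (𝓝[>] 0) (𝓝 (f x t))
  concM : PathConcaveM v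
  limM : ∀ (x : X) (t : ℝ), Tendsto (fun l => envM l v x t) (𝓝[>] 0) (𝓝 (v x t))
  attM : ∀ (l : ℝ) (x : X) (t : ℝ), 0 < l → ∃ y, DpIsMin l (fun y => v y t) x y
  bddP : ∀ (l : ℝ) (x : X) (t : ℝ), 0 < l →
    BddAbove (range fun y => v y t - ‖y - x‖ ^ 2 / (2 * l))
  le : ∀ (x : X) (t : ℝ), 0 < t → f x t ≤ v x t

theorem DpStanding.bddM {f v : X → ℝ → ℝ} (H : DpStanding f v) {l : ℝ} (hl : 0 < l) (x : X)
    (t : ℝ) : BddBelow (range fun y => v y t + ‖y - x‖ ^ 2 / (2 * l)) := by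
  obtain ⟨y, hy⟩ := H.attM l x t hl
  exact ⟨_, by rintro _ ⟨y', rfl⟩; exact hy y'⟩

theorem DpStanding.midP {f v : X → ℝ → ℝ} (H : DpStanding f v) {ε t : ℝ} (hε : 0 < ε)
    (ht : 0 < t) (x b d : X) :
    -(Real.log 2 / (2 * ε)) * ‖b - d‖ ^ 2 ≤
      f (x + d) t + envP (2 * ε) f (x + b) t - 2 * envP ε f (x + (1 / 2 : ℝ) • (b + d)) t :=
  dp_path_midpoint hε x b d (H.convP _ _ t ht) (H.limP _ _ t ht)

theorem DpStanding.midM {f v : X → ℝ → ℝ} (H : DpStanding f v) {ε : ℝ} (hε : 0 < ε)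
    (x : X) (t : ℝ) : v x t + envM (2 * ε) v x t ≤ 2 * envM ε v x t := by
  have h := H.concM x 0 t
  simp only [smul_zero, add_zero, norm_zero, ne_eq, OfNat.ofNat_ne_zero, not_false_eq_true,
    zero_pow, zero_mul, sub_zero] at h
  exact dp_concave_midpoint_zero hε h (H.limM x t)

/-- Lemma 6.2, packaged: at every state `(x,t)` with `t > ε` there are a forward velocity `Qp`
(the `2ε` maximiser for `f`), a backward velocity `Qm` (a `2ε` minimiser for `v`) and the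
reference velocity `Q0` (the `ε` maximiser for `f`) with the drift inequality. -/
theorem dp_step [FiniteDimensional ℝ X] {f v : X → ℝ → ℝ} (H : DpStanding f v) {ε t : ℝ}
    (hε : 0 < ε) (ht : ε < t) (x : X) :
    ∃ Qp Qm Q0 : X, DpIsMax (2 * ε) (fun y => f y (t + 2 * ε)) x (x + (2 * ε) • Qp) ∧
      DpIsMin (2 * ε) (fun y => v y (t - 2 * ε)) x (x - (2 * ε) • Qm) ∧
      DpIsMax ε (fun y => f y (t + ε)) x (x + ε • Q0) ∧
      dpC * (‖Qp - Q0‖ ^ 2 + ‖Qm - Q0‖ ^ 2) ≤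
        (Jeps ε f v (x + ε • Qp) (t + ε) + Jeps ε f v (x - ε • Qm) (t - ε)) / 2
          - Jeps ε f v x t := by
  obtain ⟨ym, hym⟩ := H.attM (2 * ε) x (t - 2 * ε) (by positivity)
  have hQ : x - (2 * ε) • ((1 / (2 * ε)) • (x - ym)) = ym := by
    rw [smul_smul, mul_one_div_cancel (by positivity), one_smul]; abel
  obtain ⟨Qp, Q0, h1, h2, h3⟩ := dp_drift (Qm := (1 / (2 * ε)) • (x - ym)) hε ht H.semiconc
    (fun b d => H.midP hε (hε.trans ht) x b d) (H.midM hε x t) (fun x' => H.bddM hε x' t)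
    (by rw [hQ]; exact hym)
  exact ⟨Qp, _, Q0, h1, by rw [hQ]; exact hym, h2, h3⟩

/-- Lemma 6.2 for ANY choice of the optimisers (the two maximisers are unique). -/
theorem dp_step_any [FiniteDimensional ℝ X] {f v : X → ℝ → ℝ} (H : DpStanding f v) {ε t : ℝ}
    (hε : 0 < ε) (ht : ε < t) {x Qp Qm Q0 : X}
    (hp : DpIsMax (2 * ε) (fun y => f y (t + 2 * ε)) x (x + (2 * ε) • Qp))
    (hm : DpIsMin (2 * ε) (fun y => v y (t - 2 * ε)) x (x - (2 * ε) • Qm))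
    (h0 : DpIsMax ε (fun y => f y (t + ε)) x (x + ε • Q0)) :
    Jeps ε f v x t + dpC * (‖Qp - Q0‖ ^ 2 + ‖Qm - Q0‖ ^ 2) ≤
      (Jeps ε f v (x + ε • Qp) (t + ε) + Jeps ε f v (x - ε • Qm) (t - ε)) / 2 := by
  obtain ⟨Qp', Q0', h1, h2, h3⟩ := dp_drift (Qm := Qm) hε ht H.semiconc
    (fun b d => H.midP hε (hε.trans ht) x b d) (H.midM hε x t) (fun x' => H.bddM hε x' t) hm
  have e1 : Qp = Qp' := by
    have := (H.semiconc (t + 2 * ε) (by linarith)).isMax_unique (l := 2 * ε) (by linarith)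
      (by linarith) hp h1
    have h4 : (2 * ε) • Qp = (2 * ε) • Qp' := add_left_cancel this
    exact smul_right_injective X (by positivity : (2 * ε) ≠ 0) h4
  have e2 : Q0 = Q0' := by
    have := (H.semiconc (t + ε) (by linarith)).isMax_unique (l := ε) hε (by linarith) h0 h2
    have h4 : ε • Q0 = ε • Q0' := add_left_cancel this
    exact smul_right_injective X hε.ne' h4
  subst e1 e2
  linarith

/-- The identity (6.3). -/
theorem dp_J_identity (f v : X → ℝ → ℝ) {ε : ℝ} (hε : 0 < ε) (x : X) (t : ℝ) :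
    2 * ε * Jeps ε f v x t =
      (f x t - v x t) + (envP ε f x t - f x t) + (v x t - envM ε v x t) := by
  unfold Jeps
  field_simp
  ring

/-- The same identity in terms of slopes. -/
theorem dp_J_eq_slopes (f v : X → ℝ → ℝ) {ε : ℝ} (hε : 0 < ε) (x : X) (t : ℝ) :
    Jeps ε f v x t = (f x t - v x t) / (2 * ε) + (slopeP ε f x t + slopeM ε v x t) / 2 := by
  unfold Jeps slopeP slopeM
  field_simp
  ring

/-- The upper bound (6.4). -/
theorem DpStanding.J_le {f v : X → ℝ → ℝ} (H : DpStanding f v) {ε t : ℝ} (hε : 0 < ε)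
    (ht : 0 < t) (x : X) : Jeps ε f v x t ≤ (slopeP ε v x t + slopeM ε v x t) / 2 := by
  have h1 : envP ε f x t ≤ envP ε v x t := by
    unfold envP supConv
    refine ciSup_le fun y => ?_
    refine le_trans ?_ (le_ciSup (H.bddP ε x (t + ε) hε) y)
    have := H.le y (t + ε) (by linarith)
    linarith
  unfold Jeps slopeP slopeM
  have : (envP ε v x t - v x t) / ε + (v x t - envM ε v x t) / ε =
      (envP ε v x t - envM ε v x t) / ε := by ring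
  rw [this, div_div, mul_comm ε 2]
  gcongr

end Claimed.Agent.R330
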