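import Claimed.Agent.R330.UFCones

/-!
Row 330 (S0589), package threePoint (paper Prop. 2.5): shared definitions and the
statements of the leaves.

Barrier: `Psi(x,y,z) = B(c) f(r) + |h|^2 / r^2` with `c = (x+y)/2`, `h = z - c`, `r = |x-y|`,
`B(c) = delta/2 + b |c - c0|^2`, `f(r) = r - Lam r^2`.
-/

set_option autoImplicit false

open scoped Topology RealInnerProductSpace
open Metric Filter

namespace Claimed.Agent.R330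

variable {E : Type*} [NormedAddCommGroup E] [InnerProductSpace ℝ E]

/-- midpoint -/
noncomputable def tpMid (x y : E) : E := (1 / 2 : ℝ) • (x + y)

/-- the localising factor `B(c)` evaluated at the midpoint of `x, y`. -/
noncomputable def tpB (δ b : ℝ) (c0 x y : E) : ℝ := δ / 2 + b * ‖tpMid x y - c0‖ ^ 2

/-- the barrier `B(c) f(r) + |h|^2/r^2`. -/
noncomputable def tpPsi (δ b Λ : ℝ) (c0 x y z : E) : ℝ :=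
  tpB δ b c0 x y * (‖x - y‖ - Λ * ‖x - y‖ ^ 2) + ‖z - tpMid x y‖ ^ 2 / ‖x - y‖ ^ 2

/-- unit vector `e = (x-y)/r`. -/
noncomputable def tpE (x y : E) : E := ‖x - y‖⁻¹ • (x - y)

/-- `beta = DB(c) = 2 b (c - c0)`. -/
noncomputable def tpBeta (b : ℝ) (c0 x y : E) : E := (2 * b) • (tpMid x y - c0)

/-- `a = B(c) f'(r) - 2 |h|^2 / r^3`. -/
noncomputable def tpA (δ b Λ : ℝ) (c0 x y z : E) : ℝ :=
  tpB δ b c0 x y * (1 - 2 * Λ * ‖x - y‖) - 2 * ‖z - tpMid x y‖ ^ 2 / ‖x - y‖ ^ 3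

/-- common part of the two endpoint gradients: `f(r) beta / 2 - h / r^2`. -/
noncomputable def tpGc (b Λ : ℝ) (c0 x y z : E) : E :=
  ((‖x - y‖ - Λ * ‖x - y‖ ^ 2) / 2) • tpBeta b c0 x y - (‖x - y‖ ^ 2)⁻¹ • (z - tpMid x y)

/-- `D_x Psi`. -/
noncomputable def tpG1 (δ b Λ : ℝ) (c0 x y z : E) : E :=
  tpGc b Λ c0 x y z + tpA δ b Λ c0 x y z • tpE x y

/-- `D_y Psi`. -/
noncomputable def tpG2 (δ b Λ : ℝ) (c0 x y z : E) : E :=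
  tpGc b Λ c0 x y z - tpA δ b Λ c0 x y z • tpE x y

/-- `- D_z Psi / 2 = - h / r^2`. -/
noncomputable def tpG0 (x y z : E) : E := - ((‖x - y‖ ^ 2)⁻¹ • (z - tpMid x y))

/-- quadratic majorant (`= A[k,k]/2`) of the barrier at `(x,y,z)`; increments `k1 k2 k3`.
With `d = k1-k2`, `t = <e,d>`, `gam = (k1+k2)/2`, `kap = k3 - gam`:
`B ((|d|^2-t^2)/r - Lam |d|^2) + f' <beta,gam> t + f b |gam|^2 + |kap|^2/r^2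
  - 4 <h,kap> t / r^3 + 8 |h|^2 t^2 / r^4`. -/
noncomputable def tpQ (δ b Λ : ℝ) (c0 x y z k1 k2 k3 : E) : ℝ :=
  tpB δ b c0 x y * ((‖k1 - k2‖ ^ 2 - ⟪tpE x y, k1 - k2⟫ ^ 2) / ‖x - y‖ - Λ * ‖k1 - k2‖ ^ 2)
  + (1 - 2 * Λ * ‖x - y‖) * ⟪tpBeta b c0 x y, tpMid k1 k2⟫ * ⟪tpE x y, k1 - k2⟫
  + (‖x - y‖ - Λ * ‖x - y‖ ^ 2) * b * ‖tpMid k1 k2‖ ^ 2
  + ‖k3 - tpMid k1 k2‖ ^ 2 / ‖x - y‖ ^ 2
  - 4 * ⟪z - tpMid x y, k3 - tpMid k1 k2⟫ * ⟪tpE x y, k1 - k2⟫ / ‖x - y‖ ^ 3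
  + 8 * ‖z - tpMid x y‖ ^ 2 * ⟪tpE x y, k1 - k2⟫ ^ 2 / ‖x - y‖ ^ 4

/-- LEAF A (majorant). -/
def TPMajorantStmt (E : Type*) [NormedAddCommGroup E] [InnerProductSpace ℝ E] : Prop :=
  ∀ (δ b Λ : ℝ) (c0 x y z : E), 0 ≤ δ → 0 ≤ b → 0 ≤ Λ → x ≠ y → ∀ ε : ℝ, 0 < ε →
    ∀ᶠ k : E × E × E in 𝓝 0,
      tpPsi δ b Λ c0 (x + k.1) (y + k.2.1) (z + k.2.2) ≤ tpPsi δ b Λ c0 x y z
        + ⟪tpG1 δ b Λ c0 x y z, k.1⟫ + ⟪tpG2 δ b Λ c0 x y z, k.2.1⟫ - 2 * ⟪tpG0 x y z, k.2.2⟫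
        + tpQ δ b Λ c0 x y z k.1 k.2.1 k.2.2
        + ε * (‖k.1‖ ^ 2 + ‖k.2.1‖ ^ 2 + ‖k.2.2‖ ^ 2)

/-- LEAF B (negativity along `sigma = (p1,p2,p0)`, `p_i = q + G_i`). -/
def TPNegStmt (E : Type*) [NormedAddCommGroup E] [InnerProductSpace ℝ E] : Prop :=
  ∀ (C δ b : ℝ), 0 ≤ C → 0 < δ → 0 ≤ b → ∃ Λ0 : ℝ, 0 < Λ0 ∧ ∀ Λ : ℝ, Λ0 ≤ Λ →
    ∀ (q c0 x y z : E), ‖q‖ ≤ C → x ≠ y → ‖x - y‖ ≤ 1 / (4 * Λ) →
      ‖z - tpMid x y‖ ≤ 2 * C * ‖x - y‖ ^ 2 → ‖tpMid x y - c0‖ ≤ 1 →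
      tpQ δ b Λ c0 x y z (q + tpG1 δ b Λ c0 x y z) (q + tpG2 δ b Λ c0 x y z) (q + tpG0 x y z)
        + (‖q + tpG1 δ b Λ c0 x y z‖ ^ 2 + ‖q + tpG2 δ b Λ c0 x y z‖ ^ 2
            + ‖q + tpG0 x y z‖ ^ 2) < 0

/-- The discrete sum rule (owner helper51), in the shape used by the assembly:
`Q` is any continuous 2-homogeneous function. -/
def TPRuleStmt (E : Type*) [NormedAddCommGroup E] [InnerProductSpace ℝ E] : Prop :=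
  ∀ (U : E → ℝ) (Ω : Set E), IsOpen Ω → JetHarm U Ω → ∀ x ∈ Ω, ∀ y ∈ Ω, ∀ z ∈ Ω,
    ∀ (p1 p2 p0 : E) (Q : E → E → E → ℝ),
      Continuous (fun k : E × E × E => Q k.1 k.2.1 k.2.2) →
      (∀ (t : ℝ) (a b c : E), Q (t • a) (t • b) (t • c) = t ^ 2 * Q a b c) →
      (∀ᶠ k : E × E × E in 𝓝 0,
        U (x + k.1) + U (y + k.2.1) - 2 * U (z + k.2.2) ≤ U x + U y - 2 * U z
          + ⟪p1, k.1⟫ + ⟪p2, k.2.1⟫ - 2 * ⟪p0, k.2.2⟫ + Q k.1 k.2.1 k.2.2) →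
      0 ≤ Q p1 p2 p0

/-- Output of the package (shape agreed with the user, helper191/helper210). -/
def ThreePointStmt (E : Type*) [NormedAddCommGroup E] [InnerProductSpace ℝ E] : Prop :=
  ∀ C δ : ℝ, 0 < δ → ∃ ε₀ > 0, ∀ w : E → ℝ, JetHarm w (ball 0 1) →
    (∀ x ∈ ball (0 : E) 1, ∀ y ∈ ball (0 : E) 1, |w x - w y| ≤ C * ‖x - y‖) →
    (∃ (q : E) (c : ℝ), ∀ x ∈ ball (0 : E) 1, |w x - (c + ⟪q, x⟫)| ≤ ε₀) →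
    ∀ x ∈ ball (0 : E) (1 / 4), ∀ y ∈ ball (0 : E) (1 / 4),
      |w x + w y - 2 * w ((1 / 2 : ℝ) • (x + y))| ≤ δ * ‖x - y‖

end Claimed.Agent.R330
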