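import Claimed.Agent.R330.DSRRule
import Claimed.Agent.R330.TPDefs

/-!
# The discrete three-point sum rule for a continuous 2-homogeneous majorant (row 330)

`dsr_tpRule : TPRuleStmt E`, the shape used by the assembly of the three-point estimate.
-/

set_option autoImplicit false

open scoped Topology RealInnerProductSpace
open Metric Filter Set

namespace Claimed.Agent.R330

variable {E : Type*} [NormedAddCommGroup E] [InnerProductSpace ℝ E]

/-- The two perturbed triples. -/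
theorem dsr_geom {U : E → ℝ} {Ω : Set E} (hU : DsrDoubling U Ω)
    (hU' : DsrDoubling (fun x => - U x) Ω) {x0 y0 z0 p1 p2 p0 : E} {t : ℝ} (ht : 0 < t)
    (hbx : closedBall (x0 - t • p1) (2 * (t * ‖p1‖)) ⊆ Ω)
    (hby : closedBall (y0 - t • p2) (2 * (t * ‖p2‖)) ⊆ Ω)
    (hbz : closedBall (z0 - t • (-p0)) (2 * (t * ‖-p0‖)) ⊆ Ω) :
    ∃ d1 d2 d3 : E,
      0 ≤ (U (x0 + (t • p1 + d1)) + U (y0 + (t • p2 + d2)) - 2 * U (z0 + t • p0))
          + (U (x0 + (-t) • p1) + U (y0 + (-t) • p2) - 2 * U (z0 + ((-t) • p0 + d3)))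
          - 2 * (U x0 + U y0 - 2 * U z0) ∧
      12 * t * (⟪p1, d1⟫ + ⟪p2, d2⟫ - 2 * ⟪p0, d3⟫) ≤ - (‖d1‖ + ‖d2‖ + ‖d3‖) ^ 2 ∧
      ‖d1‖ ≤ 4 * t * ‖p1‖ ∧ ‖d2‖ ≤ 4 * t * ‖p2‖ ∧ ‖d3‖ ≤ 4 * t * ‖p0‖ := by
  obtain ⟨d1, h1a, h1b, h1c⟩ := dsr_step hU (x0 := x0) (p := p1) ht hbx
  obtain ⟨d2, h2a, h2b, h2c⟩ := dsr_step hU (x0 := y0) (p := p2) ht hby
  obtain ⟨d3, h3a, h3b, h3c⟩ := dsr_step hU' (x0 := z0) (p := -p0) ht hbz
  rw [norm_neg] at h3c
  rw [inner_neg_left] at h3b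
  refine ⟨d1, d2, d3, ?_, ?_, h1c, h2c, h3c⟩
  · have e1 : x0 + (t • p1 + d1) = x0 + t • p1 + d1 := by abel
    have e2 : y0 + (t • p2 + d2) = y0 + t • p2 + d2 := by abel
    have e3 : z0 + t • p0 = z0 - t • (-p0) := by simp
    have e4 : x0 + (-t) • p1 = x0 - t • p1 := by rw [neg_smul, sub_eq_add_neg]
    have e5 : y0 + (-t) • p2 = y0 - t • p2 := by rw [neg_smul, sub_eq_add_neg]
    have e6 : z0 + ((-t) • p0 + d3) = z0 + t • (-p0) + d3 := by
      rw [neg_smul, smul_neg]; abel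
    rw [e1, e2, e3, e4, e5, e6]
    linarith
  · have e : (‖d1‖ + ‖d2‖ + ‖d3‖) ^ 2 ≤ 3 * (‖d1‖ ^ 2 + ‖d2‖ ^ 2 + 2 * ‖d3‖ ^ 2) :=
      dsr_sq_sum_le _ _ _
    have e' : 12 * t * (⟪p1, d1⟫ + ⟪p2, d2⟫ - 2 * ⟪p0, d3⟫)
        = 3 * (4 * t * ⟪p1, d1⟫) + 3 * (4 * t * ⟪p2, d2⟫) + 6 * (4 * t * -⟪p0, d3⟫) := by ring
    rw [e']
    linarith

section hom

variable {F : Type*} [NormedAddCommGroup F] [NormedSpace ℝ F]

/-- A continuous 2-homogeneous function is bounded by a multiple of the square of the norm. -/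
theorem dsr_hom_bound {Q : F → ℝ} (hc : ContinuousAt Q 0)
    (hh : ∀ (t : ℝ) (k : F), Q (t • k) = t ^ 2 * Q k) :
    ∃ M : ℝ, 0 ≤ M ∧ ∀ k, Q k ≤ M * ‖k‖ ^ 2 := by
  have h0 : Q 0 = 0 := by simpa using hh 0 0
  obtain ⟨ρ, hρ, h⟩ := Metric.continuousAt_iff.1 hc 1 one_pos
  refine ⟨4 / ρ ^ 2, by positivity, fun k => ?_⟩
  rcases eq_or_ne k 0 with rfl | hk
  · simp [h0]
  · have hk' : 0 < ‖k‖ := norm_pos_iff.2 hk
    set lam : ℝ := ρ / (2 * ‖k‖) with hlam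
    have hlam0 : 0 < lam := by positivity
    have h1 : dist (lam • k) 0 < ρ := by
      rw [dist_zero_right, norm_smul, Real.norm_eq_abs, abs_of_pos hlam0, hlam]
      have : ρ / (2 * ‖k‖) * ‖k‖ = ρ / 2 := by field_simp
      rw [this]; linarith
    have h2 := h h1
    rw [h0, dist_zero_right, Real.norm_eq_abs, hh] at h2
    have h3 : lam ^ 2 * Q k < 1 := (le_abs_self _).trans_lt h2
    have h4 : 4 / ρ ^ 2 * ‖k‖ ^ 2 = 1 / lam ^ 2 := by
      rw [hlam]; field_simp; ring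
    rw [h4, le_div_iff₀ (by positivity)]
    linarith

end hom

set_option maxHeartbeats 1000000 in
/-- **The discrete three-point sum rule** for a 2-homogeneous majorant `Q`, continuous at `0`
and at `σ = (p1,p2,p0)`. -/
theorem dsr_rule_hom {U : E → ℝ} {Ω : Set E} (hΩ : IsOpen Ω) (hU : DsrDoubling U Ω)
    (hU' : DsrDoubling (fun x => - U x) Ω) {x0 y0 z0 : E} (hx : x0 ∈ Ω) (hy : y0 ∈ Ω)
    (hz : z0 ∈ Ω) {p1 p2 p0 : E} {Q : E × E × E → ℝ} (hQc0 : ContinuousAt Q 0)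
    (hQc : ContinuousAt Q (p1, p2, p0))
    (hQh : ∀ (t : ℝ) (k : E × E × E), Q (t • k) = t ^ 2 * Q k)
    (hmaj : ∀ᶠ k : E × E × E in 𝓝 0,
        U (x0 + k.1) + U (y0 + k.2.1) - 2 * U (z0 + k.2.2) ≤ U x0 + U y0 - 2 * U z0
          + ⟪p1, k.1⟫ + ⟪p2, k.2.1⟫ - 2 * ⟪p0, k.2.2⟫ + Q k) :
    0 ≤ Q (p1, p2, p0) := by
  by_contra hneg
  rw [not_le] at hneg
  set σ : E × E × E := (p1, p2, p0) with hσ
  set c : ℝ := - Q σ with hc
  have hc0 : 0 < c := by rw [hc]; linarith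
  set s : ℝ := ‖σ‖ with hs
  have hs0 : 0 ≤ s := norm_nonneg _
  have hp1 : ‖p1‖ ≤ s := norm_fst_le σ
  have hp2 : ‖p2‖ ≤ s := (norm_fst_le σ.2).trans (norm_snd_le σ)
  have hp0 : ‖p0‖ ≤ s := (norm_snd_le σ.2).trans (norm_snd_le σ)
  obtain ⟨M, hM0, hM⟩ := dsr_hom_bound hQc0 hQh
  obtain ⟨ρ, hρ, hρQ⟩ := Metric.continuousAt_iff.1 hQc (c / 2) (by positivity)
  obtain ⟨r1, hr1, hmajb⟩ := Metric.eventually_nhds_iff_ball.1 hmaj
  obtain ⟨rx, hrx, hbx⟩ := Metric.isOpen_iff.1 hΩ x0 hx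
  obtain ⟨ry, hry, hby⟩ := Metric.isOpen_iff.1 hΩ y0 hy
  obtain ⟨rz, hrz, hbz⟩ := Metric.isOpen_iff.1 hΩ z0 hz
  -- choice of `t`
  set μ : ℝ := min r1 (min rx (min ry rz)) with hμ
  have hμ0 : 0 < μ := by
    simp only [hμ, lt_min_iff]; exact ⟨hr1, hrx, hry, hrz⟩
  have hμ1 : μ ≤ r1 := min_le_left _ _
  have hμx : μ ≤ rx := (min_le_right _ _).trans (min_le_left _ _)
  have hμy : μ ≤ ry := (min_le_right _ _).trans ((min_le_right _ _).trans (min_le_left _ _))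
  have hμz : μ ≤ rz := (min_le_right _ _).trans ((min_le_right _ _).trans (min_le_right _ _))
  set t : ℝ := min (μ / (13 * s + 1)) (ρ ^ 2 / (4056 * M * s ^ 2 + 1)) with htdef
  have ht0 : 0 < t := by
    simp only [htdef, lt_min_iff]
    refine ⟨by positivity, by positivity⟩
  have ht1 : 13 * t * s < μ := by
    have h1 : t ≤ μ / (13 * s + 1) := min_le_left _ _
    rw [le_div_iff₀ (by positivity)] at h1
    have h2 : t * (13 * s + 1) = 13 * t * s + t := by ring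
    linarith
  have ht2 : 4056 * M * t * s ^ 2 < ρ ^ 2 := by
    have h1 : t ≤ ρ ^ 2 / (4056 * M * s ^ 2 + 1) := min_le_right _ _
    rw [le_div_iff₀ (by positivity)] at h1
    have h2 : t * (4056 * M * s ^ 2 + 1) = 4056 * M * t * s ^ 2 + t := by ring
    linarith
  have hincl : ∀ (w p : E) (r : ℝ), ball w r ⊆ Ω → μ ≤ r → ‖p‖ ≤ s →
      closedBall (w - t • p) (2 * (t * ‖p‖)) ⊆ Ω := by
    intro w p r hb hr hp y hy
    apply hb
    rw [mem_ball, dist_eq_norm]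
    rw [mem_closedBall, dist_eq_norm] at hy
    have e : y - w = (y - (w - t • p)) - t • p := by abel
    have h1 : ‖y - w‖ ≤ 2 * (t * ‖p‖) + t * ‖p‖ := by
      rw [e]
      refine (norm_sub_le _ _).trans ?_
      rw [norm_smul, Real.norm_eq_abs, abs_of_pos ht0]
      linarith
    have h2 : t * ‖p‖ ≤ t * s := by gcongr
    have h3 : 0 ≤ t * s := by positivity
    have h4 : 13 * t * s = 13 * (t * s) := by ring
    linarith
  obtain ⟨d1, d2, d3, hsec, hG1, h1c, h2c, h3c⟩ := dsr_geom hU hU' (x0 := x0) (y0 := y0) (z0 := z0)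
    (p1 := p1) (p2 := p2) (p0 := p0) ht0 (hincl x0 p1 rx hbx hμx hp1) (hincl y0 p2 ry hby hμy hp2)
    (hincl z0 (-p0) rz hbz hμz (by rwa [norm_neg]))
  set N : ℝ := ‖d1‖ + ‖d2‖ + ‖d3‖ with hN
  have hN0 : 0 ≤ N := by positivity
  have hN1 : N ≤ 12 * t * s := by
    have e1 : 4 * t * ‖p1‖ ≤ 4 * t * s := by gcongr
    have e2 : 4 * t * ‖p2‖ ≤ 4 * t * s := by gcongr
    have e3 : 4 * t * ‖p0‖ ≤ 4 * t * s := by gcongr
    linarith
  set G : ℝ := ⟪p1, d1⟫ + ⟪p2, d2⟫ - 2 * ⟪p0, d3⟫ with hG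
  set mp : E × E × E := (d1, d2, 0) with hmp
  set mm : E × E × E := (0, 0, d3) with hmm
  have hmpN : ‖mp‖ ≤ N := by
    simp only [hmp, Prod.norm_def, norm_zero]
    have := norm_nonneg d1; have := norm_nonneg d2; have := norm_nonneg d3
    simp only [max_le_iff]
    refine ⟨by linarith, by linarith, by linarith⟩
  have hmmN : ‖mm‖ ≤ N := by
    simp only [hmm, Prod.norm_def, norm_zero]
    have := norm_nonneg d1; have := norm_nonneg d2; have := norm_nonneg d3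
    simp only [max_le_iff]
    refine ⟨by linarith, by linarith, by linarith⟩
  set kp : E × E × E := t • σ + mp with hkp
  set km : E × E × E := (-t) • σ + mm with hkm
  have hkpn : ‖kp‖ ≤ 13 * t * s := by
    calc ‖kp‖ ≤ ‖t • σ‖ + ‖mp‖ := norm_add_le _ _
      _ ≤ t * s + N := by
          rw [norm_smul, Real.norm_eq_abs, abs_of_pos ht0]; linarith
      _ ≤ 13 * t * s := by linarith
  have hkmn : ‖km‖ ≤ 13 * t * s := by
    calc ‖km‖ ≤ ‖(-t) • σ‖ + ‖mm‖ := norm_add_le _ _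
      _ ≤ t * s + N := by
          rw [norm_smul, Real.norm_eq_abs, abs_neg, abs_of_pos ht0]; linarith
      _ ≤ 13 * t * s := by linarith
  have hkp' : kp = (t • p1 + d1, t • p2 + d2, t • p0) := by
    simp only [hkp, hσ, hmp, Prod.smul_mk, Prod.mk_add_mk, add_zero]
  have hkm' : km = ((-t) • p1, (-t) • p2, (-t) • p0 + d3) := by
    simp only [hkm, hσ, hmm, Prod.smul_mk, Prod.mk_add_mk, add_zero]
  have hm1 := hmajb kp (by rw [mem_ball, dist_zero_right]; linarith)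
  have hm2 := hmajb km (by rw [mem_ball, dist_zero_right]; linarith)
  -- the basic inequality `0 ≤ G + Q kp + Q km`
  have hbasic : 0 ≤ G + Q kp + Q km := by
    have hg1 : ⟪p1, kp.1⟫ + ⟪p2, kp.2.1⟫ - 2 * ⟪p0, kp.2.2⟫
        + (⟪p1, km.1⟫ + ⟪p2, km.2.1⟫ - 2 * ⟪p0, km.2.2⟫) = G := by
      rw [hkp', hkm', hG]
      simp only [inner_add_right, inner_smul_right]
      ring
    rw [hkp'] at hm1
    rw [hkm'] at hm2
    simp only at hm1 hm2
    rw [← hkp'] at hm1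
    rw [← hkm'] at hm2
    rw [hkp', hkm'] at hg1
    simp only at hg1
    linarith
  have hG0 : G ≤ 0 := by
    have : 12 * t * G ≤ 0 := hG1.trans (by have := sq_nonneg N; linarith)
    by_contra h
    rw [not_le] at h
    have : 0 < 12 * t * G := by positivity
    linarith
  -- first consequence: `N < t ρ`
  have hNρ : N < t * ρ := by
    have e1 : Q kp ≤ M * (13 * t * s) ^ 2 :=
      (hM kp).trans (by gcongr)
    have e2 : Q km ≤ M * (13 * t * s) ^ 2 :=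
      (hM km).trans (by gcongr)
    have e3 : N ^ 2 ≤ 12 * t * (2 * (M * (13 * t * s) ^ 2)) := by
      have : 0 ≤ 12 * t * (G + Q kp + Q km) := by positivity
      have h' : 12 * t * (Q kp + Q km) ≤ 12 * t * (2 * (M * (13 * t * s) ^ 2)) := by
        gcongr; linarith
      have h'' : 12 * t * (G + Q kp + Q km) = 12 * t * G + 12 * t * (Q kp + Q km) := by ring
      linarith
    have e4 : 12 * t * (2 * (M * (13 * t * s) ^ 2)) = t ^ 2 * (4056 * M * t * s ^ 2) := by ring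
    have e5 : N ^ 2 < (t * ρ) ^ 2 := by
      rw [e4] at e3
      have : t ^ 2 * (4056 * M * t * s ^ 2) < t ^ 2 * ρ ^ 2 := by
        have : 0 < t ^ 2 := by positivity
        gcongr
      have h' : (t * ρ) ^ 2 = t ^ 2 * ρ ^ 2 := by ring
      linarith
    exact lt_of_pow_lt_pow_left₀ 2 (by positivity) e5
  -- second consequence
  have hQp : Q kp < - (t ^ 2 * (c / 2)) := by
    have e1 : kp = t • (σ + t⁻¹ • mp) := by
      rw [smul_add, smul_smul, mul_inv_cancel₀ ht0.ne', one_smul]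
    have e2 : dist (σ + t⁻¹ • mp) σ < ρ := by
      rw [dist_eq_norm, add_sub_cancel_left, norm_smul, norm_inv, Real.norm_eq_abs,
        abs_of_pos ht0, inv_mul_lt_iff₀ ht0]
      linarith
    have e3 := hρQ e2
    rw [Real.dist_eq] at e3
    have e4 := (abs_lt.1 e3).2
    rw [e1, hQh]
    have h5 : 0 < t ^ 2 := by positivity
    have h6 : Q (σ + t⁻¹ • mp) < - (c / 2) := by rw [hc] at e4 ⊢; linarith
    calc t ^ 2 * Q (σ + t⁻¹ • mp) < t ^ 2 * (- (c / 2)) := by gcongr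
      _ = - (t ^ 2 * (c / 2)) := by ring
  have hQm : Q km < - (t ^ 2 * (c / 2)) := by
    have e1 : km = (-t) • (σ + (-t)⁻¹ • mm) := by
      rw [smul_add, smul_smul, mul_inv_cancel₀ (neg_ne_zero.2 ht0.ne'), one_smul]
    have e2 : dist (σ + (-t)⁻¹ • mm) σ < ρ := by
      rw [dist_eq_norm, add_sub_cancel_left, norm_smul, norm_inv, Real.norm_eq_abs, abs_neg,
        abs_of_pos ht0, inv_mul_lt_iff₀ ht0]
      linarith
    have e3 := hρQ e2
    rw [Real.dist_eq] at e3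
    have e4 := (abs_lt.1 e3).2
    rw [e1, hQh]
    have h5 : 0 < (-t) ^ 2 := by rw [neg_sq]; positivity
    have h6 : Q (σ + (-t)⁻¹ • mm) < - (c / 2) := by rw [hc] at e4 ⊢; linarith
    calc (-t) ^ 2 * Q (σ + (-t)⁻¹ • mm) < (-t) ^ 2 * (- (c / 2)) := by gcongr
      _ = - (t ^ 2 * (c / 2)) := by ring
  have : 0 < t ^ 2 * (c / 2) := by positivity
  linarith

/-- The rule in the shape of `TPDefs`. -/
theorem dsr_tpRule [FiniteDimensional ℝ E] : TPRuleStmt E := by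
  intro U Ω hΩ hU x hx y hy z hz p1 p2 p0 Q hQc hQh hmaj
  exact dsr_rule_hom (Q := fun k : E × E × E => Q k.1 k.2.1 k.2.2) hΩ
    (hU.2.1.dsrDoubling hU.1) (hU.2.2.dsrDoubling hU.1.neg) hx hy hz
    hQc.continuousAt hQc.continuousAt (fun t k => hQh t k.1 k.2.1 k.2.2) hmaj

end Claimed.Agent.R330
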