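import Claimed.Agent.R330.UFCones

/-!
# Row 330 (S0589), Section 2.1 of the paper: slopes and Lipschitz bounds

Consequences of the comparison with cones (`JetSub.cone`): slope monotonicity and local
Lipschitz bounds for jet subsolutions.
-/

open scoped RealInnerProductSpace Topology
open Metric Set Filter

namespace Claimed.Agent.R330

variable {E : Type*} [NormedAddCommGroup E] [InnerProductSpace ℝ E]

/-- First order upper bound for the distance to a far point. -/
theorem cone_norm_sub_le_far {a h : E} (ha : a ≠ 0) :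
    ‖a - h‖ ≤ ‖a‖ - ⟪a, h⟫ / ‖a‖ + ‖h‖ ^ 2 / (2 * ‖a‖) := by
  have hρ : 0 < ‖a‖ := norm_pos_iff.mpr ha
  have hsq : ‖a - h‖ ^ 2 = ‖a‖ ^ 2 - 2 * ⟪a, h⟫ + ‖h‖ ^ 2 := norm_sub_sq_real a h
  have hrhs : ‖a‖ - ⟪a, h⟫ / ‖a‖ + ‖h‖ ^ 2 / (2 * ‖a‖) = (‖a - h‖ ^ 2 + ‖a‖ ^ 2) / (2 * ‖a‖) := by
    rw [hsq]; field_simp; ring
  have hnn : 0 ≤ (‖a - h‖ ^ 2 + ‖a‖ ^ 2) / (2 * ‖a‖) := by positivity
  rw [hrhs, le_div_iff₀ (by positivity)]
  nlinarith [sq_nonneg (‖a - h‖ - ‖a‖)]

/-- Maximal increment of `w` over the closed ball of radius `r` about `x`. -/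
noncomputable def incMax (w : E → ℝ) (x : E) (r : ℝ) : ℝ :=
  sSup ((fun y => w y - w x) '' closedBall x r)

section slopes

variable [FiniteDimensional ℝ E] {w : E → ℝ} {D : Set E}

theorem exists_incMax_eq (hc : ContinuousOn w D) {x : E} {r : ℝ} (hr : 0 ≤ r)
    (hD : closedBall x r ⊆ D) : ∃ y ∈ closedBall x r, incMax w x r = w y - w x := by
  have : ProperSpace E := FiniteDimensional.proper_real E
  exact (isCompact_closedBall x r).exists_sSup_image_eq ⟨x, mem_closedBall_self hr⟩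
    ((hc.mono hD).sub continuousOn_const)

theorem le_incMax (hc : ContinuousOn w D) {x : E} {r : ℝ}
    (hD : closedBall x r ⊆ D) {y : E} (hy : y ∈ closedBall x r) : w y - w x ≤ incMax w x r := by
  have : ProperSpace E := FiniteDimensional.proper_real E
  exact le_csSup ((isCompact_closedBall x r).bddAbove_image
    ((hc.mono hD).sub continuousOn_const)) ⟨y, hy, rfl⟩

theorem incMax_nonneg (hc : ContinuousOn w D) {x : E} {r : ℝ} (hr : 0 ≤ r)
    (hD : closedBall x r ⊆ D) : 0 ≤ incMax w x r := by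
  have := le_incMax hc hD (mem_closedBall_self hr)
  simpa using this

/-- Cone bound with the optimal slope `incMax w x r / r`. -/
theorem JetSub.sub_le_slope_mul (hc : ContinuousOn w D) (hs : JetSub w D) {x : E} {r : ℝ}
    (hr : 0 < r) (hD : closedBall x r ⊆ D) {y : E} (hy : y ∈ closedBall x r) :
    w y - w x ≤ incMax w x r / r * ‖y - x‖ := by
  refine hs.cone hc hr hD (fun y' hy' => ?_) y hy
  rw [div_mul_cancel₀ _ hr.ne']
  exact le_incMax hc hD hy'

/-- Monotonicity of the slope `incMax w x r / r` in the radius (paper Lemma 2.2). -/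
theorem JetSub.slope_mono (hc : ContinuousOn w D) (hs : JetSub w D) {x : E} {s r : ℝ}
    (hs0 : 0 < s) (hsr : s ≤ r) (hD : closedBall x r ⊆ D) :
    incMax w x s / s ≤ incMax w x r / r := by
  have hr : 0 < r := lt_of_lt_of_le hs0 hsr
  have hsub : closedBall x s ⊆ closedBall x r := closedBall_subset_closedBall hsr
  obtain ⟨y, hy, hy'⟩ := exists_incMax_eq hc hs0.le (hsub.trans hD)
  rw [div_le_iff₀ hs0, hy']
  have h1 := hs.sub_le_slope_mul hc hr hD (hsub hy)
  have h2 : ‖y - x‖ ≤ s := by simpa [dist_eq_norm] using hy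
  have h3 : 0 ≤ incMax w x r / r := div_nonneg (incMax_nonneg hc hr.le hD) hr.le
  exact h1.trans (mul_le_mul_of_nonneg_left h2 h3)

/-- Interior Lipschitz bound for jet subsolutions (paper Lemma 2.2, last part). -/
theorem JetSub.lipschitz (hc : ContinuousOn w D) (hs : JetSub w D) {z : E} {ρ A : ℝ}
    (hρ : 0 < ρ) (hD : closedBall z (2 * ρ) ⊆ D) (hA : ∀ x ∈ closedBall z (2 * ρ), |w x| ≤ A)
    {x y : E} (hx : x ∈ closedBall z ρ) (hy : y ∈ closedBall z ρ) :
    |w x - w y| ≤ 2 * A / ρ * ‖x - y‖ := by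
  have main : ∀ x ∈ closedBall z ρ, ∀ y ∈ closedBall z ρ, w y - w x ≤ 2 * A / ρ * ‖y - x‖ := by
    intro x hx y hy
    have hsub : closedBall x ρ ⊆ closedBall z (2 * ρ) := by
      apply closedBall_subset_closedBall'
      have : dist x z ≤ ρ := hx
      linarith
    have hbig : closedBall z ρ ⊆ closedBall z (2 * ρ) :=
      closedBall_subset_closedBall (by linarith)
    have hosc : ∀ y' ∈ closedBall z (2 * ρ), w y' - w x ≤ 2 * A := by
      intro y' hy'
      have h1 := abs_le.mp (hA y' hy')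
      have h2 := abs_le.mp (hA x (hbig hx))
      linarith
    have hA0 : 0 ≤ A := le_trans (abs_nonneg _) (hA x (hbig hx))
    by_cases hxy : ‖y - x‖ ≤ ρ
    · refine hs.cone hc hρ (hsub.trans hD) (fun y' hy' => ?_) y
        (by simpa [dist_eq_norm] using hxy)
      rw [div_mul_cancel₀ _ hρ.ne']
      exact hosc y' (hsub hy')
    · rw [not_le] at hxy
      calc w y - w x ≤ 2 * A := hosc y (hbig hy)
        _ = 2 * A / ρ * ρ := by rw [div_mul_cancel₀ _ hρ.ne']
        _ ≤ 2 * A / ρ * ‖y - x‖ := mul_le_mul_of_nonneg_left hxy.le (by positivity)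
  rw [abs_le]
  constructor
  · have := main x hx y hy
    rw [norm_sub_rev] at this
    linarith
  · exact main y hy x hx

/-- Dependence of `incMax` on the centre for a Lipschitz function. -/
theorem incMax_le_add_of_lipschitz (hc : ContinuousOn w D) {S : Set E} {Λ : ℝ}
    (hΛ : ∀ x ∈ S, ∀ y ∈ S, |w x - w y| ≤ Λ * ‖x - y‖) {x x' : E} {r : ℝ} (hr : 0 ≤ r)
    (hxS : closedBall x r ⊆ S) (hx'S : closedBall x' r ⊆ S) (hSD : S ⊆ D) :
    incMax w x r ≤ incMax w x' r + 2 * Λ * ‖x - x'‖ := by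
  obtain ⟨y, hy, hy'⟩ := exists_incMax_eq hc hr (hxS.trans hSD)
  have hyx : ‖y - x‖ ≤ r := by simpa [dist_eq_norm] using hy
  have hmem : y + (x' - x) ∈ closedBall x' r := by
    rw [mem_closedBall, dist_eq_norm]
    have : y + (x' - x) - x' = y - x := by abel
    rwa [this]
  have h1 := le_incMax hc (hx'S.trans hSD) hmem
  have h2 := (abs_le.mp (hΛ y (hxS hy) _ (hx'S hmem))).2
  have h3 := (abs_le.mp (hΛ x' (hx'S (mem_closedBall_self hr)) x (hxS (mem_closedBall_self hr)))).2
  have e1 : y - (y + (x' - x)) = x - x' := by abel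
  rw [e1] at h2
  rw [norm_sub_rev] at h3
  rw [hy']
  linarith

end slopes

end Claimed.Agent.R330
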