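import Claimed.Agent.R330.DSRTaylor
import Claimed.Agent.R330.Slopes

/-!
# The discrete three-point sum rule (row 330, package DSR)

Replacement of the theorem on sums in the proof of Proposition 2.5 of the paper (three-point
flatness).  Only the monotonicity of the cone slopes (Lemma 2.2) is used, in the form of
"slope doubling" `DsrDoubling`.
-/

set_option autoImplicit false

open scoped Topology RealInnerProductSpace
open Metric Filter Set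

namespace Claimed.Agent.R330

variable {E : Type*} [NormedAddCommGroup E] [InnerProductSpace ℝ E]

/-- Slope doubling: the maximal increment over the ball of radius `2ρ` is at least twice every
increment over the ball of radius `ρ`. -/
def DsrDoubling (U : E → ℝ) (Ω : Set E) : Prop :=
  ∀ (x' : E) (ρ : ℝ), 0 ≤ ρ → closedBall x' (2 * ρ) ⊆ Ω →
    ∃ xp ∈ closedBall x' (2 * ρ), ∀ y ∈ closedBall x' ρ, 2 * (U y - U x') ≤ U xp - U x'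

theorem JetSub.dsrDoubling [FiniteDimensional ℝ E] {w : E → ℝ} {D : Set E}
    (hc : ContinuousOn w D) (hs : JetSub w D) : DsrDoubling w D := by
  intro x' ρ hρ hD
  rcases hρ.eq_or_lt with rfl | hρ
  · refine ⟨x', by simp, fun y hy => ?_⟩
    have : y = x' := by simpa using hy
    simp [this]
  · have h2 : 0 < 2 * ρ := by positivity
    obtain ⟨xp, hxp, hxp'⟩ := exists_incMax_eq hc h2.le hD
    refine ⟨xp, hxp, fun y hy => ?_⟩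
    have hy2 : y ∈ closedBall x' (2 * ρ) :=
      closedBall_subset_closedBall (by linarith) hy
    have h1 := hs.sub_le_slope_mul hc h2 hD hy2
    have h3 : ‖y - x'‖ ≤ ρ := by simpa [dist_eq_norm] using hy
    have h4 : 0 ≤ incMax w x' (2 * ρ) := incMax_nonneg hc h2.le hD
    have h5 : incMax w x' (2 * ρ) / (2 * ρ) * ‖y - x'‖ ≤ incMax w x' (2 * ρ) / (2 * ρ) * ρ :=
      mul_le_mul_of_nonneg_left h3 (by positivity)
    have h6 : incMax w x' (2 * ρ) / (2 * ρ) * ρ = incMax w x' (2 * ρ) / 2 := by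
      field_simp
    rw [← hxp']
    linarith

/-- One step: from the base point `x0 - t p`, the maximiser over the doubled ball is
`x0 + t p + d`, with a nonnegative second difference and a good sign of `⟪p, d⟫`. -/
theorem dsr_step {U : E → ℝ} {Ω : Set E} (h : DsrDoubling U Ω) {x0 p : E} {t : ℝ} (ht : 0 < t)
    (hball : closedBall (x0 - t • p) (2 * (t * ‖p‖)) ⊆ Ω) :
    ∃ d : E, 0 ≤ U (x0 + t • p + d) + U (x0 - t • p) - 2 * U x0 ∧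
      4 * t * ⟪p, d⟫ + ‖d‖ ^ 2 ≤ 0 ∧ ‖d‖ ≤ 4 * t * ‖p‖ := by
  obtain ⟨xp, hxp, hxp'⟩ := h (x0 - t • p) (t * ‖p‖) (by positivity) hball
  refine ⟨xp - x0 - t • p, ?_, ?_, ?_⟩
  · have h0 : x0 ∈ closedBall (x0 - t • p) (t * ‖p‖) := by
      simp [norm_smul, abs_of_pos ht]
    have := hxp' x0 h0
    have e : x0 + t • p + (xp - x0 - t • p) = xp := by abel
    rw [e]; linarith
  · have h1 : ‖xp - (x0 - t • p)‖ ≤ 2 * (t * ‖p‖) := by simpa [dist_eq_norm] using hxp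
    have e : xp - (x0 - t • p) = (2 * t) • p + (xp - x0 - t • p) := by
      rw [two_mul, add_smul]; abel
    rw [e] at h1
    have h2 : ‖(2 * t) • p + (xp - x0 - t • p)‖ ^ 2 ≤ (2 * (t * ‖p‖)) ^ 2 :=
      pow_le_pow_left₀ (norm_nonneg _) h1 2
    rw [norm_add_sq_real, norm_smul, inner_smul_left] at h2
    simp only [Real.norm_eq_abs, abs_of_pos (by positivity : (0:ℝ) < 2 * t), conj_trivial] at h2
    nlinarith
  · have h1 : ‖xp - (x0 - t • p)‖ ≤ 2 * (t * ‖p‖) := by simpa [dist_eq_norm] using hxp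
    have e : xp - x0 - t • p = (xp - (x0 - t • p)) - (2 * t) • p := by
      rw [two_mul, add_smul]; abel
    rw [e]
    calc ‖(xp - (x0 - t • p)) - (2 * t) • p‖ ≤ ‖xp - (x0 - t • p)‖ + ‖(2 * t) • p‖ := norm_sub_le _ _
      _ ≤ 2 * (t * ‖p‖) + 2 * t * ‖p‖ := by
          rw [norm_smul, Real.norm_eq_abs, abs_of_pos (by positivity : (0:ℝ) < 2 * t)]
          linarith
      _ = 4 * t * ‖p‖ := by ring

section bilin

variable {F : Type*} [NormedAddCommGroup F] [NormedSpace ℝ F]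

/-- Expansion of a bounded bilinear form around `t σ`. -/
theorem dsr_bilin_le (A : F →L[ℝ] F →L[ℝ] ℝ) (σ m : F) (t : ℝ) :
    A (t • σ + m) (t • σ + m) ≤
      t ^ 2 * A σ σ + 2 * |t| * ‖A‖ * ‖σ‖ * ‖m‖ + ‖A‖ * ‖m‖ ^ 2 := by
  have e : A (t • σ + m) (t • σ + m) = t ^ 2 * A σ σ + t * A σ m + t * A m σ + A m m := by
    simp only [map_add, map_smul, add_apply, smul_apply, smul_eq_mul]
    ring
  have h1 : t * A σ m ≤ |t| * (‖A‖ * ‖σ‖ * ‖m‖) := by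
    calc t * A σ m ≤ |t * A σ m| := le_abs_self _
      _ = |t| * |A σ m| := abs_mul _ _
      _ ≤ |t| * (‖A‖ * ‖σ‖ * ‖m‖) := by
          gcongr
          simpa using A.le_opNorm₂ σ m
  have h2 : t * A m σ ≤ |t| * (‖A‖ * ‖m‖ * ‖σ‖) := by
    calc t * A m σ ≤ |t * A m σ| := le_abs_self _
      _ = |t| * |A m σ| := abs_mul _ _
      _ ≤ |t| * (‖A‖ * ‖m‖ * ‖σ‖) := by
          gcongr
          simpa using A.le_opNorm₂ m σ
  have h3 : A m m ≤ ‖A‖ * ‖m‖ * ‖m‖ := by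
    calc A m m ≤ |A m m| := le_abs_self _
      _ ≤ ‖A‖ * ‖m‖ * ‖m‖ := by simpa using A.le_opNorm₂ m m
  rw [e]
  nlinarith

theorem dsr_bilin_le' (A : F →L[ℝ] F →L[ℝ] ℝ) : ∃ a : ℝ, 0 ≤ a ∧ ∀ (σ m : F) (t : ℝ),
    A (t • σ + m) (t • σ + m) ≤ t ^ 2 * A σ σ + 2 * |t| * a * ‖σ‖ * ‖m‖ + a * ‖m‖ ^ 2 :=
  ⟨‖A‖, norm_nonneg A, dsr_bilin_le A⟩

end bilin

theorem dsr_sq_sum_le (n1 n2 n3 : ℝ) :
    (n1 + n2 + n3) ^ 2 ≤ 3 * (n1 ^ 2 + n2 ^ 2 + 2 * n3 ^ 2) := by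
  nlinarith [sq_nonneg (n1 - n2), sq_nonneg (n1 - n3), sq_nonneg (n2 - n3), sq_nonneg n3]

/-- Pure inequality used at the end of the proof of the rule. -/
theorem dsr_final_ineq {t a s c ε N G : ℝ} (ht : 0 < t)
    (hta : 24 * t * a ≤ 1) (htc : 24 * t * (a ^ 2 * s ^ 2) ≤ c / 4) (hε : 338 * ε * s ^ 2 ≤ c / 4)
    (hc : 0 < c) (hG : 12 * t * G ≤ - N ^ 2)
    (hmain : 0 ≤ G - t ^ 2 * c + 2 * t * a * s * N + a * N ^ 2 + 338 * ε * (t ^ 2 * s ^ 2)) :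
    False := by
  have h1 : 0 ≤ 12 * t * (G - t ^ 2 * c + 2 * t * a * s * N + a * N ^ 2
      + 338 * ε * (t ^ 2 * s ^ 2)) := by positivity
  have h2 : 12 * t * (a * N ^ 2) ≤ N ^ 2 / 2 := by
    have : 0 ≤ N ^ 2 := sq_nonneg N
    nlinarith
  have h3 : 24 * t ^ 2 * a * s * N - N ^ 2 / 2 ≤ 288 * t ^ 4 * (a ^ 2 * s ^ 2) := by
    nlinarith [sq_nonneg (N - 24 * t ^ 2 * a * s)]
  have h4 : 288 * t ^ 4 * (a ^ 2 * s ^ 2) ≤ 12 * t ^ 3 * (c / 4) := by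
    have : 0 < 12 * t ^ 3 := by positivity
    calc 288 * t ^ 4 * (a ^ 2 * s ^ 2) = 12 * t ^ 3 * (24 * t * (a ^ 2 * s ^ 2)) := by ring
      _ ≤ 12 * t ^ 3 * (c / 4) := by gcongr
  have h5 : 12 * t * (338 * ε * (t ^ 2 * s ^ 2)) ≤ 12 * t ^ 3 * (c / 4) := by
    have : 0 < 12 * t ^ 3 := by positivity
    calc 12 * t * (338 * ε * (t ^ 2 * s ^ 2)) = 12 * t ^ 3 * (338 * ε * s ^ 2) := by ring
      _ ≤ 12 * t ^ 3 * (c / 4) := by gcongr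
  have h6 : 0 < 12 * t ^ 3 * (c / 2) := by positivity
  nlinarith

set_option maxHeartbeats 1000000 in
/-- **The discrete three-point sum rule**, abstract form.  `U` and `-U` have the slope doubling
property on the open set `Ω`; `U x + U y - 2 U z - Ψ (x,y,z)` has a local maximum at
`(x0,y0,z0)`; `Ψ` has a second order upper Taylor bound there with gradient `(p1,p2,-2 p0)` and
quadratic form `A`.  Then `A σ σ ≥ 0` for `σ = (p1,p2,p0)`. -/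
theorem dsr_rule_core {U : E → ℝ} {Ω : Set E} (hΩ : IsOpen Ω) (hU : DsrDoubling U Ω)
    (hU' : DsrDoubling (fun x => - U x) Ω)
    {Ψ : E × E × E → ℝ} {x0 y0 z0 : E} (hx : x0 ∈ Ω) (hy : y0 ∈ Ω) (hz : z0 ∈ Ω)
    (hmax : ∀ᶠ Q in 𝓝 ((x0, y0, z0) : E × E × E),
      U Q.1 + U Q.2.1 - 2 * U Q.2.2 - Ψ Q ≤ U x0 + U y0 - 2 * U z0 - Ψ (x0, y0, z0))
    {p1 p2 p0 : E} {A : E × E × E → E × E × E → ℝ} {a : ℝ} (ha0 : 0 ≤ a)
    (hA : ∀ (σ m : E × E × E) (t : ℝ), A (t • σ + m) (t • σ + m) ≤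
      t ^ 2 * A σ σ + 2 * |t| * a * ‖σ‖ * ‖m‖ + a * ‖m‖ ^ 2)
    (hT : ∀ ε > 0, ∃ δ > 0, ∀ k : E × E × E, ‖k‖ < δ →
      Ψ ((x0, y0, z0) + k) - Ψ (x0, y0, z0)
        - (⟪p1, k.1⟫ + ⟪p2, k.2.1⟫ - 2 * ⟪p0, k.2.2⟫) - A k k / 2 ≤ ε * ‖k‖ ^ 2) :
    0 ≤ A (p1, p2, p0) (p1, p2, p0) := by
  by_contra hneg
  rw [not_le] at hneg
  set σ : E × E × E := (p1, p2, p0) with hσ
  set c : ℝ := - A σ σ with hc
  have hc0 : 0 < c := by rw [hc]; linarith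
  set s : ℝ := ‖σ‖ with hs
  have hs0 : 0 ≤ s := norm_nonneg _
  have hp1 : ‖p1‖ ≤ s := norm_fst_le σ
  have hp2 : ‖p2‖ ≤ s := (norm_fst_le σ.2).trans (norm_snd_le σ)
  have hp0 : ‖p0‖ ≤ s := (norm_snd_le σ.2).trans (norm_snd_le σ)
  -- choice of `ε`
  set ε : ℝ := c / (4 * (338 * s ^ 2 + 1)) with hεdef
  have hε0 : 0 < ε := by positivity
  have hε1 : 338 * ε * s ^ 2 ≤ c / 4 := by
    rw [hεdef]
    have h1 : (0:ℝ) < 338 * s ^ 2 + 1 := by positivity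
    have : 338 * (c / (4 * (338 * s ^ 2 + 1))) * s ^ 2 = c / 4 * (338 * s ^ 2 / (338 * s ^ 2 + 1)) := by
      field_simp
    rw [this]
    have h2 : 338 * s ^ 2 / (338 * s ^ 2 + 1) ≤ 1 := by
      rw [div_le_one h1]; linarith
    nlinarith
  obtain ⟨δ, hδ, hTδ⟩ := hT ε hε0
  obtain ⟨r1, hr1, hmaxb⟩ := Metric.eventually_nhds_iff_ball.1 hmax
  obtain ⟨rx, hrx, hbx⟩ := Metric.isOpen_iff.1 hΩ x0 hx
  obtain ⟨ry, hry, hby⟩ := Metric.isOpen_iff.1 hΩ y0 hy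
  obtain ⟨rz, hrz, hbz⟩ := Metric.isOpen_iff.1 hΩ z0 hz
  -- choice of `t`
  set μ : ℝ := min δ (min r1 (min rx (min ry rz))) with hμ
  have hμ0 : 0 < μ := by
    simp only [hμ, lt_min_iff]; exact ⟨hδ, hr1, hrx, hry, hrz⟩
  have hμδ : μ ≤ δ := min_le_left _ _
  have hμ1 : μ ≤ r1 := (min_le_right _ _).trans (min_le_left _ _)
  have hμx : μ ≤ rx := (min_le_right _ _).trans ((min_le_right _ _).trans (min_le_left _ _))
  have hμy : μ ≤ ry := (min_le_right _ _).trans ((min_le_right _ _).trans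
    ((min_le_right _ _).trans (min_le_left _ _)))
  have hμz : μ ≤ rz := (min_le_right _ _).trans ((min_le_right _ _).trans
    ((min_le_right _ _).trans (min_le_right _ _)))
  set t : ℝ := min (μ / (13 * s + 1)) (min (1 / (24 * a + 1)) (c / (4 * (24 * (a ^ 2 * s ^ 2) + 1))))
    with htdef
  have ht0 : 0 < t := by
    simp only [htdef, lt_min_iff]
    refine ⟨by positivity, by positivity, by positivity⟩
  have ht1 : 13 * t * s < μ := by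
    have h1 : t ≤ μ / (13 * s + 1) := min_le_left _ _
    rw [le_div_iff₀ (by positivity)] at h1
    nlinarith
  have ht2 : 24 * t * a ≤ 1 := by
    have h1 : t ≤ 1 / (24 * a + 1) := (min_le_right _ _).trans (min_le_left _ _)
    rw [le_div_iff₀ (by positivity)] at h1
    nlinarith
  have ht3 : 24 * t * (a ^ 2 * s ^ 2) ≤ c / 4 := by
    have h1 : t ≤ c / (4 * (24 * (a ^ 2 * s ^ 2) + 1)) := (min_le_right _ _).trans (min_le_right _ _)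
    rw [le_div_iff₀ (by positivity)] at h1
    nlinarith
  -- inclusion of the balls
  have hincl : ∀ (w p : E) (r : ℝ), ball w r ⊆ Ω → μ ≤ r → ‖p‖ ≤ s →
      closedBall (w - t • p) (2 * (t * ‖p‖)) ⊆ Ω := by
    intro w p r hb hr hp y hy
    apply hb
    rw [mem_ball, dist_eq_norm]
    rw [mem_closedBall, dist_eq_norm] at hy
    have e : y - w = (y - (w - t • p)) - t • p := by abel
    have h1 : ‖y - w‖ ≤ 2 * (t * ‖p‖) + t * ‖p‖ := by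
      rw [e]
      refine (norm_sub_le _ _).trans ?_
      rw [norm_smul, Real.norm_eq_abs, abs_of_pos ht0]
      linarith
    have h2 : t * ‖p‖ ≤ t * s := by gcongr
    nlinarith
  obtain ⟨d1, h1a, h1b, h1c⟩ := dsr_step hU (x0 := x0) (p := p1) ht0 (hincl x0 p1 rx hbx hμx hp1)
  obtain ⟨d2, h2a, h2b, h2c⟩ := dsr_step hU (x0 := y0) (p := p2) ht0 (hincl y0 p2 ry hby hμy hp2)
  obtain ⟨d3, h3a, h3b, h3c⟩ := dsr_step hU' (x0 := z0) (p := -p0) ht0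
    (hincl z0 (-p0) rz hbz hμz (by rwa [norm_neg]))
  rw [norm_neg] at h3c
  rw [inner_neg_left] at h3b
  set N : ℝ := ‖d1‖ + ‖d2‖ + ‖d3‖ with hN
  have hN0 : 0 ≤ N := by positivity
  have hN1 : N ≤ 12 * t * s := by
    have e1 : 4 * t * ‖p1‖ ≤ 4 * t * s := by gcongr
    have e2 : 4 * t * ‖p2‖ ≤ 4 * t * s := by gcongr
    have e3 : 4 * t * ‖p0‖ ≤ 4 * t * s := by gcongr
    linarith
  set mp : E × E × E := (d1, d2, 0) with hmp
  set mm : E × E × E := (0, 0, d3) with hmm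
  have hmpN : ‖mp‖ ≤ N := by
    simp only [hmp, Prod.norm_def, norm_zero]
    have := norm_nonneg d1; have := norm_nonneg d2; have := norm_nonneg d3
    simp only [max_le_iff]
    refine ⟨by linarith, by linarith, by linarith⟩
  have hmmN : ‖mm‖ ≤ N := by
    simp only [hmm, Prod.norm_def, norm_zero]
    have := norm_nonneg d1; have := norm_nonneg d2; have := norm_nonneg d3
    simp only [max_le_iff]
    refine ⟨by linarith, by linarith, by linarith⟩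
  set kp : E × E × E := t • σ + mp with hkp
  set km : E × E × E := (-t) • σ + mm with hkm
  have hkpn : ‖kp‖ ≤ 13 * t * s := by
    calc ‖kp‖ ≤ ‖t • σ‖ + ‖mp‖ := norm_add_le _ _
      _ ≤ t * s + N := by
          rw [norm_smul, Real.norm_eq_abs, abs_of_pos ht0]; linarith
      _ ≤ 13 * t * s := by linarith
  have hkmn : ‖km‖ ≤ 13 * t * s := by
    calc ‖km‖ ≤ ‖(-t) • σ‖ + ‖mm‖ := norm_add_le _ _
      _ ≤ t * s + N := by
          rw [norm_smul, Real.norm_eq_abs, abs_neg, abs_of_pos ht0]; linarith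
      _ ≤ 13 * t * s := by linarith
  have hPp : ((x0, y0, z0) : E × E × E) + kp = (x0 + t • p1 + d1, y0 + t • p2 + d2, z0 - t • (-p0)) := by
    simp only [hkp, hσ, hmp, Prod.smul_mk, Prod.mk_add_mk, add_zero, smul_neg, sub_neg_eq_add,
      add_assoc]
  have hPm : ((x0, y0, z0) : E × E × E) + km = (x0 - t • p1, y0 - t • p2, z0 + t • (-p0) + d3) := by
    simp only [hkm, hσ, hmm, Prod.smul_mk, Prod.mk_add_mk, add_zero, smul_neg, neg_smul,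
      sub_eq_add_neg, add_assoc, Prod.neg_mk]
  -- the maximum
  have hm1 := hmaxb (((x0, y0, z0) : E × E × E) + kp) (by
    rw [mem_ball, dist_eq_norm, add_sub_cancel_left]; linarith)
  have hm2 := hmaxb (((x0, y0, z0) : E × E × E) + km) (by
    rw [mem_ball, dist_eq_norm, add_sub_cancel_left]; linarith)
  have hT1 := hTδ kp (by linarith)
  have hT2 := hTδ km (by linarith)
  rw [hPp] at hm1 hT1
  rw [hPm] at hm2 hT2
  simp only at hm1 hm2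
  -- the gradient terms
  have hg1 : ⟪p1, kp.1⟫ + ⟪p2, kp.2.1⟫ - 2 * ⟪p0, kp.2.2⟫ + (⟪p1, km.1⟫ + ⟪p2, km.2.1⟫ - 2 * ⟪p0, km.2.2⟫)
      = ⟪p1, d1⟫ + ⟪p2, d2⟫ - 2 * ⟪p0, d3⟫ := by
    simp only [hkp, hkm, hσ, hmp, hmm, Prod.smul_mk, Prod.mk_add_mk, add_zero,
      inner_add_right, inner_smul_right]
    ring
  set G : ℝ := ⟪p1, d1⟫ + ⟪p2, d2⟫ - 2 * ⟪p0, d3⟫ with hG
  have hG1 : 12 * t * G ≤ - N ^ 2 := by
    have e : N ^ 2 ≤ 3 * (‖d1‖ ^ 2 + ‖d2‖ ^ 2 + 2 * ‖d3‖ ^ 2) := dsr_sq_sum_le _ _ _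
    have e' : 12 * t * G = 3 * (4 * t * ⟪p1, d1⟫) + 3 * (4 * t * ⟪p2, d2⟫)
        + 6 * (4 * t * -⟪p0, d3⟫) := by rw [hG]; ring
    rw [e']
    linarith
  have hA1 : A kp kp ≤ - (t ^ 2 * c) + 2 * t * a * s * N + a * N ^ 2 := by
    have := hA σ mp t
    rw [abs_of_pos ht0] at this
    have e1 : 2 * t * a * ‖σ‖ * ‖mp‖ ≤ 2 * t * a * s * N := by gcongr
    have e2 : a * ‖mp‖ ^ 2 ≤ a * N ^ 2 := by gcongr
    have e3 : t ^ 2 * A σ σ = - (t ^ 2 * c) := by rw [hc]; ring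
    linarith
  have hA2 : A km km ≤ - (t ^ 2 * c) + 2 * t * a * s * N + a * N ^ 2 := by
    have := hA σ mm (-t)
    rw [abs_neg, abs_of_pos ht0] at this
    have e1 : 2 * t * a * ‖σ‖ * ‖mm‖ ≤ 2 * t * a * s * N := by gcongr
    have e2 : a * ‖mm‖ ^ 2 ≤ a * N ^ 2 := by gcongr
    have e3 : (-t) ^ 2 * A σ σ = - (t ^ 2 * c) := by rw [hc]; ring
    linarith
  have hn1 : ε * ‖kp‖ ^ 2 ≤ 169 * ε * (t ^ 2 * s ^ 2) := by
    have h : ‖kp‖ ^ 2 ≤ (13 * t * s) ^ 2 := pow_le_pow_left₀ (norm_nonneg _) hkpn 2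
    calc ε * ‖kp‖ ^ 2 ≤ ε * (13 * t * s) ^ 2 := by gcongr
      _ = 169 * ε * (t ^ 2 * s ^ 2) := by ring
  have hn2 : ε * ‖km‖ ^ 2 ≤ 169 * ε * (t ^ 2 * s ^ 2) := by
    have h : ‖km‖ ^ 2 ≤ (13 * t * s) ^ 2 := pow_le_pow_left₀ (norm_nonneg _) hkmn 2
    calc ε * ‖km‖ ^ 2 ≤ ε * (13 * t * s) ^ 2 := by gcongr
      _ = 169 * ε * (t ^ 2 * s ^ 2) := by ring
  refine dsr_final_ineq (G := G) (N := N) ht0 ht2 ht3 hε1 hc0 hG1 ?_
  linarith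

/-- **The discrete three-point sum rule**, `C^2` form. -/
theorem dsr_rule {U : E → ℝ} {Ω : Set E} (hΩ : IsOpen Ω) (hU : DsrDoubling U Ω)
    (hU' : DsrDoubling (fun x => - U x) Ω)
    {Ψ : E × E × E → ℝ} {x0 y0 z0 : E} (hx : x0 ∈ Ω) (hy : y0 ∈ Ω) (hz : z0 ∈ Ω)
    (hmax : ∀ᶠ Q in 𝓝 ((x0, y0, z0) : E × E × E),
      U Q.1 + U Q.2.1 - 2 * U Q.2.2 - Ψ Q ≤ U x0 + U y0 - 2 * U z0 - Ψ (x0, y0, z0))
    (hΨ : ContDiffAt ℝ 2 Ψ (x0, y0, z0)) {p1 p2 p0 : E}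
    (hg : ∀ k : E × E × E,
      fderiv ℝ Ψ (x0, y0, z0) k = ⟪p1, k.1⟫ + ⟪p2, k.2.1⟫ - 2 * ⟪p0, k.2.2⟫) :
    0 ≤ fderiv ℝ (fderiv ℝ Ψ) (x0, y0, z0) (p1, p2, p0) (p1, p2, p0) := by
  obtain ⟨a, ha, hA⟩ := dsr_bilin_le' (fderiv ℝ (fderiv ℝ Ψ) (x0, y0, z0))
  refine dsr_rule_core (A := fun u v => fderiv ℝ (fderiv ℝ Ψ) (x0, y0, z0) u v)
    (a := a) hΩ hU hU' hx hy hz hmax ha hA (fun ε hε => ?_)
  obtain ⟨δ, hδ, h⟩ := dsr_taylor2_bound hΨ hε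
  refine ⟨δ, hδ, fun k hk => ?_⟩
  have := (abs_le.1 (h k hk)).2
  rw [hg k] at this
  exact this

/-- Line form of the rule: the symmetric second differences of `Ψ` along
`σ = (p1,p2,p0)` cannot be `≤ - c τ^2` with `c > 0`. -/
theorem dsr_rule_line {U : E → ℝ} {Ω : Set E} (hΩ : IsOpen Ω) (hU : DsrDoubling U Ω)
    (hU' : DsrDoubling (fun x => - U x) Ω)
    {Ψ : E × E × E → ℝ} {x0 y0 z0 : E} (hx : x0 ∈ Ω) (hy : y0 ∈ Ω) (hz : z0 ∈ Ω)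
    (hmax : ∀ᶠ Q in 𝓝 ((x0, y0, z0) : E × E × E),
      U Q.1 + U Q.2.1 - 2 * U Q.2.2 - Ψ Q ≤ U x0 + U y0 - 2 * U z0 - Ψ (x0, y0, z0))
    (hΨ : ContDiffAt ℝ 2 Ψ (x0, y0, z0)) {p1 p2 p0 : E}
    (hg : ∀ k : E × E × E,
      fderiv ℝ Ψ (x0, y0, z0) k = ⟪p1, k.1⟫ + ⟪p2, k.2.1⟫ - 2 * ⟪p0, k.2.2⟫)
    {c : ℝ} (hc : 0 < c)
    (hline : ∀ᶠ τ in 𝓝[>] (0 : ℝ),
      Ψ ((x0, y0, z0) + τ • (p1, p2, p0)) + Ψ ((x0, y0, z0) + (-τ) • (p1, p2, p0))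
        - 2 * Ψ (x0, y0, z0) ≤ - c * τ ^ 2) : False := by
  have hA := dsr_rule hΩ hU hU' hx hy hz hmax hΨ hg
  set σ : E × E × E := (p1, p2, p0) with hσ
  set P : E × E × E := (x0, y0, z0) with hP
  set ε : ℝ := c / (4 * (‖σ‖ ^ 2 + 1)) with hεdef
  have hε0 : 0 < ε := by positivity
  have hε1 : 2 * ε * ‖σ‖ ^ 2 ≤ c / 2 := by
    rw [hεdef]
    have h1 : (0:ℝ) < ‖σ‖ ^ 2 + 1 := by positivity
    have : 2 * (c / (4 * (‖σ‖ ^ 2 + 1))) * ‖σ‖ ^ 2 = c / 2 * (‖σ‖ ^ 2 / (‖σ‖ ^ 2 + 1)) := by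
      field_simp
      ring
    rw [this]
    have h2 : ‖σ‖ ^ 2 / (‖σ‖ ^ 2 + 1) ≤ 1 := by
      rw [div_le_one h1]; linarith
    nlinarith
  obtain ⟨δ, hδ, h⟩ := dsr_taylor2_bound hΨ hε0
  have hsmall : ∀ᶠ τ in 𝓝[>] (0 : ℝ), τ * ‖σ‖ < δ := by
    have : Tendsto (fun τ : ℝ => τ * ‖σ‖) (𝓝 0) (𝓝 (0 * ‖σ‖)) :=
      (continuous_id.mul continuous_const).tendsto 0
    rw [zero_mul] at this
    exact (this.eventually (gt_mem_nhds hδ)).filter_mono nhdsWithin_le_nhds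
  obtain ⟨τ, ⟨h1, h2⟩, h3⟩ := ((hline.and hsmall).and self_mem_nhdsWithin).exists
  have hτ : 0 < τ := h3
  have hn1 : ‖τ • σ‖ = τ * ‖σ‖ := by rw [norm_smul, Real.norm_eq_abs, abs_of_pos hτ]
  have hn2 : ‖(-τ) • σ‖ = τ * ‖σ‖ := by rw [norm_smul, Real.norm_eq_abs, abs_neg, abs_of_pos hτ]
  have e1 := (abs_le.1 (h (τ • σ) (by rw [hn1]; exact h2))).1
  have e2 := (abs_le.1 (h ((-τ) • σ) (by rw [hn2]; exact h2))).1
  rw [hn1] at e1
  rw [hn2] at e2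
  simp only [map_smul, smul_apply, smul_eq_mul] at e1 e2
  have hτ2 : 0 < τ ^ 2 := by positivity
  have e3 : ε * (τ * ‖σ‖) ^ 2 = τ ^ 2 * (ε * ‖σ‖ ^ 2) := by ring
  rw [e3] at e1 e2
  have e4 : τ ^ 2 * (2 * ε * ‖σ‖ ^ 2) ≤ τ ^ 2 * (c / 2) := by gcongr
  have e5 : 0 ≤ τ ^ 2 * fderiv ℝ (fderiv ℝ Ψ) P σ σ := by positivity
  nlinarith

/-- The rule for jet-harmonic functions. -/
theorem JetHarm.dsr_rule_line [FiniteDimensional ℝ E] {U : E → ℝ} {Ω : Set E} (hΩ : IsOpen Ω)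
    (hU : JetHarm U Ω)
    {Ψ : E × E × E → ℝ} {x0 y0 z0 : E} (hx : x0 ∈ Ω) (hy : y0 ∈ Ω) (hz : z0 ∈ Ω)
    (hmax : ∀ᶠ Q in 𝓝 ((x0, y0, z0) : E × E × E),
      U Q.1 + U Q.2.1 - 2 * U Q.2.2 - Ψ Q ≤ U x0 + U y0 - 2 * U z0 - Ψ (x0, y0, z0))
    (hΨ : ContDiffAt ℝ 2 Ψ (x0, y0, z0)) {p1 p2 p0 : E}
    (hg : ∀ k : E × E × E,
      fderiv ℝ Ψ (x0, y0, z0) k = ⟪p1, k.1⟫ + ⟪p2, k.2.1⟫ - 2 * ⟪p0, k.2.2⟫)
    {c : ℝ} (hc : 0 < c)
    (hline : ∀ᶠ τ in 𝓝[>] (0 : ℝ),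
      Ψ ((x0, y0, z0) + τ • (p1, p2, p0)) + Ψ ((x0, y0, z0) + (-τ) • (p1, p2, p0))
        - 2 * Ψ (x0, y0, z0) ≤ - c * τ ^ 2) : False :=
  Claimed.Agent.R330.dsr_rule_line hΩ (hU.2.1.dsrDoubling hU.1) (hU.2.2.dsrDoubling hU.1.neg)
    hx hy hz hmax hΨ hg hc hline

end Claimed.Agent.R330
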