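import Mathlib

/-!
# Second-order Taylor expansion with little-o remainder (row 330, package DSR)

`dsr_taylor2_bound`: a real function which is `C^2` at a point of a normed space has a
second-order Taylor expansion with remainder `o(‖k‖^2)` (in `ε`-`δ` form).
-/

namespace Claimed.Agent.R330

open Metric Filter Topology Asymptotics

variable {F : Type*} [NormedAddCommGroup F] [NormedSpace ℝ F]

/-- Second-order Taylor expansion, `ε`-`δ` form. -/
theorem dsr_taylor2_bound {Ψ : F → ℝ} {P : F} (h : ContDiffAt ℝ 2 Ψ P) {ε : ℝ} (hε : 0 < ε) :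
    ∃ δ > 0, ∀ k : F, ‖k‖ < δ →
      |Ψ (P + k) - Ψ P - fderiv ℝ Ψ P k - fderiv ℝ (fderiv ℝ Ψ) P k k / 2| ≤ ε * ‖k‖ ^ 2 := by
  classical
  -- differentiability near `P`
  have hd : ∀ᶠ y in 𝓝 P, DifferentiableAt ℝ Ψ y := by
    obtain ⟨u, hu, h'u⟩ : ∃ u ∈ 𝓝 P, ContDiffOn ℝ 2 Ψ u :=
      h.contDiffOn (m := 2) le_rfl (by simp)
    rcases _root_.mem_nhds_iff.1 hu with ⟨v, vu, v_open, xv⟩
    filter_upwards [v_open.mem_nhds xv] with y hy
    have := (h'u.mono vu y hy).contDiffAt (v_open.mem_nhds hy)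
    exact this.differentiableAt two_ne_zero
  have hd2 : DifferentiableAt ℝ (fderiv ℝ Ψ) P := by
    apply ContDiffAt.differentiableAt _ one_ne_zero
    exact h.fderiv_right (by norm_num)
  have hsymm : IsSymmSndFDerivAt ℝ Ψ P := h.isSymmSndFDerivAt (by simp)
  set A : F →L[ℝ] F →L[ℝ] ℝ := fderiv ℝ (fderiv ℝ Ψ) P with hA
  have hA' : HasFDerivAt (fderiv ℝ Ψ) A P := hd2.hasFDerivAt
  -- little-o for the first derivative
  have h1 : ∀ᶠ y in 𝓝 P, ‖fderiv ℝ Ψ y - fderiv ℝ Ψ P - A (y - P)‖ ≤ ε * ‖y - P‖ := by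
    have := hA'.isLittleO
    exact this.def hε
  obtain ⟨δ, hδ, hball⟩ := Metric.eventually_nhds_iff_ball.1 (hd.and h1)
  refine ⟨δ, hδ, fun k hk => ?_⟩
  -- the remainder function
  set G : F → ℝ := fun m => Ψ (P + m) - Ψ P - fderiv ℝ Ψ P m - A m m / 2 with hG
  have hmem : ∀ m ∈ closedBall (0 : F) ‖k‖, P + m ∈ ball P δ := by
    intro m hm
    simp only [mem_ball, dist_self_add_left]
    exact lt_of_le_of_lt (by simpa using hm) hk
  have hGd : ∀ m ∈ closedBall (0 : F) ‖k‖,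
      HasFDerivWithinAt G (fderiv ℝ Ψ (P + m) - fderiv ℝ Ψ P - A m) (closedBall (0 : F) ‖k‖) m := by
    intro m hm
    have hm' := hmem m hm
    have e1 : HasFDerivAt (fun m => Ψ (P + m)) (fderiv ℝ Ψ (P + m)) m :=
      (hasFDerivAt_comp_add_left P).2 (hball _ hm').1.hasFDerivAt
    have e2 : HasFDerivAt (fun m : F => fderiv ℝ Ψ P m) (fderiv ℝ Ψ P) m :=
      (fderiv ℝ Ψ P).hasFDerivAt
    have e3 : HasFDerivAt (fun m : F => A m m) (A m + A.flip m) m := by
      have hb : IsBoundedBilinearMap ℝ (fun p : F × F => A p.1 p.2) := A.isBoundedBilinearMap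
      have := (hb.hasFDerivAt (m, m)).comp (f := fun x : F => (x, x)) m
        ((hasFDerivAt_id m).prodMk (hasFDerivAt_id m))
      refine this.congr_fderiv ?_
      ext v
      simp [IsBoundedBilinearMap.deriv]
    have e4 : A.flip m = A m := by
      ext v
      simpa using hsymm v m
    have e5 : HasFDerivAt G
        (fderiv ℝ Ψ (P + m) - fderiv ℝ Ψ P - (2 : ℝ)⁻¹ • (A m + A.flip m)) m := by
      have := ((e1.sub_const (Ψ P)).sub e2).sub (e3.const_smul (2 : ℝ)⁻¹)
      refine this.congr_of_eventuallyEq (Eventually.of_forall fun x => ?_)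
      simp [hG, div_eq_inv_mul]
    have e6 : (2 : ℝ)⁻¹ • (A m + A.flip m) = A m := by
      rw [e4, ← two_smul ℝ (A m), smul_smul]; simp
    rw [e6] at e5
    exact e5.hasFDerivWithinAt
  have hbound : ∀ m ∈ closedBall (0 : F) ‖k‖,
      ‖fderiv ℝ Ψ (P + m) - fderiv ℝ Ψ P - A m‖ ≤ ε * ‖k‖ := by
    intro m hm
    have := (hball _ (hmem m hm)).2
    simp only [add_sub_cancel_left] at this
    refine this.trans ?_
    have : ‖m‖ ≤ ‖k‖ := by simpa using hm
    gcongr
  have key := (convex_closedBall (0 : F) ‖k‖).norm_image_sub_le_of_norm_hasFDerivWithin_le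
    hGd hbound (x := 0) (y := k) (by simp) (by simp)
  have hG0 : G 0 = 0 := by simp [hG]
  rw [hG0, sub_zero, sub_zero, Real.norm_eq_abs] at key
  calc _ = |G k| := rfl
    _ ≤ ε * ‖k‖ * ‖k‖ := key
    _ = ε * ‖k‖ ^ 2 := by ring

end Claimed.Agent.R330
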