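import Claimed.Agent.R330.UFJets

/-!
Row 330, package UF, part A2: invariances of the jet form.
-/

set_option autoImplicit false

open scoped Topology RealInnerProductSpace
open Metric Filter

namespace Claimed.Agent.R330

variable {E : Type*} [NormedAddCommGroup E] [InnerProductSpace ℝ E]

lemma JetSub.mono {u : E → ℝ} {Ω Ω' : Set E} (h : JetSub u Ω) (hs : Ω' ⊆ Ω) : JetSub u Ω' :=
  fun z hz p X hX => h z (hs hz) p X hX

lemma JetHarm.mono {u : E → ℝ} {Ω Ω' : Set E} (h : JetHarm u Ω) (hs : Ω' ⊆ Ω) : JetHarm u Ω' :=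
  ⟨h.1.mono hs, h.2.1.mono hs, h.2.2.mono hs⟩

lemma JetHarm.neg {u : E → ℝ} {Ω : Set E} (h : JetHarm u Ω) : JetHarm (fun x => - u x) Ω :=
  ⟨h.1.neg, h.2.2, by simpa using h.2.1⟩

/-- Affine change of the independent variable, positive rescaling and shift of the values. -/
lemma JetSub.affine {u : E → ℝ} {Ω : Set E} (h : JetSub u Ω) (z0 : E) {r a : ℝ} (hr : 0 < r)
    (ha : 0 < a) (c : ℝ) :
    JetSub (fun y => a * u (z0 + r • y) + c) {y | z0 + r • y ∈ Ω} := by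
  intro y0 hy0 p X hX
  have hcont : Tendsto (fun w : E => r⁻¹ • (w - z0)) (𝓝 (z0 + r • y0)) (𝓝 y0) := by
    have : ContinuousAt (fun w : E => r⁻¹ • (w - z0)) (z0 + r • y0) := by fun_prop
    have h2 := this.tendsto
    simpa [smul_smul, inv_mul_cancel₀ hr.ne'] using h2
  have h1 := hcont.eventually hX
  have key := h (z0 + r • y0) hy0 ((a⁻¹ * r⁻¹) • p) ((a⁻¹ * r⁻¹ * r⁻¹) • X) (by
    filter_upwards [h1] with w hw
    have e1 : z0 + r • r⁻¹ • (w - z0) = w := by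
      rw [smul_smul, mul_inv_cancel₀ hr.ne', one_smul]; abel
    rw [e1] at hw
    have e2 : r⁻¹ • (w - z0) - y0 = r⁻¹ • (w - (z0 + r • y0)) := by
      rw [smul_sub, smul_sub, smul_add, smul_smul, inv_mul_cancel₀ hr.ne', one_smul]; abel
    rw [e2] at hw
    simp only [inner_smul_right, map_smul, smul_apply, smul_eq_mul,
      inner_smul_left, RCLike.conj_to_real] at hw ⊢
    have h3 : a * u w ≤ a * u (z0 + r • y0) + r⁻¹ * ⟪p, w - (z0 + r • y0)⟫ +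
        r⁻¹ * (r⁻¹ * X (w - (z0 + r • y0)) (w - (z0 + r • y0))) / 2 := by linarith
    have h4 : u w = a⁻¹ * (a * u w) := by field_simp
    rw [h4]
    calc a⁻¹ * (a * u w) ≤ a⁻¹ * (a * u (z0 + r • y0) + r⁻¹ * ⟪p, w - (z0 + r • y0)⟫ +
        r⁻¹ * (r⁻¹ * X (w - (z0 + r • y0)) (w - (z0 + r • y0))) / 2) :=
          mul_le_mul_of_nonneg_left h3 (inv_pos.mpr ha).le
      _ = _ := by field_simp)
  simp only [map_smul, smul_apply, smul_eq_mul] at key
  have hpos : 0 < a⁻¹ * r⁻¹ * r⁻¹ * (a⁻¹ * r⁻¹ * (a⁻¹ * r⁻¹)) := by positivity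
  have key2 : 0 ≤ (a⁻¹ * r⁻¹ * r⁻¹ * (a⁻¹ * r⁻¹ * (a⁻¹ * r⁻¹))) * X p p := by
    have e : (a⁻¹ * r⁻¹ * r⁻¹ * (a⁻¹ * r⁻¹ * (a⁻¹ * r⁻¹))) * X p p =
      a⁻¹ * r⁻¹ * (a⁻¹ * r⁻¹ * (a⁻¹ * r⁻¹ * r⁻¹ * X p p)) := by ring
    rw [e]; exact key
  exact nonneg_of_mul_nonneg_right key2 hpos

lemma JetHarm.affine {u : E → ℝ} {Ω : Set E} (h : JetHarm u Ω) (z0 : E) {r a : ℝ} (hr : 0 < r)
    (ha : 0 < a) (c : ℝ) :
    JetHarm (fun y => a * u (z0 + r • y) + c) {y | z0 + r • y ∈ Ω} := by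
  refine ⟨?_, h.2.1.affine z0 hr ha c, ?_⟩
  · have h1 : ContinuousOn (fun y : E => z0 + r • y) {y | z0 + r • y ∈ Ω} := by fun_prop
    have h2 : ContinuousOn (fun y : E => u (z0 + r • y)) {y | z0 + r • y ∈ Ω} :=
      h.1.comp h1 (fun y hy => hy)
    exact (continuousOn_const.mul h2).add continuousOn_const
  · have := h.2.2.affine z0 hr ha (-c)
    refine fun z hz p X hX => this z hz p X ?_
    filter_upwards [hX] with y hy
    linarith

end Claimed.Agent.R330
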