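/-
Row 330 (S0589), package W7 (owner helper11): from the scale-normalised improvement of flatness
(`ImproveFlat`, = paper Prop. 3.6 + Liouville theorem) to the power decay of cylinder fits
(paper Prop. 3.3), without the modulus `b(s)`.
-/
import Claimed.Agent.R330.CylFit
import Claimed.Agent.R330.UFInv

set_option autoImplicit false

namespace Claimed.Agent.R330

open Metric Set Filter Topology
open scoped RealInnerProductSpace

variable {F : Type*} [NormedAddCommGroup F] [InnerProductSpace ℝ F]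

/-- The blow-up of `U` at centre `z` and scale `r`. -/
noncomputable def decayRescale (U : F → ℝ) (z : F) (r : ℝ) : F → ℝ :=
  fun H => (U (z + r • H) - U z) / r

/-- **Improvement of flatness**, normalised at centre `0` and radius `1`
(paper Prop. 3.6 + Theorem 3.1, in contrapositive form). -/
def ImproveFlat (F : Type*) [NormedAddCommGroup F] [InnerProductSpace ℝ F] (L : ℝ) : Prop :=
  ∃ ε0 : ℝ, 0 < ε0 ∧ ∃ M0 : ℝ, 2 ≤ M0 ∧ ∀ (U : F → ℝ) (lam : ℝ), 0 < lam → lam < ε0 →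
    JetHarm U (ball 0 M0) →
    (∀ (z : F) (r : ℝ), ‖z‖ ≤ M0 → 0 < r → r ≤ M0 →
      ∃ P : F, 1 / 2 ≤ ‖P‖ ∧ ‖P‖ ≤ L ∧ CylFit U (32 * lam) z r P) →
    ∃ P : F, CylFit U lam 0 1 P

/-- The sequence form of the negation of `ImproveFlat`: this is the input of paper Prop. 3.6. -/
def BadSeq (F : Type*) [NormedAddCommGroup F] [InnerProductSpace ℝ F] (L : ℝ)
    (U : ℕ → F → ℝ) (lam : ℕ → ℝ) : Prop :=
  (∀ i, 0 < lam i) ∧ (∀ i : ℕ, lam i < 1 / ((i : ℝ) + 1)) ∧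
  (∀ i : ℕ, JetHarm (U i) (ball 0 ((i : ℝ) + 2))) ∧
  (∀ (i : ℕ) (z : F) (r : ℝ), ‖z‖ ≤ (i : ℝ) + 2 → 0 < r → r ≤ (i : ℝ) + 2 →
      ∃ P : F, 1 / 2 ≤ ‖P‖ ∧ ‖P‖ ≤ L ∧ CylFit (U i) (32 * lam i) z r P) ∧
  (∀ i, ¬ ∃ P : F, CylFit (U i) (lam i) 0 1 P)

/-- If no bad sequence exists then flatness improves. -/
theorem decay_improveFlat_of_no_badSeq {L : ℝ}
    (h : ∀ (U : ℕ → F → ℝ) (lam : ℕ → ℝ), ¬ BadSeq F L U lam) : ImproveFlat F L := by
  by_contra hcon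
  unfold ImproveFlat at hcon
  push Not at hcon
  have hsel : ∀ i : ℕ, ∃ (U : F → ℝ) (lam : ℝ), 0 < lam ∧ lam < 1 / ((i : ℝ) + 1) ∧
      JetHarm U (ball 0 ((i : ℝ) + 2)) ∧
      (∀ (z : F) (r : ℝ), ‖z‖ ≤ (i : ℝ) + 2 → 0 < r → r ≤ (i : ℝ) + 2 →
        ∃ P : F, 1 / 2 ≤ ‖P‖ ∧ ‖P‖ ≤ L ∧ CylFit U (32 * lam) z r P) ∧
      ∀ P : F, ¬ CylFit U lam 0 1 P := fun i =>
    hcon (1 / ((i : ℝ) + 1)) (by positivity) ((i : ℝ) + 2) (by
      have : (0 : ℝ) ≤ i := Nat.cast_nonneg i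
      linarith)
  choose U lam h1 h2 h3 h4 h5 using hsel
  exact h U lam ⟨h1, h2, h3, h4, fun i ⟨P, hP⟩ => h5 i P hP⟩

lemma decay_inCyl_smul {lam r r' : ℝ} {P h : F} (hr : 0 < r) :
    InCyl lam (r * r') P (r • h) ↔ InCyl lam r' P h := by
  unfold InCyl
  have e1 : |⟪r • h, cylN P⟫| = r * |⟪h, cylN P⟫| := by
    rw [real_inner_smul_left, abs_mul, abs_of_pos hr]
  have e2 : ‖r • h - ⟪r • h, cylN P⟫ • cylN P‖ = r * ‖h - ⟪h, cylN P⟫ • cylN P‖ := by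
    rw [real_inner_smul_left, mul_smul, ← smul_sub, norm_smul, Real.norm_eq_abs, abs_of_pos hr]
  rw [e1, e2]
  constructor
  · rintro ⟨a, b⟩
    refine ⟨le_of_mul_le_mul_left a hr, ?_⟩
    have : r * ‖h - ⟪h, cylN P⟫ • cylN P‖ ≤ r * (Real.sqrt lam * r') := by linarith
    exact le_of_mul_le_mul_left this hr
  · rintro ⟨a, b⟩
    refine ⟨mul_le_mul_of_nonneg_left a hr.le, ?_⟩
    have := mul_le_mul_of_nonneg_left b hr.le
    linarith

/-- Cylinder fits are invariant under blow-up. -/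
theorem decay_cylFit_rescale {U : F → ℝ} {z : F} {r : ℝ} (hr : 0 < r) {lam : ℝ} {z' : F}
    {r' : ℝ} {P : F} :
    CylFit (decayRescale U z r) lam z' r' P ↔ CylFit U lam (z + r • z') (r * r') P := by
  unfold CylFit
  refine and_congr Iff.rfl ?_
  have key : ∀ h : F, decayRescale U z r (z' + h) - decayRescale U z r z' - ⟪P, h⟫
      = (U (z + r • z' + r • h) - U (z + r • z') - ⟪P, r • h⟫) / r := by
    intro h
    unfold decayRescale
    rw [real_inner_smul_right, smul_add, add_assoc]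
    field_simp
    ring
  constructor
  · intro H h hh
    have e : h = r • (r⁻¹ • h) := by rw [smul_smul, mul_inv_cancel₀ hr.ne', one_smul]
    rw [e] at hh ⊢
    have h1 := H (r⁻¹ • h) ((decay_inCyl_smul hr).mp hh)
    rw [key, abs_div, abs_of_pos hr, div_le_iff₀ hr] at h1
    linarith
  · intro H h hh
    have h1 := H (r • h) ((decay_inCyl_smul hr).mpr hh)
    rw [key, abs_div, abs_of_pos hr, div_le_iff₀ hr]
    linarith

/-- Blow-ups of jet-harmonic functions are jet-harmonic. -/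
theorem decay_jetHarm_rescale {U : F → ℝ} {Ω : Set F} (h : JetHarm U Ω) (z : F) {r : ℝ}
    (hr : 0 < r) : JetHarm (decayRescale U z r) {H | z + r • H ∈ Ω} := by
  have := h.affine z hr (inv_pos.mpr hr) (-(r⁻¹ * U z))
  have e : (fun y => r⁻¹ * U (z + r • y) + -(r⁻¹ * U z)) = decayRescale U z r := by
    funext y
    unfold decayRescale
    field_simp
    ring
  rwa [e] at this

/-- `DecayS 𝒰 s lam0`: every parameter in `(lam0, 1)` has a cylinder fit, for every member of the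
family, at every centre `z` and radius `r` with `r ≤ s * (3/4 - ‖z‖)`. -/
def DecayS (𝒰 : Set (F → ℝ)) (s lam0 : ℝ) : Prop :=
  ∀ U ∈ 𝒰, ∀ (z : F) (r : ℝ), 0 < r → ‖z‖ + r / s ≤ 3 / 4 → ∀ μ : ℝ, lam0 < μ → μ < 1 →
    ∃ P : F, CylFit U μ z r P

lemma DecayS.mono_left {𝒰 : Set (F → ℝ)} {s s' lam0 : ℝ} (h : DecayS 𝒰 s lam0) (hs' : 0 < s')
    (hss : s' ≤ s) : DecayS 𝒰 s' lam0 := by
  intro U hU z r hr hz μ h1 h2
  refine h U hU z r hr ?_ μ h1 h2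
  have : r / s ≤ r / s' := div_le_div_of_nonneg_left hr.le hs' hss
  linarith

lemma DecayS.mono_right {𝒰 : Set (F → ℝ)} {s lam0 lam1 : ℝ} (h : DecayS 𝒰 s lam0)
    (hl : lam0 ≤ lam1) : DecayS 𝒰 s lam1 :=
  fun U hU z r hr hz μ h1 h2 => h U hU z r hr hz μ (hl.trans_lt h1) h2

lemma decayS_one (𝒰 : Set (F → ℝ)) (s : ℝ) : DecayS 𝒰 s 1 :=
  fun _ _ _ _ _ _ _ h1 h2 => absurd h1 (not_lt.mpr h2.le)

/-- One step of the iteration: `S(2 M0 s, lam0) ⇒ S(s, lam0 / 32)`. -/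
theorem decay_step {𝒰 : Set (F → ℝ)} {L ε0 M0 : ℝ} (hM0 : 2 ≤ M0)
    (hharm : ∀ U ∈ 𝒰, JetHarm U (ball 0 1))
    (hslope : ∀ U ∈ 𝒰, ∀ (z : F) (r μ : ℝ) (P : F), 0 < r → ‖z‖ + 8 * r ≤ 3 / 4 → 0 < μ →
      μ ≤ 1 / 4 → CylFit U μ z r P → 1 / 2 ≤ ‖P‖ ∧ ‖P‖ ≤ L)
    (himp : ∀ (U : F → ℝ) (lam : ℝ), 0 < lam → lam < ε0 → JetHarm U (ball 0 M0) →
      (∀ (z : F) (r : ℝ), ‖z‖ ≤ M0 → 0 < r → r ≤ M0 →
        ∃ P : F, 1 / 2 ≤ ‖P‖ ∧ ‖P‖ ≤ L ∧ CylFit U (32 * lam) z r P) →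
      ∃ P : F, CylFit U lam 0 1 P)
    {s lam0 : ℝ} (hs : 0 < s) (hs1 : s * M0 ≤ 1 / 16) (hlam0 : 0 ≤ lam0)
    (hA : DecayS 𝒰 s (min ε0 (1 / 128) / 2)) (h : DecayS 𝒰 (2 * M0 * s) lam0) :
    DecayS 𝒰 s (lam0 / 32) := by
  intro U hU z r hr hz μ hμ1 hμ2
  by_cases hμ : min ε0 (1 / 128) / 2 < μ
  · exact hA U hU z r hr hz μ hμ hμ2
  rw [not_lt] at hμ
  have hμ0 : 0 < μ := lt_of_le_of_lt (by positivity) hμ1
  have hmin : 0 < min ε0 (1 / 128) := by linarith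
  have hμε : μ < ε0 := by
    have := min_le_left ε0 (1 / 128 : ℝ)
    linarith
  have hμ128 : μ < 1 / 128 := by
    have := min_le_right ε0 (1 / 128 : ℝ)
    linarith
  have hM0pos : 0 < M0 := by linarith
  have hrs : 0 < r / s := div_pos hr hs
  -- `r * M0 ≤ (r / s) / 16`
  have hrM : r * M0 ≤ r / s / 16 := by
    have e : r * M0 = r / s * (s * M0) := by field_simp
    rw [e]
    have := mul_le_mul_of_nonneg_left hs1 hrs.le
    linarith
  have hnz : 0 ≤ ‖z‖ := norm_nonneg z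
  obtain ⟨P, hP⟩ := himp (decayRescale U z r) μ hμ0 hμε
    ((decay_jetHarm_rescale (hharm U hU) z hr).mono (by
      intro H hH
      rw [mem_ball_zero_iff] at hH
      simp only [Set.mem_ofPred_eq, mem_ball_zero_iff]
      calc ‖z + r • H‖ ≤ ‖z‖ + ‖r • H‖ := norm_add_le _ _
        _ = ‖z‖ + r * ‖H‖ := by rw [norm_smul, Real.norm_eq_abs, abs_of_pos hr]
        _ ≤ ‖z‖ + r * M0 := by gcongr
        _ < 1 := by linarith))
    (by
      intro z' r' hz' hr' hr'M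
      have hnorm : ‖z + r • z'‖ ≤ ‖z‖ + r * M0 := by
        calc ‖z + r • z'‖ ≤ ‖z‖ + ‖r • z'‖ := norm_add_le _ _
          _ = ‖z‖ + r * ‖z'‖ := by rw [norm_smul, Real.norm_eq_abs, abs_of_pos hr]
          _ ≤ ‖z‖ + r * M0 := by gcongr
      have hrr : r * r' ≤ r * M0 := by gcongr
      have hdiv : r * r' / (2 * M0 * s) ≤ r / s / 2 := by
        rw [div_le_iff₀ (by positivity)]
        have e : r / s / 2 * (2 * M0 * s) = r * M0 := by field_simp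
        rw [e]; exact hrr
      obtain ⟨P, hP⟩ := h U hU (z + r • z') (r * r') (by positivity) (by linarith) (32 * μ)
        (by linarith) (by linarith)
      obtain ⟨hP1, hP2⟩ := hslope U hU (z + r • z') (r * r') (32 * μ) P (by positivity)
        (by linarith) (by positivity) (by linarith) hP
      exact ⟨P, hP1, hP2, (decay_cylFit_rescale hr).mpr hP⟩)
  refine ⟨P, ?_⟩
  have := (decay_cylFit_rescale hr).mp hP
  simpa using this

/-- The iteration. -/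
theorem decay_induct {𝒰 : Set (F → ℝ)} {L ε0 M0 : ℝ} (hM0 : 2 ≤ M0)
    (hharm : ∀ U ∈ 𝒰, JetHarm U (ball 0 1))
    (hslope : ∀ U ∈ 𝒰, ∀ (z : F) (r μ : ℝ) (P : F), 0 < r → ‖z‖ + 8 * r ≤ 3 / 4 → 0 < μ →
      μ ≤ 1 / 4 → CylFit U μ z r P → 1 / 2 ≤ ‖P‖ ∧ ‖P‖ ≤ L)
    (himp : ∀ (U : F → ℝ) (lam : ℝ), 0 < lam → lam < ε0 → JetHarm U (ball 0 M0) →
      (∀ (z : F) (r : ℝ), ‖z‖ ≤ M0 → 0 < r → r ≤ M0 →
        ∃ P : F, 1 / 2 ≤ ‖P‖ ∧ ‖P‖ ≤ L ∧ CylFit U (32 * lam) z r P) →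
      ∃ P : F, CylFit U lam 0 1 P)
    {s : ℝ} (hs : 0 < s) (hs1 : s * M0 ≤ 1 / 16)
    (hA : DecayS 𝒰 s (min ε0 (1 / 128) / 2)) (k : ℕ) :
    DecayS 𝒰 (s / (2 * M0) ^ k) (1 / 32 ^ k) := by
  have hK : 1 ≤ 2 * M0 := by linarith
  have hKpos : 0 < 2 * M0 := by linarith
  induction k with
  | zero => simpa using decayS_one 𝒰 s
  | succ k ih =>
    have hpow : 1 ≤ (2 * M0) ^ (k + 1) := one_le_pow₀ hK
    have hpos : 0 < s / (2 * M0) ^ (k + 1) := by positivity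
    have hle : s / (2 * M0) ^ (k + 1) ≤ s := div_le_self hs.le hpow
    have e1 : 2 * M0 * (s / (2 * M0) ^ (k + 1)) = s / (2 * M0) ^ k := by
      rw [pow_succ]; field_simp
    have e2 : (1 : ℝ) / 32 ^ (k + 1) = 1 / 32 ^ k / 32 := by
      rw [pow_succ]; field_simp
    rw [e2]
    refine decay_step hM0 hharm hslope himp hpos ?_ (by positivity) (hA.mono_left hpos hle) ?_
    · calc s / (2 * M0) ^ (k + 1) * M0 ≤ s * M0 := by gcongr
        _ ≤ 1 / 16 := hs1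
    · rw [e1]; exact ih

/-- **Power decay of cylinder fits** (paper Prop. 3.3, in the form used in Section 3.4). -/
theorem decay_power {𝒰 : Set (F → ℝ)} {L : ℝ} (himp : ImproveFlat F L)
    (hharm : ∀ U ∈ 𝒰, JetHarm U (ball 0 1))
    (hslope : ∀ U ∈ 𝒰, ∀ (z : F) (r μ : ℝ) (P : F), 0 < r → ‖z‖ + 8 * r ≤ 3 / 4 → 0 < μ →
      μ ≤ 1 / 4 → CylFit U μ z r P → 1 / 2 ≤ ‖P‖ ∧ ‖P‖ ≤ L)
    (hflat : ∀ δ : ℝ, 0 < δ → ∃ s : ℝ, 0 < s ∧ DecayS 𝒰 s δ) :
    ∃ γ A0 r0 : ℝ, 0 < γ ∧ γ ≤ 1 ∧ 0 < A0 ∧ 0 < r0 ∧ ∀ U ∈ 𝒰, ∀ z : F, ‖z‖ ≤ 1 / 2 →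
      ∀ r : ℝ, 0 < r → r ≤ r0 → A0 * r ^ γ < 1 ∧ ∃ P : F, CylFit U (A0 * r ^ γ) z r P := by
  obtain ⟨ε0, hε0, M0, hM0, himp⟩ := himp
  obtain ⟨s1, hs1, hA1⟩ := hflat (min ε0 (1 / 128) / 2) (by positivity)
  have hM0pos : 0 < M0 := by linarith
  -- the starting scale
  set s : ℝ := min s1 (1 / (16 * M0)) with hsdef
  have hs : 0 < s := by positivity
  have hsM : s * M0 ≤ 1 / 16 := by
    have : s ≤ 1 / (16 * M0) := min_le_right _ _
    calc s * M0 ≤ 1 / (16 * M0) * M0 := by gcongr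
      _ = 1 / 16 := by field_simp
  have hA : DecayS 𝒰 s (min ε0 (1 / 128) / 2) := hA1.mono_left hs (min_le_left _ _)
  have hind := decay_induct hM0 hharm hslope himp hs hsM hA
  set K : ℝ := 2 * M0 with hKdef
  have hK1 : 1 < K := by linarith
  have hKpos : 0 < K := by linarith
  have hlogK : 0 < Real.log K := Real.log_pos hK1
  have hlog32 : 0 < Real.log 32 := Real.log_pos (by norm_num)
  set γ : ℝ := min 1 (Real.log 32 / Real.log K) with hγdef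
  have hγ : 0 < γ := by positivity
  have hγ1 : γ ≤ 1 := min_le_left _ _
  have hKγ : K ^ γ ≤ 32 := by
    calc K ^ γ ≤ K ^ (Real.log 32 / Real.log K) :=
          Real.rpow_le_rpow_of_exponent_le hK1.le (min_le_right _ _)
      _ = 32 := by
          rw [Real.rpow_def_of_pos hKpos, mul_div_cancel₀ _ hlogK.ne', Real.exp_log (by norm_num)]
  set A0 : ℝ := 32 * (4 / s) ^ γ with hA0def
  have hA0 : 0 < A0 := by positivity
  set r0 : ℝ := min (s / 4) ((1 / (2 * A0)) ^ (1 / γ)) with hr0def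
  have hr0 : 0 < r0 := by positivity
  refine ⟨γ, A0, r0, hγ, hγ1, hA0, hr0, fun U hU z hz r hr hrr0 => ?_⟩
  have hr4 : r ≤ s / 4 := hrr0.trans (min_le_left _ _)
  have hlt1 : A0 * r ^ γ < 1 := by
    have h1 : r ^ γ ≤ ((1 / (2 * A0)) ^ (1 / γ)) ^ γ :=
      Real.rpow_le_rpow hr.le (hrr0.trans (min_le_right _ _)) hγ.le
    have h2 : ((1 / (2 * A0)) ^ (1 / γ)) ^ γ = 1 / (2 * A0) := by
      rw [← Real.rpow_mul (by positivity), one_div_mul_cancel hγ.ne', Real.rpow_one]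
    rw [h2] at h1
    calc A0 * r ^ γ ≤ A0 * (1 / (2 * A0)) := by gcongr
      _ = 1 / 2 := by field_simp
      _ < 1 := by norm_num
  refine ⟨hlt1, ?_⟩
  -- choice of the generation `k`
  have hx : 1 ≤ s / (4 * r) := by
    rw [le_div_iff₀ (by positivity)]; linarith
  obtain ⟨k, hk1, hk2⟩ := exists_nat_pow_near hx hK1
  have hKk : 0 < K ^ k := by positivity
  have h4r : 4 * r ≤ s / K ^ k := by
    rw [le_div_iff₀ hKk]
    rw [le_div_iff₀ (by positivity)] at hk1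
    linarith
  have hS := (hind k).mono_left (by positivity : 0 < 4 * r) h4r
  refine hS U hU z r hr ?_ _ ?_ hlt1
  · have : r / (4 * r) = 1 / 4 := by field_simp
    rw [this]; linarith
  · -- `1 / 32 ^ k < A0 * r ^ γ`
    have hxpos : 0 < s / (4 * r) := by positivity
    have h1 : (s / (4 * r)) ^ γ < 32 ^ (k + 1) := by
      calc (s / (4 * r)) ^ γ < (K ^ (k + 1)) ^ γ := Real.rpow_lt_rpow hxpos.le hk2 hγ
        _ = (K ^ γ) ^ (k + 1) := by
            rw [← Real.rpow_natCast, ← Real.rpow_natCast, ← Real.rpow_mul hKpos.le,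
              ← Real.rpow_mul hKpos.le, mul_comm]
        _ ≤ 32 ^ (k + 1) := by gcongr
    have h2 : A0 * r ^ γ = 32 / (s / (4 * r)) ^ γ := by
      have e : s / (4 * r) = (4 / s * r)⁻¹ := by field_simp
      rw [e, Real.inv_rpow (by positivity), Real.mul_rpow (by positivity) hr.le, hA0def]
      field_simp
    rw [h2, div_lt_div_iff₀ (by positivity) (by positivity)]
    rw [pow_succ] at h1
    linarith

end Claimed.Agent.R330
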