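/-
Row 330 (S0589), package W7 (owner helper11): the family of linear lifts `U(y,b) = u(y) + b`
(paper Section 3.1) satisfies the hypotheses of `decay_power`; output for the endgame.
-/
import Claimed.Agent.R330.DecayCore

set_option autoImplicit false
set_option linter.unusedSectionVars false

namespace Claimed.Agent.R330

open Metric Set Filter Topology
open scoped RealInnerProductSpace

variable {E : Type*} [NormedAddCommGroup E] [InnerProductSpace ℝ E]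

/-- The linear lift `U(y,b) = u(y) + b` (paper Lemma 2.1). -/
def decayLift (u : E → ℝ) : WithLp 2 (E × ℝ) → ℝ := fun z => u z.fst + z.snd

lemma decay_norm_fst_le (z : WithLp 2 (E × ℝ)) : ‖z.fst‖ ≤ ‖z‖ := by
  have h := WithLp.prod_norm_sq_eq_of_L2 z
  refine (sq_le_sq₀ (norm_nonneg _) (norm_nonneg _)).mp ?_
  nlinarith [sq_nonneg ‖z.snd‖]

lemma decay_abs_snd_le (z : WithLp 2 (E × ℝ)) : |z.snd| ≤ ‖z‖ := by
  have h := WithLp.prod_norm_sq_eq_of_L2 z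
  rw [← Real.norm_eq_abs]
  refine (sq_le_sq₀ (norm_nonneg _) (norm_nonneg _)).mp ?_
  nlinarith [sq_nonneg ‖z.fst‖]

lemma decay_norm_inl (y : E) : ‖(WithLp.toLp 2 (y, (0 : ℝ)) : WithLp 2 (E × ℝ))‖ = ‖y‖ := by
  have h := WithLp.prod_norm_sq_eq_of_L2 (WithLp.toLp 2 (y, (0 : ℝ)) : WithLp 2 (E × ℝ))
  simp only [WithLp.toLp_fst, WithLp.toLp_snd, norm_zero] at h
  refine (sq_eq_sq₀ (norm_nonneg _) (norm_nonneg _)).mp ?_
  rw [h]; ring

lemma decay_norm_inr (b : ℝ) : ‖(WithLp.toLp 2 ((0 : E), b) : WithLp 2 (E × ℝ))‖ = |b| := by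
  have h := WithLp.prod_norm_sq_eq_of_L2 (WithLp.toLp 2 ((0 : E), b) : WithLp 2 (E × ℝ))
  simp only [WithLp.toLp_fst, WithLp.toLp_snd, norm_zero] at h
  rw [← Real.norm_eq_abs]
  refine (sq_eq_sq₀ (norm_nonneg _) (norm_nonneg _)).mp ?_
  rw [h]; ring

lemma decay_inner_eq (P h : WithLp 2 (E × ℝ)) : ⟪P, h⟫ = ⟪P.fst, h.fst⟫ + P.snd * h.snd := by
  rw [WithLp.prod_inner_apply]
  simp [mul_comm]

/-- Uniform flatness of the family gives cylinder fits for the lifts for every fixed parameter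
(paper Lemma 3.2, `b(s) → 0`). -/
theorem decay_lift_flat {𝒱 : Set (E → ℝ)}
    (hflat : ∀ δ : ℝ, 0 < δ → ∃ r0 : ℝ, 0 < r0 ∧ ∀ u ∈ 𝒱, ∀ y : E, ‖y‖ ≤ 3 / 4 → ∀ r : ℝ, 0 < r →
      r ≤ r0 → ∃ p : E, ∀ H : E, ‖H‖ ≤ 2 → |u (y + r • H) - u y - r * ⟪p, H⟫| ≤ δ * r)
    (δ : ℝ) (hδ : 0 < δ) : ∃ s : ℝ, 0 < s ∧ DecayS (decayLift '' 𝒱) s δ := by
  obtain ⟨r0, hr0, H⟩ := hflat δ hδ
  refine ⟨r0, hr0, ?_⟩
  rintro _ ⟨u, hu, rfl⟩ z r hr hz μ hμ1 hμ2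
  have hrs : 0 < r / r0 := div_pos hr hr0
  have hz34 : ‖z‖ ≤ 3 / 4 := by linarith
  have hrr0 : r ≤ r0 := by
    have h1 : r / r0 ≤ 1 := by linarith [norm_nonneg z]
    exact (div_le_one hr0).mp h1
  obtain ⟨p, hp⟩ := H u hu z.fst ((decay_norm_fst_le z).trans hz34) r hr hrr0
  refine ⟨WithLp.toLp 2 (p, 1), ?_, fun h hh => ?_⟩
  · intro h0
    have := congrArg WithLp.snd h0
    simp at this
  · have hh2 : ‖h‖ ≤ 2 * r := cyl_norm_le_of_inCyl hμ2.le hr.le hh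
    have h1 := hp (r⁻¹ • h.fst) (by
      rw [norm_smul, norm_inv, Real.norm_eq_abs, abs_of_pos hr, inv_mul_le_iff₀ hr]
      linarith [decay_norm_fst_le h])
    rw [smul_smul, mul_inv_cancel₀ hr.ne', one_smul, real_inner_smul_right, ← mul_assoc,
      mul_inv_cancel₀ hr.ne', one_mul] at h1
    have e : decayLift u (z + h) - decayLift u z - ⟪(WithLp.toLp 2 (p, (1 : ℝ)) : WithLp 2 (E × ℝ)), h⟫
        = u (z.fst + h.fst) - u z.fst - ⟪p, h.fst⟫ := by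
      rw [decay_inner_eq]
      simp only [decayLift, WithLp.add_fst, WithLp.add_snd, WithLp.toLp_fst, WithLp.toLp_snd]
      ring
    rw [e]
    calc |u (z.fst + h.fst) - u z.fst - ⟪p, h.fst⟫| ≤ δ * r := h1
      _ ≤ μ * r := by gcongr

/-- Slope bounds for cylinder fits of lifts (paper (3.5)). -/
theorem decay_lift_slope {u : E → ℝ} {L0 : ℝ} (hL0 : 0 ≤ L0)
    (hlip : ∀ x ∈ closedBall (0 : E) (7 / 8), ∀ y ∈ closedBall (0 : E) (7 / 8),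
      |u x - u y| ≤ L0 * ‖x - y‖)
    (z : WithLp 2 (E × ℝ)) (r μ : ℝ) (P : WithLp 2 (E × ℝ)) (hr : 0 < r)
    (hz : ‖z‖ + 8 * r ≤ 3 / 4) (hμ : 0 < μ) (hμ4 : μ ≤ 1 / 4) (hP : CylFit (decayLift u) μ z r P) :
    1 / 2 ≤ ‖P‖ ∧ ‖P‖ ≤ L0 + 2 := by
  obtain ⟨hP0, hfit⟩ := hP
  have hsq : 0 < Real.sqrt μ := Real.sqrt_pos.mpr hμ
  have hsq2 : Real.sqrt μ ≤ 1 / 2 := by
    rw [show (1 / 2 : ℝ) = Real.sqrt (1 / 4) by
      rw [show (1 / 4 : ℝ) = (1 / 2) ^ 2 by norm_num, Real.sqrt_sq (by norm_num)]]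
    exact Real.sqrt_le_sqrt hμ4
  have hmul : Real.sqrt μ * Real.sqrt μ = μ := Real.mul_self_sqrt hμ.le
  set ρ : ℝ := Real.sqrt μ * r with hρ
  have hρpos : 0 < ρ := by positivity
  have hρr : ρ ≤ r := by
    calc ρ ≤ 1 / 2 * r := by rw [hρ]; gcongr
      _ ≤ r := by linarith
  have hμr : μ * r = Real.sqrt μ * ρ := by rw [hρ, ← mul_assoc, hmul]
  constructor
  · -- evaluate in the added direction
    have h1 := hfit (WithLp.toLp 2 ((0 : E), ρ)) (cyl_inCyl_of_norm_le (by linarith) hr.le P (by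
      rw [decay_norm_inr, abs_of_pos hρpos]))
    rw [decay_inner_eq] at h1
    simp only [decayLift, WithLp.add_fst, WithLp.add_snd, WithLp.toLp_fst, WithLp.toLp_snd,
      add_zero, inner_zero_right, zero_add] at h1
    have e : u z.fst + (z.snd + ρ) - (u z.fst + z.snd) - P.snd * ρ = (1 - P.snd) * ρ := by ring
    rw [e, abs_mul, abs_of_pos hρpos, hμr] at h1
    have h2 : |1 - P.snd| ≤ Real.sqrt μ := le_of_mul_le_mul_right h1 hρpos
    have h3 := (abs_le.mp h2).2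
    have h4 : P.snd ≤ ‖P‖ := (le_abs_self _).trans (decay_abs_snd_le P)
    linarith
  · -- evaluate in the direction of `P`
    have hPn : 0 < ‖P‖ := norm_pos_iff.mpr hP0
    set h : WithLp 2 (E × ℝ) := (ρ / ‖P‖) • P with hh
    have hnorm : ‖h‖ = ρ := by
      rw [hh, norm_smul, Real.norm_eq_abs, abs_of_pos (div_pos hρpos hPn)]
      field_simp
    have h1 := hfit h (cyl_inCyl_of_norm_le (by linarith) hr.le P hnorm.le)
    have hin : ⟪P, h⟫ = ρ * ‖P‖ := by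
      rw [hh, real_inner_smul_right, real_inner_self_eq_norm_sq]
      field_simp
    have hz1 : z.fst ∈ closedBall (0 : E) (7 / 8) := by
      rw [mem_closedBall_zero_iff]
      linarith [decay_norm_fst_le z]
    have hz2 : z.fst + h.fst ∈ closedBall (0 : E) (7 / 8) := by
      rw [mem_closedBall_zero_iff]
      calc ‖z.fst + h.fst‖ ≤ ‖z.fst‖ + ‖h.fst‖ := norm_add_le _ _
        _ ≤ ‖z‖ + ‖h‖ := add_le_add (decay_norm_fst_le z) (decay_norm_fst_le h)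
        _ ≤ 7 / 8 := by rw [hnorm]; linarith
    have h2 := hlip _ hz2 _ hz1
    rw [add_sub_cancel_left] at h2
    have h3 : L0 * ‖h.fst‖ ≤ L0 * ρ := by
      rw [← hnorm]; exact mul_le_mul_of_nonneg_left (decay_norm_fst_le h) hL0
    have h4 : |h.snd| ≤ ρ := by rw [← hnorm]; exact decay_abs_snd_le h
    rw [hin] at h1
    simp only [decayLift, WithLp.add_fst, WithLp.add_snd] at h1
    have h5 := (abs_le.mp h1).1
    have h6 := (abs_le.mp h2).2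
    have h7 := (abs_le.mp h4).2
    have h8 : ρ * ‖P‖ ≤ ρ * (L0 + 2) := by
      have : Real.sqrt μ * ρ ≤ 1 * ρ := by gcongr; linarith
      nlinarith
    exact le_of_mul_le_mul_left h8 hρpos

/-- **Output of package W7** (abstract family version): power decay of isotropic affine fits, in the
anisotropic parametrisation (radius `√λ r`, error `λ r`, `λ = A0 r^γ`). -/
theorem decay_family {𝒱 : Set (E → ℝ)}
    (himp : ∀ L : ℝ, ImproveFlat (WithLp 2 (E × ℝ)) L)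
    (hharm : ∀ u ∈ 𝒱, JetHarm (decayLift u) (ball 0 1))
    (hlip : ∃ L0 : ℝ, ∀ u ∈ 𝒱, ∀ x ∈ closedBall (0 : E) (7 / 8), ∀ y ∈ closedBall (0 : E) (7 / 8),
      |u x - u y| ≤ L0 * ‖x - y‖)
    (hflat : ∀ δ : ℝ, 0 < δ → ∃ r0 : ℝ, 0 < r0 ∧ ∀ u ∈ 𝒱, ∀ y : E, ‖y‖ ≤ 3 / 4 → ∀ r : ℝ, 0 < r →
      r ≤ r0 → ∃ p : E, ∀ H : E, ‖H‖ ≤ 2 → |u (y + r • H) - u y - r * ⟪p, H⟫| ≤ δ * r) :
    ∃ γ A0 r0 : ℝ, 0 < γ ∧ γ ≤ 1 ∧ 0 < A0 ∧ 0 < r0 ∧ ∀ u ∈ 𝒱, ∀ y : E, ‖y‖ ≤ 1 / 2 →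
      ∀ r : ℝ, 0 < r → r ≤ r0 → A0 * r ^ γ < 1 ∧
        ∃ p : E, ∀ h : E, ‖h‖ ≤ Real.sqrt (A0 * r ^ γ) * r →
          |u (y + h) - u y - ⟪p, h⟫| ≤ A0 * r ^ γ * r := by
  obtain ⟨L0, hL0⟩ := hlip
  have hL0' : ∀ u ∈ 𝒱, ∀ x ∈ closedBall (0 : E) (7 / 8), ∀ y ∈ closedBall (0 : E) (7 / 8),
      |u x - u y| ≤ max L0 0 * ‖x - y‖ := fun u hu x hx y hy =>
    (hL0 u hu x hx y hy).trans (by gcongr; exact le_max_left _ _)
  obtain ⟨γ, A0, r0, hγ, hγ1, hA0, hr0, H⟩ :=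
    decay_power (𝒰 := decayLift '' 𝒱) (himp (max L0 0 + 2))
      (by rintro _ ⟨u, hu, rfl⟩; exact hharm u hu)
      (by
        rintro _ ⟨u, hu, rfl⟩ z r μ P hr hz hμ hμ4 hP
        exact decay_lift_slope (le_max_right _ _) (hL0' u hu) z r μ P hr hz hμ hμ4 hP)
      (decay_lift_flat hflat)
  refine ⟨γ, A0, r0, hγ, hγ1, hA0, hr0, fun u hu y hy r hr hrr0 => ?_⟩
  obtain ⟨hlt, P, -, hP⟩ := H _ ⟨u, hu, rfl⟩ (WithLp.toLp 2 (y, 0)) (by rwa [decay_norm_inl]) r hr hrr0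
  refine ⟨hlt, P.fst, fun h hh => ?_⟩
  have h1 := hP (WithLp.toLp 2 (h, 0)) (cyl_inCyl_of_norm_le hlt.le hr.le P (by rwa [decay_norm_inl]))
  rw [decay_inner_eq] at h1
  simpa [decayLift] using h1

end Claimed.Agent.R330
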