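import Claimed.Agent.R330.W9aMain

/-!
# Row 330, package W9a: the frozen statement from ball fits of radius `√(A0 r^γ) r`

`W9aBallDecay d γ A0 r0` is the announced output shape of the decay package (`decay_main`):
no lift, no cylinders.  `w9a_result_of_ballDecay` derives the frozen statement S0589 from it.
-/

set_option autoImplicit false

namespace Claimed.Agent.R330

open Metric Set
open scoped RealInnerProductSpace
open Claims.C0517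

/-- Ball version of `w9a_campFit_power`. -/
theorem w9a_campFit_power_ball {F : Type*} [NormedAddCommGroup F] [InnerProductSpace ℝ F]
    {U : F → ℝ} {z : F} {A0 γ r0 : ℝ} (hA : 0 < A0) (hγ : 0 < γ) (hr0 : 0 < r0)
    (H : ∀ r : ℝ, 0 < r → r ≤ r0 → ∃ P : F, ∀ h : F, ‖h‖ ≤ √(A0 * r ^ γ) * r →
        |U (z + h) - U z - ⟪P, h⟫| ≤ A0 * r ^ γ * r) :
    ∀ ρ : ℝ, 0 < ρ → ρ ≤ √A0 * r0 ^ (1 + γ / 2) →
      ∃ P : F, CampFit U z P ρ (A0 ^ (1 / (2 + γ)) * ρ ^ (1 + γ / (2 + γ))) := by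
  intro ρ hρ hle
  have hs : 0 < √A0 := Real.sqrt_pos.2 hA
  set r : ℝ := (ρ / √A0) ^ (2 / (2 + γ)) with hr
  have hrpos : 0 < r := Real.rpow_pos_of_pos (by positivity) _
  have hrle : r ≤ r0 := w9a_radius_le hA hγ hρ hr0 hle
  obtain ⟨P, hP⟩ := H r hrpos hrle
  obtain ⟨e1, e2⟩ := w9a_exponent A0 γ ρ hA hγ hρ
  rw [← hr] at e1 e2
  rw [e1, e2] at hP
  exact ⟨P, hP⟩

/-- The announced output of the decay package. -/
def W9aBallDecay (d : ℕ) (γ A0 r0 : ℝ) : Prop :=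
  ∀ u : EuclideanSpace ℝ (Fin d) → ℝ, IsInfinityHarmonicOn u (ball 0 1) →
    (∀ x ∈ ball (0 : EuclideanSpace ℝ (Fin d)) 1, |u x| ≤ 1) →
    ∀ y : EuclideanSpace ℝ (Fin d), ‖y‖ ≤ 1 / 2 → ∀ r : ℝ, 0 < r → r ≤ r0 →
      A0 * r ^ γ < 1 ∧ ∃ p : EuclideanSpace ℝ (Fin d), ∀ h : EuclideanSpace ℝ (Fin d),
        ‖h‖ ≤ √(A0 * r ^ γ) * r → |u (y + h) - u y - ⟪p, h⟫| ≤ A0 * r ^ γ * r

variable {d : ℕ}

theorem w9a_uniformFits_of_ballDecay {γ A0 r0 : ℝ} (hγ : 0 < γ) (hA : 0 < A0) (hr0 : 0 < r0)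
    (H : W9aBallDecay d γ A0 r0) :
    EgUniformFits d (γ / (2 + γ)) (A0 ^ (1 / (2 + γ))) (√A0 * r0 ^ (1 + γ / 2)) := by
  intro u hu hu0 hosc x hx ρ hρ hle
  have h0 : (0 : EuclideanSpace ℝ (Fin d)) ∈ ball (0 : EuclideanSpace ℝ (Fin d)) 1 :=
    mem_ball_self one_pos
  have hb : ∀ x ∈ ball (0 : EuclideanSpace ℝ (Fin d)) 1, |u x| ≤ 1 := by
    intro y hy
    have h1 := hosc y hy 0 h0
    have h2 := hosc 0 h0 y hy
    rw [hu0] at h1 h2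
    rw [abs_le]
    constructor <;> linarith
  have hx' : ‖x‖ ≤ 1 / 2 := by
    have : ‖x‖ < 1 / 2 := by simpa using hx
    exact this.le
  exact w9a_campFit_power_ball hA hγ hr0 (fun r hr hrle => (H u hu hb x hx' r hr hrle).2) ρ hρ hle

/-- **The frozen statement S0589 from the output of the decay package.** -/
theorem w9a_result_of_ballDecay {γ A0 r0 : ℝ} (hγ : 0 < γ) (hγ1 : γ ≤ 1) (hA : 0 < A0)
    (hr0 : 0 < r0) (H : W9aBallDecay d γ A0 r0) :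
    ∃ α : ℝ, 0 < α ∧ α ≤ 1 / 3 ∧ ∃ C : ℝ, ∀ u : EuclideanSpace ℝ (Fin d) → ℝ,
      BddAbove (u '' Metric.ball 0 1) → BddBelow (u '' Metric.ball 0 1) →
      IsInfinityHarmonicOn u (Metric.ball 0 1) →
      DifferentiableOn ℝ u (Metric.ball 0 (1 / 2)) ∧
      ∀ x ∈ Metric.ball (0 : EuclideanSpace ℝ (Fin d)) (1 / 2),
      ∀ y ∈ Metric.ball (0 : EuclideanSpace ℝ (Fin d)) (1 / 2),
      ∀ z ∈ Metric.ball (0 : EuclideanSpace ℝ (Fin d)) (1 / 2), y ≠ z →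
        ‖gradient u x‖ + ‖gradient u y - gradient u z‖ / ‖y - z‖ ^ α ≤
          C * (sSup (u '' Metric.ball 0 1) - sInf (u '' Metric.ball 0 1)) := by
  obtain ⟨ha, ha'⟩ := w9a_alpha_mem hγ hγ1
  have hρ : 0 < √A0 * r0 ^ (1 + γ / 2) :=
    mul_pos (Real.sqrt_pos.2 hA) (Real.rpow_pos_of_pos hr0 _)
  exact eg_result_of_uniformFits (ρ₀ := min (√A0 * r0 ^ (1 + γ / 2)) (1 / 2)) ha ha'
    (Real.rpow_nonneg hA.le _) (lt_min hρ (by norm_num)) (min_le_right _ _)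
    (w9a_uniformFits_mono (min_le_left _ _) (w9a_uniformFits_of_ballDecay hγ hA hr0 H))

/-- Existential packaging, literally the shape of `decay_main d`. -/
theorem w9a_result_of_exists_ballDecay
    (H : ∃ γ A0 r0 : ℝ, 0 < γ ∧ γ ≤ 1 ∧ 0 < A0 ∧ 0 < r0 ∧
      ∀ u : EuclideanSpace ℝ (Fin d) → ℝ, IsInfinityHarmonicOn u (ball 0 1) →
      (∀ x ∈ ball (0 : EuclideanSpace ℝ (Fin d)) 1, |u x| ≤ 1) →
      ∀ y : EuclideanSpace ℝ (Fin d), ‖y‖ ≤ 1 / 2 → ∀ r : ℝ, 0 < r → r ≤ r0 →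
        A0 * r ^ γ < 1 ∧ ∃ p : EuclideanSpace ℝ (Fin d), ∀ h : EuclideanSpace ℝ (Fin d),
          ‖h‖ ≤ √(A0 * r ^ γ) * r → |u (y + h) - u y - ⟪p, h⟫| ≤ A0 * r ^ γ * r) :
    ∃ α : ℝ, 0 < α ∧ α ≤ 1 / 3 ∧ ∃ C : ℝ, ∀ u : EuclideanSpace ℝ (Fin d) → ℝ,
      BddAbove (u '' Metric.ball 0 1) → BddBelow (u '' Metric.ball 0 1) →
      IsInfinityHarmonicOn u (Metric.ball 0 1) →
      DifferentiableOn ℝ u (Metric.ball 0 (1 / 2)) ∧
      ∀ x ∈ Metric.ball (0 : EuclideanSpace ℝ (Fin d)) (1 / 2),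
      ∀ y ∈ Metric.ball (0 : EuclideanSpace ℝ (Fin d)) (1 / 2),
      ∀ z ∈ Metric.ball (0 : EuclideanSpace ℝ (Fin d)) (1 / 2), y ≠ z →
        ‖gradient u x‖ + ‖gradient u y - gradient u z‖ / ‖y - z‖ ^ α ≤
          C * (sSup (u '' Metric.ball 0 1) - sInf (u '' Metric.ball 0 1)) := by
  obtain ⟨γ, A0, r0, hγ, hγ1, hA, hr0, H'⟩ := H
  exact w9a_result_of_ballDecay hγ hγ1 hA hr0 H'

end Claimed.Agent.R330
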