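/-
Row 330 (S0589), package W7 (owner helper11): top of Part A.  The frozen conclusion follows from
(1) non-existence of bad sequences (paper Prop. 3.6 + Liouville theorem), (2) the lift lemma,
(3) uniform flatness (paper Lemma 3.2).
-/
import Claimed.Agent.R330.DecayLift
import Claimed.Agent.R330.Slopes
import Claimed.Agent.R330.W9aBridge

set_option autoImplicit false

namespace Claimed.Agent.R330

open Metric Set Filter Topology
open scoped RealInnerProductSpace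
open Claims.C0517

/-- Lipschitz bound on `closedBall 0 (7/8)` for bounded jet-harmonic functions on the unit ball. -/
theorem decay_lipschitz {E : Type*} [NormedAddCommGroup E] [InnerProductSpace ℝ E]
    [FiniteDimensional ℝ E] {u : E → ℝ} (hu : JetHarm u (ball 0 1))
    (hb : ∀ x ∈ ball (0 : E) 1, |u x| ≤ 1) :
    ∀ x ∈ closedBall (0 : E) (7 / 8), ∀ y ∈ closedBall (0 : E) (7 / 8),
      |u x - u y| ≤ 40 * ‖x - y‖ := by
  intro x hx y hy
  rw [mem_closedBall_zero_iff] at hx hy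
  have hsub : closedBall x (2 * (1 / 20)) ⊆ ball (0 : E) 1 := by
    intro w hw
    rw [mem_closedBall, dist_eq_norm] at hw
    rw [mem_ball_zero_iff]
    calc ‖w‖ = ‖(w - x) + x‖ := by rw [sub_add_cancel]
      _ ≤ ‖w - x‖ + ‖x‖ := norm_add_le _ _
      _ < 1 := by linarith
  by_cases hxy : ‖x - y‖ ≤ 1 / 20
  · have h := JetSub.lipschitz hu.1 hu.2.1 (z := x) (ρ := 1 / 20) (A := 1) (by norm_num) hsub
      (fun w hw => hb w (hsub hw)) (x := x) (y := y) (mem_closedBall_self (by norm_num))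
      (by rw [mem_closedBall, dist_eq_norm, norm_sub_rev]; exact hxy)
    calc |u x - u y| ≤ 2 * 1 / (1 / 20) * ‖x - y‖ := h
      _ = 40 * ‖x - y‖ := by norm_num
  · rw [not_le] at hxy
    have h1 := hb x (by rw [mem_ball_zero_iff]; linarith)
    have h2 := hb y (by rw [mem_ball_zero_iff]; linarith)
    calc |u x - u y| ≤ |u x| + |u y| := abs_sub _ _
      _ ≤ 2 := by linarith
      _ ≤ 40 * ‖x - y‖ := by linarith

/-- The statement of uniform flatness (paper Lemma 3.2), for the normalised family. -/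
def DecayUniformFlat (d : ℕ) : Prop :=
  ∀ δ : ℝ, 0 < δ → ∃ r0 : ℝ, 0 < r0 ∧ ∀ w : EuclideanSpace ℝ (Fin d) → ℝ,
    IsInfinityHarmonicOn w (ball 0 1) → (∀ x ∈ ball (0 : EuclideanSpace ℝ (Fin d)) 1, |w x| ≤ 1) →
    ∀ z ∈ closedBall (0 : EuclideanSpace ℝ (Fin d)) (3 / 4), ∀ r : ℝ, 0 < r → r ≤ r0 →
      ∃ P : EuclideanSpace ℝ (Fin d), ∀ H : EuclideanSpace ℝ (Fin d), ‖H‖ ≤ 2 →
        |w (z + r • H) - w z - r * ⟪P, H⟫| ≤ δ * r

/-- **Power decay for the normalised family** (paper Prop. 3.3 + first step of Section 3.4). -/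
theorem decay_main (d : ℕ)
    (hw8 : ∀ (L : ℝ) (U : ℕ → WithLp 2 (EuclideanSpace ℝ (Fin d) × ℝ) → ℝ) (lam : ℕ → ℝ),
      ¬ BadSeq (WithLp 2 (EuclideanSpace ℝ (Fin d) × ℝ)) L U lam)
    (hlift : ∀ u : EuclideanSpace ℝ (Fin d) → ℝ, JetHarm u (ball 0 1) →
      JetHarm (decayLift u) (ball 0 1))
    (hflat : DecayUniformFlat d) :
    ∃ γ A0 r0 : ℝ, 0 < γ ∧ γ ≤ 1 ∧ 0 < A0 ∧ 0 < r0 ∧
      ∀ u : EuclideanSpace ℝ (Fin d) → ℝ, IsInfinityHarmonicOn u (ball 0 1) →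
      (∀ x ∈ ball (0 : EuclideanSpace ℝ (Fin d)) 1, |u x| ≤ 1) →
      ∀ y : EuclideanSpace ℝ (Fin d), ‖y‖ ≤ 1 / 2 → ∀ r : ℝ, 0 < r → r ≤ r0 →
        A0 * r ^ γ < 1 ∧ ∃ p : EuclideanSpace ℝ (Fin d), ∀ h : EuclideanSpace ℝ (Fin d),
          ‖h‖ ≤ √(A0 * r ^ γ) * r → |u (y + h) - u y - ⟪p, h⟫| ≤ A0 * r ^ γ * r := by
  obtain ⟨γ, A0, r0, h1, h2, h3, h4, H⟩ := decay_family
    (𝒱 := {u : EuclideanSpace ℝ (Fin d) → ℝ | IsInfinityHarmonicOn u (ball 0 1) ∧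
      ∀ x ∈ ball (0 : EuclideanSpace ℝ (Fin d)) 1, |u x| ≤ 1})
    (fun L => decay_improveFlat_of_no_badSeq (hw8 L))
    (fun u hu => hlift u (jetHarm_of_frozen hu.1))
    ⟨40, fun u hu => decay_lipschitz (jetHarm_of_frozen hu.1) hu.2⟩
    (fun δ hδ => by
      obtain ⟨r0, hr0, H⟩ := hflat δ hδ
      exact ⟨r0, hr0, fun u hu y hy r hr hrr0 =>
        H u hu.1 hu.2 y (by rwa [mem_closedBall_zero_iff]) r hr hrr0⟩)
  exact ⟨γ, A0, r0, h1, h2, h3, h4, fun u hu hb => H u ⟨hu, hb⟩⟩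

/-- **Top of Part A**: the frozen conclusion of S0589 from the three remaining inputs. -/
theorem decay_result (d : ℕ)
    (hw8 : ∀ (L : ℝ) (U : ℕ → WithLp 2 (EuclideanSpace ℝ (Fin d) × ℝ) → ℝ) (lam : ℕ → ℝ),
      ¬ BadSeq (WithLp 2 (EuclideanSpace ℝ (Fin d) × ℝ)) L U lam)
    (hlift : ∀ u : EuclideanSpace ℝ (Fin d) → ℝ, JetHarm u (ball 0 1) →
      JetHarm (decayLift u) (ball 0 1))
    (hflat : DecayUniformFlat d) :
    ∃ α : ℝ, 0 < α ∧ α ≤ 1 / 3 ∧ ∃ C : ℝ, ∀ u : EuclideanSpace ℝ (Fin d) → ℝ,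
      BddAbove (u '' Metric.ball 0 1) → BddBelow (u '' Metric.ball 0 1) →
      IsInfinityHarmonicOn u (Metric.ball 0 1) →
      DifferentiableOn ℝ u (Metric.ball 0 (1 / 2)) ∧
      ∀ x ∈ Metric.ball (0 : EuclideanSpace ℝ (Fin d)) (1 / 2),
      ∀ y ∈ Metric.ball (0 : EuclideanSpace ℝ (Fin d)) (1 / 2),
      ∀ z ∈ Metric.ball (0 : EuclideanSpace ℝ (Fin d)) (1 / 2), y ≠ z →
        ‖gradient u x‖ + ‖gradient u y - gradient u z‖ / ‖y - z‖ ^ α ≤
          C * (sSup (u '' Metric.ball 0 1) - sInf (u '' Metric.ball 0 1)) :=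
  w9a_result_of_exists_ballDecay (decay_main d hw8 hlift hflat)

end Claimed.Agent.R330
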