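import Claimed.Prelude.Def_0517
import Claimed.Agent.R330.Campanato

set_option autoImplicit false

namespace Claimed.Agent.R330

open Metric Set Filter Topology
open scoped RealInnerProductSpace
open Claims.C0517

variable {d : ℕ}

/-- The frozen operator, unfolded (use this instead of `unfold`, so that no equation lemma of the
frozen definition is generated in this file). -/
lemma eg_infinityLaplacian_def (φ : (EuclideanSpace ℝ (Fin d)) → ℝ) (z : (EuclideanSpace ℝ (Fin d))) :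
    infinityLaplacian φ z = iteratedFDeriv ℝ 2 φ z ![gradient φ z, gradient φ z] := rfl

/-- Behaviour of the frozen operator under `φ ↦ a * (φ - b)`. -/
lemma eg_infinityLaplacian_scale {φ : (EuclideanSpace ℝ (Fin d)) → ℝ} (hφ : ContDiff ℝ 2 φ) (a b : ℝ) (z : (EuclideanSpace ℝ (Fin d))) :
    infinityLaplacian (fun y => a * (φ y - b)) z = a ^ 3 * infinityLaplacian φ z := by
  have hd : Differentiable ℝ φ := hφ.differentiable (by norm_num)
  have hg : gradient (fun y => a * (φ y - b)) z = a • gradient φ z := by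
    have h1 : HasGradientAt φ (gradient φ z) z := (hd z).hasGradientAt
    have h2 : HasFDerivAt (fun y => a * (φ y - b)) (a • (InnerProductSpace.toDual ℝ (EuclideanSpace ℝ (Fin d)) (gradient φ z))) z :=
      (h1.hasFDerivAt.sub_const b).const_mul a
    have h3 : HasGradientAt (fun y => a * (φ y - b)) (a • gradient φ z) z := by
      rw [hasGradientAt_iff_hasFDerivAt]
      simpa using h2
    exact h3.gradient
  have hi : iteratedFDeriv ℝ 2 (fun y => a * (φ y - b)) z = a • iteratedFDeriv ℝ 2 φ z := by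
    have e : (fun y => a * (φ y - b)) = a • (φ - fun _ => b) := by
      funext y; simp
    have hc : ContDiffAt ℝ 2 (fun _ : (EuclideanSpace ℝ (Fin d)) => b) z := contDiffAt_const
    have hs : ContDiffAt ℝ 2 (φ - fun _ => b) z := hφ.contDiffAt.sub hc
    rw [e, iteratedFDeriv_const_smul_apply hs, iteratedFDeriv_sub_apply hφ.contDiffAt hc,
      iteratedFDeriv_const_of_ne (by norm_num)]
    simp
  rw [eg_infinityLaplacian_def, eg_infinityLaplacian_def, hg, hi]
  simp only [smul_apply, iteratedFDeriv_two_apply, Matrix.cons_val_zero,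
    Matrix.cons_val_one, map_smul, smul_eq_mul]
  ring

/-- Positive scaling and addition of constants preserve the frozen viscosity notion. -/
lemma eg_isInfinityHarmonicOn_scale {u : (EuclideanSpace ℝ (Fin d)) → ℝ} {Ω : Set (EuclideanSpace ℝ (Fin d))} (h : IsInfinityHarmonicOn u Ω) {c : ℝ}
    (hc : 0 < c) (b : ℝ) : IsInfinityHarmonicOn (fun x => c * u x + b) Ω := by
  refine ⟨(continuousOn_const.mul h.1).add continuousOn_const, fun z hz φ hφ hφz => ?_⟩
  have hψ : ContDiff ℝ 2 (fun y => c⁻¹ * (φ y - b)) := contDiff_const.mul (hφ.sub contDiff_const)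
  have hψz : (fun y => c⁻¹ * (φ y - b)) z = u z := by
    simp only [hφz]; field_simp; ring
  obtain ⟨h1, h2⟩ := h.2 z hz _ hψ hψz
  rw [eg_infinityLaplacian_scale hφ] at h1 h2
  have hc3 : 0 < c⁻¹ ^ 3 := by positivity
  constructor
  · intro hev
    have : ∀ᶠ y in 𝓝 z, u y ≤ c⁻¹ * (φ y - b) := by
      filter_upwards [hev] with y hy
      rw [inv_mul_eq_div, le_div_iff₀ hc]
      linarith
    exact (mul_nonneg_iff_of_pos_left hc3).mp (h1 this)
  · intro hev
    have : ∀ᶠ y in 𝓝 z, c⁻¹ * (φ y - b) ≤ u y := by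
      filter_upwards [hev] with y hy
      rw [inv_mul_eq_div, div_le_iff₀ hc]
      linarith
    have := h2 this
    by_contra hcon
    rw [not_le] at hcon
    have := mul_pos hc3 hcon
    linarith

/-- The interface with the body of the proof: every normalised solution has affine fits with
error `K ρ^(1+α)` at every centre of `B_{1/2}` and every radius `ρ ≤ ρ₀`. -/
def EgUniformFits (d : ℕ) (α K ρ₀ : ℝ) : Prop :=
  ∀ u : EuclideanSpace ℝ (Fin d) → ℝ, IsInfinityHarmonicOn u (ball 0 1) → u 0 = 0 →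
    (∀ y ∈ ball (0 : EuclideanSpace ℝ (Fin d)) 1, ∀ y' ∈ ball (0 : EuclideanSpace ℝ (Fin d)) 1,
      u y - u y' ≤ 1) →
    ∀ x ∈ ball (0 : EuclideanSpace ℝ (Fin d)) (1 / 2), ∀ ρ, 0 < ρ → ρ ≤ ρ₀ →
      ∃ p, CampFit u x p ρ (K * ρ ^ (1 + α))

/-- The estimate for normalised solutions. -/
theorem eg_normalized_estimate {α K ρ₀ : ℝ} (hα : 0 < α) (hK : 0 ≤ K) (hρ₀ : 0 < ρ₀)
    (hρ₀' : ρ₀ ≤ 1 / 2) (H : EgUniformFits d α K ρ₀) {u : (EuclideanSpace ℝ (Fin d)) → ℝ}
    (hu : IsInfinityHarmonicOn u (ball 0 1)) (hu0 : u 0 = 0)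
    (hosc : ∀ y ∈ ball (0 : (EuclideanSpace ℝ (Fin d))) 1, ∀ y' ∈ ball (0 : (EuclideanSpace ℝ (Fin d))) 1, u y - u y' ≤ 1) :
    ∃ g : (EuclideanSpace ℝ (Fin d)) → (EuclideanSpace ℝ (Fin d)), (∀ x ∈ ball (0 : (EuclideanSpace ℝ (Fin d))) (1 / 2), HasGradientAt u (g x) x) ∧
      (∀ x ∈ ball (0 : (EuclideanSpace ℝ (Fin d))) (1 / 2), ‖g x‖ ≤ campGradConst α K ρ₀ 1) ∧
      ∀ y ∈ ball (0 : (EuclideanSpace ℝ (Fin d))) (1 / 2), ∀ z ∈ ball (0 : (EuclideanSpace ℝ (Fin d))) (1 / 2),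
        ‖g y - g z‖ ≤ campHolderConst α K ρ₀ 1 * ‖y - z‖ ^ α := by
  apply camp_main hα hK hρ₀ (H u hu hu0 hosc)
  intro x hx h hh
  have hx1 : x ∈ ball (0 : (EuclideanSpace ℝ (Fin d))) 1 := ball_subset_ball (by norm_num) hx
  have hxh : x + h ∈ ball (0 : (EuclideanSpace ℝ (Fin d))) 1 := by
    rw [mem_ball_zero_iff] at hx ⊢
    calc ‖x + h‖ ≤ ‖x‖ + ‖h‖ := norm_add_le _ _
      _ < 1 := by linarith
  rw [abs_le]
  constructor
  · linarith [hosc x hx1 (x + h) hxh]
  · exact hosc _ hxh _ hx1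

/-- Final assembly: the frozen statement S0589 follows from `EgUniformFits`. -/
theorem eg_result_of_uniformFits {α K ρ₀ : ℝ} (hα : 0 < α) (hα' : α ≤ 1 / 3) (hK : 0 ≤ K)
    (hρ₀ : 0 < ρ₀) (hρ₀' : ρ₀ ≤ 1 / 2) (H : EgUniformFits d α K ρ₀) :
    ∃ α : ℝ, 0 < α ∧ α ≤ 1 / 3 ∧ ∃ C : ℝ, ∀ u : EuclideanSpace ℝ (Fin d) → ℝ,
      BddAbove (u '' Metric.ball 0 1) → BddBelow (u '' Metric.ball 0 1) →
      IsInfinityHarmonicOn u (Metric.ball 0 1) →
      DifferentiableOn ℝ u (Metric.ball 0 (1 / 2)) ∧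
      ∀ x ∈ Metric.ball (0 : EuclideanSpace ℝ (Fin d)) (1 / 2),
      ∀ y ∈ Metric.ball (0 : EuclideanSpace ℝ (Fin d)) (1 / 2),
      ∀ z ∈ Metric.ball (0 : EuclideanSpace ℝ (Fin d)) (1 / 2), y ≠ z →
        ‖gradient u x‖ + ‖gradient u y - gradient u z‖ / ‖y - z‖ ^ α ≤
          C * (sSup (u '' Metric.ball 0 1) - sInf (u '' Metric.ball 0 1)) := by
  refine ⟨α, hα, hα', campGradConst α K ρ₀ 1 + campHolderConst α K ρ₀ 1, fun u hA hB hu => ?_⟩
  set M := sSup (u '' Metric.ball 0 1) - sInf (u '' Metric.ball 0 1) with hM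
  have hoscM : ∀ y ∈ ball (0 : (EuclideanSpace ℝ (Fin d))) 1, ∀ y' ∈ ball (0 : (EuclideanSpace ℝ (Fin d))) 1, u y - u y' ≤ M := fun y hy y' hy' => by
    have h1 : u y ≤ sSup (u '' Metric.ball 0 1) := le_csSup hA (mem_image_of_mem u hy)
    have h2 : sInf (u '' Metric.ball 0 1) ≤ u y' := csInf_le hB (mem_image_of_mem u hy')
    linarith
  have h0 : (0 : (EuclideanSpace ℝ (Fin d))) ∈ ball (0 : (EuclideanSpace ℝ (Fin d))) 1 := mem_ball_self one_pos
  have hM0 : 0 ≤ M := by simpa using hoscM 0 h0 0 h0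
  -- it suffices to produce a gradient field with the scaled bounds
  suffices hs : ∃ g : (EuclideanSpace ℝ (Fin d)) → (EuclideanSpace ℝ (Fin d)), (∀ x ∈ ball (0 : (EuclideanSpace ℝ (Fin d))) (1 / 2), HasGradientAt u (g x) x) ∧
      (∀ x ∈ ball (0 : (EuclideanSpace ℝ (Fin d))) (1 / 2), ‖g x‖ ≤ campGradConst α K ρ₀ 1 * M) ∧
      ∀ y ∈ ball (0 : (EuclideanSpace ℝ (Fin d))) (1 / 2), ∀ z ∈ ball (0 : (EuclideanSpace ℝ (Fin d))) (1 / 2),
        ‖g y - g z‖ ≤ campHolderConst α K ρ₀ 1 * M * ‖y - z‖ ^ α by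
    obtain ⟨g, hg1, hg2, hg3⟩ := hs
    refine ⟨fun x hx => (hg1 x hx).differentiableAt.differentiableWithinAt, fun x hx y hy z hz hyz => ?_⟩
    rw [(hg1 x hx).gradient, (hg1 y hy).gradient, (hg1 z hz).gradient]
    have hpos : 0 < ‖y - z‖ ^ α :=
      Real.rpow_pos_of_pos (norm_pos_iff.mpr (sub_ne_zero.mpr hyz)) _
    have h2 : ‖g y - g z‖ / ‖y - z‖ ^ α ≤ campHolderConst α K ρ₀ 1 * M := by
      rw [div_le_iff₀ hpos]; exact hg3 y hy z hz
    linarith [hg2 x hx]
  rcases hM0.eq_or_lt with hMz | hMpos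
  · -- constant function
    refine ⟨fun _ => 0, fun x hx => ?_, fun x _ => by simp [← hMz], fun y _ z _ => by simp [← hMz]⟩
    have hx1 : ball (0 : (EuclideanSpace ℝ (Fin d))) 1 ∈ 𝓝 x := isOpen_ball.mem_nhds (ball_subset_ball (by norm_num) hx)
    have hev : u =ᶠ[𝓝 x] fun _ => u 0 := by
      filter_upwards [hx1] with y hy
      have a := hoscM y hy 0 h0
      have b := hoscM 0 h0 y hy
      linarith
    have hc : HasGradientAt (fun _ : (EuclideanSpace ℝ (Fin d)) => u 0) 0 x := by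
      rw [hasGradientAt_iff_hasFDerivAt]
      simpa using hasFDerivAt_const (u 0) x
    exact hc.congr_of_eventuallyEq hev
  · set v : (EuclideanSpace ℝ (Fin d)) → ℝ := fun x => M⁻¹ * u x + (-(M⁻¹ * u 0)) with hv
    have hvh : IsInfinityHarmonicOn v (ball 0 1) := eg_isInfinityHarmonicOn_scale hu (inv_pos.mpr hMpos) _
    have hv0 : v 0 = 0 := by simp [hv]
    have hvosc : ∀ y ∈ ball (0 : (EuclideanSpace ℝ (Fin d))) 1, ∀ y' ∈ ball (0 : (EuclideanSpace ℝ (Fin d))) 1, v y - v y' ≤ 1 := fun y hy y' hy' => by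
      have := hoscM y hy y' hy'
      simp only [hv]
      have e : M⁻¹ * u y + -(M⁻¹ * u 0) - (M⁻¹ * u y' + -(M⁻¹ * u 0)) = (u y - u y') / M := by
        field_simp; ring
      rw [e, div_le_one hMpos]
      exact this
    obtain ⟨g, hg1, hg2, hg3⟩ := eg_normalized_estimate hα hK hρ₀ hρ₀' H hvh hv0 hvosc
    refine ⟨fun x => M • g x, fun x hx => ?_, fun x hx => ?_, fun y hy z hz => ?_⟩
    · have h1 : HasFDerivAt (fun y => M * v y + u 0)
          (M • (InnerProductSpace.toDual ℝ (EuclideanSpace ℝ (Fin d)) (g x))) x :=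
        ((hg1 x hx).hasFDerivAt.const_mul M).add_const (u 0)
      have e : (fun y => M * v y + u 0) = u := by
        funext y; simp only [hv]; field_simp; ring
      rw [e] at h1
      rw [hasGradientAt_iff_hasFDerivAt]
      simpa using h1
    · rw [norm_smul, Real.norm_eq_abs, abs_of_pos hMpos]
      nlinarith [hg2 x hx]
    · rw [← smul_sub, norm_smul, Real.norm_eq_abs, abs_of_pos hMpos]
      nlinarith [hg3 y hy z hz]

end Claimed.Agent.R330
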