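import Claimed.Agent.R330.EnvBasic

/-!
# Row 330: quadratic envelopes, attainment, semigroup law, reflection, affine model
-/

namespace Claimed.Agent.R330

open Filter Topology Set

section Attain

variable {X : Type*} [NormedAddCommGroup X]

/-- The competitor function tends to `-∞` at infinity. -/
theorem supConv_term_tendsto_atBot [ProperSpace X] {g : X → ℝ} (hg : SubQuadAbove g) {l : ℝ}
    (hl : 0 < l) (x : X) :
    Tendsto (fun y : X => g y - ‖y - x‖ ^ 2 / (2 * l)) (cocompact X) atBot := by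
  have hε : 0 < 1 / (8 * l) := by positivity
  obtain ⟨C, hC⟩ := hg _ hε
  have h1 : Tendsto (fun y : X => ‖y - x‖) (cocompact X) atTop := by
    refine tendsto_atTop_mono (fun y => ?_)
      (tendsto_atTop_add_const_right _ (-‖x‖) (tendsto_norm_cocompact_atTop (E := X)))
    have : ‖y‖ ≤ ‖y - x‖ + ‖x‖ := by
      calc ‖y‖ = ‖(y - x) + x‖ := by simp
        _ ≤ _ := norm_add_le _ _
    linarith
  have h2 : Tendsto (fun y : X => ‖y - x‖ ^ 2) (cocompact X) atTop :=
    (tendsto_pow_atTop two_ne_zero).comp h1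
  have h3 : Tendsto (fun y : X => (1 / (4 * l)) * ‖y - x‖ ^ 2) (cocompact X) atTop :=
    h2.const_mul_atTop (by positivity)
  have h4 : Tendsto (fun y : X => (2 * (1 / (8 * l)) * ‖x‖ ^ 2 + C) +
      - ((1 / (4 * l)) * ‖y - x‖ ^ 2)) (cocompact X) atBot :=
    tendsto_atBot_add_const_left _ _ (tendsto_neg_atTop_atBot.comp h3)
  refine tendsto_atBot_mono (fun y => ?_) h4
  have h := supConv_term_le hε.le hC l x y
  have h0 : (1 / (2 * l) - 2 * (1 / (8 * l))) = 1 / (4 * l) := by
    field_simp
    ring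
  rw [h0] at h
  linarith

/-- Attainment of the sup-convolution. -/
theorem exists_supConv_eq [ProperSpace X] {g : X → ℝ} (hc : Continuous g) (hg : SubQuadAbove g)
    {l : ℝ} (hl : 0 < l) (x : X) :
    ∃ y, supConv l g x = g y - ‖y - x‖ ^ 2 / (2 * l) := by
  have hcont : Continuous (fun y : X => g y - ‖y - x‖ ^ 2 / (2 * l)) := by fun_prop
  obtain ⟨y, hy⟩ := hcont.exists_forall_ge (supConv_term_tendsto_atBot hg hl x)
  exact ⟨y, le_antisymm (supConv_le hy) (le_supConv hg hl x y)⟩

/-- Attainment of the inf-convolution. -/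
theorem exists_infConv_eq [ProperSpace X] {g : X → ℝ} (hc : Continuous g) (hg : SubQuadBelow g)
    {l : ℝ} (hl : 0 < l) (x : X) :
    ∃ y, infConv l g x = g y + ‖y - x‖ ^ 2 / (2 * l) := by
  obtain ⟨y, hy⟩ := exists_supConv_eq (g := fun y => - g y) hc.neg hg.neg hl x
  refine ⟨y, ?_⟩
  rw [infConv_eq_neg_supConv, hy]
  ring

end Attain

section Semigroup

variable {X : Type*} [NormedAddCommGroup X]

/-- The quadratic costs are subadditive along a broken path. -/
theorem env_cost_split {l h : ℝ} (hl : 0 < l) (hh : 0 < h) (x y z : X) :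
    ‖z - x‖ ^ 2 / (2 * (l + h)) ≤ ‖y - x‖ ^ 2 / (2 * l) + ‖z - y‖ ^ 2 / (2 * h) := by
  have hc : ‖z - x‖ ≤ ‖y - x‖ + ‖z - y‖ := by
    calc ‖z - x‖ = ‖(y - x) + (z - y)‖ := by congr 1; abel
      _ ≤ _ := norm_add_le _ _
  set a := ‖y - x‖
  set b := ‖z - y‖
  set c := ‖z - x‖
  have ha : 0 ≤ a := norm_nonneg _
  have hb : 0 ≤ b := norm_nonneg _
  have hc0 : 0 ≤ c := norm_nonneg _
  have hc2 : c ^ 2 ≤ (a + b) ^ 2 := by nlinarith
  rw [div_add_div _ _ (by positivity) (by positivity), div_le_div_iff₀ (by positivity)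
    (by positivity)]
  have key : (a + b) ^ 2 * (l * h) ≤ (a ^ 2 * h + l * b ^ 2) * (l + h) := by
    nlinarith [sq_nonneg (a * h - b * l)]
  have : c ^ 2 * (l * h) ≤ (a + b) ^ 2 * (l * h) :=
    mul_le_mul_of_nonneg_right hc2 (by positivity)
  nlinarith

variable [NormedSpace ℝ X]

/-- Equality of the costs at the point of the straight segment. -/
theorem env_cost_split_eq {l h : ℝ} (hl : 0 < l) (hh : 0 < h) (x z : X) :
    ‖(x + (l / (l + h)) • (z - x)) - x‖ ^ 2 / (2 * l)
      + ‖z - (x + (l / (l + h)) • (z - x))‖ ^ 2 / (2 * h) = ‖z - x‖ ^ 2 / (2 * (l + h)) := by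
  have hlh : 0 < l + h := by positivity
  have h1 : (x + (l / (l + h)) • (z - x)) - x = (l / (l + h)) • (z - x) := by abel
  have h2 : z - (x + (l / (l + h)) • (z - x)) = (h / (l + h)) • (z - x) := by
    have : (h / (l + h)) = 1 - l / (l + h) := by
      field_simp
      ring
    rw [this, sub_smul, one_smul]
    abel
  rw [h1, h2, norm_smul, norm_smul, Real.norm_of_nonneg (by positivity),
    Real.norm_of_nonneg (by positivity)]
  field_simp

/-- Semigroup law of the sup-convolution. -/
theorem supConv_supConv {g : X → ℝ} (hg : SubQuadAbove g) {l h : ℝ} (hl : 0 < l) (hh : 0 < h)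
    (x : X) : supConv l (supConv h g) x = supConv (l + h) g x := by
  have hlh : 0 < l + h := by positivity
  apply le_antisymm
  · refine supConv_le fun y => ?_
    have : supConv h g y ≤ supConv (l + h) g x + ‖y - x‖ ^ 2 / (2 * l) := by
      refine supConv_le fun z => ?_
      have h1 := le_supConv hg hlh x z
      have h2 := env_cost_split hl hh x y z
      linarith
    linarith
  · refine supConv_le fun z => ?_
    have h1 := le_supConv (hg.supConv hh) hl x (x + (l / (l + h)) • (z - x))
    have h2 := le_supConv hg hh (x + (l / (l + h)) • (z - x)) z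
    have h3 := env_cost_split_eq hl hh x z
    linarith

/-- Semigroup law of the inf-convolution. -/
theorem infConv_infConv {g : X → ℝ} (hg : SubQuadBelow g) {l h : ℝ} (hl : 0 < l) (hh : 0 < h)
    (x : X) : infConv l (infConv h g) x = infConv (l + h) g x := by
  rw [infConv_eq_neg_supConv, infConv_eq_neg_supConv (l + h), ← supConv_supConv hg.neg hl hh]
  congr 2
  ext y
  rw [infConv_eq_neg_supConv, neg_neg]

/-- `M_l P_{l+h} g ≥ P_h g`. -/
theorem supConv_le_infConv_supConv {g : X → ℝ} (hg : SubQuadAbove g) {l h : ℝ} (hl : 0 < l)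
    (hh : 0 < h) (x : X) : supConv h g x ≤ infConv l (supConv (l + h) g) x := by
  have h1 := le_infConv_supConv (hg.supConv hh) hl x
  have h2 : supConv l (supConv h g) = supConv (l + h) g := by
    ext y
    exact supConv_supConv hg hl hh y
  rwa [h2] at h1

/-- Scaling covariance of the sup-convolution. -/
theorem supConv_scale (g : X → ℝ) {R : ℝ} (hR : 0 < R) (l : ℝ) (x : X) :
    supConv l (fun y => g (R • y) / R) x = supConv (R * l) g (R • x) / R := by
  unfold supConv
  have hsurj : Function.Surjective (fun y : X => R • y) := fun z =>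
    ⟨R⁻¹ • z, by simp [smul_smul, hR.ne']⟩
  rw [← hsurj.iSup_comp (fun z => g z - ‖z - R • x‖ ^ 2 / (2 * (R * l))), div_eq_inv_mul,
    Real.mul_iSup_of_nonneg (by positivity)]
  congr 1
  ext y
  rw [← smul_sub, norm_smul, Real.norm_of_nonneg hR.le]
  by_cases hl : l = 0
  · simp [hl]
    ring
  · field_simp

end Semigroup

section Tilt

variable {X : Type*} [NormedAddCommGroup X] [InnerProductSpace ℝ X]

/-- Completing the square. -/
theorem env_tilt_identity {l : ℝ} (hl : l ≠ 0) (p x y : X) :
    inner ℝ p y - ‖y - x‖ ^ 2 / (2 * l)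
      = inner ℝ p x + l * ‖p‖ ^ 2 / 2 - ‖y - (x + l • p)‖ ^ 2 / (2 * l) := by
  have h1 : y - (x + l • p) = (y - x) - l • p := by abel
  rw [h1, norm_sub_sq_real (y - x) (l • p), norm_smul, inner_smul_right, inner_sub_left,
    real_inner_comm p y, real_inner_comm p x, Real.norm_eq_abs, mul_pow, sq_abs]
  field_simp
  ring

/-- Adding a linear function shifts the centre of the sup-convolution. -/
theorem supConv_add_inner {g : X → ℝ} (hg : SubQuadAbove g) {l : ℝ} (hl : 0 < l) (p x : X) :
    supConv l (fun y => g y + inner ℝ p y) x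
      = supConv l g (x + l • p) + inner ℝ p x + l * ‖p‖ ^ 2 / 2 := by
  have h := env_iSup_affine (Equiv.refl X) (supConv_bddAbove hg hl (x + l • p)) zero_le_one
    (inner ℝ p x + l * ‖p‖ ^ 2 / 2)
  unfold supConv
  rw [one_mul] at h
  rw [add_assoc, ← h]
  congr 1
  ext y
  have := env_tilt_identity hl.ne' p x y
  simp only [Equiv.refl_apply]
  linarith

/-- The exact affine model: `P_l` of `⟪p,·⟫ + c`. -/
theorem supConv_affine {l : ℝ} (hl : 0 < l) (p : X) (c : ℝ) (x : X) :
    supConv l (fun y => inner ℝ p y + c) x = inner ℝ p x + c + l * ‖p‖ ^ 2 / 2 := by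
  apply le_antisymm
  · refine supConv_le fun y => ?_
    have := env_tilt_identity hl.ne' p x y
    have h2 : 0 ≤ ‖y - (x + l • p)‖ ^ 2 / (2 * l) := by positivity
    linarith
  · have hb : BddAbove (Set.range fun y : X => (inner ℝ p y + c) - ‖y - x‖ ^ 2 / (2 * l)) := by
      refine ⟨inner ℝ p x + c + l * ‖p‖ ^ 2 / 2, ?_⟩
      rintro _ ⟨y, rfl⟩
      have := env_tilt_identity hl.ne' p x y
      have h2 : 0 ≤ ‖y - (x + l • p)‖ ^ 2 / (2 * l) := by positivity
      simp only
      linarith
    have h1 := le_ciSup hb (x + l • p)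
    have := env_tilt_identity hl.ne' p x (x + l • p)
    simp only [sub_self, norm_zero] at this
    unfold supConv
    have h3 : (0:ℝ) ^ 2 / (2 * l) = 0 := by simp
    linarith

theorem infConv_affine {l : ℝ} (hl : 0 < l) (p : X) (c : ℝ) (x : X) :
    infConv l (fun y => inner ℝ p y + c) x = inner ℝ p x + c - l * ‖p‖ ^ 2 / 2 := by
  rw [infConv_eq_neg_supConv]
  have h := supConv_affine hl (-p) (-c) x
  have h2 : (fun y => -(inner ℝ p y + c)) = fun y => inner ℝ (-p) y + -c := by
    ext y
    rw [inner_neg_left]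
    ring
  rw [h2, h, inner_neg_left, norm_neg]
  ring

end Tilt

end Claimed.Agent.R330
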