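import Mathlib

/-!
# Row 330: one-dimensional lemmas for the path convexity of quadratic envelopes

* `envpath_xlogx_minorant`: second order quadratic minorant of `l log l` near `l₀ > 0`.
* `envpath_convexOn_of_parabola`: a function on the positive half line which satisfies the
  comparison principle with strictly concave parabolas is convex.

Owner: helper132.
-/

namespace Claimed.Agent.R330

open scoped Topology
open Filter Set

/-- Second order lower bound for `log (1 - x)`. -/
lemma envpath_log_lower {x : ℝ} (hx : |x| ≤ 1 / 2) :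
    -x - x ^ 2 / 2 - 2 * |x| ^ 3 ≤ Real.log (1 - x) := by
  have h1 : |x| < 1 := by linarith
  have h := Real.abs_log_sub_add_sum_range_le h1 2
  simp only [Finset.sum_range_succ, Finset.sum_range_zero] at h
  have h2 : |x| ^ (2 + 1) / (1 - |x|) ≤ 2 * |x| ^ 3 := by
    rw [div_le_iff₀ (by linarith)]
    have h0 : 0 ≤ |x| ^ 3 := pow_nonneg (abs_nonneg x) 3
    have e : |x| ^ (2 + 1) = |x| ^ 3 := by norm_num
    rw [e]
    nlinarith
  have h3 := (abs_le.mp h).1
  norm_num at h3
  linarith

/-- Second order lower bound for `(1 - x) log (1 - x)`. -/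
lemma envpath_mul_log_lower {x : ℝ} (hx : |x| ≤ 1 / 2) :
    -x + x ^ 2 / 2 - 4 * |x| ^ 3 ≤ (1 - x) * Real.log (1 - x) := by
  have h := envpath_log_lower hx
  have hx1 := (abs_le.mp hx).1
  have hx2 := (abs_le.mp hx).2
  have h1 : 0 < 1 - x := by linarith
  have h2 : (1 - x) * (-x - x ^ 2 / 2 - 2 * |x| ^ 3) ≤ (1 - x) * Real.log (1 - x) :=
    mul_le_mul_of_nonneg_left h h1.le
  have h3 : -|x| ^ 3 ≤ x ^ 3 := by
    have := neg_abs_le (x ^ 3)
    rwa [abs_pow] at this
  have h4 : 0 ≤ |x| ^ 3 := pow_nonneg (abs_nonneg x) 3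
  nlinarith

/-- Quadratic minorant of `l log l` near `l₀ > 0`, with second derivative `1 / l₀ - 2 η`. -/
lemma envpath_xlogx_minorant {l₀ η : ℝ} (hl₀ : 0 < l₀) (hη : 0 < η) :
    ∀ᶠ l in 𝓝 l₀, l₀ * Real.log l₀ + (Real.log l₀ + 1) * (l - l₀)
      + (1 / (2 * l₀) - η) * (l - l₀) ^ 2 ≤ l * Real.log l := by
  set δ : ℝ := min (l₀ / 2) (η * l₀ ^ 2 / 4) with hδ
  have hδpos : 0 < δ := by
    rw [hδ]; exact lt_min (by positivity) (by positivity)
  filter_upwards [Metric.ball_mem_nhds l₀ hδpos] with l hl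
  rw [Metric.mem_ball, Real.dist_eq] at hl
  set x : ℝ := (l₀ - l) / l₀ with hxdef
  have hl1 : |l - l₀| < l₀ / 2 := lt_of_lt_of_le hl (min_le_left _ _)
  have hl2 : |l - l₀| < η * l₀ ^ 2 / 4 := lt_of_lt_of_le hl (min_le_right _ _)
  have habs : |x| = |l - l₀| / l₀ := by
    rw [hxdef, abs_div, abs_of_pos hl₀, abs_sub_comm]
  have hx : |x| ≤ 1 / 2 := by
    rw [habs, div_le_iff₀ hl₀]; linarith
  have hx' : 4 * |x| ≤ η * l₀ := by
    rw [habs]
    have : 4 * (|l - l₀| / l₀) = (4 * |l - l₀|) / l₀ := by ring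
    rw [this, div_le_iff₀ hl₀]
    nlinarith
  have hlx : l = l₀ * (1 - x) := by
    rw [hxdef]; field_simp; ring
  have h1x : 0 < 1 - x := by
    have := (abs_le.mp hx).2; linarith
  have hlog : Real.log l = Real.log l₀ + Real.log (1 - x) := by
    rw [hlx, Real.log_mul hl₀.ne' h1x.ne']
  have hm := envpath_mul_log_lower hx
  have hcube : 4 * |x| ^ 3 ≤ η * l₀ * x ^ 2 := by
    have : |x| ^ 3 = |x| * x ^ 2 := by
      rw [← sq_abs x]; ring
    rw [this]
    nlinarith [sq_nonneg x]
  have hsub : l - l₀ = - (l₀ * x) := by rw [hlx]; ring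
  rw [hlog, hsub]
  have e1 : l * (Real.log l₀ + Real.log (1 - x))
      = l₀ * ((1 - x) * Real.log l₀) + l₀ * ((1 - x) * Real.log (1 - x)) := by
    rw [hlx]; ring
  rw [e1]
  have e2 : (1 / (2 * l₀) - η) * (-(l₀ * x)) ^ 2 = l₀ * (x ^ 2 / 2 - η * l₀ * x ^ 2) := by
    field_simp
  rw [e2]
  have h5 : l₀ * (-x + x ^ 2 / 2 - η * l₀ * x ^ 2) ≤ l₀ * ((1 - x) * Real.log (1 - x)) :=
    mul_le_mul_of_nonneg_left (by linarith) hl₀.le
  nlinarith

/-- A function on the positive half line satisfying the comparison principle with strictly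
concave parabolas is convex. -/
lemma envpath_convexOn_of_parabola {G : ℝ → ℝ}
    (h : ∀ a b α β η : ℝ, 0 < a → a < b → 0 < η →
      G a ≤ α + β * a - η * a ^ 2 → G b ≤ α + β * b - η * b ^ 2 →
      ∀ l ∈ Ioo a b, G l ≤ α + β * l - η * l ^ 2) :
    ConvexOn ℝ (Ioi (0 : ℝ)) G := by
  refine LinearOrder.convexOn_of_lt (convex_Ioi 0) ?_
  intro x hx y _ hxy a b ha hb hab
  have hx0 : (0 : ℝ) < x := hx
  simp only [smul_eq_mul]
  set l : ℝ := a * x + b * y with hl
  have hyx : 0 < y - x := sub_pos.mpr hxy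
  have hbe : b = 1 - a := by linarith
  have hlx : l - x = b * (y - x) := by rw [hl, hbe]; ring
  have hyl : y - l = a * (y - x) := by rw [hl, hbe]; ring
  have hlmem : l ∈ Ioo x y := by
    constructor
    · have : 0 < l - x := by rw [hlx]; positivity
      linarith
    · have : 0 < y - l := by rw [hyl]; positivity
      linarith
  refine le_of_forall_pos_le_add ?_
  intro ε hε
  set s : ℝ := (G y - G x) / (y - x) with hs
  have hsy : s * (y - x) = G y - G x := by rw [hs]; field_simp
  set η : ℝ := ε / ((l - x) * (y - l)) with hηdef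
  have hprod : 0 < (l - x) * (y - l) := by
    rw [hlx, hyl]; positivity
  have hη : 0 < η := by rw [hηdef]; positivity
  have hηe : η * ((l - x) * (y - l)) = ε := by
    rw [hηdef]; exact div_mul_cancel₀ _ hprod.ne'
  have key := h x y (G x - s * x - η * x * y) (s + η * (x + y)) η hx0 hxy hη
    (by nlinarith) (by nlinarith) l hlmem
  have e : G x - s * x - η * x * y + (s + η * (x + y)) * l - η * l ^ 2
      = G x + s * (l - x) + η * ((l - x) * (y - l)) := by ring
  rw [e, hηe, hlx] at key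
  have e2 : s * (b * (y - x)) = b * (G y - G x) := by
    rw [← hsy]; ring
  rw [e2] at key
  have : G x + b * (G y - G x) = a * G x + b * G y := by rw [hbe]; ring
  linarith

end Claimed.Agent.R330
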