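import Mathlib
import Claimed.Agent.R330.EnvBasic
import Claimed.Agent.R330.PartBDefs
import Claimed.Agent.R330.EnvPath1D

/-!
# Row 330: path convexity of the quadratic envelopes (paper Lemma 4.3, formula (4.8))

A continuous function `f : X → ℝ → ℝ` of subquadratic spatial growth which is a subsolution,
tested with quadratic polynomials, of the limit equation `D²f[(∇ₓf,1),(∇ₓf,1)] ≥ 0` has a path
convex forward envelope:
`l ↦ P_l f (x₀ + l d, t) + |d|² l log l` is convex on `(0,∞)`.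
The mirror statement holds for supersolutions and the backward envelope.

The proof is a direct joint maximum over `(y,l)`: neither attainment nor continuity of the
envelope is used.  Only times larger than the base time `t` enter.

Owner: helper132.
-/

namespace Claimed.Agent.R330

open scoped Topology RealInnerProductSpace
open Filter Set

variable {X : Type*} [NormedAddCommGroup X] [InnerProductSpace ℝ X]

/-- Quadratic-jet subsolution of the limit equation `D²f[(∇ₓf,1),(∇ₓf,1)] ≥ 0` at all points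
whose time lies in `T`. -/
def EnvPathSub (T : Set ℝ) (f : X → ℝ → ℝ) : Prop :=
  ∀ (x : X) (s : ℝ), s ∈ T → ∀ (p b : X) (q c : ℝ) (A : X →L[ℝ] X →L[ℝ] ℝ),
    (∀ᶠ z : X × ℝ in 𝓝 (x, s), f z.1 z.2 ≤ f x s + ⟪p, z.1 - x⟫ + q * (z.2 - s)
        + (A (z.1 - x) (z.1 - x) + 2 * ⟪b, z.1 - x⟫ * (z.2 - s) + c * (z.2 - s) ^ 2) / 2) →
    0 ≤ A p p + 2 * ⟪b, p⟫ + c

/-- Quadratic-jet supersolution of the limit equation at all points whose time lies in `T`. -/
def EnvPathSuper (T : Set ℝ) (f : X → ℝ → ℝ) : Prop :=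
  ∀ (x : X) (s : ℝ), s ∈ T → ∀ (p b : X) (q c : ℝ) (A : X →L[ℝ] X →L[ℝ] ℝ),
    (∀ᶠ z : X × ℝ in 𝓝 (x, s), f x s + ⟪p, z.1 - x⟫ + q * (z.2 - s)
        + (A (z.1 - x) (z.1 - x) + 2 * ⟪b, z.1 - x⟫ * (z.2 - s) + c * (z.2 - s) ^ 2) / 2
        ≤ f z.1 z.2) →
    A p p + 2 * ⟪b, p⟫ + c ≤ 0

/-- Completing the square in the quadratic cost. -/
lemma envpath_cost_identity (r p : X) {l : ℝ} (hl : 0 < l) :
    ‖r‖ ^ 2 / (2 * l) = ⟪p, r⟫ - ‖p‖ ^ 2 * l / 2 + ‖r - l • p‖ ^ 2 / (2 * l) := by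
  rw [norm_sub_sq_real, inner_smul_right, norm_smul, Real.norm_eq_abs, mul_pow, sq_abs,
    real_inner_comm]
  field_simp
  ring

/-- Quadratic majorant of the cost near an optimal pair. -/
lemma envpath_cost_le {x₀ d y₀ y p : X} {l₀ l k : ℝ} (hl₀ : 0 < l₀) (hl : 0 < l)
    (hp : y₀ - (x₀ + l₀ • d) = l₀ • p) (hk : 1 / (2 * l) ≤ k) :
    ‖y - (x₀ + l • d)‖ ^ 2 / (2 * l) ≤ ‖y₀ - (x₀ + l₀ • d)‖ ^ 2 / (2 * l₀) + ⟪p, y - y₀⟫
      - (⟪p, d⟫ + ‖p‖ ^ 2 / 2) * (l - l₀) + k * ‖(y - y₀) - (l - l₀) • (d + p)‖ ^ 2 := by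
  have hy₀ : y₀ = x₀ + l₀ • d + l₀ • p := by rw [← hp]; abel
  have e1 : y - (x₀ + l • d) - l • p = (y - y₀) - (l - l₀) • (d + p) := by
    rw [hy₀]; module
  have e2 : y - (x₀ + l • d) = (y - y₀) + l₀ • p - (l - l₀) • d := by
    rw [hy₀]; module
  have e3 : ⟪p, y - (x₀ + l • d)⟫ = ⟪p, y - y₀⟫ + l₀ * ‖p‖ ^ 2 - (l - l₀) * ⟪p, d⟫ := by
    rw [e2, inner_sub_right, inner_add_right, inner_smul_right, inner_smul_right,
      real_inner_self_eq_norm_sq]
  have e4 : ‖y₀ - (x₀ + l₀ • d)‖ ^ 2 / (2 * l₀) = l₀ * ‖p‖ ^ 2 / 2 := by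
    rw [hp, norm_smul, Real.norm_eq_abs, mul_pow, sq_abs]
    field_simp
  rw [envpath_cost_identity (y - (x₀ + l • d)) p hl, e1, e3, e4]
  have h5 : ‖(y - y₀) - (l - l₀) • (d + p)‖ ^ 2 / (2 * l)
      ≤ k * ‖(y - y₀) - (l - l₀) • (d + p)‖ ^ 2 := by
    have : ‖(y - y₀) - (l - l₀) • (d + p)‖ ^ 2 / (2 * l)
        = 1 / (2 * l) * ‖(y - y₀) - (l - l₀) • (d + p)‖ ^ 2 := by ring
    rw [this]
    exact mul_le_mul_of_nonneg_right hk (sq_nonneg _)
  nlinarith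

/-- The jet inequality at a joint maximum point. -/
lemma envpath_test {f : X → ℝ → ℝ} {t l₀ : ℝ} {x₀ d y₀ : X} (hl₀ : 0 < l₀)
    (hsub : ∀ (p b : X) (q c : ℝ) (A : X →L[ℝ] X →L[ℝ] ℝ),
      (∀ᶠ z : X × ℝ in 𝓝 (y₀, t + l₀), f z.1 z.2 ≤ f y₀ (t + l₀) + ⟪p, z.1 - y₀⟫
        + q * (z.2 - (t + l₀)) + (A (z.1 - y₀) (z.1 - y₀)
        + 2 * ⟪b, z.1 - y₀⟫ * (z.2 - (t + l₀)) + c * (z.2 - (t + l₀)) ^ 2) / 2) →
      0 ≤ A p p + 2 * ⟪b, p⟫ + c)
    {m : ℝ → ℝ}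
    (hmax : ∀ᶠ l in 𝓝 l₀, ∀ y : X, f y (t + l) - ‖y - (x₀ + l • d)‖ ^ 2 / (2 * l) + m l
      ≤ f y₀ (t + l₀) - ‖y₀ - (x₀ + l₀ • d)‖ ^ 2 / (2 * l₀) + m l₀)
    {β γ : ℝ} (hm : ∀ᶠ l in 𝓝 l₀, m l₀ + β * (l - l₀) + γ * (l - l₀) ^ 2 ≤ m l)
    {k : ℝ} (hk : 1 / (2 * l₀) < k) : 0 ≤ k * ‖d‖ ^ 2 - γ := by
  set p : X := (1 / l₀) • (y₀ - (x₀ + l₀ • d)) with hpdef
  have hp : y₀ - (x₀ + l₀ • d) = l₀ • p := by
    rw [hpdef, smul_smul, mul_one_div_cancel hl₀.ne', one_smul]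
  set e : X := d + p with he
  have hk' : ∀ᶠ l in 𝓝 l₀, 1 / (2 * l) ≤ k ∧ 0 < l := by
    have hcont : ContinuousAt (fun l : ℝ => 1 / (2 * l)) l₀ := by
      apply ContinuousAt.div continuousAt_const (by fun_prop)
      positivity
    have h1 : ∀ᶠ l in 𝓝 l₀, 1 / (2 * l) < k := hcont.eventually (gt_mem_nhds hk)
    filter_upwards [h1, lt_mem_nhds hl₀] with l h2 h3
    exact ⟨h2.le, h3⟩
  have hT : Tendsto (fun z : X × ℝ => z.2 - t) (𝓝 (y₀, t + l₀)) (𝓝 l₀) := by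
    have : Continuous (fun z : X × ℝ => z.2 - t) := by fun_prop
    exact this.tendsto' _ _ (by simp)
  set B : X →L[ℝ] X →L[ℝ] ℝ :=
    (isBoundedBilinearMap_inner (𝕜 := ℝ) (E := X)).toContinuousLinearMap with hB
  have hBapp : ∀ u w : X, B u w = ⟪u, w⟫ := fun _ _ => rfl
  have key := hsub p (-(2 * k) • e) (-(⟪p, d⟫ + ‖p‖ ^ 2 / 2) - β) (2 * k * ‖e‖ ^ 2 - 2 * γ)
    ((2 * k) • B) ?_
  · simp only [smul_apply, hBapp, smul_eq_mul, inner_smul_left,
      real_inner_self_eq_norm_sq, RCLike.conj_to_real] at key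
    have h1 : ⟪e, p⟫ = ⟪d, p⟫ + ‖p‖ ^ 2 := by
      rw [he, inner_add_left, real_inner_self_eq_norm_sq]
    have h2 : ‖e‖ ^ 2 = ‖d‖ ^ 2 + 2 * ⟪d, p⟫ + ‖p‖ ^ 2 := by
      rw [he, norm_add_sq_real]
    rw [h1, h2] at key
    nlinarith
  · filter_upwards [hT.eventually hmax, hT.eventually hm, hT.eventually hk'] with z h1 h2 h3
    have et : t + (z.2 - t) = z.2 := by ring
    have es : z.2 - (t + l₀) = z.2 - t - l₀ := by ring
    have h1' := h1 z.1
    rw [et] at h1'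
    have h4 := envpath_cost_le (y := z.1) hl₀ h3.2 hp h3.1
    rw [es]
    set σ : ℝ := z.2 - t - l₀ with hσ
    set h : X := z.1 - y₀ with hh
    have h5 : ‖h - σ • e‖ ^ 2 = ‖h‖ ^ 2 - 2 * (σ * ⟪e, h⟫) + σ ^ 2 * ‖e‖ ^ 2 := by
      rw [norm_sub_sq_real, inner_smul_right, norm_smul, Real.norm_eq_abs, mul_pow, sq_abs,
        real_inner_comm]
    simp only [smul_apply, hBapp, smul_eq_mul, inner_smul_left,
      real_inner_self_eq_norm_sq, RCLike.conj_to_real]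
    rw [h5] at h4
    nlinarith

/-- Existence of a joint maximum point of `(y,l) ↦ f (y,t+l) - |y - x₀ - l d|²/(2l) + m l`. -/
lemma envpath_exists_max [FiniteDimensional ℝ X] {f : X → ℝ → ℝ} {t a b : ℝ} (ha : 0 < a)
    (hab : a ≤ b) (hc : ContinuousOn (fun z : X × ℝ => f z.1 z.2) (univ ×ˢ Ioi t))
    (hg : SubQuadOn (Icc (t + a) (t + b)) f) (x₀ d : X) {m : ℝ → ℝ}
    (hm : ContinuousOn m (Icc a b)) :
    ∃ y₀ : X, ∃ l₀ ∈ Icc a b, ∀ y : X, ∀ l ∈ Icc a b,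
      f y (t + l) - ‖y - (x₀ + l • d)‖ ^ 2 / (2 * l) + m l
        ≤ f y₀ (t + l₀) - ‖y₀ - (x₀ + l₀ • d)‖ ^ 2 / (2 * l₀) + m l₀ := by
  set Φ : X × ℝ → ℝ :=
    fun z => f z.1 (t + z.2) - ‖z.1 - (x₀ + z.2 • d)‖ ^ 2 / (2 * z.2) + m z.2 with hΦ
  have hb : 0 < b := lt_of_lt_of_le ha hab
  have hΦc : ContinuousOn Φ (univ ×ˢ Icc a b) := by
    have h1 : ContinuousOn (fun z : X × ℝ => f z.1 (t + z.2)) (univ ×ˢ Icc a b) := by
      have hmap : MapsTo (fun z : X × ℝ => (z.1, t + z.2)) (univ ×ˢ Icc a b)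
          (univ ×ˢ Ioi t) := by
        rintro ⟨y, l⟩ ⟨-, hl⟩
        refine ⟨mem_univ _, ?_⟩
        have : a ≤ l := hl.1
        simp only [mem_Ioi]
        linarith
      exact hc.comp (f := fun z : X × ℝ => (z.1, t + z.2)) (by fun_prop) hmap
    have h2 : ContinuousOn (fun z : X × ℝ => ‖z.1 - (x₀ + z.2 • d)‖ ^ 2 / (2 * z.2))
        (univ ×ˢ Icc a b) := by
      apply ContinuousOn.div (by fun_prop) (by fun_prop)
      rintro ⟨y, l⟩ ⟨-, hl⟩
      have : 0 < l := lt_of_lt_of_le ha hl.1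
      simp only
      positivity
    have h3 : ContinuousOn (fun z : X × ℝ => m z.2) (univ ×ˢ Icc a b) :=
      hm.comp continuousOn_snd (fun z hz => hz.2)
    exact (h1.sub h2).add h3
  obtain ⟨M, hM⟩ := isCompact_Icc.bddAbove_image hm
  have hM' : ∀ l ∈ Icc a b, m l ≤ M := fun l hl => hM (mem_image_of_mem m hl)
  obtain ⟨C, hC⟩ := hg (1 / (8 * b)) (by positivity)
  set c₀ : ℝ := ‖x₀‖ + b * ‖d‖ with hc₀
  have hupper : ∀ y : X, ∀ l ∈ Icc a b,
      Φ (y, l) ≤ -(‖y‖ ^ 2 / (8 * b)) + (C + c₀ ^ 2 / (2 * b) + M) := by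
    intro y l hl
    have hl0 : 0 < l := lt_of_lt_of_le ha hl.1
    have h1 : f y (t + l) ≤ 1 / (8 * b) * ‖y‖ ^ 2 + C :=
      (le_abs_self _).trans (hC y (t + l) ⟨by linarith [hl.1], by linarith [hl.2]⟩)
    have h2 : ‖x₀ + l • d‖ ≤ c₀ := by
      refine (norm_add_le _ _).trans ?_
      rw [norm_smul, Real.norm_eq_abs, abs_of_pos hl0, hc₀]
      have := mul_le_mul_of_nonneg_right hl.2 (norm_nonneg d)
      linarith
    have h2' : ‖x₀ + l • d‖ ^ 2 ≤ c₀ ^ 2 := pow_le_pow_left₀ (norm_nonneg _) h2 2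
    have h3 : ‖y‖ ^ 2 ≤ 2 * ‖y - (x₀ + l • d)‖ ^ 2 + 2 * ‖x₀ + l • d‖ ^ 2 :=
      env_norm_sq_le _ _
    have h4 : ‖y - (x₀ + l • d)‖ ^ 2 / (2 * b) ≤ ‖y - (x₀ + l • d)‖ ^ 2 / (2 * l) :=
      div_le_div_of_nonneg_left (sq_nonneg _) (by positivity) (by linarith [hl.2])
    have h5 : ‖y‖ ^ 2 / (4 * b) - c₀ ^ 2 / (2 * b) ≤ ‖y - (x₀ + l • d)‖ ^ 2 / (2 * b) := by
      have : ‖y‖ ^ 2 / (4 * b) - c₀ ^ 2 / (2 * b) = (‖y‖ ^ 2 / 2 - c₀ ^ 2) / (2 * b) := by
        field_simp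
        ring
      rw [this]
      exact div_le_div_of_nonneg_right (by linarith) (by positivity)
    have h6 : 1 / (8 * b) * ‖y‖ ^ 2 - ‖y‖ ^ 2 / (4 * b) = -(‖y‖ ^ 2 / (8 * b)) := by
      field_simp
      ring
    have h7 := hM' l hl
    simp only [hΦ]
    linarith
  set V₀ : ℝ := Φ (0, a) with hV₀
  set D : ℝ := C + c₀ ^ 2 / (2 * b) + M - V₀ with hD
  set R : ℝ := 8 * b * |D| + 1 with hR
  have hR1 : 1 ≤ R := by
    rw [hR]
    have : 0 ≤ 8 * b * |D| := by positivity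
    linarith
  have hK : IsCompact (Metric.closedBall (0 : X) R ×ˢ Icc a b) :=
    (isCompact_closedBall 0 R).prod isCompact_Icc
  have h0K : ((0 : X), a) ∈ Metric.closedBall (0 : X) R ×ˢ Icc a b :=
    ⟨Metric.mem_closedBall_self (by linarith), left_mem_Icc.2 hab⟩
  obtain ⟨z₀, hz₀K, hz₀max⟩ := hK.exists_isMaxOn ⟨_, h0K⟩
    (hΦc.mono (prod_mono (subset_univ _) subset_rfl))
  refine ⟨z₀.1, z₀.2, hz₀K.2, fun y l hl => ?_⟩
  change Φ (y, l) ≤ Φ z₀
  by_cases hy : ‖y‖ ≤ R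
  · exact hz₀max ⟨mem_closedBall_zero_iff.2 hy, hl⟩
  · have hy := not_le.mp hy
    have h1 : Φ (y, l) ≤ V₀ := by
      have h2 := hupper y l hl
      have h3 : R ≤ ‖y‖ ^ 2 := by nlinarith
      have h4 : |D| ≤ ‖y‖ ^ 2 / (8 * b) := by
        rw [le_div_iff₀ (by positivity)]
        rw [hR] at h3
        linarith
      have h5 := le_abs_self D
      rw [hD] at h5 h4
      linarith
    exact h1.trans (hz₀max h0K)

/-- **Path convexity of the forward envelope** (paper Lemma 4.3, (4.8)), local in time: only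
times larger than the base time `t` are used. -/
theorem envpath_convexOn [FiniteDimensional ℝ X] {f : X → ℝ → ℝ} {t : ℝ}
    (hc : ContinuousOn (fun z : X × ℝ => f z.1 z.2) (univ ×ˢ Ioi t))
    (hg : ∀ a b : ℝ, t < a → SubQuadOn (Icc a b) f)
    (hsub : EnvPathSub (Ioi t) f) (x₀ d : X) :
    ConvexOn ℝ (Ioi (0 : ℝ))
      (fun l => envP l f (x₀ + l • d) t + ‖d‖ ^ 2 * (l * Real.log l)) := by
  apply envpath_convexOn_of_parabola
  intro a b α β η ha hab hη hGa hGb l₁ hl₁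
  by_contra hcon
  have hcon := not_le.mp hcon
  set κ : ℝ := ‖d‖ ^ 2 with hκ
  have hκ0 : 0 ≤ κ := sq_nonneg _
  set m : ℝ → ℝ := fun l => κ * (l * Real.log l) - (α + β * l - η * l ^ 2) with hmdef
  have hmc : ContinuousOn m (Icc a b) := by
    have h1 : Continuous (fun l : ℝ => l * Real.log l) := Real.continuous_mul_log
    have : Continuous m := by
      rw [hmdef]
      exact (continuous_const.mul h1).sub (by fun_prop)
    exact this.continuousOn
  have hgab : SubQuadOn (Icc (t + a) (t + b)) f := hg _ _ (by linarith)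
  obtain ⟨y₀, l₀, hl₀, hmax⟩ := envpath_exists_max ha hab.le hc hgab x₀ d hmc
  have hslice : ∀ l ∈ Icc a b, ∀ y : X,
      f y (t + l) - ‖y - (x₀ + l • d)‖ ^ 2 / (2 * l) ≤ envP l f (x₀ + l • d) t := by
    intro l hl y
    have hsq : SubQuad (fun y => f y (t + l)) :=
      hgab.slice ⟨by linarith [hl.1], by linarith [hl.2]⟩
    exact le_supConv hsq.above (lt_of_lt_of_le ha hl.1) (x₀ + l • d) y
  have hpos : 0 < f y₀ (t + l₀) - ‖y₀ - (x₀ + l₀ • d)‖ ^ 2 / (2 * l₀) + m l₀ := by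
    have hgap : 0 < envP l₁ f (x₀ + l₁ • d) t + κ * (l₁ * Real.log l₁)
        - (α + β * l₁ - η * l₁ ^ 2) := by linarith
    obtain ⟨y₁, hy₁⟩ := exists_supConv_lt (fun y => f y (t + l₁)) l₁ (x₀ + l₁ • d) hgap
    have h1 := hmax y₁ l₁ ⟨hl₁.1.le, hl₁.2.le⟩
    have h2 : envP l₁ f (x₀ + l₁ • d) t = supConv l₁ (fun y => f y (t + l₁)) (x₀ + l₁ • d) := rfl
    rw [← h2] at hy₁
    simp only [hmdef] at h1 ⊢
    linarith
  have hne_a : l₀ ≠ a := by
    intro h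
    rw [h] at hpos
    have := hslice a (left_mem_Icc.2 hab.le) y₀
    simp only [hmdef] at hpos
    linarith
  have hne_b : l₀ ≠ b := by
    intro h
    rw [h] at hpos
    have := hslice b (right_mem_Icc.2 hab.le) y₀
    simp only [hmdef] at hpos
    linarith
  have hl₀' : l₀ ∈ Ioo a b :=
    ⟨lt_of_le_of_ne hl₀.1 (Ne.symm hne_a), lt_of_le_of_ne hl₀.2 hne_b⟩
  have hl₀pos : 0 < l₀ := lt_trans ha hl₀'.1
  have hmax' : ∀ᶠ l in 𝓝 l₀, ∀ y : X, f y (t + l) - ‖y - (x₀ + l • d)‖ ^ 2 / (2 * l) + m l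
      ≤ f y₀ (t + l₀) - ‖y₀ - (x₀ + l₀ • d)‖ ^ 2 / (2 * l₀) + m l₀ := by
    filter_upwards [Icc_mem_nhds hl₀'.1 hl₀'.2] with l hl y
    exact hmax y l hl
  set η₁ : ℝ := η / (4 * (κ + 1)) with hη₁
  have hη₁pos : 0 < η₁ := by rw [hη₁]; positivity
  have hmq : ∀ᶠ l in 𝓝 l₀, m l₀ + (κ * (Real.log l₀ + 1) - β + 2 * η * l₀) * (l - l₀)
      + (κ * (1 / (2 * l₀) - η₁) + η) * (l - l₀) ^ 2 ≤ m l := by
    filter_upwards [envpath_xlogx_minorant hl₀pos hη₁pos] with l hl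
    have := mul_le_mul_of_nonneg_left hl hκ0
    simp only [hmdef]
    nlinarith
  have hfin := envpath_test (x₀ := x₀) (d := d) (y₀ := y₀) hl₀pos
    (hsub y₀ (t + l₀) (by simp only [mem_Ioi]; linarith)) hmax' hmq
    (k := 1 / (2 * l₀) + η₁) (by linarith)
  have h1 : κ * η₁ * 4 ≤ η := by
    rw [hη₁]
    have : κ * (η / (4 * (κ + 1))) * 4 = η * (κ / (κ + 1)) := by
      field_simp
    rw [this]
    have h2 : κ / (κ + 1) ≤ 1 := by
      rw [div_le_one (by linarith)]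
      linarith
    nlinarith
  nlinarith

/-- Path convexity for a global continuous subsolution of subquadratic growth. -/
theorem envpath_pathConvexP [FiniteDimensional ℝ X] {f : X → ℝ → ℝ}
    (hc : Continuous (fun z : X × ℝ => f z.1 z.2)) (hg : SubQuadLoc f)
    (hsub : EnvPathSub univ f) : PathConvexP f := by
  intro x₀ d t
  exact envpath_convexOn hc.continuousOn (fun a b _ => hg.on_Icc a b)
    (fun x s _ => hsub x s (mem_univ s)) x₀ d

/-- Path convexity at base times `t ≥ t₀` for a subsolution defined at times `> t₀`. -/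
theorem envpath_pathConvexPOn_Ici [FiniteDimensional ℝ X] {f : X → ℝ → ℝ} {t₀ : ℝ}
    (hc : ContinuousOn (fun z : X × ℝ => f z.1 z.2) (univ ×ˢ Ioi t₀))
    (hg : ∀ a b : ℝ, t₀ < a → SubQuadOn (Icc a b) f)
    (hsub : EnvPathSub (Ioi t₀) f) : PathConvexPOn (Ici t₀) f := by
  intro x₀ d t ht
  have ht' : t₀ ≤ t := ht
  refine envpath_convexOn (hc.mono (prod_mono subset_rfl (Ioi_subset_Ioi ht')))
    (fun a b hab => hg a b (lt_of_le_of_lt ht' hab))
    (fun x s hs => hsub x s (lt_of_le_of_lt ht' hs)) x₀ d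

/-! ### The mirror statement -/

/-- The time reflection turns supersolutions into subsolutions. -/
lemma EnvPathSuper.reflT {T : Set ℝ} {f : X → ℝ → ℝ} (h : EnvPathSuper T f) :
    EnvPathSub {s | -s ∈ T} (reflT f) := by
  intro x s hs p b q c A htest
  have hT : Tendsto (fun w : X × ℝ => (w.1, -w.2)) (𝓝 (x, -s)) (𝓝 (x, s)) := by
    have : Continuous (fun w : X × ℝ => (w.1, -w.2)) := by fun_prop
    exact this.tendsto' _ _ (by simp)
  have key := h x (-s) hs (-p) b q (-c) (-A) ?_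
  · simp only [neg_apply, map_neg, inner_neg_right] at key
    linarith
  · filter_upwards [hT.eventually htest] with w hw
    simp only [Claimed.Agent.R330.reflT, neg_neg] at hw
    simp only [neg_apply, inner_neg_left]
    have e : -w.2 - s = -(w.2 - -s) := by ring
    rw [e] at hw
    nlinarith

omit [InnerProductSpace ℝ X] in
/-- The backward envelope is the reflected forward envelope. -/
lemma envpath_envM_eq (l : ℝ) (f : X → ℝ → ℝ) (x : X) (t : ℝ) :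
    envM l f x t = - envP l (reflT f) x (-t) := by
  unfold envM envP
  rw [infConv_eq_neg_supConv]
  congr 2
  funext y
  simp only [reflT]
  congr 2
  ring

omit [InnerProductSpace ℝ X] in
lemma envpath_subQuadOn_reflT {J : Set ℝ} {f : X → ℝ → ℝ} (h : SubQuadOn J f) :
    SubQuadOn {s | -s ∈ J} (reflT f) := by
  intro ε hε
  obtain ⟨C, hC⟩ := h ε hε
  refine ⟨C, fun x s hs => ?_⟩
  simp only [reflT, abs_neg]
  exact hC x (-s) hs

/-- **Path concavity of the backward envelope**, local in time: only times smaller than the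
base time `t` are used. -/
theorem envpath_concaveOn [FiniteDimensional ℝ X] {f : X → ℝ → ℝ} {t : ℝ}
    (hc : ContinuousOn (fun z : X × ℝ => f z.1 z.2) (univ ×ˢ Iio t))
    (hg : ∀ a b : ℝ, b < t → SubQuadOn (Icc a b) f)
    (hsup : EnvPathSuper (Iio t) f) (x₀ d : X) :
    ConcaveOn ℝ (Ioi (0 : ℝ))
      (fun l => envM l f (x₀ + l • d) t - ‖d‖ ^ 2 * (l * Real.log l)) := by
  have hc' : ContinuousOn (fun z : X × ℝ => reflT f z.1 z.2) (univ ×ˢ Ioi (-t)) := by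
    have hmap : MapsTo (fun z : X × ℝ => (z.1, -z.2)) (univ ×ˢ Ioi (-t)) (univ ×ˢ Iio t) := by
      rintro ⟨y, s⟩ ⟨-, hs⟩
      refine ⟨mem_univ _, ?_⟩
      have : -t < s := hs
      simp only [mem_Iio]
      linarith
    exact (hc.comp (f := fun z : X × ℝ => (z.1, -z.2)) (by fun_prop) hmap).neg
  have hg' : ∀ a b : ℝ, -t < a → SubQuadOn (Icc a b) (reflT f) := by
    intro a b ha
    refine (envpath_subQuadOn_reflT (hg (-b) (-a) (by linarith))).mono ?_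
    intro s hs
    exact ⟨by linarith [hs.2], by linarith [hs.1]⟩
  have hsub' : EnvPathSub (Ioi (-t)) (reflT f) := by
    intro x s hs
    refine hsup.reflT x s ?_
    have : -t < s := hs
    change -s < t
    linarith
  have h := (envpath_convexOn hc' hg' hsub' x₀ d).neg
  refine h.congr ?_
  intro l _
  simp only [Pi.neg_apply, envpath_envM_eq]
  ring

/-- Path concavity for a global continuous supersolution of subquadratic growth. -/
theorem envpath_pathConcaveM [FiniteDimensional ℝ X] {f : X → ℝ → ℝ}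
    (hc : Continuous (fun z : X × ℝ => f z.1 z.2)) (hg : SubQuadLoc f)
    (hsup : EnvPathSuper univ f) : PathConcaveM f := by
  intro x₀ d t
  exact envpath_concaveOn hc.continuousOn (fun a b _ => hg.on_Icc a b)
    (fun x s _ => hsup x s (mem_univ s)) x₀ d

end Claimed.Agent.R330
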