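import Claimed.Agent.R330.UFJets
import Claimed.Agent.R330.EnvDefs

/-!
# Row 330, package JetT (W1b/W8a): space-time quadratic jets, definitions

`JetSub u Ω` (file `UFJets`) : quadratic-polynomial upper tests for the infinity Laplacian.
`STSub lam f Ω` : quadratic-polynomial upper tests, in space-time, for the operator
`D²φ[(∇ₓφ, 1 + lam φ_t)]`; `lam = 0` is the limiting equation of the paper (Section 3).
Owner of this file: helper209.
-/

set_option autoImplicit false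

open scoped Topology RealInnerProductSpace

namespace Claimed.Agent.R330

variable {X : Type*} [NormedAddCommGroup X] [InnerProductSpace ℝ X]

/-- The space-time quadratic polynomial (without constant term) with gradient `(p,q)` and
Hessian `(A, b; b, c)`, evaluated at the increment `(h, τ)`. -/
noncomputable def stQuad (p : X) (q : ℝ) (A : X →L[ℝ] X →L[ℝ] ℝ) (b : X) (c : ℝ)
    (h : X) (τ : ℝ) : ℝ :=
  ⟪p, h⟫ + q * τ + (A h h + 2 * ⟪b, h⟫ * τ + c * τ ^ 2) / 2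

/-- The operator `D²φ[(∇ₓφ, 1 + lam φ_t)]` on the jet `(p,q,A,b,c)`. -/
noncomputable def stOp (lam : ℝ) (p : X) (q : ℝ) (A : X →L[ℝ] X →L[ℝ] ℝ) (b : X) (c : ℝ) : ℝ :=
  A p p + 2 * ⟪b, p⟫ * (1 + lam * q) + c * (1 + lam * q) ^ 2

/-- Upper quadratic tests in space-time: `D²φ[(∇ₓφ, 1 + lam φ_t)] ≥ 0`. -/
def STSub (lam : ℝ) (f : X → ℝ → ℝ) (Ω : Set (X × ℝ)) : Prop :=
  ∀ w ∈ Ω, ∀ (p : X) (q : ℝ) (A : X →L[ℝ] X →L[ℝ] ℝ) (b : X) (c : ℝ),
    (∀ᶠ w' : X × ℝ in 𝓝 w,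
      f w'.1 w'.2 ≤ f w.1 w.2 + stQuad p q A b c (w'.1 - w.1) (w'.2 - w.2)) →
    0 ≤ stOp lam p q A b c

/-- Lower quadratic tests in space-time: `D²φ[(∇ₓφ, 1 + lam φ_t)] ≤ 0`. -/
def STSuper (lam : ℝ) (f : X → ℝ → ℝ) (Ω : Set (X × ℝ)) : Prop :=
  ∀ w ∈ Ω, ∀ (p : X) (q : ℝ) (A : X →L[ℝ] X →L[ℝ] ℝ) (b : X) (c : ℝ),
    (∀ᶠ w' : X × ℝ in 𝓝 w,
      f w.1 w.2 + stQuad p q A b c (w'.1 - w.1) (w'.2 - w.2) ≤ f w'.1 w'.2) →
    stOp lam p q A b c ≤ 0

lemma STSub.mono {lam : ℝ} {f : X → ℝ → ℝ} {Ω Ω' : Set (X × ℝ)} (h : STSub lam f Ω)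
    (hs : Ω' ⊆ Ω) : STSub lam f Ω' :=
  fun w hw => h w (hs hw)

lemma STSuper.mono {lam : ℝ} {f : X → ℝ → ℝ} {Ω Ω' : Set (X × ℝ)} (h : STSuper lam f Ω)
    (hs : Ω' ⊆ Ω) : STSuper lam f Ω' :=
  fun w hw => h w (hs hw)

lemma stQuad_refl (p : X) (q : ℝ) (A : X →L[ℝ] X →L[ℝ] ℝ) (b : X) (c : ℝ) (h : X) (τ : ℝ) :
    stQuad (-p) q (-A) b (-c) h (-τ) = - stQuad p q A b c h τ := by
  simp only [stQuad, inner_neg_left, neg_apply]
  ring

lemma stOp_refl (lam : ℝ) (p : X) (q : ℝ) (A : X →L[ℝ] X →L[ℝ] ℝ) (b : X) (c : ℝ) :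
    stOp lam (-p) q (-A) b (-c) = - stOp lam p q A b c := by
  simp only [stOp, inner_neg_right, neg_apply, map_neg]
  ring

/-- The time reflection `reflT f (x,t) = - f (x,-t)` exchanges lower and upper tests. -/
lemma STSuper.reflT {lam : ℝ} {f : X → ℝ → ℝ} {Ω : Set (X × ℝ)} (h : STSuper lam f Ω) :
    STSub lam (reflT f) {w | (w.1, -w.2) ∈ Ω} := by
  intro w hw p q A b c hT
  have hcont : Filter.Tendsto (fun w' : X × ℝ => (w'.1, -w'.2)) (𝓝 (w.1, -w.2)) (𝓝 w) := by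
    have h1 : Continuous (fun w' : X × ℝ => (w'.1, -w'.2)) := by fun_prop
    have h2 := h1.tendsto (w.1, -w.2)
    simpa using h2
  have key := h (w.1, -w.2) hw (-p) q (-A) b (-c) (by
    filter_upwards [hcont.eventually hT] with w' hw'
    simp only [Claimed.Agent.R330.reflT, neg_neg] at hw'
    have e : stQuad (-p) q (-A) b (-c) (w'.1 - w.1) (w'.2 - -w.2)
        = - stQuad p q A b c (w'.1 - w.1) (-w'.2 - w.2) := by
      rw [← stQuad_refl]; congr 1; ring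
    simp only [e]
    linarith)
  rw [stOp_refl] at key
  linarith

/-- The time reflection `reflT f (x,t) = - f (x,-t)` exchanges upper and lower tests. -/
lemma STSub.reflT {lam : ℝ} {f : X → ℝ → ℝ} {Ω : Set (X × ℝ)} (h : STSub lam f Ω) :
    STSuper lam (reflT f) {w | (w.1, -w.2) ∈ Ω} := by
  intro w hw p q A b c hT
  have hcont : Filter.Tendsto (fun w' : X × ℝ => (w'.1, -w'.2)) (𝓝 (w.1, -w.2)) (𝓝 w) := by
    have h1 : Continuous (fun w' : X × ℝ => (w'.1, -w'.2)) := by fun_prop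
    have h2 := h1.tendsto (w.1, -w.2)
    simpa using h2
  have key := h (w.1, -w.2) hw (-p) q (-A) b (-c) (by
    filter_upwards [hcont.eventually hT] with w' hw'
    simp only [Claimed.Agent.R330.reflT, neg_neg] at hw'
    have e : stQuad (-p) q (-A) b (-c) (w'.1 - w.1) (w'.2 - -w.2)
        = - stQuad p q A b c (w'.1 - w.1) (-w'.2 - w.2) := by
      rw [← stQuad_refl]; congr 1; ring
    simp only [e]
    linarith)
  rw [stOp_refl] at key
  linarith

end Claimed.Agent.R330
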