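import Claimed.Agent.R330.EnvPath
import Claimed.Agent.R330.JetTDefs

/-!
# Row 330: path convexity from the space-time jets `STSub 0` / `STSuper 0`

Bridges from the canonical jet definitions (file `JetTDefs`) to the path convexity theorems of
file `EnvPath` (paper Lemma 4.3, formula (4.8)).  Owner: helper132.
-/

namespace Claimed.Agent.R330

open scoped Topology RealInnerProductSpace
open Filter Set

variable {X : Type*} [NormedAddCommGroup X] [InnerProductSpace ℝ X]

lemma STSub.envPathSub {T : Set ℝ} {f : X → ℝ → ℝ} (h : STSub 0 f (univ ×ˢ T)) :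
    EnvPathSub T f := by
  intro x s hs p b q c A htest
  have key := h (x, s) ⟨mem_univ _, hs⟩ p q A b c (by
    filter_upwards [htest] with z hz
    simp only [stQuad]
    linarith)
  simp only [stOp] at key
  linarith

lemma STSuper.envPathSuper {T : Set ℝ} {f : X → ℝ → ℝ} (h : STSuper 0 f (univ ×ˢ T)) :
    EnvPathSuper T f := by
  intro x s hs p b q c A htest
  have key := h (x, s) ⟨mem_univ _, hs⟩ p q A b c (by
    filter_upwards [htest] with z hz
    simp only [stQuad]
    linarith)
  simp only [stOp] at key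
  linarith

/-- Paper Lemma 4.3 (4.8), forward envelope, from `STSub 0` at all points. -/
theorem STSub.pathConvexP [FiniteDimensional ℝ X] {f : X → ℝ → ℝ} (h : STSub 0 f univ)
    (hc : Continuous (fun z : X × ℝ => f z.1 z.2)) (hg : SubQuadLoc f) : PathConvexP f :=
  envpath_pathConvexP hc hg (STSub.envPathSub (h.mono (subset_univ _)))

/-- Paper Lemma 4.3 (4.8), backward envelope, from `STSuper 0` at all points. -/
theorem STSuper.pathConcaveM [FiniteDimensional ℝ X] {f : X → ℝ → ℝ} (h : STSuper 0 f univ)
    (hc : Continuous (fun z : X × ℝ => f z.1 z.2)) (hg : SubQuadLoc f) : PathConcaveM f :=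
  envpath_pathConcaveM hc hg (STSuper.envPathSuper (h.mono (subset_univ _)))

/-- Forward path convexity at base times `t ≥ t₀` from `STSub 0` at the times `> t₀`. -/
theorem STSub.pathConvexPOn_Ici [FiniteDimensional ℝ X] {f : X → ℝ → ℝ} {t₀ : ℝ}
    (h : STSub 0 f (univ ×ˢ Ioi t₀))
    (hc : ContinuousOn (fun z : X × ℝ => f z.1 z.2) (univ ×ˢ Ioi t₀))
    (hg : ∀ a b : ℝ, t₀ < a → SubQuadOn (Icc a b) f) : PathConvexPOn (Ici t₀) f :=
  envpath_pathConvexPOn_Ici hc hg h.envPathSub

/-- The class `ClassA` from continuity, fits, growth and the two jet inequalities. -/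
theorem envpath_classA [FiniteDimensional ℝ X] {C₀ : ℝ} {v : X → ℝ → ℝ}
    (hc : Continuous (fun z : X × ℝ => v z.1 z.2)) (hfit : HasFits C₀ v) (hg : SubQuadLoc v)
    (hsub : STSub 0 v univ) (hsup : STSuper 0 v univ) : ClassA C₀ v :=
  ⟨hc, hfit, hsub.pathConvexP hc hg, hsup.pathConcaveM hc hg⟩

end Claimed.Agent.R330
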