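import Mathlib

/-!
# Row 330, package L10a: rigidity from constant envelope slopes (paper Lemma 8.1)

Everything is phrased with competitor inequalities, so that no particular definition of the
quadratic envelopes is needed.  `X` is any real inner product space.

Compared with the paper we do not use any growth bound: the forward comparison is first proved at
starting times `t ≥ t0`, the backward comparison at final times `t ≤ t0`, and the two are glued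
through the time slice `t = t0`.
-/

namespace Claimed.Agent.R330

open scoped RealInnerProductSpace
open Filter Topology

variable {X : Type*} [NormedAddCommGroup X] [InnerProductSpace ℝ X]

/-- The exact defect in the inf-convolution inequality for quadratic costs. -/
lemma rigid_cost_identity (a b : X) {s r : ℝ} (hs : 0 < s) (hr : 0 < r) :
    ‖a‖ ^ 2 / s + ‖b‖ ^ 2 / r - ‖a + b‖ ^ 2 / (s + r)
      = ‖r • a - s • b‖ ^ 2 / (s * r * (s + r)) := by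
  have h1 : ‖a + b‖ ^ 2 = ‖a‖ ^ 2 + 2 * ⟪a, b⟫ + ‖b‖ ^ 2 := norm_add_sq_real a b
  have h2 : ‖r • a - s • b‖ ^ 2 = r ^ 2 * ‖a‖ ^ 2 - 2 * (r * s * ⟪a, b⟫) + s ^ 2 * ‖b‖ ^ 2 := by
    rw [norm_sub_sq_real, norm_smul, norm_smul, inner_smul_left, inner_smul_right]
    simp only [Real.norm_eq_abs, mul_pow, sq_abs, conj_trivial]
    ring
  rw [h1, h2]
  field_simp
  ring

/-- Inf-convolution inequality for quadratic costs. -/
lemma rigid_cost_le (a b : X) {s r : ℝ} (hs : 0 < s) (hr : 0 < r) :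
    ‖a + b‖ ^ 2 / (s + r) ≤ ‖a‖ ^ 2 / s + ‖b‖ ^ 2 / r := by
  have h := rigid_cost_identity a b hs hr
  have h0 : 0 ≤ ‖r • a - s • b‖ ^ 2 / (s * r * (s + r)) := by positivity
  linarith

/-- "The forward envelope slope of `v` at `(x,t)` of length `ℓ` is at most `c`", i.e.
`P_ℓ v (x,t) ≤ v (x,t) + c ℓ`, written with competitors. -/
def RigidFwdLE (v : X → ℝ → ℝ) (x : X) (t ℓ c : ℝ) : Prop :=
  ∀ y, v y (t + ℓ) ≤ v x t + c * ℓ + ‖y - x‖ ^ 2 / (2 * ℓ)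

/-- "The backward envelope slope of `v` at `(x,t)` of length `ℓ` is at most `c`", i.e.
`v (x,t) - c ℓ ≤ M_ℓ v (x,t)`, written with competitors. -/
def RigidBwdLE (v : X → ℝ → ℝ) (x : X) (t ℓ c : ℝ) : Prop :=
  ∀ y, v x t - c * ℓ - ‖y - x‖ ^ 2 / (2 * ℓ) ≤ v y (t - ℓ)

/-- Forward slopes are nondecreasing in the length (at every centre). -/
def RigidFwdMono (v : X → ℝ → ℝ) : Prop :=
  ∀ x t ℓ₁ ℓ₂ c, 0 < ℓ₁ → ℓ₁ ≤ ℓ₂ → RigidFwdLE v x t ℓ₂ c → RigidFwdLE v x t ℓ₁ c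

/-- Backward slopes are nondecreasing in the length (at every centre). -/
def RigidBwdMono (v : X → ℝ → ℝ) : Prop :=
  ∀ x t ℓ₁ ℓ₂ c, 0 < ℓ₁ → ℓ₁ ≤ ℓ₂ → RigidBwdLE v x t ℓ₂ c → RigidBwdLE v x t ℓ₁ c

/-- The time reflection `ṽ (x,t) = - v (x,-t)`. -/
def rigidRefl (v : X → ℝ → ℝ) : X → ℝ → ℝ := fun x t => - v x (-t)

omit [InnerProductSpace ℝ X] in
lemma rigid_fwd_refl_iff (v : X → ℝ → ℝ) (x : X) (t ℓ c : ℝ) :
    RigidFwdLE (rigidRefl v) x t ℓ c ↔ RigidBwdLE v x (-t) ℓ c := by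
  unfold RigidFwdLE RigidBwdLE rigidRefl
  refine forall_congr' fun y => ?_
  have : -(t + ℓ) = -t - ℓ := by ring
  rw [this]
  constructor <;> intro h <;> linarith

omit [InnerProductSpace ℝ X] in
lemma rigid_fwdMono_refl {v : X → ℝ → ℝ} (h : RigidBwdMono v) : RigidFwdMono (rigidRefl v) := by
  intro x t ℓ₁ ℓ₂ c h1 h2 h3
  rw [rigid_fwd_refl_iff] at h3 ⊢
  exact h x (-t) ℓ₁ ℓ₂ c h1 h2 h3

/-- Step 1: forward comparison with slope `B` from every starting point strictly later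
than `t0`. -/
lemma rigid_fwd_of_gt {v : X → ℝ → ℝ} (hP : RigidFwdMono v) {b : X} {t0 B : ℝ}
    (hPb : ∀ ℓ, 0 < ℓ → RigidFwdLE v b t0 ℓ B) {x : X} {t : ℝ} (ht : t0 < t) {ℓ : ℝ}
    (hℓ : 0 < ℓ) : RigidFwdLE v x t ℓ B := by
  intro y
  set τ := t - t0 with hτ
  have hτ0 : 0 < τ := by rw [hτ]; linarith
  set D := v b t0 + B * τ + ‖x - b‖ ^ 2 / (2 * τ) - v x t with hD
  have hD0 : 0 ≤ D := by
    have := hPb τ hτ0 x
    have e : t0 + τ = t := by rw [hτ]; ring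
    rw [e] at this
    rw [hD]; linarith
  have key : ∀ L, ℓ ≤ L → v y (t + ℓ) ≤ v x t + (B + D / L) * ℓ + ‖y - x‖ ^ 2 / (2 * ℓ) := by
    intro L hL
    have hL0 : 0 < L := lt_of_lt_of_le hℓ hL
    refine hP x t ℓ L (B + D / L) hℓ hL ?_ y
    intro y'
    have h1 := hPb (τ + L) (by positivity) y'
    have e : t0 + (τ + L) = t + L := by rw [hτ]; ring
    rw [e] at h1
    have h2 := rigid_cost_le (x - b) (y' - x) hτ0 hL0
    have e2 : x - b + (y' - x) = y' - b := by abel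
    rw [e2] at h2
    have e3 : (B + D / L) * L = B * L + D := by field_simp
    rw [e3]
    have e4 : ‖y' - b‖ ^ 2 / (2 * (τ + L)) = (‖y' - b‖ ^ 2 / (τ + L)) / 2 := by
      field_simp
    have e5 : ‖x - b‖ ^ 2 / (2 * τ) = (‖x - b‖ ^ 2 / τ) / 2 := by field_simp
    have e6 : ‖y' - x‖ ^ 2 / (2 * L) = (‖y' - x‖ ^ 2 / L) / 2 := by field_simp
    rw [e4] at h1
    rw [hD, e5, e6]
    linarith
  refine le_of_forall_pos_le_add fun ε hε => ?_
  have hL := key (max ℓ (D * ℓ / ε)) (le_max_left _ _)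
  have hpos : 0 < max ℓ (D * ℓ / ε) := lt_of_lt_of_le hℓ (le_max_left _ _)
  have h3 : D / max ℓ (D * ℓ / ε) * ℓ ≤ ε := by
    have h4 : D * ℓ / ε ≤ max ℓ (D * ℓ / ε) := le_max_right _ _
    rw [div_le_iff₀ hε] at h4
    rw [div_mul_eq_mul_div, div_le_iff₀ hpos]
    linarith
  have e7 : (B + D / max ℓ (D * ℓ / ε)) * ℓ = B * ℓ + D / max ℓ (D * ℓ / ε) * ℓ := by ring
  rw [e7] at hL
  linarith

/-- Step 2: forward comparison with slope `B` from every starting point at time `≥ t0`. -/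
lemma rigid_fwd_of_ge {v : X → ℝ → ℝ} (hc : ∀ x, Continuous (v x)) (hP : RigidFwdMono v)
    {b : X} {t0 B : ℝ} (hPb : ∀ ℓ, 0 < ℓ → RigidFwdLE v b t0 ℓ B) {x : X} {t : ℝ}
    (ht : t0 ≤ t) {ℓ : ℝ} (hℓ : 0 < ℓ) : RigidFwdLE v x t ℓ B := by
  intro y
  have h1 : Tendsto (fun s => v y (s + ℓ)) (𝓝[>] t) (𝓝 (v y (t + ℓ))) := by
    have : Continuous fun s => v y (s + ℓ) := (hc y).comp (continuous_id.add continuous_const)
    exact this.continuousAt.tendsto.mono_left nhdsWithin_le_nhds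
  have h2 : Tendsto (fun s => v x s + B * ℓ + ‖y - x‖ ^ 2 / (2 * ℓ)) (𝓝[>] t)
      (𝓝 (v x t + B * ℓ + ‖y - x‖ ^ 2 / (2 * ℓ))) := by
    have : Continuous fun s => v x s + B * ℓ + ‖y - x‖ ^ 2 / (2 * ℓ) :=
      ((hc x).add continuous_const).add continuous_const
    exact this.continuousAt.tendsto.mono_left nhdsWithin_le_nhds
  refine le_of_tendsto_of_tendsto h1 h2 ?_
  filter_upwards [self_mem_nhdsWithin] with s hs
  exact rigid_fwd_of_gt hP hPb (lt_of_le_of_lt ht hs) hℓ y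

/-- Step 3: backward comparison with slope `B` at every final point at time `≤ t0`. -/
lemma rigid_bwd_of_le {v : X → ℝ → ℝ} (hc : ∀ x, Continuous (v x)) (hM : RigidBwdMono v)
    {b : X} {t0 B : ℝ} (hMb : ∀ ℓ, 0 < ℓ → RigidBwdLE v b t0 ℓ B) {x : X} {t : ℝ}
    (ht : t ≤ t0) {ℓ : ℝ} (hℓ : 0 < ℓ) : RigidBwdLE v x t ℓ B := by
  have hc' : ∀ x, Continuous (rigidRefl v x) := fun x => ((hc x).comp continuous_neg).neg
  have hb' : ∀ ℓ, 0 < ℓ → RigidFwdLE (rigidRefl v) b (-t0) ℓ B := by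
    intro ℓ hℓ
    rw [rigid_fwd_refl_iff, neg_neg]
    exact hMb ℓ hℓ
  have := rigid_fwd_of_ge hc' (rigid_fwdMono_refl hM) hb' (x := x) (t := -t) (by linarith) hℓ
  rwa [rigid_fwd_refl_iff, neg_neg] at this

/-- Step 4: the global directed comparison (paper (8.4)). -/
lemma rigid_directed {v : X → ℝ → ℝ} (hc : ∀ x, Continuous (v x)) (hP : RigidFwdMono v)
    (hM : RigidBwdMono v) {b : X} {t0 B : ℝ} (hPb : ∀ ℓ, 0 < ℓ → RigidFwdLE v b t0 ℓ B)
    (hMb : ∀ ℓ, 0 < ℓ → RigidBwdLE v b t0 ℓ B) (x : X) (t : ℝ) {ℓ : ℝ} (hℓ : 0 < ℓ) :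
    RigidFwdLE v x t ℓ B := by
  intro y
  rcases le_total t0 t with ht | ht
  · exact rigid_fwd_of_ge hc hP hPb ht hℓ y
  rcases le_total (t + ℓ) t0 with ht' | ht'
  · have := rigid_bwd_of_le hc hM hMb ht' hℓ (x := y) x
    have e : t + ℓ - ℓ = t := by ring
    rw [e, norm_sub_rev] at this
    linarith
  rcases eq_or_lt_of_le ht with ht1 | ht1
  · exact rigid_fwd_of_ge hc hP hPb ht1.ge hℓ y
  rcases eq_or_lt_of_le ht' with ht2 | ht2
  · have := rigid_bwd_of_le hc hM hMb ht2.ge hℓ (x := y) x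
    have e : t + ℓ - ℓ = t := by ring
    rw [e, norm_sub_rev] at this
    linarith
  set r := t0 - t with hr
  set s := t + ℓ - t0 with hs
  have hr0 : 0 < r := by rw [hr]; linarith
  have hs0 : 0 < s := by rw [hs]; linarith
  have hrs : r + s = ℓ := by rw [hr, hs]; ring
  set z := x + (r / ℓ) • (y - x) with hz
  have h1 := rigid_bwd_of_le hc hM hMb (le_refl t0) hr0 (x := z) x
  have h2 := rigid_fwd_of_ge hc hP hPb (le_refl t0) hs0 (x := z) y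
  have e1 : t0 - r = t := by rw [hr]; ring
  have e2 : t0 + s = t + ℓ := by rw [hs]; ring
  rw [e1] at h1
  rw [e2] at h2
  have n1 : ‖x - z‖ ^ 2 = (r / ℓ) ^ 2 * ‖y - x‖ ^ 2 := by
    have : x - z = -((r / ℓ) • (y - x)) := by rw [hz]; abel
    rw [this, norm_neg, norm_smul, mul_pow, Real.norm_eq_abs, sq_abs]
  have n2 : ‖y - z‖ ^ 2 = (s / ℓ) ^ 2 * ‖y - x‖ ^ 2 := by
    have : y - z = (s / ℓ) • (y - x) := by
      have hs' : s / ℓ = 1 - r / ℓ := by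
        rw [← hrs]; field_simp; ring
      rw [hs', hz, sub_smul, one_smul]; abel
    rw [this, norm_smul, mul_pow, Real.norm_eq_abs, sq_abs]
  rw [n1] at h1
  rw [n2] at h2
  have e3 : (r / ℓ) ^ 2 * ‖y - x‖ ^ 2 / (2 * r) + (s / ℓ) ^ 2 * ‖y - x‖ ^ 2 / (2 * s)
      = ‖y - x‖ ^ 2 / (2 * ℓ) := by
    rw [← hrs]; field_simp
  have e4 : B * r + B * s = B * ℓ := by rw [← hrs]; ring
  linarith

/-- Step 5a: a forward equality point and a backward equality point have the same velocity. -/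
lemma rigid_velocity_eq {v : X → ℝ → ℝ} {b : X} {t0 B : ℝ}
    (hdir : ∀ x t ℓ, 0 < ℓ → RigidFwdLE v x t ℓ B) {ℓ r : ℝ} (hℓ : 0 < ℓ) (hr : 0 < r)
    {yp ym : X} (hp : v yp (t0 + ℓ) = v b t0 + B * ℓ + ‖yp - b‖ ^ 2 / (2 * ℓ))
    (hm : v ym (t0 - r) = v b t0 - B * r - ‖ym - b‖ ^ 2 / (2 * r)) :
    r • (yp - b) = ℓ • (b - ym) := by
  have h := hdir ym (t0 - r) (r + ℓ) (by positivity) yp
  have e : t0 - r + (r + ℓ) = t0 + ℓ := by ring
  rw [e, hp, hm] at h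
  have hid := rigid_cost_identity (yp - b) (b - ym) hℓ hr
  have e2 : yp - b + (b - ym) = yp - ym := by abel
  rw [e2, norm_sub_rev b ym] at hid
  have e3 : ‖yp - ym‖ ^ 2 / (2 * (r + ℓ)) = (‖yp - ym‖ ^ 2 / (ℓ + r)) / 2 := by
    field_simp; ring
  have e4 : ‖yp - b‖ ^ 2 / (2 * ℓ) = (‖yp - b‖ ^ 2 / ℓ) / 2 := by field_simp
  have e5 : ‖ym - b‖ ^ 2 / (2 * r) = (‖ym - b‖ ^ 2 / r) / 2 := by field_simp
  rw [e3, e4, e5] at h
  have h0 : ‖r • (yp - b) - ℓ • (b - ym)‖ ^ 2 / (ℓ * r * (ℓ + r)) ≤ 0 := by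
    rw [← hid]; nlinarith
  have hpos : 0 < ℓ * r * (ℓ + r) := by positivity
  rw [div_le_iff₀ hpos, zero_mul] at h0
  have h1 : ‖r • (yp - b) - ℓ • (b - ym)‖ = 0 := by
    have := sq_nonneg ‖r • (yp - b) - ℓ • (b - ym)‖
    exact pow_eq_zero_iff (two_ne_zero) |>.mp (le_antisymm h0 this)
  exact sub_eq_zero.mp (norm_eq_zero.mp h1)

lemma rigid_le_of_forall_div {a c N : ℝ} (hN : 0 ≤ N)
    (h : ∀ L, 0 < L → a ≤ c + N / (2 * L)) : a ≤ c := by
  refine le_of_forall_pos_le_add fun ε hε => ?_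
  have h1 := h (N / (2 * ε) + 1) (by positivity)
  have h2 : N / (2 * (N / (2 * ε) + 1)) ≤ ε := by
    rw [div_le_iff₀ (by positivity)]
    have : ε * (2 * (N / (2 * ε) + 1)) = N + 2 * ε := by field_simp
    linarith
  linarith

/-- Step 5b: the equality points lie on one straight line. -/
lemma rigid_line {v : X → ℝ → ℝ} {b : X} {t0 B : ℝ}
    (hdir : ∀ x t ℓ, 0 < ℓ → RigidFwdLE v x t ℓ B)
    (hPa : ∀ ℓ, 0 < ℓ → ∃ y, v y (t0 + ℓ) = v b t0 + B * ℓ + ‖y - b‖ ^ 2 / (2 * ℓ))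
    (hMa : ∀ ℓ, 0 < ℓ → ∃ y, v y (t0 - ℓ) = v b t0 - B * ℓ - ‖y - b‖ ^ 2 / (2 * ℓ)) :
    ∃ q : X, ∀ s : ℝ, v (b + s • q) (t0 + s) = v b t0 + (B + ‖q‖ ^ 2 / 2) * s := by
  obtain ⟨ym1, hm1⟩ := hMa 1 one_pos
  obtain ⟨yp1, hp1⟩ := hPa 1 one_pos
  refine ⟨b - ym1, fun s => ?_⟩
  have h11 : yp1 - b = b - ym1 := by
    have := rigid_velocity_eq hdir one_pos one_pos hp1 hm1
    simpa using this
  rcases lt_trichotomy s 0 with hs | hs | hs
  · obtain ⟨ym, hm⟩ := hMa (-s) (by linarith)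
    have h := rigid_velocity_eq hdir one_pos (by linarith : 0 < -s) hp1 hm
    rw [one_smul, h11] at h
    have hy : ym = b + s • (b - ym1) := by
      have : b - ym = -(s • (b - ym1)) := by rw [← h, neg_smul]
      have h2 : ym = b - (b - ym) := by abel
      rw [h2, this]; abel
    have hn : ‖ym - b‖ ^ 2 = s ^ 2 * ‖b - ym1‖ ^ 2 := by
      have : ym - b = s • (b - ym1) := by rw [hy]; abel
      rw [this, norm_smul, mul_pow, Real.norm_eq_abs, sq_abs]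
    rw [← hy]
    have e : t0 + s = t0 - -s := by ring
    rw [e, hm, hn]
    have hs' : s ≠ 0 := hs.ne
    field_simp
    ring
  · subst hs; simp
  · obtain ⟨yp, hp⟩ := hPa s hs
    have h := rigid_velocity_eq hdir hs one_pos hp hm1
    rw [one_smul] at h
    have hy : yp = b + s • (b - ym1) := by
      rw [← h]; abel
    have hn : ‖yp - b‖ ^ 2 = s ^ 2 * ‖b - ym1‖ ^ 2 := by
      rw [h, norm_smul, mul_pow, Real.norm_eq_abs, sq_abs]
    rw [← hy, hp, hn]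
    have hs' : s ≠ 0 := hs.ne'
    field_simp
    ring

/-- Step 6: directed comparison plus one straight line of equality points forces `v` to be
affine. -/
lemma rigid_affine_of_line {v : X → ℝ → ℝ} {b q : X} {t0 B : ℝ}
    (hdir : ∀ x t ℓ, 0 < ℓ → RigidFwdLE v x t ℓ B)
    (hline : ∀ s : ℝ, v (b + s • q) (t0 + s) = v b t0 + (B + ‖q‖ ^ 2 / 2) * s) (x : X) (t : ℝ) :
    v x t = v b t0 + ⟪q, x - b⟫ + (B - ‖q‖ ^ 2 / 2) * (t - t0) := by
  set τ := t - t0 with hτ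
  set ξ := x - b with hξ
  have hN : ‖ξ - τ • q‖ ^ 2 = ‖ξ‖ ^ 2 - 2 * (τ * ⟪q, ξ⟫) + τ ^ 2 * ‖q‖ ^ 2 := by
    rw [norm_sub_sq_real, norm_smul, inner_smul_right, real_inner_comm, mul_pow,
      Real.norm_eq_abs, sq_abs]
  have hS : ∀ s : ℝ, ‖ξ - s • q‖ ^ 2 = ‖ξ‖ ^ 2 - 2 * (s * ⟪q, ξ⟫) + s ^ 2 * ‖q‖ ^ 2 := by
    intro s
    rw [norm_sub_sq_real, norm_smul, inner_smul_right, real_inner_comm, mul_pow,
      Real.norm_eq_abs, sq_abs]
  apply le_antisymm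
  · refine rigid_le_of_forall_div (sq_nonneg ‖ξ - τ • q‖) fun L hL => ?_
    have h := hdir (b + (τ - L) • q) (t0 + (τ - L)) L hL x
    have e : t0 + (τ - L) + L = t := by rw [hτ]; ring
    have e2 : x - (b + (τ - L) • q) = ξ - (τ - L) • q := by rw [hξ]; abel
    rw [e, hline, e2, hS] at h
    rw [hN]
    have e3 : (B + ‖q‖ ^ 2 / 2) * (τ - L) + B * L
        + (‖ξ‖ ^ 2 - 2 * ((τ - L) * ⟪q, ξ⟫) + (τ - L) ^ 2 * ‖q‖ ^ 2) / (2 * L)
        = ⟪q, ξ⟫ + (B - ‖q‖ ^ 2 / 2) * τ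
          + (‖ξ‖ ^ 2 - 2 * (τ * ⟪q, ξ⟫) + τ ^ 2 * ‖q‖ ^ 2) / (2 * L) := by
      field_simp
      ring
    linarith
  · have : -(v x t) ≤ -(v b t0 + ⟪q, ξ⟫ + (B - ‖q‖ ^ 2 / 2) * τ) := by
      refine rigid_le_of_forall_div (sq_nonneg ‖ξ - τ • q‖) fun L hL => ?_
      have h := hdir x t L hL (b + (τ + L) • q)
      have e : t + L = t0 + (τ + L) := by rw [hτ]; ring
      have e2 : b + (τ + L) • q - x = -(ξ - (τ + L) • q) := by rw [hξ]; abel
      rw [e, hline, e2, norm_neg, hS] at h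
      rw [hN]
      have e3 : (B + ‖q‖ ^ 2 / 2) * (τ + L) - B * L
          - (‖ξ‖ ^ 2 - 2 * ((τ + L) * ⟪q, ξ⟫) + (τ + L) ^ 2 * ‖q‖ ^ 2) / (2 * L)
          = ⟪q, ξ⟫ + (B - ‖q‖ ^ 2 / 2) * τ
            - (‖ξ‖ ^ 2 - 2 * (τ * ⟪q, ξ⟫) + τ ^ 2 * ‖q‖ ^ 2) / (2 * L) := by
        field_simp
        ring
      linarith
    linarith

/-- **Rigidity from constant envelope slopes** (paper Lemma 8.1), competitor form.
If `v` is continuous in time, its forward and backward envelope slopes are nondecreasing in the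
length at every centre, and at one centre `(b,t0)` both slopes are equal to `B` at all lengths,
with attained envelopes, then `v` is affine. -/
theorem rigid_affine {v : X → ℝ → ℝ} (hc : ∀ x, Continuous (v x)) (hP : RigidFwdMono v)
    (hM : RigidBwdMono v) {b : X} {t0 B : ℝ}
    (hPb : ∀ ℓ, 0 < ℓ → RigidFwdLE v b t0 ℓ B)
    (hMb : ∀ ℓ, 0 < ℓ → RigidBwdLE v b t0 ℓ B)
    (hPa : ∀ ℓ, 0 < ℓ → ∃ y, v y (t0 + ℓ) = v b t0 + B * ℓ + ‖y - b‖ ^ 2 / (2 * ℓ))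
    (hMa : ∀ ℓ, 0 < ℓ → ∃ y, v y (t0 - ℓ) = v b t0 - B * ℓ - ‖y - b‖ ^ 2 / (2 * ℓ)) :
    ∃ q : X, ∀ x t, v x t = v b t0 + ⟪q, x - b⟫ + (B - ‖q‖ ^ 2 / 2) * (t - t0) := by
  have hdir : ∀ x t ℓ, 0 < ℓ → RigidFwdLE v x t ℓ B :=
    fun x t ℓ hℓ => rigid_directed hc hP hM hPb hMb x t hℓ
  obtain ⟨q, hq⟩ := rigid_line hdir hPa hMa
  exact ⟨q, fun x t => rigid_affine_of_line hdir hq x t⟩

end Claimed.Agent.R330
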