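import Claimed.Agent.R330.EnvDefs
import Claimed.Agent.R330.Rigid

/-!
# Row 330, package L10a: rigidity (paper Lemma 8.1) phrased with `envP`, `envM`, `slopeP`, `slopeM`
-/

namespace Claimed.Agent.R330

open scoped RealInnerProductSpace

section basic

variable {X : Type*} [NormedAddCommGroup X]

lemma rigid_fwdLE_iff_envP {v : X → ℝ → ℝ} {x : X} {t ℓ : ℝ}
    (hb : BddAbove (Set.range fun y => v y (t + ℓ) - ‖y - x‖ ^ 2 / (2 * ℓ))) (c : ℝ) :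
    RigidFwdLE v x t ℓ c ↔ envP ℓ v x t ≤ v x t + c * ℓ := by
  unfold RigidFwdLE envP supConv
  constructor
  · intro h
    have : Nonempty X := ⟨x⟩
    refine ciSup_le fun y => ?_
    have := h y
    linarith
  · intro h y
    have := le_ciSup hb y
    linarith

lemma rigid_bwdLE_iff_envM {v : X → ℝ → ℝ} {x : X} {t ℓ : ℝ}
    (hb : BddBelow (Set.range fun y => v y (t - ℓ) + ‖y - x‖ ^ 2 / (2 * ℓ))) (c : ℝ) :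
    RigidBwdLE v x t ℓ c ↔ v x t - c * ℓ ≤ envM ℓ v x t := by
  unfold RigidBwdLE envM infConv
  constructor
  · intro h
    have : Nonempty X := ⟨x⟩
    refine le_ciInf fun y => ?_
    have := h y
    linarith
  · intro h y
    have := ciInf_le hb y
    linarith

lemma rigid_fwdLE_iff_slopeP {v : X → ℝ → ℝ} {x : X} {t ℓ : ℝ} (hℓ : 0 < ℓ)
    (hb : BddAbove (Set.range fun y => v y (t + ℓ) - ‖y - x‖ ^ 2 / (2 * ℓ))) (c : ℝ) :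
    RigidFwdLE v x t ℓ c ↔ slopeP ℓ v x t ≤ c := by
  rw [rigid_fwdLE_iff_envP hb, slopeP, div_le_iff₀ hℓ]
  constructor <;> intro h <;> linarith

lemma rigid_bwdLE_iff_slopeM {v : X → ℝ → ℝ} {x : X} {t ℓ : ℝ} (hℓ : 0 < ℓ)
    (hb : BddBelow (Set.range fun y => v y (t - ℓ) + ‖y - x‖ ^ 2 / (2 * ℓ))) (c : ℝ) :
    RigidBwdLE v x t ℓ c ↔ slopeM ℓ v x t ≤ c := by
  rw [rigid_bwdLE_iff_envM hb, slopeM, div_le_iff₀ hℓ]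
  constructor <;> intro h <;> linarith

lemma rigid_fwdMono_of_slopeP {v : X → ℝ → ℝ}
    (hb : ∀ x t ℓ, 0 < ℓ → BddAbove (Set.range fun y => v y (t + ℓ) - ‖y - x‖ ^ 2 / (2 * ℓ)))
    (hm : ∀ x t ℓ₁ ℓ₂, 0 < ℓ₁ → ℓ₁ ≤ ℓ₂ → slopeP ℓ₁ v x t ≤ slopeP ℓ₂ v x t) :
    RigidFwdMono v := by
  intro x t ℓ₁ ℓ₂ c h1 h2 h3
  have h2' : 0 < ℓ₂ := lt_of_lt_of_le h1 h2
  rw [rigid_fwdLE_iff_slopeP h2' (hb x t ℓ₂ h2')] at h3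
  rw [rigid_fwdLE_iff_slopeP h1 (hb x t ℓ₁ h1)]
  exact (hm x t ℓ₁ ℓ₂ h1 h2).trans h3

lemma rigid_bwdMono_of_slopeM {v : X → ℝ → ℝ}
    (hb : ∀ x t ℓ, 0 < ℓ → BddBelow (Set.range fun y => v y (t - ℓ) + ‖y - x‖ ^ 2 / (2 * ℓ)))
    (hm : ∀ x t ℓ₁ ℓ₂, 0 < ℓ₁ → ℓ₁ ≤ ℓ₂ → slopeM ℓ₁ v x t ≤ slopeM ℓ₂ v x t) :
    RigidBwdMono v := by
  intro x t ℓ₁ ℓ₂ c h1 h2 h3
  have h2' : 0 < ℓ₂ := lt_of_lt_of_le h1 h2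
  rw [rigid_bwdLE_iff_slopeM h2' (hb x t ℓ₂ h2')] at h3
  rw [rigid_bwdLE_iff_slopeM h1 (hb x t ℓ₁ h1)]
  exact (hm x t ℓ₁ ℓ₂ h1 h2).trans h3

end basic

variable {X : Type*} [NormedAddCommGroup X] [InnerProductSpace ℝ X]

/-- **Rigidity from constant envelope slopes** (paper Lemma 8.1), with the envelopes of
`EnvDefs`.  Boundedness of the competitor families and attainment at the special centre are
hypotheses (they follow from continuity and subquadratic growth). -/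
theorem rigid_affine_env {v : X → ℝ → ℝ} (hc : ∀ x, Continuous (v x))
    (hbP : ∀ x t ℓ, 0 < ℓ → BddAbove (Set.range fun y => v y (t + ℓ) - ‖y - x‖ ^ 2 / (2 * ℓ)))
    (hbM : ∀ x t ℓ, 0 < ℓ → BddBelow (Set.range fun y => v y (t - ℓ) + ‖y - x‖ ^ 2 / (2 * ℓ)))
    (hmP : ∀ x t ℓ₁ ℓ₂, 0 < ℓ₁ → ℓ₁ ≤ ℓ₂ → slopeP ℓ₁ v x t ≤ slopeP ℓ₂ v x t)
    (hmM : ∀ x t ℓ₁ ℓ₂, 0 < ℓ₁ → ℓ₁ ≤ ℓ₂ → slopeM ℓ₁ v x t ≤ slopeM ℓ₂ v x t)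
    {b : X} {t0 B : ℝ}
    (hP : ∀ ℓ, 0 < ℓ → slopeP ℓ v b t0 = B) (hM : ∀ ℓ, 0 < ℓ → slopeM ℓ v b t0 = B)
    (haP : ∀ ℓ, 0 < ℓ → ∃ y, envP ℓ v b t0 = v y (t0 + ℓ) - ‖y - b‖ ^ 2 / (2 * ℓ))
    (haM : ∀ ℓ, 0 < ℓ → ∃ y, envM ℓ v b t0 = v y (t0 - ℓ) + ‖y - b‖ ^ 2 / (2 * ℓ)) :
    ∃ q : X, ∀ x t, v x t = v b t0 + ⟪q, x - b⟫ + (B - ‖q‖ ^ 2 / 2) * (t - t0) := by
  have eP : ∀ ℓ, 0 < ℓ → envP ℓ v b t0 = v b t0 + B * ℓ := by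
    intro ℓ hℓ
    have := hP ℓ hℓ
    rw [slopeP, div_eq_iff hℓ.ne'] at this
    linarith
  have eM : ∀ ℓ, 0 < ℓ → envM ℓ v b t0 = v b t0 - B * ℓ := by
    intro ℓ hℓ
    have := hM ℓ hℓ
    rw [slopeM, div_eq_iff hℓ.ne'] at this
    linarith
  refine rigid_affine hc (rigid_fwdMono_of_slopeP hbP hmP) (rigid_bwdMono_of_slopeM hbM hmM)
    (b := b) (t0 := t0) (B := B) ?_ ?_ ?_ ?_
  · intro ℓ hℓ
    rw [rigid_fwdLE_iff_slopeP hℓ (hbP b t0 ℓ hℓ)]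
    exact (hP ℓ hℓ).le
  · intro ℓ hℓ
    rw [rigid_bwdLE_iff_slopeM hℓ (hbM b t0 ℓ hℓ)]
    exact (hM ℓ hℓ).le
  · intro ℓ hℓ
    obtain ⟨y, hy⟩ := haP ℓ hℓ
    refine ⟨y, ?_⟩
    rw [eP ℓ hℓ] at hy
    linarith
  · intro ℓ hℓ
    obtain ⟨y, hy⟩ := haM ℓ hℓ
    refine ⟨y, ?_⟩
    rw [eM ℓ hℓ] at hy
    linarith

end Claimed.Agent.R330
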