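import Mathlib
import Claimed.Agent.R330.PartBDefs
import Claimed.Agent.R330.RigidEnv

/-!
# Row 330, package L10b, step A: the final limit function cannot exist (paper Section 8)

The limit function `w` of the rescaled solutions has monotone envelope slopes which, at one point
`(b,s)`, do not increase between the lengths `2^{-k}` and `2^k` for every `k`.  Hence both slopes
are constant there; they agree by paper Lemma 4.4; the rigidity lemma makes `w` affine; an affine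
function has no barycentric gap.  Owner: helper244.
-/

namespace Claimed.Agent.R330

open Set
open scoped RealInnerProductSpace

variable {X : Type*} [NormedAddCommGroup X] [InnerProductSpace ℝ X]

/-- A monotone function on `(0,∞)` which does not increase between `2^{-k}` and `2^k`, for every
`k`, is constant. -/
theorem fin_const_of_dyadic {S : ℝ → ℝ}
    (hmono : ∀ l₁ l₂ : ℝ, 0 < l₁ → l₁ ≤ l₂ → S l₁ ≤ S l₂)
    (hk : ∀ k : ℕ, S (2 ^ k) ≤ S (1 / 2 ^ k)) (l : ℝ) (hl : 0 < l) : S l = S 1 := by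
  obtain ⟨k₁, hk₁⟩ := pow_unbounded_of_one_lt l (one_lt_two : (1 : ℝ) < 2)
  obtain ⟨k₂, hk₂⟩ := pow_unbounded_of_one_lt (1 / l) (one_lt_two : (1 : ℝ) < 2)
  set k := max k₁ k₂ with hkdef
  have h2k : (0 : ℝ) < 2 ^ k := by positivity
  have hup : l ≤ 2 ^ k :=
    hk₁.le.trans (pow_le_pow_right₀ one_le_two (le_max_left _ _))
  have hlow' : 1 / l ≤ 2 ^ k :=
    hk₂.le.trans (pow_le_pow_right₀ one_le_two (le_max_right _ _))
  have hlow : 1 / 2 ^ k ≤ l := by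
    rw [div_le_iff₀ h2k]
    rw [div_le_iff₀ hl] at hlow'
    linarith
  have h1up : (1 : ℝ) ≤ 2 ^ k := one_le_pow₀ one_le_two
  have h1low : 1 / 2 ^ k ≤ (1 : ℝ) := by
    rw [div_le_iff₀ h2k]; linarith
  have hpos : (0 : ℝ) < 1 / 2 ^ k := by positivity
  apply le_antisymm
  · calc S l ≤ S (2 ^ k) := hmono _ _ hl hup
      _ ≤ S (1 / 2 ^ k) := hk k
      _ ≤ S 1 := hmono _ _ hpos h1low
  · calc S 1 ≤ S (2 ^ k) := hmono _ _ one_pos h1up
      _ ≤ S (1 / 2 ^ k) := hk k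
      _ ≤ S l := hmono _ _ hpos hlow

/-- **Step A of the final contradiction** (paper Section 8).  All hypotheses except the last four
are general facts about members of the class. -/
theorem fin_limit_false {w : X → ℝ → ℝ} {b : X} {s G : ℝ} (hG : 0 < G)
    (hc : ∀ x, Continuous (w x))
    (hbP : ∀ x t ℓ, 0 < ℓ → BddAbove (Set.range fun y => w y (t + ℓ) - ‖y - x‖ ^ 2 / (2 * ℓ)))
    (hbM : ∀ x t ℓ, 0 < ℓ → BddBelow (Set.range fun y => w y (t - ℓ) + ‖y - x‖ ^ 2 / (2 * ℓ)))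
    (hmP : ∀ x t ℓ₁ ℓ₂, 0 < ℓ₁ → ℓ₁ ≤ ℓ₂ → slopeP ℓ₁ w x t ≤ slopeP ℓ₂ w x t)
    (hmM : ∀ x t ℓ₁ ℓ₂, 0 < ℓ₁ → ℓ₁ ≤ ℓ₂ → slopeM ℓ₁ w x t ≤ slopeM ℓ₂ w x t)
    (haP : ∀ ℓ, 0 < ℓ → ∃ y, envP ℓ w b s = w y (s + ℓ) - ‖y - b‖ ^ 2 / (2 * ℓ))
    (haM : ∀ ℓ, 0 < ℓ → ∃ y, envM ℓ w b s = w y (s - ℓ) + ‖y - b‖ ^ 2 / (2 * ℓ))
    (h44 : ∀ Bp Bm : ℝ, (∀ ℓ, 0 < ℓ → slopeP ℓ w b s = Bp) →
      (∀ ℓ, 0 < ℓ → slopeM ℓ w b s = Bm) → Bp = Bm)
    (hbary : ∀ (p : X) (c : ℝ), bary 1 (fun y => ⟪p, y⟫ + c) 0 = c)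
    (hkP : ∀ k : ℕ, slopeP (2 ^ k) w b s ≤ slopeP (1 / 2 ^ k) w b s)
    (hkM : ∀ k : ℕ, slopeM (2 ^ k) w b s ≤ slopeM (1 / 2 ^ k) w b s)
    (hgap : G ≤ bary 1 (fun y => w y 1) 0 - w 0 1) : False := by
  have hP : ∀ ℓ, 0 < ℓ → slopeP ℓ w b s = slopeP 1 w b s := fun ℓ hℓ =>
    fin_const_of_dyadic (S := fun l => slopeP l w b s) (fun l₁ l₂ h1 h2 => hmP b s l₁ l₂ h1 h2)
      hkP ℓ hℓ
  have hM : ∀ ℓ, 0 < ℓ → slopeM ℓ w b s = slopeM 1 w b s := fun ℓ hℓ =>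
    fin_const_of_dyadic (S := fun l => slopeM l w b s) (fun l₁ l₂ h1 h2 => hmM b s l₁ l₂ h1 h2)
      hkM ℓ hℓ
  have hB : slopeP 1 w b s = slopeM 1 w b s := h44 _ _ hP hM
  obtain ⟨q, hq⟩ := rigid_affine_env hc hbP hbM hmP hmM (b := b) (t0 := s)
    (B := slopeP 1 w b s) hP (fun ℓ hℓ => (hM ℓ hℓ).trans hB.symm) haP haM
  set B := slopeP 1 w b s
  set c : ℝ := w b s - ⟪q, b⟫ + (B - ‖q‖ ^ 2 / 2) * (1 - s) with hcdef
  have h1 : (fun y => w y 1) = fun y => ⟪q, y⟫ + c := by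
    funext y
    rw [hq y 1, inner_sub_right, hcdef]
    ring
  have h2 : w 0 1 = c := by
    have := congrFun h1 0
    simpa using this
  rw [h1, hbary q c, h2] at hgap
  linarith

end Claimed.Agent.R330
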