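import Mathlib
import Claimed.Agent.R330.UlimGen
import Claimed.Agent.R330.PartBDefs

/-!
# R330 / L2b : fits pass to limits along filters

Continuous convergence of space-time functions `v j : X → ℝ → ℝ`, and stability of the fits
(paper Lemma 4.2, last part).  Owner: helper92.
-/

namespace Claimed.Agent.R330

open Filter Topology Set Metric

variable {ι : Type*} {X : Type*} [NormedAddCommGroup X] [InnerProductSpace ℝ X]

/-- Continuous convergence of space-time functions along a filter: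
`v j (x j) (t j) → vh x t` whenever `x j → x` and `t j → t`. -/
def UlimCC (l : Filter ι) (v : ι → X → ℝ → ℝ) (vh : X → ℝ → ℝ) : Prop :=
  ∀ (xs : ι → X) (ts : ι → ℝ) (x : X) (t : ℝ), Tendsto xs l (𝓝 x) → Tendsto ts l (𝓝 t) →
    Tendsto (fun j => v j (xs j) (ts j)) l (𝓝 (vh x t))

omit [InnerProductSpace ℝ X] in
theorem UlimCC.pointwise {l : Filter ι} {v : ι → X → ℝ → ℝ} {vh : X → ℝ → ℝ}
    (h : UlimCC l v vh) (x : X) (t : ℝ) : Tendsto (fun j => v j x t) l (𝓝 (vh x t)) :=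
  h _ _ x t tendsto_const_nhds tendsto_const_nhds

omit [InnerProductSpace ℝ X] in
/-- Pointwise convergence and eventual equicontinuity give continuous convergence. -/
theorem ulim_cc_of_equicont {l : Filter ι} {v : ι → X → ℝ → ℝ} {vh : X → ℝ → ℝ}
    (hlim : ∀ x t, Tendsto (fun j => v j x t) l (𝓝 (vh x t)))
    (heq : UlimEquicont l (fun j (z : X × ℝ) => v j z.1 z.2)) : UlimCC l v vh := by
  intro xs ts x t hx ht
  exact ulim_tendsto_diag (f := fun j (z : X × ℝ) => v j z.1 z.2)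
    (g := fun z : X × ℝ => vh z.1 z.2) (fun z => hlim z.1 z.2) heq
    (zs := fun j => (xs j, ts j)) (z := (x, t)) (hx.prodMk_nhds ht)

/-- Fits pass to the limit under continuous convergence; centres, radii and parameters may
move with the index. -/
theorem ulim_isFit {l : Filter ι} [l.NeBot] {v : ι → X → ℝ → ℝ} {vh : X → ℝ → ℝ}
    (hcc : UlimCC l v vh) {C0 : ℝ} {xs : ι → X} {ts Rs : ι → ℝ} {ps : ι → X} {as : ι → ℝ}
    {x : X} {t R : ℝ} {p : X} {a : ℝ} (hx : Tendsto xs l (𝓝 x)) (ht : Tendsto ts l (𝓝 t))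
    (hR : Tendsto Rs l (𝓝 R)) (hRpos : 0 < R) (hp : Tendsto ps l (𝓝 p))
    (ha : Tendsto as l (𝓝 a))
    (hfit : ∀ᶠ j in l, IsFit C0 (v j) (xs j) (ts j) (Rs j) (ps j) (as j)) :
    IsFit C0 vh x t R p a := by
  intro h ℓ hℓ hh
  -- the rescaled increments
  set ρ : ι → ℝ := fun j => Rs j / R with hρ
  have hρlim : Tendsto ρ l (𝓝 1) := by
    have := hR.div_const R
    rwa [div_self hRpos.ne'] at this
  set ℓs : ι → ℝ := fun j => ρ j * ℓ with hℓs
  have hℓlim : Tendsto ℓs l (𝓝 ℓ) := by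
    have := hρlim.mul_const ℓ
    rwa [one_mul] at this
  set hs : ι → X := fun j => ℓs j • ps j + ρ j • (h - ℓ • p) with hhs
  have hhlim : Tendsto hs l (𝓝 h) := by
    have := (hℓlim.smul hp).add (hρlim.smul (tendsto_const_nhds (x := h - ℓ • p)))
    simpa using this
  have hRev : ∀ᶠ j in l, 0 < Rs j := hR.eventually (lt_mem_nhds hRpos)
  have hineq : ∀ᶠ j in l,
      |v j (xs j + hs j) (ts j + ℓs j) - v j (xs j) (ts j) - inner ℝ (ps j) (hs j)
        - (as j - ‖ps j‖ ^ 2 / 2) * ℓs j| ≤ C0 * Rs j := by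
    filter_upwards [hfit, hRev] with j hj hRj
    have hρj : 0 < ρ j := div_pos hRj hRpos
    apply hj
    · calc |ℓs j| = ρ j * |ℓ| := by simp [hℓs, abs_mul, abs_of_pos hρj]
        _ ≤ ρ j * R := by gcongr
        _ = Rs j := by simp only [hρ]; field_simp
    · calc ‖hs j - ℓs j • ps j‖ = ρ j * ‖h - ℓ • p‖ := by
            simp [hhs, norm_smul, abs_of_pos hρj]
        _ ≤ ρ j * R := by gcongr
        _ = Rs j := by simp only [hρ]; field_simp
  have hlimL : Tendsto (fun j => |v j (xs j + hs j) (ts j + ℓs j) - v j (xs j) (ts j)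
      - inner ℝ (ps j) (hs j) - (as j - ‖ps j‖ ^ 2 / 2) * ℓs j|) l
      (𝓝 |vh (x + h) (t + ℓ) - vh x t - inner ℝ p h - (a - ‖p‖ ^ 2 / 2) * ℓ|) := by
    refine Tendsto.abs ?_
    refine Tendsto.sub (Tendsto.sub (Tendsto.sub ?_ ?_) ?_) ?_
    · exact hcc _ _ _ _ (hx.add hhlim) (ht.add hℓlim)
    · exact hcc _ _ _ _ hx ht
    · exact hp.inner hhlim
    · exact (ha.sub ((hp.norm.pow 2).div_const 2)).mul hℓlim
  exact le_of_tendsto_of_tendsto hlimL (hR.const_mul C0) hineq

/-- Existence of fits passes to ultralimits, provided the fit parameters stay bounded. -/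
theorem ulim_hasFits [ProperSpace X] (U : Ultrafilter ι) {v : ι → X → ℝ → ℝ} {vh : X → ℝ → ℝ}
    (hcc : UlimCC (U : Filter ι) v vh) {C0 : ℝ}
    (hfits : ∀ᶠ j in (U : Filter ι), HasFits C0 (v j))
    (hpar : ∀ (x : X) (t R : ℝ), 0 < R → ∃ M : ℝ, ∀ᶠ j in (U : Filter ι), ∀ (p : X) (a : ℝ),
      IsFit C0 (v j) x t R p a → ‖p‖ ≤ M ∧ |a| ≤ M) :
    HasFits C0 vh := by
  intro x t R hR
  obtain ⟨M, hM⟩ := hpar x t R hR
  have hex : ∀ j, ∃ (q : X × ℝ), HasFits C0 (v j) → IsFit C0 (v j) x t R q.1 q.2 := by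
    intro j
    by_cases hj : HasFits C0 (v j)
    · obtain ⟨p, a, hpa⟩ := hj x t R hR
      exact ⟨(p, a), fun _ => hpa⟩
    · exact ⟨(0, 0), fun h => absurd h hj⟩
  choose q hq using hex
  have hfit : ∀ᶠ j in (U : Filter ι), IsFit C0 (v j) x t R (q j).1 (q j).2 :=
    hfits.mono fun j hj => hq j hj
  obtain ⟨p, hp, -⟩ := ulim_exists_norm U (fun j => (q j).1) M
    (by filter_upwards [hfit, hM] with j h1 h2 using (h2 _ _ h1).1)
  obtain ⟨a, ha, -⟩ := ulim_exists_real U (fun j => (q j).2) M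
    (by filter_upwards [hfit, hM] with j h1 h2 using (h2 _ _ h1).2)
  exact ⟨p, a, ulim_isFit hcc tendsto_const_nhds tendsto_const_nhds tendsto_const_nhds hR hp ha
    hfit⟩

/-- Centring passes to limits. -/
theorem ulim_centeredAt {l : Filter ι} [l.NeBot] {v : ι → X → ℝ → ℝ} {vh : X → ℝ → ℝ}
    (hcc : UlimCC l v vh) {C0 : ℝ} {x : X} {t : ℝ}
    (hc : ∀ᶠ j in l, CenteredAt C0 (v j) x t) : CenteredAt C0 vh x t := by
  constructor
  · have h1 := hcc.pointwise x t
    have h2 : Tendsto (fun j => v j x t) l (𝓝 0) :=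
      tendsto_const_nhds.congr' (hc.mono fun j hj => hj.1.symm)
    exact tendsto_nhds_unique h1 h2
  · exact ulim_isFit hcc tendsto_const_nhds tendsto_const_nhds tendsto_const_nhds one_pos
      tendsto_const_nhds tendsto_const_nhds (hc.mono fun j hj => hj.2)

end Claimed.Agent.R330
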