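import Mathlib
import Claimed.Agent.R330.UlimGen
import Claimed.Agent.R330.UlimFit
import Claimed.Agent.R330.PartBDefs

/-!
# R330 / L2b : the class `ClassA C₀` is closed under ultralimits

Abstract form (`ulim_classA_of_bounds`): the bounds which the paper derives from the fits
(Lemma 4.2) and the convergence of the envelopes (Lemma 4.3, last part) are hypotheses.
Owner: helper92.
-/

namespace Claimed.Agent.R330

open Filter Topology Set Metric

variable {ι : Type*} {X : Type*} [NormedAddCommGroup X] [InnerProductSpace ℝ X]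

/-- Path convexity of the forward envelope passes to limits, given pointwise convergence of the
envelopes. -/
theorem ulim_pathConvexP {l : Filter ι} [l.NeBot] {v : ι → X → ℝ → ℝ} {vh : X → ℝ → ℝ}
    (hP : ∀ᶠ j in l, PathConvexP (v j))
    (henv : ∀ (ℓ : ℝ), 0 < ℓ → ∀ (x : X) (t : ℝ),
      Tendsto (fun j => envP ℓ (v j) x t) l (𝓝 (envP ℓ vh x t))) :
    PathConvexP vh := by
  intro x₀ d t
  refine ulim_convexOn (l := l)
    (F := fun j ℓ => envP ℓ (v j) (x₀ + ℓ • d) t + ‖d‖ ^ 2 * (ℓ * Real.log ℓ))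
    (hP.mono fun j hj => hj x₀ d t) ?_
  intro ℓ hℓ
  exact (henv ℓ hℓ _ _).add_const _

/-- Same as `ulim_pathConvexP`, for base times in a set. -/
theorem ulim_pathConvexPOn {l : Filter ι} [l.NeBot] {T : Set ℝ} {v : ι → X → ℝ → ℝ}
    {vh : X → ℝ → ℝ} (hP : ∀ᶠ j in l, PathConvexPOn T (v j))
    (henv : ∀ (ℓ : ℝ), 0 < ℓ → ∀ (x : X), ∀ t ∈ T,
      Tendsto (fun j => envP ℓ (v j) x t) l (𝓝 (envP ℓ vh x t))) :
    PathConvexPOn T vh := by
  intro x₀ d t ht
  refine ulim_convexOn (l := l)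
    (F := fun j ℓ => envP ℓ (v j) (x₀ + ℓ • d) t + ‖d‖ ^ 2 * (ℓ * Real.log ℓ))
    (hP.mono fun j hj => hj x₀ d t ht) ?_
  intro ℓ hℓ
  exact (henv ℓ hℓ _ _ ht).add_const _

/-- Path concavity of the backward envelope passes to limits, given pointwise convergence of the
envelopes. -/
theorem ulim_pathConcaveM {l : Filter ι} [l.NeBot] {v : ι → X → ℝ → ℝ} {vh : X → ℝ → ℝ}
    (hM : ∀ᶠ j in l, PathConcaveM (v j))
    (henv : ∀ (ℓ : ℝ), 0 < ℓ → ∀ (x : X) (t : ℝ),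
      Tendsto (fun j => envM ℓ (v j) x t) l (𝓝 (envM ℓ vh x t))) :
    PathConcaveM vh := by
  intro x₀ d t
  refine ulim_concaveOn (l := l)
    (F := fun j ℓ => envM ℓ (v j) (x₀ + ℓ • d) t - ‖d‖ ^ 2 * (ℓ * Real.log ℓ))
    (hM.mono fun j hj => hj x₀ d t) ?_
  intro ℓ hℓ
  exact (henv ℓ hℓ _ _).sub_const _

/-- Abstract closedness of `ClassA C₀` under ultralimits.  The hypotheses `hbd`, `heq`, `hpar`
follow from fits and a common centring (paper Lemma 4.2); the hypothesis `henv` is the stability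
of the quadratic envelopes (paper Lemma 4.3) for the family at hand. -/
theorem ulim_classA_of_bounds [FiniteDimensional ℝ X] (U : Ultrafilter ι) {C₀ : ℝ}
    {v : ι → X → ℝ → ℝ} (hA : ∀ᶠ j in (U : Filter ι), ClassA C₀ (v j))
    (hbd : ∀ (x : X) (t : ℝ), ∃ M : ℝ, ∀ᶠ j in (U : Filter ι), |v j x t| ≤ M)
    (heq : UlimEquicont (U : Filter ι) (fun j (z : X × ℝ) => v j z.1 z.2))
    (hpar : ∀ (x : X) (t R : ℝ), 0 < R → ∃ M : ℝ, ∀ᶠ j in (U : Filter ι), ∀ (p : X) (a : ℝ),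
      IsFit C₀ (v j) x t R p a → ‖p‖ ≤ M ∧ |a| ≤ M)
    (henv : ∀ vh : X → ℝ → ℝ, UlimCC (U : Filter ι) v vh →
      (∀ (ℓ : ℝ), 0 < ℓ → ∀ (x : X) (t : ℝ),
        Tendsto (fun j => envP ℓ (v j) x t) U (𝓝 (envP ℓ vh x t))) ∧
      (∀ (ℓ : ℝ), 0 < ℓ → ∀ (x : X) (t : ℝ),
        Tendsto (fun j => envM ℓ (v j) x t) U (𝓝 (envM ℓ vh x t)))) :
    ∃ vh : X → ℝ → ℝ, ClassA C₀ vh ∧ UlimCC (U : Filter ι) v vh := by
  have : ProperSpace X := FiniteDimensional.proper_real X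
  obtain ⟨vh, hvh⟩ := ulim_exists_fun₂ U v hbd
  have hcc : UlimCC (U : Filter ι) v vh := ulim_cc_of_equicont hvh heq
  obtain ⟨hP, hM⟩ := henv vh hcc
  refine ⟨vh, ⟨?_, ?_, ?_, ?_⟩, hcc⟩
  · exact ulim_continuous (f := fun j (z : X × ℝ) => v j z.1 z.2)
      (g := fun z : X × ℝ => vh z.1 z.2) (fun z => hvh z.1 z.2) heq
  · exact ulim_hasFits U hcc (hA.mono fun j hj => hj.fits) hpar
  · exact ulim_pathConvexP (hA.mono fun j hj => hj.convP) hP
  · exact ulim_pathConcaveM (hA.mono fun j hj => hj.concM) hM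

end Claimed.Agent.R330
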