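import Mathlib
import Claimed.Agent.R330.EnvBasic
import Claimed.Agent.R330.UlimGen

/-!
# Row 330, package L2b (3): convergence of the quadratic envelopes along a filter

Slice level: if `G j → g` continuously along a filter `l` and the `G j` have an eventually uniform
subquadratic upper bound, then `supConv (ls j) (G j) (xs j) → supConv l0 g x` whenever
`xs j → x`, `ls j → l0 > 0`.  Space-time level: the same for `envP`, `envM`, `slopeP`, `slopeM`
of a family `V j → W` (pointwise convergence + eventual equicontinuity + eventually uniform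
subquadratic growth on bounded time intervals).  Owner: helper244.
-/

namespace Claimed.Agent.R330

open Filter Topology Set Metric

variable {ι : Type*}

/-- Pointwise convergence plus eventual equicontinuity give continuous convergence, in the
product filter form. -/
theorem ulimenv_prod_of_equicont {Z : Type*} [PseudoMetricSpace Z] {l : Filter ι}
    {f : ι → Z → ℝ} {g : Z → ℝ} (hlim : ∀ z, Tendsto (fun j => f j z) l (𝓝 (g z)))
    (heq : UlimEquicont l f) (z : Z) :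
    Tendsto (fun p : ι × Z => f p.1 p.2) (l ×ˢ 𝓝 z) (𝓝 (g z)) := by
  rw [Metric.tendsto_nhds]
  intro ε hε
  obtain ⟨δ, hδ, hj⟩ := heq z (ε / 2) (by positivity)
  have h2 : ∀ᶠ j in l, dist (f j z) (g z) < ε / 2 :=
    (Metric.tendsto_nhds.1 (hlim z)) (ε / 2) (by positivity)
  rw [eventually_prod_iff]
  refine ⟨fun j => (∀ z', dist z' z < δ → |f j z' - f j z| ≤ ε / 2) ∧ dist (f j z) (g z) < ε / 2,
    hj.and h2, fun z' => dist z' z < δ, Metric.ball_mem_nhds z hδ, ?_⟩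
  intro j hj z' hz'
  have h3 := hj.1 z' hz'
  have h4 := hj.2
  calc dist (f j z') (g z) ≤ dist (f j z') (f j z) + dist (f j z) (g z) := dist_triangle _ _ _
    _ < ε := by rw [Real.dist_eq]; linarith

section slice

variable {X : Type*} [NormedAddCommGroup X] [NormedSpace ℝ X] [FiniteDimensional ℝ X]

omit [NormedSpace ℝ X] [FiniteDimensional ℝ X] in
/-- One growth bound gives boundedness of the competitor family. -/
theorem ulimenv_bddAbove {g : X → ℝ} {ε C l : ℝ} (hε : 0 ≤ ε) (hl : 0 < l) (hεl : 8 * ε * l ≤ 1)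
    (hg : ∀ y, g y ≤ ε * ‖y‖ ^ 2 + C) (x : X) :
    BddAbove (Set.range fun y : X => g y - ‖y - x‖ ^ 2 / (2 * l)) := by
  refine ⟨2 * ε * ‖x‖ ^ 2 + C, ?_⟩
  rintro _ ⟨y, rfl⟩
  have h := supConv_term_le hε hg l x y
  have h0 : 0 ≤ (1 / (2 * l) - 2 * ε) := by
    have : 2 * ε ≤ 1 / (2 * l) := by
      rw [le_div_iff₀ (by positivity)]
      nlinarith
    linarith
  have h1 : 0 ≤ (1 / (2 * l) - 2 * ε) * ‖y - x‖ ^ 2 := mul_nonneg h0 (sq_nonneg _)
  show g y - ‖y - x‖ ^ 2 / (2 * l) ≤ _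
  linarith

/-- **Convergence of sup-convolutions** under continuous convergence and an eventually uniform
subquadratic upper bound. -/
theorem ulimenv_supConv_tendsto {l : Filter ι} {G : ι → X → ℝ} {g : X → ℝ}
    (hconv : ∀ y, Tendsto (fun p : ι × X => G p.1 p.2) (l ×ˢ 𝓝 y) (𝓝 (g y)))
    (hgrow : ∀ ε : ℝ, 0 < ε → ∃ C, ∀ᶠ j in l, ∀ y, G j y ≤ ε * ‖y‖ ^ 2 + C)
    {xs : ι → X} {x : X} (hx : Tendsto xs l (𝓝 x))
    {ls : ι → ℝ} {l0 : ℝ} (hl0 : 0 < l0) (hl : Tendsto ls l (𝓝 l0)) :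
    Tendsto (fun j => supConv (ls j) (G j) (xs j)) l (𝓝 (supConv l0 g x)) := by
  rw [tendsto_iff_ultrafilter]
  intro U hU
  have hconvU : ∀ (y : X) (ys : ι → X), Tendsto ys U (𝓝 y) →
      Tendsto (fun j => G j (ys j)) U (𝓝 (g y)) := by
    intro y ys hy
    have h1 : Tendsto (fun j => (j, ys j)) U (l ×ˢ 𝓝 y) :=
      (tendsto_id.mono_right hU).prodMk hy
    exact (hconv y).comp h1
  have hxU : Tendsto xs U (𝓝 x) := hx.mono_left hU
  have hlU : Tendsto ls U (𝓝 l0) := hl.mono_left hU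
  set ε0 : ℝ := 1 / (32 * l0) with hε0
  have hε0pos : 0 < ε0 := by positivity
  obtain ⟨C0, hC0⟩ := hgrow ε0 hε0pos
  have hC0U : ∀ᶠ j in (U : Filter ι), ∀ y, G j y ≤ ε0 * ‖y‖ ^ 2 + C0 := hC0.filter_mono hU
  have hlsU : ∀ᶠ j in (U : Filter ι), l0 / 2 < ls j ∧ ls j < 2 * l0 := by
    have h1 : ∀ᶠ j in (U : Filter ι), l0 / 2 < ls j :=
      hlU.eventually (lt_mem_nhds (by linarith))
    have h2 : ∀ᶠ j in (U : Filter ι), ls j < 2 * l0 :=
      hlU.eventually (gt_mem_nhds (by linarith))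
    exact h1.and h2
  have hg : ∀ y, g y ≤ ε0 * ‖y‖ ^ 2 + C0 := fun y =>
    le_of_tendsto (hconvU y (fun _ => y) tendsto_const_nhds) (hC0U.mono fun j hj => hj y)
  have h8 : 8 * ε0 * l0 ≤ 1 := by
    rw [hε0]; field_simp; norm_num
  have hbg : BddAbove (Set.range fun y : X => g y - ‖y - x‖ ^ 2 / (2 * l0)) :=
    ulimenv_bddAbove hε0pos.le hl0 h8 hg x
  have h8j : ∀ᶠ j in (U : Filter ι), 0 < ls j ∧ 8 * ε0 * ls j ≤ 1 := by
    filter_upwards [hlsU] with j hj
    refine ⟨by linarith [hj.1], ?_⟩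
    have : 8 * ε0 * ls j ≤ 8 * ε0 * (2 * l0) :=
      mul_le_mul_of_nonneg_left hj.2.le (by positivity)
    have h2 : 8 * ε0 * (2 * l0) = 1 / 2 := by
      rw [hε0]; field_simp; norm_num
    linarith
  have hbG : ∀ᶠ j in (U : Filter ι),
      BddAbove (Set.range fun y : X => G j y - ‖y - xs j‖ ^ 2 / (2 * ls j)) := by
    filter_upwards [h8j, hC0U] with j hj hC
    exact ulimenv_bddAbove hε0pos.le hj.1 hj.2 hC (xs j)
  -- convergence of the competitor values along convergent competitors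
  have hterm : ∀ (y : X) (ys : ι → X), Tendsto ys U (𝓝 y) →
      Tendsto (fun j => G j (ys j) - ‖ys j - xs j‖ ^ 2 / (2 * ls j)) U
        (𝓝 (g y - ‖y - x‖ ^ 2 / (2 * l0))) := by
    intro y ys hy
    refine (hconvU y ys hy).sub ?_
    refine Tendsto.div (((hy.sub hxU).norm).pow 2) (hlU.const_mul 2) (by positivity)
  refine tendsto_order.2 ⟨?_, ?_⟩
  · -- lower bound
    intro a ha
    obtain ⟨y0, hy0⟩ := exists_lt_of_lt_ciSup (show a < ⨆ y : X, (g y - ‖y - x‖ ^ 2 / (2 * l0))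
      from ha)
    have h1 := (hterm y0 (fun _ => y0) tendsto_const_nhds).eventually (lt_mem_nhds hy0)
    filter_upwards [h1, hbG] with j hj hb
    exact lt_of_lt_of_le hj (le_ciSup hb y0)
  · -- upper bound
    intro a ha
    set S := supConv l0 g x with hS
    set η : ℝ := (a - S) / 2 with hη
    have hηpos : 0 < η := by rw [hη]; linarith
    choose ys hys using fun j => exists_supConv_lt (G j) (ls j) (xs j) hηpos
    -- the near optimisers are bounded
    have hGx : ∀ᶠ j in (U : Filter ι), g x - 1 < G j (xs j) :=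
      (hconvU x xs hxU).eventually (lt_mem_nhds (by linarith))
    have hxn : ∀ᶠ j in (U : Filter ι), ‖xs j‖ < ‖x‖ + 1 :=
      hxU.norm.eventually (gt_mem_nhds (by linarith))
    set Bd : ℝ := 4 * (2 * l0) * (2 * ε0 * (‖x‖ + 1) ^ 2 + C0 - (g x - 1) + η) with hBd
    have hbound : ∀ᶠ j in (U : Filter ι), ‖ys j‖ ≤ Real.sqrt Bd + (‖x‖ + 1) := by
      filter_upwards [h8j, hC0U, hbG, hGx, hxn, hlsU] with j h8j hC hb hGx hxn hls
      have hself : G j (xs j) ≤ supConv (ls j) (G j) (xs j) := by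
        have h0 := le_ciSup hb (xs j)
        simp only [sub_self, norm_zero, ne_eq, OfNat.ofNat_ne_zero, not_false_eq_true, zero_pow,
          zero_div, sub_zero] at h0
        exact h0
      have hy : G j (xs j) - η ≤ G j (ys j) - ‖ys j - xs j‖ ^ 2 / (2 * ls j) := by
        have := hys j
        linarith
      have hconf := supConv_confine hε0pos.le h8j.1 h8j.2 hC hy
      have hstuff : 2 * ε0 * ‖xs j‖ ^ 2 + C0 - G j (xs j) + η
          ≤ 2 * ε0 * (‖x‖ + 1) ^ 2 + C0 - (g x - 1) + η := by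
        have h1 : ‖xs j‖ ^ 2 ≤ (‖x‖ + 1) ^ 2 :=
          pow_le_pow_left₀ (norm_nonneg _) hxn.le 2
        have h2 : 2 * ε0 * ‖xs j‖ ^ 2 ≤ 2 * ε0 * (‖x‖ + 1) ^ 2 :=
          mul_le_mul_of_nonneg_left h1 (by positivity)
        linarith
      have hstuff0 : 0 ≤ 2 * ε0 * ‖xs j‖ ^ 2 + C0 - G j (xs j) + η := by
        by_contra hneg
        replace hneg := not_le.1 hneg
        have : 4 * ls j * (2 * ε0 * ‖xs j‖ ^ 2 + C0 - G j (xs j) + η) < 0 :=
          mul_neg_of_pos_of_neg (by linarith [h8j.1]) hneg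
        have h3 : 0 ≤ ‖ys j - xs j‖ ^ 2 := sq_nonneg _
        linarith
      have hle : ‖ys j - xs j‖ ^ 2 ≤ Bd := by
        refine hconf.trans ?_
        rw [hBd]
        exact mul_le_mul (by linarith [hls.2]) hstuff hstuff0 (by positivity)
      have hle' : ‖ys j - xs j‖ ≤ Real.sqrt Bd := Real.le_sqrt_of_sq_le hle
      calc ‖ys j‖ = ‖(ys j - xs j) + xs j‖ := by simp
        _ ≤ ‖ys j - xs j‖ + ‖xs j‖ := norm_add_le _ _
        _ ≤ Real.sqrt Bd + (‖x‖ + 1) := by linarith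
    obtain ⟨yl, hyl, -⟩ := ulim_exists_norm U ys _ hbound
    have h1 : g yl - ‖yl - x‖ ^ 2 / (2 * l0) ≤ S := le_ciSup hbg yl
    have h2 := (hterm yl ys hyl).eventually (gt_mem_nhds (show g yl - ‖yl - x‖ ^ 2 / (2 * l0)
      < S + η by linarith))
    filter_upwards [h2] with j hj
    have := hys j
    have h3 : S + η + η = a := by rw [hη]; ring
    linarith

omit [NormedSpace ℝ X] [FiniteDimensional ℝ X] in
/-- Convergence of sup-convolutions as the length tends to `0+`. -/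
theorem ulimenv_supConv_tendsto_zero {l : Filter ι} {G : ι → X → ℝ} {g : X → ℝ}
    (hconv : ∀ y, Tendsto (fun p : ι × X => G p.1 p.2) (l ×ˢ 𝓝 y) (𝓝 (g y)))
    (hgrow : ∃ ε C : ℝ, 0 ≤ ε ∧ ∀ᶠ j in l, ∀ y, G j y ≤ ε * ‖y‖ ^ 2 + C)
    {xs : ι → X} {x : X} (hx : Tendsto xs l (𝓝 x))
    {ls : ι → ℝ} (hlpos : ∀ᶠ j in l, 0 < ls j) (hl : Tendsto ls l (𝓝 0)) :
    Tendsto (fun j => supConv (ls j) (G j) (xs j)) l (𝓝 (g x)) := by
  have hconvD : ∀ (y : X) (ys : ι → X), Tendsto ys l (𝓝 y) →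
      Tendsto (fun j => G j (ys j)) l (𝓝 (g y)) := by
    intro y ys hy
    have h1 : Tendsto (fun j => (j, ys j)) l (l ×ˢ 𝓝 y) := tendsto_id.prodMk hy
    exact (hconv y).comp h1
  obtain ⟨ε0, C0, hε0, hC0⟩ := hgrow
  have h8j : ∀ᶠ j in l, 0 < ls j ∧ 8 * ε0 * ls j ≤ 1 := by
    have h1 : Tendsto (fun j => 8 * ε0 * ls j) l (𝓝 (8 * ε0 * 0)) := hl.const_mul _
    rw [mul_zero] at h1
    have h2 : ∀ᶠ j in l, 8 * ε0 * ls j < 1 := h1.eventually (gt_mem_nhds one_pos)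
    filter_upwards [hlpos, h2] with j h1 h2 using ⟨h1, h2.le⟩
  have hbG : ∀ᶠ j in l,
      BddAbove (Set.range fun y : X => G j y - ‖y - xs j‖ ^ 2 / (2 * ls j)) := by
    filter_upwards [h8j, hC0] with j hj hC
    exact ulimenv_bddAbove hε0 hj.1 hj.2 hC (xs j)
  have hself : ∀ᶠ j in l, G j (xs j) ≤ supConv (ls j) (G j) (xs j) := by
    filter_upwards [hbG] with j hb
    have h0 := le_ciSup hb (xs j)
    simp only [sub_self, norm_zero, ne_eq, OfNat.ofNat_ne_zero, not_false_eq_true, zero_pow,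
      zero_div, sub_zero] at h0
    exact h0
  have hGx : Tendsto (fun j => G j (xs j)) l (𝓝 (g x)) := hconvD x xs hx
  refine tendsto_order.2 ⟨?_, ?_⟩
  · intro a ha
    filter_upwards [hGx.eventually (lt_mem_nhds ha), hself] with j h1 h2
    exact lt_of_lt_of_le h1 h2
  · intro a ha
    set η : ℝ := (a - g x) / 2 with hη
    have hηpos : 0 < η := by rw [hη]; linarith
    choose ys hys using fun j => exists_supConv_lt (G j) (ls j) (xs j) hηpos
    -- the near optimisers converge to `x`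
    have hbnd : ∀ᶠ j in l, ‖ys j - xs j‖ ^ 2
        ≤ 4 * ls j * (2 * ε0 * ‖xs j‖ ^ 2 + C0 - G j (xs j) + η) := by
      filter_upwards [h8j, hC0, hself] with j h8j hC hself
      have hy : G j (xs j) - η ≤ G j (ys j) - ‖ys j - xs j‖ ^ 2 / (2 * ls j) := by
        have := hys j
        linarith
      exact supConv_confine hε0 h8j.1 h8j.2 hC hy
    have hrhs : Tendsto (fun j => 4 * ls j * (2 * ε0 * ‖xs j‖ ^ 2 + C0 - G j (xs j) + η)) l
        (𝓝 (4 * 0 * (2 * ε0 * ‖x‖ ^ 2 + C0 - g x + η))) :=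
      (hl.const_mul 4).mul (((((hx.norm.pow 2).const_mul (2 * ε0)).add_const C0).sub hGx).add_const η)
    rw [mul_zero, zero_mul] at hrhs
    have hsq : Tendsto (fun j => ‖ys j - xs j‖ ^ 2) l (𝓝 0) :=
      squeeze_zero' (Eventually.of_forall fun j => sq_nonneg _) hbnd hrhs
    have hnorm : Tendsto (fun j => ‖ys j - xs j‖) l (𝓝 0) := by
      have h1 : Tendsto (fun j => Real.sqrt (‖ys j - xs j‖ ^ 2)) l (𝓝 (Real.sqrt 0)) :=
        (Real.continuous_sqrt.tendsto 0).comp hsq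
      simpa [Real.sqrt_sq (norm_nonneg _)] using h1
    have hdiff : Tendsto (fun j => ys j - xs j) l (𝓝 0) := tendsto_zero_iff_norm_tendsto_zero.2 hnorm
    have hy : Tendsto ys l (𝓝 x) := by
      have := hdiff.add hx
      simpa using this
    have hGy : Tendsto (fun j => G j (ys j)) l (𝓝 (g x)) := hconvD x ys hy
    filter_upwards [hGy.eventually (gt_mem_nhds (show g x < g x + η by linarith)), h8j]
      with j h1 h8j
    have h2 := hys j
    have h3 : 0 ≤ ‖ys j - xs j‖ ^ 2 / (2 * ls j) := by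
      have := h8j.1
      positivity
    have h4 : g x + η + η = a := by rw [hη]; ring
    linarith

/-- Convergence of inf-convolutions. -/
theorem ulimenv_infConv_tendsto {l : Filter ι} {G : ι → X → ℝ} {g : X → ℝ}
    (hconv : ∀ y, Tendsto (fun p : ι × X => G p.1 p.2) (l ×ˢ 𝓝 y) (𝓝 (g y)))
    (hgrow : ∀ ε : ℝ, 0 < ε → ∃ C, ∀ᶠ j in l, ∀ y, -(ε * ‖y‖ ^ 2 + C) ≤ G j y)
    {xs : ι → X} {x : X} (hx : Tendsto xs l (𝓝 x))
    {ls : ι → ℝ} {l0 : ℝ} (hl0 : 0 < l0) (hl : Tendsto ls l (𝓝 l0)) :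
    Tendsto (fun j => infConv (ls j) (G j) (xs j)) l (𝓝 (infConv l0 g x)) := by
  simp only [infConv_eq_neg_supConv]
  refine Tendsto.neg ?_
  refine ulimenv_supConv_tendsto (G := fun j y => - G j y) (g := fun y => - g y)
    (fun y => (hconv y).neg) ?_ hx hl0 hl
  intro ε hε
  obtain ⟨C, hC⟩ := hgrow ε hε
  refine ⟨C, hC.mono fun j hj y => ?_⟩
  have := hj y
  linarith

omit [NormedSpace ℝ X] [FiniteDimensional ℝ X] in
/-- Convergence of inf-convolutions as the length tends to `0+`. -/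
theorem ulimenv_infConv_tendsto_zero {l : Filter ι} {G : ι → X → ℝ} {g : X → ℝ}
    (hconv : ∀ y, Tendsto (fun p : ι × X => G p.1 p.2) (l ×ˢ 𝓝 y) (𝓝 (g y)))
    (hgrow : ∃ ε C : ℝ, 0 ≤ ε ∧ ∀ᶠ j in l, ∀ y, -(ε * ‖y‖ ^ 2 + C) ≤ G j y)
    {xs : ι → X} {x : X} (hx : Tendsto xs l (𝓝 x))
    {ls : ι → ℝ} (hlpos : ∀ᶠ j in l, 0 < ls j) (hl : Tendsto ls l (𝓝 0)) :
    Tendsto (fun j => infConv (ls j) (G j) (xs j)) l (𝓝 (g x)) := by
  simp only [infConv_eq_neg_supConv]
  have h := ulimenv_supConv_tendsto_zero (G := fun j y => - G j y) (g := fun y => - g y)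
    (fun y => (hconv y).neg) ?_ hx hlpos hl
  · simpa using h.neg
  · obtain ⟨ε, C, hε, hC⟩ := hgrow
    refine ⟨ε, C, hε, hC.mono fun j hj y => ?_⟩
    have := hj y
    linarith

end slice

section spacetime

variable {X : Type*} [NormedAddCommGroup X] [NormedSpace ℝ X] [FiniteDimensional ℝ X]

/-- The family `V j` converges to `W` along `l`: continuous convergence in `(x,t)` and eventually
uniform subquadratic spatial growth on bounded time intervals. -/
structure UlimConv (l : Filter ι) (V : ι → X → ℝ → ℝ) (W : X → ℝ → ℝ) : Prop where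
  conv : ∀ z : X × ℝ,
    Tendsto (fun p : ι × (X × ℝ) => V p.1 p.2.1 p.2.2) (l ×ˢ 𝓝 z) (𝓝 (W z.1 z.2))
  grow : ∀ T ε : ℝ, 0 < ε → ∃ C, ∀ᶠ j in l, ∀ x t, |t| ≤ T → |V j x t| ≤ ε * ‖x‖ ^ 2 + C

omit [NormedSpace ℝ X] [FiniteDimensional ℝ X] in
/-- `UlimConv` from pointwise convergence, eventual equicontinuity and growth. -/
theorem UlimConv.of_equicont {l : Filter ι} {V : ι → X → ℝ → ℝ} {W : X → ℝ → ℝ}
    (hlim : ∀ z : X × ℝ, Tendsto (fun j => V j z.1 z.2) l (𝓝 (W z.1 z.2)))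
    (heq : UlimEquicont l (fun j (z : X × ℝ) => V j z.1 z.2))
    (hgrow : ∀ T ε : ℝ, 0 < ε → ∃ C, ∀ᶠ j in l, ∀ x t, |t| ≤ T → |V j x t| ≤ ε * ‖x‖ ^ 2 + C) :
    UlimConv l V W :=
  ⟨fun z => ulimenv_prod_of_equicont (f := fun j (z : X × ℝ) => V j z.1 z.2)
    (g := fun z : X × ℝ => W z.1 z.2) hlim heq z, hgrow⟩

variable {l : Filter ι} {V : ι → X → ℝ → ℝ} {W : X → ℝ → ℝ}

omit [NormedSpace ℝ X] [FiniteDimensional ℝ X] in
/-- Evaluation along convergent points. -/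
theorem UlimConv.eval (h : UlimConv l V W) {xs : ι → X} {x : X} (hx : Tendsto xs l (𝓝 x))
    {ts : ι → ℝ} {t : ℝ} (ht : Tendsto ts l (𝓝 t)) :
    Tendsto (fun j => V j (xs j) (ts j)) l (𝓝 (W x t)) := by
  have h1 : Tendsto (fun j => (j, (xs j, ts j))) l (l ×ˢ 𝓝 (x, t)) :=
    tendsto_id.prodMk (hx.prodMk_nhds ht)
  exact (h.conv (x, t)).comp h1

omit [NormedSpace ℝ X] [FiniteDimensional ℝ X] in
/-- Continuous convergence of the slices at convergent times. -/
theorem UlimConv.slice (h : UlimConv l V W) {ts : ι → ℝ} {t : ℝ} (ht : Tendsto ts l (𝓝 t))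
    (y : X) : Tendsto (fun p : ι × X => V p.1 p.2 (ts p.1)) (l ×ˢ 𝓝 y) (𝓝 (W y t)) := by
  have h1 : Tendsto (fun p : ι × X => (p.1, (p.2, ts p.1))) (l ×ˢ 𝓝 y) (l ×ˢ 𝓝 (y, t)) :=
    tendsto_fst.prodMk (tendsto_snd.prodMk_nhds (ht.comp tendsto_fst))
  exact (h.conv (y, t)).comp h1

omit [NormedSpace ℝ X] [FiniteDimensional ℝ X] in
/-- Eventually uniform growth of the slices at convergent times. -/
theorem UlimConv.slice_grow (h : UlimConv l V W) {ts : ι → ℝ} {t : ℝ} (ht : Tendsto ts l (𝓝 t))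
    (ε : ℝ) (hε : 0 < ε) : ∃ C, ∀ᶠ j in l, ∀ y, |V j y (ts j)| ≤ ε * ‖y‖ ^ 2 + C := by
  obtain ⟨C, hC⟩ := h.grow (|t| + 1) ε hε
  have h1 : ∀ᶠ j in l, |ts j| < |t| + 1 := ht.abs.eventually (gt_mem_nhds (by linarith))
  exact ⟨C, by filter_upwards [hC, h1] with j hj h1 y using hj y _ h1.le⟩

/-- Convergence of the forward envelopes. -/
theorem UlimConv.envP_tendsto (h : UlimConv l V W) {xs : ι → X} {x : X}
    (hx : Tendsto xs l (𝓝 x)) {ts : ι → ℝ} {t : ℝ} (ht : Tendsto ts l (𝓝 t))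
    {ls : ι → ℝ} {l0 : ℝ} (hl0 : 0 < l0) (hl : Tendsto ls l (𝓝 l0)) :
    Tendsto (fun j => envP (ls j) (V j) (xs j) (ts j)) l (𝓝 (envP l0 W x t)) := by
  unfold envP
  refine ulimenv_supConv_tendsto (G := fun j y => V j y (ts j + ls j))
    (g := fun y => W y (t + l0)) (h.slice (ht.add hl)) ?_ hx hl0 hl
  intro ε hε
  obtain ⟨C, hC⟩ := h.slice_grow (ht.add hl) ε hε
  exact ⟨C, hC.mono fun j hj y => (le_abs_self _).trans (hj y)⟩

/-- Convergence of the backward envelopes. -/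
theorem UlimConv.envM_tendsto (h : UlimConv l V W) {xs : ι → X} {x : X}
    (hx : Tendsto xs l (𝓝 x)) {ts : ι → ℝ} {t : ℝ} (ht : Tendsto ts l (𝓝 t))
    {ls : ι → ℝ} {l0 : ℝ} (hl0 : 0 < l0) (hl : Tendsto ls l (𝓝 l0)) :
    Tendsto (fun j => envM (ls j) (V j) (xs j) (ts j)) l (𝓝 (envM l0 W x t)) := by
  unfold envM
  refine ulimenv_infConv_tendsto (G := fun j y => V j y (ts j - ls j))
    (g := fun y => W y (t - l0)) (h.slice (ht.sub hl)) ?_ hx hl0 hl
  intro ε hε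
  obtain ⟨C, hC⟩ := h.slice_grow (ht.sub hl) ε hε
  exact ⟨C, hC.mono fun j hj y => neg_le_of_abs_le (hj y)⟩

omit [NormedSpace ℝ X] [FiniteDimensional ℝ X] in
/-- Convergence of the forward envelopes as the length tends to `0+`. -/
theorem UlimConv.envP_tendsto_zero (h : UlimConv l V W) {xs : ι → X} {x : X}
    (hx : Tendsto xs l (𝓝 x)) {ts : ι → ℝ} {t : ℝ} (ht : Tendsto ts l (𝓝 t))
    {ls : ι → ℝ} (hlpos : ∀ᶠ j in l, 0 < ls j) (hl : Tendsto ls l (𝓝 0)) :
    Tendsto (fun j => envP (ls j) (V j) (xs j) (ts j)) l (𝓝 (W x t)) := by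
  unfold envP
  have ht' : Tendsto (fun j => ts j + ls j) l (𝓝 t) := by simpa using ht.add hl
  refine ulimenv_supConv_tendsto_zero (G := fun j y => V j y (ts j + ls j))
    (g := fun y => W y t) (h.slice ht') ?_ hx hlpos hl
  obtain ⟨C, hC⟩ := h.slice_grow ht' 1 one_pos
  exact ⟨1, C, zero_le_one, hC.mono fun j hj y => (le_abs_self _).trans (hj y)⟩

omit [NormedSpace ℝ X] [FiniteDimensional ℝ X] in
/-- Convergence of the backward envelopes as the length tends to `0+`. -/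
theorem UlimConv.envM_tendsto_zero (h : UlimConv l V W) {xs : ι → X} {x : X}
    (hx : Tendsto xs l (𝓝 x)) {ts : ι → ℝ} {t : ℝ} (ht : Tendsto ts l (𝓝 t))
    {ls : ι → ℝ} (hlpos : ∀ᶠ j in l, 0 < ls j) (hl : Tendsto ls l (𝓝 0)) :
    Tendsto (fun j => envM (ls j) (V j) (xs j) (ts j)) l (𝓝 (W x t)) := by
  unfold envM
  have ht' : Tendsto (fun j => ts j - ls j) l (𝓝 t) := by simpa using ht.sub hl
  refine ulimenv_infConv_tendsto_zero (G := fun j y => V j y (ts j - ls j))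
    (g := fun y => W y t) (h.slice ht') ?_ hx hlpos hl
  obtain ⟨C, hC⟩ := h.slice_grow ht' 1 one_pos
  exact ⟨1, C, zero_le_one, hC.mono fun j hj y => neg_le_of_abs_le (hj y)⟩

/-- Convergence of the forward slopes. -/
theorem UlimConv.slopeP_tendsto (h : UlimConv l V W) {xs : ι → X} {x : X}
    (hx : Tendsto xs l (𝓝 x)) {ts : ι → ℝ} {t : ℝ} (ht : Tendsto ts l (𝓝 t))
    {ls : ι → ℝ} {l0 : ℝ} (hl0 : 0 < l0) (hl : Tendsto ls l (𝓝 l0)) :
    Tendsto (fun j => slopeP (ls j) (V j) (xs j) (ts j)) l (𝓝 (slopeP l0 W x t)) := by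
  unfold slopeP
  exact ((h.envP_tendsto hx ht hl0 hl).sub (h.eval hx ht)).div hl hl0.ne'

/-- Convergence of the backward slopes. -/
theorem UlimConv.slopeM_tendsto (h : UlimConv l V W) {xs : ι → X} {x : X}
    (hx : Tendsto xs l (𝓝 x)) {ts : ι → ℝ} {t : ℝ} (ht : Tendsto ts l (𝓝 t))
    {ls : ι → ℝ} {l0 : ℝ} (hl0 : 0 < l0) (hl : Tendsto ls l (𝓝 l0)) :
    Tendsto (fun j => slopeM (ls j) (V j) (xs j) (ts j)) l (𝓝 (slopeM l0 W x t)) := by
  unfold slopeM
  exact ((h.eval hx ht).sub (h.envM_tendsto hx ht hl0 hl)).div hl hl0.ne'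

omit [NormedSpace ℝ X] [FiniteDimensional ℝ X] in
/-- The limit inherits the growth bounds. -/
theorem UlimConv.subQuadLoc [l.NeBot] (h : UlimConv l V W) : SubQuadLoc W := by
  intro T ε hε
  obtain ⟨C, hC⟩ := h.grow |T| ε hε
  refine ⟨C, fun x t ht => ?_⟩
  have h1 : Tendsto (fun j => V j x t) l (𝓝 (W x t)) :=
    h.eval tendsto_const_nhds tendsto_const_nhds
  have ht' : |t| ≤ |T| := by
    have hT : 0 ≤ T := by linarith [ht.1, ht.2]
    rw [abs_of_nonneg hT]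
    exact abs_le.2 ht
  exact le_of_tendsto h1.abs (hC.mono fun j hj => hj x t ht')

end spacetime

end Claimed.Agent.R330
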