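import Mathlib
import Claimed.Agent.R330.UlimClass
import Claimed.Agent.R330.UlimEnv
import Claimed.Agent.R330.FitModuli

/-!
# Row 330, package L2b: packaged ultralimit compactness of the class

A family of members of `ClassA C₀` with common constants in the growth bound (4.2) and in the
parameter bound (4.3) has an ultralimit in `ClassA C₀`; the convergence is continuous convergence
with eventually uniform subquadratic growth (`UlimConv`), hence all envelopes and slopes converge.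
Owner: helper244.
-/

namespace Claimed.Agent.R330

open Filter Topology Set Metric

variable {ι : Type*} {X : Type*} [NormedAddCommGroup X] [InnerProductSpace ℝ X]

omit [InnerProductSpace ℝ X] in
/-- Eventually uniform subquadratic growth from a common growth constant. -/
theorem ulimpack_grow {l : Filter ι} {Cg : ℝ} (hCg : 0 ≤ Cg) {v : ι → X → ℝ → ℝ}
    (hgr : ∀ᶠ j in l, FitGrowth Cg (v j)) (T ε : ℝ) (hε : 0 < ε) :
    ∃ C, ∀ᶠ j in l, ∀ x t, |t| ≤ T → |v j x t| ≤ ε * ‖x‖ ^ 2 + C := by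
  obtain ⟨C, hC⟩ := fitmod_subQuadOn_unif (X := X) hCg T hε
  exact ⟨C, hgr.mono fun j hj x t ht => hC (v j) hj x t (abs_le.1 ht)⟩

/-- **Packaged compactness.** -/
theorem ulimpack_classA [FiniteDimensional ℝ X] (U : Ultrafilter ι) {C₀ Cg Cp : ℝ}
    (hC₀ : 0 ≤ C₀) (hCg : 0 ≤ Cg) {v : ι → X → ℝ → ℝ}
    (hA : ∀ᶠ j in (U : Filter ι), ClassA C₀ (v j))
    (hgr : ∀ᶠ j in (U : Filter ι), FitGrowth Cg (v j))
    (hpar : ∀ᶠ j in (U : Filter ι), FitParam C₀ Cp (v j)) :
    ∃ vh : X → ℝ → ℝ, ClassA C₀ vh ∧ UlimCC (U : Filter ι) v vh ∧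
      UlimConv (U : Filter ι) v vh := by
  have heq : UlimEquicont (U : Filter ι) (fun j (z : X × ℝ) => v j z.1 z.2) :=
    fitmod_ulimEquicont hC₀ (by filter_upwards [hA, hpar] with j h1 h2 using ⟨h1.fits, h2⟩)
  have hconv : ∀ vh : X → ℝ → ℝ, UlimCC (U : Filter ι) v vh → UlimConv (U : Filter ι) v vh :=
    fun vh hcc => UlimConv.of_equicont (fun z => hcc.pointwise z.1 z.2) heq
      (ulimpack_grow hCg hgr)
  have hbd : ∀ (x : X) (t : ℝ), ∃ M : ℝ, ∀ᶠ j in (U : Filter ι), |v j x t| ≤ M := by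
    intro x t
    obtain ⟨M, hM⟩ := fitmod_pointwise_bound (Cg := Cg) x t
    exact ⟨M, hgr.mono fun j hj => hM (v j) hj⟩
  have hpb : ∀ (x : X) (t R : ℝ), 0 < R → ∃ M : ℝ, ∀ᶠ j in (U : Filter ι), ∀ (p : X) (a : ℝ),
      IsFit C₀ (v j) x t R p a → ‖p‖ ≤ M ∧ |a| ≤ M := by
    intro x t R hR
    set K := ‖x‖ + |t| + 2 with hK
    have hK2 : 2 ≤ K := by
      have := norm_nonneg x
      have := abs_nonneg t
      linarith
    refine ⟨Cp * (1 + Real.log K + |Real.log R|), hpar.mono fun j hj p a hpa => ?_⟩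
    have := hj K hK2 x t (by linarith [abs_nonneg t]) (by linarith [norm_nonneg x]) R hR p a hpa
    exact ⟨by linarith [abs_nonneg a], by linarith [norm_nonneg p]⟩
  obtain ⟨vh, h1, h2⟩ := ulim_classA_of_bounds U hA hbd heq hpb (fun vh hcc =>
    ⟨fun ℓ hℓ x t => (hconv vh hcc).envP_tendsto tendsto_const_nhds tendsto_const_nhds hℓ
        tendsto_const_nhds,
      fun ℓ hℓ x t => (hconv vh hcc).envM_tendsto tendsto_const_nhds tendsto_const_nhds hℓ
        tendsto_const_nhds⟩)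
  exact ⟨vh, h1, h2, hconv vh h2⟩

/-- Packaged compactness for centred families: the hypothesis `hfit` is the content of paper
Lemma 4.2, (4.2) and (4.3). -/
theorem ulimpack_classA_centered [FiniteDimensional ℝ X] (U : Ultrafilter ι) {C₀ Cg Cp tc : ℝ}
    (hC₀ : 0 ≤ C₀) (hCg : 0 ≤ Cg)
    (hfit : ∀ w : X → ℝ → ℝ, HasFits C₀ w → CenteredAt C₀ w 0 tc →
      FitGrowth Cg w ∧ FitParam C₀ Cp w)
    {v : ι → X → ℝ → ℝ}
    (hA : ∀ᶠ j in (U : Filter ι), ClassA C₀ (v j) ∧ CenteredAt C₀ (v j) 0 tc) :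
    ∃ vh : X → ℝ → ℝ, ClassA C₀ vh ∧ CenteredAt C₀ vh 0 tc ∧ UlimCC (U : Filter ι) v vh ∧
      UlimConv (U : Filter ι) v vh := by
  obtain ⟨vh, h1, h2, h3⟩ := ulimpack_classA U hC₀ hCg (hA.mono fun j hj => hj.1)
    (hA.mono fun j hj => (hfit _ hj.1.fits hj.2).1) (hA.mono fun j hj => (hfit _ hj.1.fits hj.2).2)
  exact ⟨vh, h1, ulim_centeredAt h2 (hA.mono fun j hj => hj.2), h2, h3⟩

end Claimed.Agent.R330
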