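import Mathlib
import Claimed.Agent.R330.FinalLimit
import Claimed.Agent.R330.UlimPack
import Claimed.Agent.R330.EnvGlue
import Claimed.Agent.R330.BaryCov

/-!
# Row 330, package L10b, step B: the final contradiction (paper Section 8)

A sequence `V n` of members of the class centred at `(0,1)`, with barycentric gap at `(0,1)`
at least `G - 1/(n+1)`, and with both envelope slopes at bounded points `(b n, s n)` increasing by
at most `1/(n+1)` between the lengths `2^{-n}` and `2^n`, cannot exist.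

The ultralimit `w` has constant slopes at the limit point, so it is affine (rigidity); then the
easy half of the duality for the barycentric envelope,
`bary 1 g 0 ≤ supConv 1 g (-q) + |q|^2/2`, and the convergence of the forward envelopes show that
the gaps of the `V n` tend to zero.  Owner: helper244.
-/

namespace Claimed.Agent.R330

open Filter Topology Set
open scoped RealInnerProductSpace

variable {X : Type*} [NormedAddCommGroup X] [InnerProductSpace ℝ X]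

/-! ### General facts about continuous functions of subquadratic growth -/

theorem fin_Icc_mem_nhds (t : ℝ) : Icc (-(|t| + 1)) (|t| + 1) ∈ 𝓝 t := by
  apply Icc_mem_nhds
  · have := neg_abs_le t
    linarith
  · have := le_abs_self t
    linarith

theorem fin_slopeP_mono {w : X → ℝ → ℝ} (hc : Continuous fun z : X × ℝ => w z.1 z.2)
    (hsq : SubQuadLoc w) (hP : PathConvexP w) (x : X) (t l₁ l₂ : ℝ) (h1 : 0 < l₁)
    (h2 : l₁ ≤ l₂) : slopeP l₁ w x t ≤ slopeP l₂ w x t :=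
  slopeP_mono_of_convexOn (fin_Icc_mem_nhds t) hc.continuousAt (hsq (|t| + 1))
    (hP.convexOn_envP x t) h1 h2

theorem fin_slopeM_mono {w : X → ℝ → ℝ} (hc : Continuous fun z : X × ℝ => w z.1 z.2)
    (hsq : SubQuadLoc w) (hM : PathConcaveM w) (x : X) (t l₁ l₂ : ℝ) (h1 : 0 < l₁)
    (h2 : l₁ ≤ l₂) : slopeM l₁ w x t ≤ slopeM l₂ w x t :=
  slopeM_mono_of_concaveOn (fin_Icc_mem_nhds t) hc.continuousAt (hsq (|t| + 1))
    (hM.concaveOn_envM x t) h1 h2

omit [InnerProductSpace ℝ X] in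
theorem fin_bddBelow {g : X → ℝ} (hg : SubQuadBelow g) {l : ℝ} (hl : 0 < l) (x : X) :
    BddBelow (Set.range fun y : X => g y + ‖y - x‖ ^ 2 / (2 * l)) := by
  obtain ⟨B, hB⟩ := supConv_bddAbove hg.neg hl x
  refine ⟨-B, ?_⟩
  rintro _ ⟨y, rfl⟩
  have := hB ⟨y, rfl⟩
  simp only at this ⊢
  linarith

omit [InnerProductSpace ℝ X] in
theorem fin_slice_continuous {w : X → ℝ → ℝ} (hc : Continuous fun z : X × ℝ => w z.1 z.2)
    (t : ℝ) : Continuous fun y => w y t :=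
  hc.comp (continuous_id.prodMk continuous_const)

omit [InnerProductSpace ℝ X] in
theorem fin_time_continuous {w : X → ℝ → ℝ} (hc : Continuous fun z : X × ℝ => w z.1 z.2)
    (x : X) : Continuous (w x) :=
  hc.comp (continuous_const.prodMk continuous_id)

/-! ### The easy half of the duality for the barycentric envelope -/

theorem fin_bary_le_supConv {g : X → ℝ} (q : X)
    (hb : BddAbove (Set.range fun y : X => g y - ‖y - (-q)‖ ^ 2 / (2 * 1))) :
    bary 1 g 0 ≤ supConv 1 g (-q) + ‖q‖ ^ 2 / 2 := by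
  refine bary_le_of_forall fun N θ y h => ?_
  have hy : ∀ i, g (y i) ≤ supConv 1 g (-q) + ‖q‖ ^ 2 / 2 + ⟪q, y i⟫ + ‖y i - 0‖ ^ 2 / 2 := by
    intro i
    have h1 : g (y i) - ‖y i - (-q)‖ ^ 2 / (2 * 1) ≤ supConv 1 g (-q) := le_ciSup hb (y i)
    have h2 : ‖y i - (-q)‖ ^ 2 = ‖y i‖ ^ 2 + 2 * ⟪q, y i⟫ + ‖q‖ ^ 2 := by
      rw [sub_neg_eq_add, norm_add_sq_real, real_inner_comm]
    rw [h2] at h1
    rw [sub_zero]
    linarith
  have h3 := bary_config_sum_le h hy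
  have h4 : ∑ i, θ i * (supConv 1 g (-q) + ‖q‖ ^ 2 / 2 + ⟪q, y i⟫ + ‖y i - 0‖ ^ 2 / 2)
      = supConv 1 g (-q) + ‖q‖ ^ 2 / 2 + (∑ i, θ i * ‖y i - 0‖ ^ 2) / 2 := by
    have e : ∀ i, θ i * (supConv 1 g (-q) + ‖q‖ ^ 2 / 2 + ⟪q, y i⟫ + ‖y i - 0‖ ^ 2 / 2)
        = θ i * (supConv 1 g (-q) + ‖q‖ ^ 2 / 2) + θ i * ⟪q, y i⟫
          + (θ i * ‖y i - 0‖ ^ 2) / 2 := fun i => by ring
    simp only [e, Finset.sum_add_distrib, bary_config_sum_const h, bary_config_inner h,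
      inner_zero_right, add_zero, ← Finset.sum_div]
  unfold baryVal
  rw [h4] at h3
  have h5 : (∑ i, θ i * ‖y i - 0‖ ^ 2) / (2 * 1) = (∑ i, θ i * ‖y i - 0‖ ^ 2) / 2 := by
    rw [mul_one]
  rw [h5]
  linarith

/-! ### The final contradiction, from a given limit -/

/-- The final contradiction, given the ultralimit `w` of the sequence and paper Lemma 4.4 for
`w` (in the form `h44`). -/
theorem fin_core_of_limit [FiniteDimensional ℝ X] {C₀ G K : ℝ} (hG : 0 < G)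
    (V : ℕ → X → ℝ → ℝ) (b : ℕ → X) (s : ℕ → ℝ)
    (hV : ∀ n, ClassA C₀ (V n)) (hVsq : ∀ n, SubQuadLoc (V n))
    (U : Ultrafilter ℕ) (hU : (U : Filter ℕ) ≤ atTop)
    {w : X → ℝ → ℝ} (hw : ClassA C₀ w) (hconv : UlimConv (U : Filter ℕ) V w)
    (h44 : ∀ (x : X) (t Bp Bm : ℝ), (∀ ℓ, 0 < ℓ → slopeP ℓ w x t = Bp) →
      (∀ ℓ, 0 < ℓ → slopeM ℓ w x t = Bm) → Bp = Bm)
    (hb : ∀ n, ‖b n‖ ≤ K) (hs0 : ∀ n, 0 ≤ s n) (hs1 : ∀ n, s n ≤ 1)
    (hgap : ∀ n : ℕ, G - 1 / ((n : ℝ) + 1) ≤ bary 1 (fun y => V n y 1) 0 - V n 0 1)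
    (hP : ∀ n : ℕ, slopeP (2 ^ n) (V n) (b n) (s n) - slopeP (1 / 2 ^ n) (V n) (b n) (s n)
      ≤ 1 / ((n : ℝ) + 1))
    (hM : ∀ n : ℕ, slopeM (2 ^ n) (V n) (b n) (s n) - slopeM (1 / 2 ^ n) (V n) (b n) (s n)
      ≤ 1 / ((n : ℝ) + 1)) : False := by
  have hprop : ProperSpace X := FiniteDimensional.proper_real X
  obtain ⟨b0, hb0, -⟩ := ulim_exists_norm U b K (Eventually.of_forall hb)
  obtain ⟨s0, hs0', -⟩ := ulim_exists_real U s 1
    (Eventually.of_forall fun n => abs_le.2 ⟨by linarith [hs0 n], hs1 n⟩)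
  have hwsq : SubQuadLoc w := hconv.subQuadLoc
  have h0 : Tendsto (fun n : ℕ => 1 / ((n : ℝ) + 1)) U (𝓝 0) :=
    tendsto_one_div_add_atTop_nhds_zero_nat.mono_left hU
  -- comparison of dyadic lengths
  have hpow : ∀ k n : ℕ, k ≤ n → (2 : ℝ) ^ k ≤ 2 ^ n ∧ (1 : ℝ) / 2 ^ n ≤ 1 / 2 ^ k := by
    intro k n hkn
    have h1 : (2 : ℝ) ^ k ≤ 2 ^ n := pow_le_pow_right₀ one_le_two hkn
    exact ⟨h1, one_div_le_one_div_of_le (by positivity) h1⟩
  -- the slopes of the limit do not increase on dyadic windows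
  have hkP : ∀ k : ℕ, slopeP (2 ^ k) w b0 s0 ≤ slopeP (1 / 2 ^ k) w b0 s0 := by
    intro k
    have h1 := hconv.slopeP_tendsto hb0 hs0' (l0 := 2 ^ k) (by positivity) tendsto_const_nhds
    have h2 := hconv.slopeP_tendsto hb0 hs0' (l0 := 1 / 2 ^ k) (by positivity) tendsto_const_nhds
    have h3 : ∀ᶠ n : ℕ in (U : Filter ℕ), slopeP (2 ^ k) (V n) (b n) (s n)
        - slopeP (1 / 2 ^ k) (V n) (b n) (s n) ≤ 1 / ((n : ℝ) + 1) := by
      filter_upwards [hU (eventually_ge_atTop k)] with n hn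
      have e1 := fin_slopeP_mono (hV n).cont (hVsq n) (hV n).convP (b n) (s n) _ _
        (by positivity) (hpow k n hn).1
      have e2 := fin_slopeP_mono (hV n).cont (hVsq n) (hV n).convP (b n) (s n) _ _
        (by positivity) (hpow k n hn).2
      have := hP n
      linarith
    have := le_of_tendsto_of_tendsto (h1.sub h2) h0 h3
    linarith
  have hkM : ∀ k : ℕ, slopeM (2 ^ k) w b0 s0 ≤ slopeM (1 / 2 ^ k) w b0 s0 := by
    intro k
    have h1 := hconv.slopeM_tendsto hb0 hs0' (l0 := 2 ^ k) (by positivity) tendsto_const_nhds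
    have h2 := hconv.slopeM_tendsto hb0 hs0' (l0 := 1 / 2 ^ k) (by positivity) tendsto_const_nhds
    have h3 : ∀ᶠ n : ℕ in (U : Filter ℕ), slopeM (2 ^ k) (V n) (b n) (s n)
        - slopeM (1 / 2 ^ k) (V n) (b n) (s n) ≤ 1 / ((n : ℝ) + 1) := by
      filter_upwards [hU (eventually_ge_atTop k)] with n hn
      have e1 := fin_slopeM_mono (hV n).cont (hVsq n) (hV n).concM (b n) (s n) _ _
        (by positivity) (hpow k n hn).1
      have e2 := fin_slopeM_mono (hV n).cont (hVsq n) (hV n).concM (b n) (s n) _ _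
        (by positivity) (hpow k n hn).2
      have := hM n
      linarith
    have := le_of_tendsto_of_tendsto (h1.sub h2) h0 h3
    linarith
  -- constant slopes
  have hmP := fin_slopeP_mono hw.cont hwsq hw.convP
  have hmM := fin_slopeM_mono hw.cont hwsq hw.concM
  have hcP : ∀ ℓ, 0 < ℓ → slopeP ℓ w b0 s0 = slopeP 1 w b0 s0 := fun ℓ hℓ =>
    fin_const_of_dyadic (S := fun l => slopeP l w b0 s0) (fun l₁ l₂ h1 h2 => hmP b0 s0 l₁ l₂ h1 h2)
      hkP ℓ hℓ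
  have hcM : ∀ ℓ, 0 < ℓ → slopeM ℓ w b0 s0 = slopeM 1 w b0 s0 := fun ℓ hℓ =>
    fin_const_of_dyadic (S := fun l => slopeM l w b0 s0) (fun l₁ l₂ h1 h2 => hmM b0 s0 l₁ l₂ h1 h2)
      hkM ℓ hℓ
  have hB : slopeP 1 w b0 s0 = slopeM 1 w b0 s0 := h44 _ _ _ _ hcP hcM
  -- rigidity
  obtain ⟨q, hq⟩ := rigid_affine_env (fin_time_continuous hw.cont)
    (fun x t ℓ hℓ => supConv_bddAbove (hwsq.slice (t + ℓ)).above hℓ x)
    (fun x t ℓ hℓ => fin_bddBelow (hwsq.slice (t - ℓ)).below hℓ x)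
    hmP hmM (b := b0) (t0 := s0) (B := slopeP 1 w b0 s0) hcP
    (fun ℓ hℓ => (hcM ℓ hℓ).trans hB.symm)
    (fun ℓ hℓ => exists_envP_eq (fin_slice_continuous hw.cont _) (hwsq.slice _).above hℓ b0)
    (fun ℓ hℓ => exists_envM_eq (fin_slice_continuous hw.cont _) (hwsq.slice _).below hℓ b0)
  set B := slopeP 1 w b0 s0
  set c : ℝ := w b0 s0 - ⟪q, b0⟫ + (B - ‖q‖ ^ 2 / 2) * (1 - s0) with hcdef
  have hw1 : ∀ y, w y 1 = ⟪q, y⟫ + c := by
    intro y
    rw [hq y 1, inner_sub_right, hcdef]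
    ring
  -- the forward envelope of the limit at `(-q, 0)`
  have henvw : envP 1 w (-q) 0 = c - ‖q‖ ^ 2 / 2 := by
    have e1 : envP 1 w (-q) 0 = supConv 1 (fun y => ⟪q, y⟫ + c) (-q) := by
      unfold envP
      congr 1
      funext y
      rw [zero_add, hw1 y]
    rw [e1, supConv_affine one_pos, inner_neg_right, real_inner_self_eq_norm_sq]
    ring
  have hlimE : Tendsto (fun n => envP 1 (V n) (-q) 0) U (𝓝 (c - ‖q‖ ^ 2 / 2)) := by
    rw [← henvw]
    exact hconv.envP_tendsto tendsto_const_nhds tendsto_const_nhds one_pos tendsto_const_nhds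
  have hlim0 : Tendsto (fun n => V n 0 1) U (𝓝 c) := by
    have := hconv.eval (xs := fun _ => (0 : X)) (ts := fun _ => (1 : ℝ)) tendsto_const_nhds
      tendsto_const_nhds
    rwa [hw1 0, inner_zero_right, zero_add] at this
  have hle : ∀ n : ℕ, G - 1 / ((n : ℝ) + 1) ≤ envP 1 (V n) (-q) 0 + ‖q‖ ^ 2 / 2 - V n 0 1 := by
    intro n
    have h1 : bary 1 (fun y => V n y 1) 0 ≤ supConv 1 (fun y => V n y 1) (-q) + ‖q‖ ^ 2 / 2 :=
      fin_bary_le_supConv q (supConv_bddAbove ((hVsq n).slice 1).above one_pos (-q))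
    have h2 : envP 1 (V n) (-q) 0 = supConv 1 (fun y => V n y 1) (-q) := by
      unfold envP
      simp only [zero_add]
    have := hgap n
    rw [h2]
    linarith
  have hfin : G - 0 ≤ (c - ‖q‖ ^ 2 / 2) + ‖q‖ ^ 2 / 2 - c :=
    le_of_tendsto_of_tendsto (tendsto_const_nhds.sub h0) ((hlimE.add_const _).sub hlim0)
      (Eventually.of_forall hle)
  linarith

/-- The final contradiction, from the two supplier statements: the bounds (4.2), (4.3) for centred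
functions with fits, and paper Lemma 4.4 in the form "constant slopes agree". -/
theorem fin_core_of_suppliers [FiniteDimensional ℝ X] {C₀ G K Cg Cp : ℝ} (hC : 0 ≤ C₀)
    (hG : 0 < G) (hCg : 0 ≤ Cg)
    (hfit : ∀ w : X → ℝ → ℝ, HasFits C₀ w → CenteredAt C₀ w 0 1 →
      FitGrowth Cg w ∧ FitParam C₀ Cp w)
    (h44 : ∀ w : X → ℝ → ℝ, ClassA C₀ w → SubQuadLoc w → ∀ (x : X) (t Bp Bm : ℝ),
      (∀ ℓ, 0 < ℓ → slopeP ℓ w x t = Bp) → (∀ ℓ, 0 < ℓ → slopeM ℓ w x t = Bm) → Bp = Bm)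
    (V : ℕ → X → ℝ → ℝ) (b : ℕ → X) (s : ℕ → ℝ)
    (hV : ∀ n, ClassA C₀ (V n)) (hc : ∀ n, CenteredAt C₀ (V n) 0 1)
    (hb : ∀ n, ‖b n‖ ≤ K) (hs0 : ∀ n, 0 ≤ s n) (hs1 : ∀ n, s n ≤ 1)
    (hgap : ∀ n : ℕ, G - 1 / ((n : ℝ) + 1) ≤ bary 1 (fun y => V n y 1) 0 - V n 0 1)
    (hP : ∀ n : ℕ, slopeP (2 ^ n) (V n) (b n) (s n) - slopeP (1 / 2 ^ n) (V n) (b n) (s n)
      ≤ 1 / ((n : ℝ) + 1))
    (hM : ∀ n : ℕ, slopeM (2 ^ n) (V n) (b n) (s n) - slopeM (1 / 2 ^ n) (V n) (b n) (s n)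
      ≤ 1 / ((n : ℝ) + 1)) : False := by
  obtain ⟨w, hw, -, -, hconv⟩ := ulimpack_classA_centered (hyperfilter ℕ) hC hCg hfit
    (v := V) (Eventually.of_forall fun n => ⟨hV n, hc n⟩)
  have hU : ((hyperfilter ℕ : Ultrafilter ℕ) : Filter ℕ) ≤ atTop := by
    rw [← Nat.cofinite_eq_atTop]
    exact hyperfilter_le_cofinite
  exact fin_core_of_limit hG V b s hV
    (fun n => fitmod_subQuadLoc hCg (hfit _ (hV n).fits (hc n)).1) (hyperfilter ℕ) hU hw hconv
    (h44 w hw hconv.subQuadLoc) hb hs0 hs1 hgap hP hM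

end Claimed.Agent.R330
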