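import Mathlib
import Claimed.Agent.R330.FitBox
import Claimed.Agent.R330.FitCompare
import Claimed.Agent.R330.FitModuli

/-!
# Row 330, package L2a: packaged bounds for centred functions with fits (paper Lemma 4.2)

Combination of `FitCompare` (helper225), `FitChain`/`FitBox` (helper217) and `FitModuli`
(helper223): for `HasFits C₀ v`, `CenteredAt C₀ v 0 tc`, `|tc| ≤ 1` all estimates of Lemma 4.2
hold with constants depending only on `C₀`.  Owner: helper217.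
-/

namespace Claimed.Agent.R330

open scoped RealInnerProductSpace

variable {X : Type*} [NormedAddCommGroup X] [InnerProductSpace ℝ X]

theorem fitmain_step {C₀ : ℝ} (hC₀ : 0 ≤ C₀) (v : X → ℝ → ℝ) : FitStep C₀ (fitcC1 C₀) v :=
  fun _ _ _ _ _ _ _ _ hR h1 h2 f1 f2 => fitc_step hC₀ hR h1 h2 f1 f2

theorem fitmain_shift {C₀ : ℝ} (hC₀ : 0 ≤ C₀) (v : X → ℝ → ℝ) : FitShift C₀ (fitcC2 C₀) v :=
  fun _ _ _ _ _ _ _ _ _ hR h1 h2 f1 f2 => fitc_shift hC₀ hR h1 h2 f1 f2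

/-- The growth constant of Lemma 4.2, a function of `C₀` only. -/
noncomputable def fitCg (C₀ : ℝ) : ℝ := fitboxCg C₀ (fitcC1 C₀)

/-- The parameter constant of Lemma 4.2, a function of `C₀` only. -/
noncomputable def fitCp (C₀ : ℝ) : ℝ := fitboxCp (fitcC1 C₀) (fitcC2 C₀)

theorem fitCg_nonneg {C₀ : ℝ} (hC₀ : 0 ≤ C₀) : 0 ≤ fitCg C₀ :=
  fitbox_Cg_nonneg hC₀ (fitcC1_nonneg hC₀)

theorem fitCp_nonneg {C₀ : ℝ} (hC₀ : 0 ≤ C₀) : 0 ≤ fitCp C₀ :=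
  fitbox_Cp_nonneg (fitcC1_nonneg hC₀) (fitcC2_nonneg hC₀)

/-- Any two fits at one centre (no centring needed). -/
theorem fitmain_chain {C₀ : ℝ} (hC₀ : 0 ≤ C₀) {v : X → ℝ → ℝ} (hfits : HasFits C₀ v) {x : X}
    {t r R : ℝ} {p : X} {a : ℝ} {p' : X} {a' : ℝ} (hr : 0 < r) (hR : 0 < R)
    (h1 : IsFit C₀ v x t r p a) (h2 : IsFit C₀ v x t R p' a') :
    ‖p - p'‖ + |a - a'| ≤ fitcC1 C₀ * (2 + 3 / 2 * |Real.log R - Real.log r|) :=
  fitch_chain' hfits (fitmain_step hC₀ v) (fitcC1_nonneg hC₀) hr hR h1 h2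

/-- **Growth bound (4.2).** -/
theorem fitmain_growth {C₀ : ℝ} (hC₀ : 0 ≤ C₀) {v : X → ℝ → ℝ} (hfits : HasFits C₀ v) {tc : ℝ}
    (htc : |tc| ≤ 1) (hc : CenteredAt C₀ v 0 tc) : FitGrowth (fitCg C₀) v :=
  fitbox_growth hC₀ (fitcC1_nonneg hC₀) hfits (fitmain_step hC₀ v) htc hc

/-- **Parameter bound (4.3).** -/
theorem fitmain_param {C₀ : ℝ} (hC₀ : 0 ≤ C₀) {v : X → ℝ → ℝ} (hfits : HasFits C₀ v) {tc : ℝ}
    (htc : |tc| ≤ 1) (hc : CenteredAt C₀ v 0 tc) : FitParam C₀ (fitCp C₀) v :=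
  fitbox_param (fitcC1_nonneg hC₀) (fitcC2_nonneg hC₀) hfits (fitmain_step hC₀ v)
    (fitmain_shift hC₀ v) htc hc

/-- Subquadratic growth on bounded time intervals of a centred function with fits. -/
theorem fitmain_subQuadLoc {C₀ : ℝ} (hC₀ : 0 ≤ C₀) {v : X → ℝ → ℝ} (hfits : HasFits C₀ v)
    {tc : ℝ} (htc : |tc| ≤ 1) (hc : CenteredAt C₀ v 0 tc) : SubQuadLoc v :=
  fitmod_subQuadLoc (fitCg_nonneg hC₀) (fitmain_growth hC₀ hfits htc hc)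

/-- **Uniform subquadratic growth (4.6)**: the constant is chosen before the function. -/
theorem fitmain_subQuadOn_unif {C₀ : ℝ} (hC₀ : 0 ≤ C₀) (T : ℝ) {ε : ℝ} (hε : 0 < ε) :
    ∃ C : ℝ, ∀ (v : X → ℝ → ℝ) (tc : ℝ), HasFits C₀ v → |tc| ≤ 1 → CenteredAt C₀ v 0 tc →
      ∀ x : X, ∀ t ∈ Set.Icc (-T) T, |v x t| ≤ ε * ‖x‖ ^ 2 + C := by
  obtain ⟨C, hC⟩ := fitmod_subQuadOn_unif (X := X) (fitCg_nonneg hC₀) T hε
  exact ⟨C, fun v tc hf htc hc => hC v (fitmain_growth hC₀ hf htc hc)⟩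

/-- Joint continuity of a centred function with fits (the fits alone give it). -/
theorem fitmain_continuous {C₀ : ℝ} (hC₀ : 0 ≤ C₀) {v : X → ℝ → ℝ} (hfits : HasFits C₀ v)
    {tc : ℝ} (htc : |tc| ≤ 1) (hc : CenteredAt C₀ v 0 tc) :
    Continuous (fun z : X × ℝ => v z.1 z.2) :=
  fitmod_continuous hC₀ hfits (fitmain_param hC₀ hfits htc hc)

/-- Eventual equicontinuity of a family of centred functions with fits. -/
theorem fitmain_ulimEquicont {ι : Type*} {l : Filter ι} {C₀ : ℝ} (hC₀ : 0 ≤ C₀)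
    {V : ι → X → ℝ → ℝ} {tc : ι → ℝ}
    (h : ∀ᶠ j in l, HasFits C₀ (V j) ∧ |tc j| ≤ 1 ∧ CenteredAt C₀ (V j) 0 (tc j)) :
    UlimEquicont l (fun j (z : X × ℝ) => V j z.1 z.2) :=
  fitmod_ulimEquicont hC₀ (h.mono fun _ hj => ⟨hj.1, fitmain_param hC₀ hj.1 hj.2.1 hj.2.2⟩)

/-- Pointwise bound, uniform over all centred functions with fits. -/
theorem fitmain_pointwise_bound {C₀ : ℝ} (hC₀ : 0 ≤ C₀) (x : X) (t : ℝ) :
    ∃ M : ℝ, ∀ (v : X → ℝ → ℝ) (tc : ℝ), HasFits C₀ v → |tc| ≤ 1 → CenteredAt C₀ v 0 tc →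
      |v x t| ≤ M := by
  obtain ⟨M, hM⟩ := fitmod_pointwise_bound (X := X) (Cg := fitCg C₀) x t
  exact ⟨M, fun v tc hf htc hc => hM v (fitmain_growth hC₀ hf htc hc)⟩

end Claimed.Agent.R330
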