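import Mathlib
import Claimed.Agent.R330.PartBDefs
import Claimed.Agent.R330.Frame
import Claimed.Agent.R330.FrameClass
import Claimed.Agent.R330.BaryCov
import Claimed.Agent.R330.FitMain

/-!
# Row 330: frame transfer T2 -> T3 (paper Lemma 6.3, (6.10), (6.11), (5.11))

The data produced by the contact propagation, seen in the fitted frame
`V = frame 1 xj r r pj aj v`, `b = (xe - xj - (te - r) pj) / r`, `s = te / r`.
Owner of this file: helper56.
-/

namespace Claimed.Agent.R330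

open scoped RealInnerProductSpace

variable {X : Type*} [NormedAddCommGroup X] [InnerProductSpace ℝ X]

/-- The slice of a frame change at the new base time. -/
theorem finfr_slice (s0 : ℝ) (x0 : X) (t0 R : ℝ) (p0 : X) (a0 : ℝ) (v : X → ℝ → ℝ) :
    (fun y => frame s0 x0 t0 R p0 a0 v y s0)
      = fun z => (fun x' => v x' t0) (x0 + R • z) / R - inner ℝ p0 z - v x0 t0 / R := by
  funext y
  rw [frame_apply]
  unfold frameX frameT
  simp only [sub_self, zero_smul, add_zero, mul_zero]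
  ring

/-- Covariance of the barycentric gap at the base point of a frame change
(paper (6.12), third line). -/
theorem finfr_gap (s0 : ℝ) (x0 : X) (t0 : ℝ) {R : ℝ} (p0 : X) (a0 : ℝ) {v : X → ℝ → ℝ}
    (hR : 0 < R) {σ : ℝ} (hσ : 0 < σ) (hg : SubQuadAbove fun x' => v x' t0) :
    bary σ (fun y => frame s0 x0 t0 R p0 a0 v y s0) 0 - frame s0 x0 t0 R p0 a0 v 0 s0
      = (bary (R * σ) (fun x' => v x' t0) x0 - v x0 t0) / R := by
  rw [frame_base, finfr_slice, bary_cov hR hσ hg x0 p0 (v x0 t0 / R) 0]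
  simp only [smul_zero, add_zero, inner_zero_right]
  ring

/-- The new coordinates of the old point `(xe, te)` in the fitted frame: space. -/
theorem finfr_frameX {r : ℝ} (hr : r ≠ 0) (xj pj xe : X) (te : ℝ) :
    frameX 1 xj r pj (r⁻¹ • (xe - xj - (te - r) • pj)) (te / r) = xe := by
  unfold frameX
  have h1 : r * (te / r - 1) = te - r := by field_simp
  rw [smul_add, smul_smul, smul_smul, mul_inv_cancel₀ hr, one_smul, h1]
  abel

/-- The new coordinates of the old point `(xe, te)` in the fitted frame: time. -/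
theorem finfr_frameT {r : ℝ} (hr : r ≠ 0) (te : ℝ) : frameT 1 r r (te / r) = te := by
  unfold frameT
  field_simp
  ring

/-- Frame transfer, with the growth of `v` as an explicit hypothesis. -/
theorem finfr_transfer_of {C₀ G K η : ℝ} {k : ℕ}
    {v : X → ℝ → ℝ} (hv : ClassA C₀ v) (hsq : SubQuadLoc v)
    {r : ℝ} {xj pj : X} {aj : ℝ} {xe : X} {te : ℝ}
    (hr : 0 < r) (hfit : IsFit C₀ v xj r r pj aj) (hte : 0 < te) (hte' : te ≤ r)
    (hloc : ‖xe - xj - (te - r) • pj‖ ≤ K * r)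
    (hdef : v xj r - Wk G v xj r ≤ η * r)
    (hP : slopeP (2 ^ k * r) v xe te - slopeP (r / 2 ^ k) v xe te ≤ η)
    (hM : slopeM (2 ^ k * r) v xe te - slopeM (r / 2 ^ k) v xe te ≤ η) :
    ∃ (V : X → ℝ → ℝ) (b : X) (s : ℝ), ClassA C₀ V ∧ CenteredAt C₀ V 0 1 ∧ ‖b‖ ≤ K ∧
      0 ≤ s ∧ s ≤ 1 ∧ G - η ≤ bary 1 (fun y => V y 1) 0 - V 0 1 ∧
      slopeP (2 ^ k) V b s - slopeP (1 / 2 ^ k) V b s ≤ η ∧
      slopeM (2 ^ k) V b s - slopeM (1 / 2 ^ k) V b s ≤ η := by
  have hk : (0 : ℝ) < 2 ^ k := by positivity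
  have hk' : (0 : ℝ) < 1 / 2 ^ k := by positivity
  have e1 : r * 2 ^ k = 2 ^ k * r := mul_comm _ _
  have e2 : r * (1 / 2 ^ k) = r / 2 ^ k := mul_one_div _ _
  refine ⟨frame 1 xj r r pj aj v, r⁻¹ • (xe - xj - (te - r) • pj), te / r,
    frame_classA 1 xj r pj aj hr hsq hv, frame_centeredAt 1 xj r pj aj hr hfit, ?_,
    (div_pos hte hr).le, (div_le_one hr).mpr hte', ?_, ?_, ?_⟩
  · rw [norm_smul, norm_inv, Real.norm_eq_abs, abs_of_pos hr, inv_mul_le_iff₀ hr]
    linarith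
  · rw [finfr_gap 1 xj r pj aj hr one_pos (frame_subQuadAbove_slice hsq r), mul_one,
      le_div_iff₀ hr]
    unfold Wk at hdef
    linarith
  · rw [frame_slopeP_of_subQuad 1 xj r pj aj hr hsq hk,
      frame_slopeP_of_subQuad 1 xj r pj aj hr hsq hk', finfr_frameX hr.ne', finfr_frameT hr.ne',
      e1, e2]
    linarith
  · rw [frame_slopeM_of_subQuad 1 xj r pj aj hr hsq hk,
      frame_slopeM_of_subQuad 1 xj r pj aj hr hsq hk', finfr_frameX hr.ne', finfr_frameT hr.ne',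
      e1, e2]
    linarith

/-- Undoing the Galilean part of a frame change of unit scale based at the origin. -/
theorem finfr_frame_frame (p : X) (a : ℝ) (v : X → ℝ → ℝ) (x : X) (t : ℝ) :
    frame 0 0 0 1 (-p) (-a) (frame 0 0 0 1 p a v) x t = v x t - v 0 0 := by
  have hX : frameX 0 (0 : X) 1 p (frameX 0 (0 : X) 1 (-p) x t) (frameT 0 0 1 t) = x := by
    unfold frameX frameT
    simp
  have hT : frameT 0 0 1 (frameT 0 0 1 t) = t := by
    unfold frameT
    simp
  have hX0 : frameX 0 (0 : X) 1 (-p) x t = x - t • p := by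
    unfold frameX
    simp [sub_eq_add_neg]
  have hT0 : frameT 0 0 1 t = t := by
    unfold frameT
    simp
  rw [frame_apply, frame_base, frame_apply, hX, hT, hX0, hT0, inner_sub_right, inner_smul_right,
    inner_neg_left, norm_neg, real_inner_self_eq_norm_sq]
  ring

/-- A function with fits at all centres and radii has subquadratic growth on bounded time
intervals (no centring needed). -/
theorem finfr_subQuadLoc {C₀ : ℝ} (hC₀ : 0 ≤ C₀) {v : X → ℝ → ℝ} (hfits : HasFits C₀ v) :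
    SubQuadLoc v := by
  obtain ⟨p, a, hpa⟩ := hfits 0 0 1 one_pos
  have hV : HasFits C₀ (frame 0 0 0 1 p a v) := frame_hasFits 0 0 0 p a one_pos hfits
  have hc : CenteredAt C₀ (frame 0 0 0 1 p a v) 0 0 := frame_centeredAt 0 0 0 p a one_pos hpa
  have hsq : SubQuadLoc (frame 0 0 0 1 p a v) := fitmain_subQuadLoc hC₀ hV (by simp) hc
  have h2 : SubQuadLoc (frame 0 0 0 1 (-p) (-a) (frame 0 0 0 1 p a v)) :=
    frame_subQuadLoc 0 0 0 (-p) (-a) one_pos hsq
  intro T ε hε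
  obtain ⟨C, hC⟩ := h2 T ε hε
  refine ⟨C + |v 0 0|, fun x t ht => ?_⟩
  have h3 := hC x t ht
  rw [finfr_frame_frame] at h3
  have h4 : |v x t| ≤ |v x t - v 0 0| + |v 0 0| := by
    calc |v x t| = |(v x t - v 0 0) + v 0 0| := by rw [sub_add_cancel]
      _ ≤ _ := abs_add_le _ _
  linarith

/-- **Frame transfer** (verbatim the statement `pb_frame_transfer` of `PartB.lean`). -/
theorem finfr_transfer [FiniteDimensional ℝ X] {C₀ G K η : ℝ} (hC : 1 ≤ C₀) {k : ℕ}
    {v : X → ℝ → ℝ} (hv : ClassA C₀ v)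
    {r : ℝ} {xj pj : X} {aj : ℝ} {xe : X} {te : ℝ}
    (hr : 0 < r) (hfit : IsFit C₀ v xj r r pj aj) (hte : 0 < te) (hte' : te ≤ r)
    (hloc : ‖xe - xj - (te - r) • pj‖ ≤ K * r)
    (hdef : v xj r - Wk G v xj r ≤ η * r)
    (hP : slopeP (2 ^ k * r) v xe te - slopeP (r / 2 ^ k) v xe te ≤ η)
    (hM : slopeM (2 ^ k * r) v xe te - slopeM (r / 2 ^ k) v xe te ≤ η) :
    ∃ (V : X → ℝ → ℝ) (b : X) (s : ℝ), ClassA C₀ V ∧ CenteredAt C₀ V 0 1 ∧ ‖b‖ ≤ K ∧
      0 ≤ s ∧ s ≤ 1 ∧ G - η ≤ bary 1 (fun y => V y 1) 0 - V 0 1 ∧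
      slopeP (2 ^ k) V b s - slopeP (1 / 2 ^ k) V b s ≤ η ∧
      slopeM (2 ^ k) V b s - slopeM (1 / 2 ^ k) V b s ≤ η :=
  finfr_transfer_of hv (finfr_subQuadLoc (zero_le_one.trans hC) hv.fits) hr hfit hte hte' hloc
    hdef hP hM

end Claimed.Agent.R330
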