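import Mathlib
import Claimed.Agent.R330.FinalCore
import Claimed.Agent.R330.EnvSlope
import Claimed.Agent.R330.FitBox
import Claimed.Agent.R330.FitCompare

/-!
# Row 330, package L10b: the final contradiction, closed form (paper Section 8)

`fin_core` is the statement `pb_fin_core` of `PartB.lean`, verbatim, without open hypotheses.
Owner: helper244.
-/

namespace Claimed.Agent.R330

open Filter Topology Set
open scoped RealInnerProductSpace

variable {X : Type*} [NormedAddCommGroup X] [InnerProductSpace ℝ X]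

/-- Paper Lemma 4.2, (4.2) and (4.3), packaged: the constants depend on `C₀` only. -/
theorem fin_fit_bounds {C₀ tc : ℝ} (hC : 0 ≤ C₀) (htc : |tc| ≤ 1) (w : X → ℝ → ℝ)
    (hf : HasFits C₀ w) (hc : CenteredAt C₀ w 0 tc) :
    FitGrowth (fitboxCg C₀ (fitcC1 C₀)) w ∧
      FitParam C₀ (fitboxCp (fitcC1 C₀) (fitcC2 C₀)) w := by
  have hstep : FitStep C₀ (fitcC1 C₀) w :=
    fun x t R R' p a p' a' hR h1 h2 hf1 hf2 => fitc_step hC hR h1 h2 hf1 hf2
  have hshift : FitShift C₀ (fitcC2 C₀) w :=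
    fun x t x' t' R p a p' a' hR h1 h2 hf1 hf2 => fitc_shift hC hR h1 h2 hf1 hf2
  exact ⟨fitbox_growth hC (fitcC1_nonneg hC) hf hstep htc hc,
    fitbox_param (fitcC1_nonneg hC) (fitcC2_nonneg hC) hf hstep hshift htc hc⟩

/-- **T3** (paper Section 8): the final contradiction.  Verbatim the statement `pb_fin_core`. -/
theorem fin_core [FiniteDimensional ℝ X] {C₀ G K : ℝ} (hC : 1 ≤ C₀) (hG : 0 < G)
    (V : ℕ → X → ℝ → ℝ) (b : ℕ → X) (s : ℕ → ℝ)
    (hV : ∀ n, ClassA C₀ (V n)) (hc : ∀ n, CenteredAt C₀ (V n) 0 1)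
    (hb : ∀ n, ‖b n‖ ≤ K) (hs0 : ∀ n, 0 ≤ s n) (hs1 : ∀ n, s n ≤ 1)
    (hgap : ∀ n : ℕ, G - 1 / ((n : ℝ) + 1) ≤ bary 1 (fun y => V n y 1) 0 - V n 0 1)
    (hP : ∀ n : ℕ, slopeP (2 ^ n) (V n) (b n) (s n) - slopeP (1 / 2 ^ n) (V n) (b n) (s n)
      ≤ 1 / ((n : ℝ) + 1))
    (hM : ∀ n : ℕ, slopeM (2 ^ n) (V n) (b n) (s n) - slopeM (1 / 2 ^ n) (V n) (b n) (s n)
      ≤ 1 / ((n : ℝ) + 1)) : False := by
  have hC0 : 0 ≤ C₀ := by linarith
  have hprop : ProperSpace X := FiniteDimensional.proper_real X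
  exact fin_core_of_suppliers hC0 hG (fitbox_Cg_nonneg hC0 (fitcC1_nonneg hC0))
    (fin_fit_bounds hC0 (by norm_num))
    (fun w hw hsq x t Bp Bm h1 h2 => slope_const_eq hw.cont hsq hw.convP hw.concM h1 h2)
    V b s hV hc hb hs0 hs1 hgap hP hM

end Claimed.Agent.R330
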