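import Mathlib
import Claimed.Agent.R330.FitMain
import Claimed.Agent.R330.FrameClass

/-!
# Row 330, package L2a: growth and continuity from the fits alone (no centring)

One change of frame (a fit of radius one at the origin) reduces a function with fits to a centred
one; hence `HasFits C₀ v` alone gives subquadratic spatial growth on bounded time intervals and
joint continuity.  Owner: helper217.
-/

namespace Claimed.Agent.R330

open scoped RealInnerProductSpace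

variable {X : Type*} [NormedAddCommGroup X] [InnerProductSpace ℝ X]

/-- The constant of a function with fits is nonnegative. -/
theorem fitfree_C_nonneg {C₀ : ℝ} {v : X → ℝ → ℝ} (h : HasFits C₀ v) : 0 ≤ C₀ := by
  obtain ⟨p, a, hpa⟩ := h 0 0 1 one_pos
  have := hpa 0 0 (by simp) (by simp)
  have h2 := (abs_nonneg _).trans this
  linarith

/-- Recovering `v` from the frame based at the origin with unit scale. -/
theorem fitfree_recover (p0 : X) (a0 : ℝ) (v : X → ℝ → ℝ) (x : X) (t : ℝ) :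
    v x t = v 0 0 + frame 0 0 0 1 p0 a0 v (x - t • p0) t + ⟪p0, x - t • p0⟫
      + (a0 + ‖p0‖ ^ 2 / 2) * t := by
  have := frame_recover (0 : ℝ) (0 : X) (0 : ℝ) (1 : ℝ) p0 a0 v one_ne_zero x t
  simpa [add_assoc] using this

/-- Subquadratic growth passes back from the unit frame at the origin. -/
theorem fitfree_subQuadLoc_of_frame {p0 : X} {a0 : ℝ} {v : X → ℝ → ℝ}
    (h : SubQuadLoc (frame 0 0 0 1 p0 a0 v)) : SubQuadLoc v := by
  intro T ε hε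
  obtain ⟨C, hC⟩ := h T (ε / 4) (by positivity)
  set b : ℝ := |T| * ‖p0‖ with hb
  have hb0 : 0 ≤ b := by positivity
  refine ⟨|v 0 0| + (ε / 4 * (2 * b ^ 2) + C) + (‖p0‖ ^ 2 / (2 * ε) + ‖p0‖ * b)
    + |a0 + ‖p0‖ ^ 2 / 2| * |T|, ?_⟩
  intro x t ht
  have htT : |t| ≤ |T| := by
    rw [abs_le]
    exact ⟨le_trans (neg_le_neg (le_abs_self T)) ht.1, le_trans ht.2 (le_abs_self T)⟩
  have hy : ‖x - t • p0‖ ≤ ‖x‖ + b := by
    have h1 := norm_sub_le x (t • p0)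
    rw [norm_smul, Real.norm_eq_abs] at h1
    have h2 : |t| * ‖p0‖ ≤ b := mul_le_mul_of_nonneg_right htT (norm_nonneg _)
    linarith
  have hx0 := norm_nonneg x
  have hy0 := norm_nonneg (x - t • p0)
  have hy2 : ‖x - t • p0‖ ^ 2 ≤ 2 * ‖x‖ ^ 2 + 2 * b ^ 2 := by
    have : ‖x - t • p0‖ ^ 2 ≤ (‖x‖ + b) ^ 2 := pow_le_pow_left₀ hy0 hy 2
    nlinarith [sq_nonneg (‖x‖ - b)]
  have e1 := hC (x - t • p0) t ht
  have e2 : |⟪p0, x - t • p0⟫| ≤ ε / 2 * ‖x‖ ^ 2 + (‖p0‖ ^ 2 / (2 * ε) + ‖p0‖ * b) := by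
    have h1 : |⟪p0, x - t • p0⟫| ≤ ‖p0‖ * (‖x‖ + b) :=
      (abs_real_inner_le_norm _ _).trans (mul_le_mul_of_nonneg_left hy (norm_nonneg _))
    have h2 : ‖p0‖ * ‖x‖ ≤ ε / 2 * ‖x‖ ^ 2 + ‖p0‖ ^ 2 / (2 * ε) := by
      have h3 : 0 ≤ (ε * ‖x‖ - ‖p0‖) ^ 2 / (2 * ε) := by positivity
      have h4 : (ε * ‖x‖ - ‖p0‖) ^ 2 / (2 * ε)
          = ε / 2 * ‖x‖ ^ 2 + ‖p0‖ ^ 2 / (2 * ε) - ‖p0‖ * ‖x‖ := by
        field_simp; ring
      linarith
    nlinarith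
  have e3 : |(a0 + ‖p0‖ ^ 2 / 2) * t| ≤ |a0 + ‖p0‖ ^ 2 / 2| * |T| := by
    rw [abs_mul]; exact mul_le_mul_of_nonneg_left htT (abs_nonneg _)
  rw [fitfree_recover p0 a0 v x t]
  have e4 : |v 0 0 + frame 0 0 0 1 p0 a0 v (x - t • p0) t + ⟪p0, x - t • p0⟫
      + (a0 + ‖p0‖ ^ 2 / 2) * t|
      ≤ |v 0 0| + |frame 0 0 0 1 p0 a0 v (x - t • p0) t| + |⟪p0, x - t • p0⟫|
        + |(a0 + ‖p0‖ ^ 2 / 2) * t| := by
    have h1 := abs_add_le (v 0 0 + frame 0 0 0 1 p0 a0 v (x - t • p0) t + ⟪p0, x - t • p0⟫)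
      ((a0 + ‖p0‖ ^ 2 / 2) * t)
    have h2 := abs_add_three (v 0 0) (frame 0 0 0 1 p0 a0 v (x - t • p0) t) ⟪p0, x - t • p0⟫
    linarith
  nlinarith

/-- **Subquadratic growth from the fits alone.** -/
theorem fitfree_subQuadLoc {C₀ : ℝ} {v : X → ℝ → ℝ} (h : HasFits C₀ v) : SubQuadLoc v := by
  have hC₀ := fitfree_C_nonneg h
  obtain ⟨p0, a0, hpa⟩ := h 0 0 1 one_pos
  have h1 : HasFits C₀ (frame 0 0 0 1 p0 a0 v) := frame_hasFits 0 0 0 p0 a0 one_pos h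
  have h2 : CenteredAt C₀ (frame 0 0 0 1 p0 a0 v) 0 0 := frame_centeredAt 0 0 0 p0 a0 one_pos hpa
  exact fitfree_subQuadLoc_of_frame (fitmain_subQuadLoc hC₀ h1 (by simp) h2)

/-- **Joint continuity from the fits alone.** -/
theorem fitfree_continuous {C₀ : ℝ} {v : X → ℝ → ℝ} (h : HasFits C₀ v) :
    Continuous (fun z : X × ℝ => v z.1 z.2) := by
  have hC₀ := fitfree_C_nonneg h
  obtain ⟨p0, a0, hpa⟩ := h 0 0 1 one_pos
  have h1 : HasFits C₀ (frame 0 0 0 1 p0 a0 v) := frame_hasFits 0 0 0 p0 a0 one_pos h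
  have h2 : CenteredAt C₀ (frame 0 0 0 1 p0 a0 v) 0 0 := frame_centeredAt 0 0 0 p0 a0 one_pos hpa
  have h3 := fitmain_continuous hC₀ h1 (by simp) h2
  have h4 : (fun z : X × ℝ => v z.1 z.2) = fun z : X × ℝ =>
      v 0 0 + frame 0 0 0 1 p0 a0 v (z.1 - z.2 • p0) z.2 + ⟪p0, z.1 - z.2 • p0⟫
        + (a0 + ‖p0‖ ^ 2 / 2) * z.2 := by
    funext z; exact fitfree_recover p0 a0 v z.1 z.2
  rw [h4]
  have h5 : Continuous (fun z : X × ℝ => (z.1 - z.2 • p0, z.2)) := by fun_prop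
  have h6 : Continuous (fun z : X × ℝ => frame 0 0 0 1 p0 a0 v (z.1 - z.2 • p0) z.2) :=
    h3.comp h5
  fun_prop

end Claimed.Agent.R330
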