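import Claimed.Agent.R330.W8Defs
import Claimed.Agent.R330.JetTDefs

/-!
# Row 330, package JetT (T2): the anisotropic rescaling (paper (3.15)-(3.16)), jet form

If `U` is a jet subsolution of the infinity Laplace equation, the normalised function
`v = w8v F U lam c`, `U (√lam x, t) = U 0 + c (t + lam v (x,t))`, is a space-time jet subsolution
of `D²φ[(∇ₓφ, 1 + lam φ_t)] ≥ 0`.
Owner of this file: helper209.
-/

set_option autoImplicit false

open scoped Topology RealInnerProductSpace
open Filter

namespace Claimed.Agent.R330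

variable {X E : Type*} [NormedAddCommGroup X] [InnerProductSpace ℝ X]
  [NormedAddCommGroup E] [InnerProductSpace ℝ E]

/-- The transverse coordinate as a continuous linear map. -/
noncomputable def jettPi (F : W8Frame X E) : E →L[ℝ] X :=
  F.π.mkContinuous 1 (fun e => by simpa using F.norm_π_le e)

lemma jettPi_apply (F : W8Frame X E) (e : E) : jettPi F e = F.π e := rfl

/-- The physical gradient belonging to the normalised jet `(p,q)`. -/
noncomputable def jettGrad (F : W8Frame X E) (lam c : ℝ) (p : X) (q : ℝ) : E :=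
  (c * Real.sqrt lam) • F.ι p + (c * (1 + lam * q)) • F.N

/-- The physical Hessian form belonging to the normalised jet `(A,b,c')`. -/
noncomputable def jettHess (F : W8Frame X E) (lam c : ℝ) (A : X →L[ℝ] X →L[ℝ] ℝ) (b : X)
    (c' : ℝ) : E →L[ℝ] E →L[ℝ] ℝ :=
  c • A.bilinearComp (jettPi F) (jettPi F)
    + (2 * c * Real.sqrt lam) • ((innerSL ℝ b).comp (jettPi F)).smulRight (innerSL ℝ F.N)
    + (c * lam * c') • (innerSL ℝ F.N).smulRight (innerSL ℝ F.N)

lemma jettHess_apply (F : W8Frame X E) (lam c : ℝ) (A : X →L[ℝ] X →L[ℝ] ℝ) (b : X) (c' : ℝ)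
    (d d' : E) : jettHess F lam c A b c' d d' =
      c * A (F.π d) (F.π d') + 2 * c * Real.sqrt lam * (⟪b, F.π d⟫ * ⟪d', F.N⟫)
        + c * lam * c' * (⟪d, F.N⟫ * ⟪d', F.N⟫) := by
  simp only [jettHess, add_apply, smul_apply, ContinuousLinearMap.bilinearComp_apply,
    ContinuousLinearMap.smulRight_apply, ContinuousLinearMap.comp_apply, innerSL_apply_apply,
    jettPi_apply, smul_eq_mul, real_inner_comm]

lemma jettGrad_π (F : W8Frame X E) (lam c : ℝ) (p : X) (q : ℝ) :
    F.π (jettGrad F lam c p q) = (c * Real.sqrt lam) • p := by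
  unfold jettGrad
  rw [map_add, map_smul, map_smul, F.π_ι, F.π_N, smul_zero, add_zero]

lemma jettGrad_N (F : W8Frame X E) (lam c : ℝ) (p : X) (q : ℝ) :
    ⟪jettGrad F lam c p q, F.N⟫ = c * (1 + lam * q) := by
  unfold jettGrad
  rw [inner_add_left, real_inner_smul_left, real_inner_smul_left, F.orth, F.inner_N_N]
  ring

lemma jettGrad_inner (F : W8Frame X E) (lam c : ℝ) (p : X) (q : ℝ) (d : E) :
    ⟪jettGrad F lam c p q, d⟫ = c * Real.sqrt lam * ⟪p, F.π d⟫ + c * (1 + lam * q) * ⟪d, F.N⟫ := by
  unfold jettGrad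
  rw [inner_add_left, real_inner_smul_left, real_inner_smul_left, F.inner_ι_left,
    real_inner_comm d F.N]

/-- The infinity Laplacian of the physical jet is a positive multiple of the rescaled operator. -/
lemma jettHess_grad (F : W8Frame X E) {lam : ℝ} (hlam : 0 < lam) (c : ℝ)
    (p : X) (q : ℝ) (A : X →L[ℝ] X →L[ℝ] ℝ) (b : X) (c' : ℝ) :
    jettHess F lam c A b c' (jettGrad F lam c p q) (jettGrad F lam c p q)
      = c ^ 3 * lam * stOp lam p q A b c' := by
  rw [jettHess_apply, jettGrad_π, jettGrad_N]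
  simp only [map_smul, smul_apply, smul_eq_mul, real_inner_smul_right, stOp]
  have hs : Real.sqrt lam * Real.sqrt lam = lam := Real.mul_self_sqrt hlam.le
  generalize Real.sqrt lam = s at hs
  subst hs
  ring

/-- The physical quadratic polynomial in normalised coordinates. -/
lemma jett_quad_eq (F : W8Frame X E) {lam : ℝ} (hlam : 0 < lam) (c : ℝ)
    (p : X) (q : ℝ) (A : X →L[ℝ] X →L[ℝ] ℝ) (b : X) (c' : ℝ) (d : E) :
    ⟪jettGrad F lam c p q, d⟫ + jettHess F lam c A b c' d d / 2
      = c * (⟪d, F.N⟫ + lam * stQuad p q A b c' ((Real.sqrt lam)⁻¹ • F.π d) ⟪d, F.N⟫) := by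
  rw [jettHess_apply, jettGrad_inner]
  simp only [map_smul, smul_apply, smul_eq_mul, real_inner_smul_right, stQuad]
  have hs0 : 0 < Real.sqrt lam := Real.sqrt_pos.mpr hlam
  have hs : Real.sqrt lam * Real.sqrt lam = lam := Real.mul_self_sqrt hlam.le
  generalize Real.sqrt lam = s at hs hs0
  subst hs
  field_simp
  ring

/-- The normalised coordinates of a physical point. -/
noncomputable def jettCoord (F : W8Frame X E) (lam : ℝ) (e : E) : X × ℝ :=
  ((Real.sqrt lam)⁻¹ • F.π e, ⟪e, F.N⟫)

lemma jettCoord_continuous (F : W8Frame X E) (lam : ℝ) : Continuous (jettCoord F lam) := by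
  have h1 : Continuous (fun e : E => F.π e) := (jettPi F).continuous
  unfold jettCoord
  fun_prop

lemma jettCoord_pt (F : W8Frame X E) {lam : ℝ} (hlam : 0 < lam) (w : X × ℝ) :
    jettCoord F lam (F.pt lam w.1 w.2) = w := by
  unfold jettCoord
  rw [F.π_pt, F.inner_pt_N, smul_smul, inv_mul_cancel₀ (Real.sqrt_pos.mpr hlam).ne', one_smul]

/-- **Paper (3.16), upper tests.** -/
theorem jett_aniso_sub (F : W8Frame X E) {U : E → ℝ} {Ω : Set E} {lam c : ℝ} (hlam : 0 < lam)
    (hc : 0 < c) (h : JetSub U Ω) :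
    STSub lam (w8v F U lam c) {w | F.pt lam w.1 w.2 ∈ Ω} := by
  intro w hw p q A b c' hT
  have htend : Tendsto (jettCoord F lam) (𝓝 (F.pt lam w.1 w.2)) (𝓝 w) := by
    have h2 := (jettCoord_continuous F lam).tendsto (F.pt lam w.1 w.2)
    rwa [jettCoord_pt F hlam] at h2
  have key := h (F.pt lam w.1 w.2) hw (jettGrad F lam c p q) (jettHess F lam c A b c') (by
    filter_upwards [htend.eventually hT] with e he
    have e1 : U e = U 0 + c * ((jettCoord F lam e).2
        + lam * w8v F U lam c (jettCoord F lam e).1 (jettCoord F lam e).2) := by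
      rw [← w8v_spec F U hlam hc]
      unfold jettCoord
      rw [F.pt_π hlam]
    have e2 := w8v_spec F U hlam hc w.1 w.2
    have e3 := jett_quad_eq F hlam c p q A b c' (e - F.pt lam w.1 w.2)
    have e4 : (Real.sqrt lam)⁻¹ • F.π (e - F.pt lam w.1 w.2) = (jettCoord F lam e).1 - w.1 := by
      unfold jettCoord
      rw [map_sub, smul_sub, F.π_pt, smul_smul, inv_mul_cancel₀ (Real.sqrt_pos.mpr hlam).ne',
        one_smul]
    have e5 : ⟪e - F.pt lam w.1 w.2, F.N⟫ = (jettCoord F lam e).2 - w.2 := by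
      unfold jettCoord
      rw [inner_sub_left, F.inner_pt_N]
    rw [e4, e5] at e3
    rw [add_assoc, e3, e1, e2]
    have h5 : c * (lam * w8v F U lam c (jettCoord F lam e).1 (jettCoord F lam e).2)
        ≤ c * (lam * (w8v F U lam c w.1 w.2
          + stQuad p q A b c' ((jettCoord F lam e).1 - w.1) ((jettCoord F lam e).2 - w.2))) :=
      mul_le_mul_of_nonneg_left (mul_le_mul_of_nonneg_left he hlam.le) hc.le
    linarith)
  rw [jettHess_grad F hlam] at key
  have hpos : 0 < c ^ 3 * lam := by positivity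
  exact nonneg_of_mul_nonneg_right key hpos

/-- **Paper (3.16), lower tests.** -/
theorem jett_aniso_super (F : W8Frame X E) {U : E → ℝ} {Ω : Set E} {lam c : ℝ}
    (hlam : 0 < lam) (hc : 0 < c) (h : JetSub (fun z => - U z) Ω) :
    STSuper lam (w8v F U lam c) {w | F.pt lam w.1 w.2 ∈ Ω} := by
  intro w hw p q A b c' hT
  have htend : Tendsto (jettCoord F lam) (𝓝 (F.pt lam w.1 w.2)) (𝓝 w) := by
    have h2 := (jettCoord_continuous F lam).tendsto (F.pt lam w.1 w.2)
    rwa [jettCoord_pt F hlam] at h2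
  have key := h (F.pt lam w.1 w.2) hw (- jettGrad F lam c p q) (- jettHess F lam c A b c') (by
    filter_upwards [htend.eventually hT] with e he
    have e1 : U e = U 0 + c * ((jettCoord F lam e).2
        + lam * w8v F U lam c (jettCoord F lam e).1 (jettCoord F lam e).2) := by
      rw [← w8v_spec F U hlam hc]
      unfold jettCoord
      rw [F.pt_π hlam]
    have e2 := w8v_spec F U hlam hc w.1 w.2
    have e3 := jett_quad_eq F hlam c p q A b c' (e - F.pt lam w.1 w.2)
    have e4 : (Real.sqrt lam)⁻¹ • F.π (e - F.pt lam w.1 w.2) = (jettCoord F lam e).1 - w.1 := by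
      unfold jettCoord
      rw [map_sub, smul_sub, F.π_pt, smul_smul, inv_mul_cancel₀ (Real.sqrt_pos.mpr hlam).ne',
        one_smul]
    have e5 : ⟪e - F.pt lam w.1 w.2, F.N⟫ = (jettCoord F lam e).2 - w.2 := by
      unfold jettCoord
      rw [inner_sub_left, F.inner_pt_N]
    rw [e4, e5] at e3
    have h5 : c * (lam * (w8v F U lam c w.1 w.2
          + stQuad p q A b c' ((jettCoord F lam e).1 - w.1) ((jettCoord F lam e).2 - w.2)))
        ≤ c * (lam * w8v F U lam c (jettCoord F lam e).1 (jettCoord F lam e).2) :=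
      mul_le_mul_of_nonneg_left (mul_le_mul_of_nonneg_left he hlam.le) hc.le
    simp only [inner_neg_left, neg_apply]
    rw [e1, e2]
    linarith)
  simp only [neg_apply, map_neg, neg_neg] at key
  rw [jettHess_grad F hlam] at key
  have hpos : 0 < c ^ 3 * lam := by positivity
  have key2 : 0 ≤ c ^ 3 * lam * (- stOp lam p q A b c') := by linarith
  have := nonneg_of_mul_nonneg_right key2 hpos
  linarith

end Claimed.Agent.R330
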