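import Claimed.Agent.R330.DecayLift
import Claimed.Agent.R330.UFInv

/-!
# Row 330, package JetT (T1): the linear lift `U(y,b) = u(y) + b` (paper Lemma 2.1), jet form

Owner of this file: helper209.
-/

set_option autoImplicit false

open scoped Topology RealInnerProductSpace
open Metric Filter Set

namespace Claimed.Agent.R330

/-- One dimensional contact: `α s ≤ κ s²` near `0` forces `α = 0` and `κ ≥ 0`. -/
lemma jett_contact_1d {α κ : ℝ} (h : ∀ᶠ s in 𝓝 (0 : ℝ), α * s ≤ κ * s ^ 2) : α = 0 ∧ 0 ≤ κ := by
  have hα : α = 0 := by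
    have hmin : IsLocalMin (fun s : ℝ => κ * s ^ 2 - α * s) 0 := by
      filter_upwards [h] with s hs
      nlinarith
    have hd : HasDerivAt (fun s : ℝ => κ * s ^ 2 - α * s) (κ * (2 * (0 : ℝ) ^ 1 * 1) - α * 1) 0 := by
      have h1 : HasDerivAt (fun s : ℝ => s) 1 (0 : ℝ) := hasDerivAt_id 0
      have h2 := (h1.pow 2).const_mul κ
      have h3 := h1.const_mul α
      have h4 := h2.sub h3
      refine (h4.congr_deriv ?_)
      simp
    have := hmin.hasDerivAt_eq_zero hd
    linarith
  refine ⟨hα, ?_⟩
  subst hα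
  obtain ⟨ε, hε, H⟩ := Metric.eventually_nhds_iff.mp h
  have h1 := H (y := ε / 2) (by
    rw [Real.dist_eq, sub_zero, abs_of_pos (by linarith)]; linarith)
  have h2 : 0 < (ε / 2) ^ 2 := by positivity
  rw [zero_mul] at h1
  exact nonneg_of_mul_nonneg_left h1 h2

variable {E : Type*} [NormedAddCommGroup E] [InnerProductSpace ℝ E]

/-- The graph embedding `h ↦ (h, ⟪a,h⟫)`. -/
noncomputable def jettGraph (a : E) : E →L[ℝ] WithLp 2 (E × ℝ) :=
  (WithLp.prodContinuousLinearEquiv 2 ℝ E ℝ).symm.toContinuousLinearMap.comp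
    ((ContinuousLinearMap.id ℝ E).prod (innerSL ℝ a))

lemma jettGraph_fst (a h : E) : (jettGraph a h).fst = h := rfl

lemma jettGraph_snd (a h : E) : (jettGraph a h).snd = ⟪a, h⟫ := rfl

/-- Paper Lemma 2.1 (one-sided, jet form), with an arbitrary nonzero vertical slope. -/
theorem jett_lift_sub {u : E → ℝ} {Ω : Set E} (σ : ℝ) (h : JetSub u Ω) :
    JetSub (fun z : WithLp 2 (E × ℝ) => u z.fst + σ * z.snd) {z | z.fst ∈ Ω} := by
  intro z0 hz0 P X hX
  -- vertical contact
  set e : WithLp 2 (E × ℝ) := WithLp.toLp 2 ((0 : E), (1 : ℝ)) with he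
  have hvert : Tendsto (fun s : ℝ => z0 + s • e) (𝓝 0) (𝓝 z0) := by
    have h1 : Continuous (fun s : ℝ => z0 + s • e) := by fun_prop
    have h2 := h1.tendsto 0
    simpa using h2
  have h1d : σ - P.snd = 0 ∧ 0 ≤ X e e / 2 := by
    apply jett_contact_1d
    filter_upwards [hvert.eventually hX] with s hs
    rw [add_sub_cancel_left, decay_inner_eq] at hs
    simp only [WithLp.add_fst, WithLp.add_snd, WithLp.smul_fst, WithLp.smul_snd, he,
      WithLp.toLp_fst, WithLp.toLp_snd, smul_zero, add_zero, inner_zero_right, smul_eq_mul,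
      mul_one, map_smul, smul_apply, zero_add] at hs
    simp only [he]
    nlinarith
  obtain ⟨hσ, hee⟩ := h1d
  have hσ' : P.snd = σ := by linarith
  by_cases hp : P.fst = 0
  · have hP : P = σ • e := by
      rw [← hσ']
      apply (WithLp.ofLp_injective 2)
      ext
      · simp [he, hp]
      · simp [he]
    rw [hP]
    simp only [map_smul, smul_apply, smul_eq_mul]
    have : 0 ≤ X e e := by linarith
    nlinarith [mul_nonneg (mul_self_nonneg σ) this]
  · set p : E := P.fst with hpdef
    have hpn : 0 < ‖p‖ ^ 2 := by positivity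
    set a : E := (σ / ‖p‖ ^ 2) • p with ha
    have hap : ⟪a, p⟫ = σ := by
      rw [ha, real_inner_smul_left, real_inner_self_eq_norm_sq]
      field_simp
    have hLp : jettGraph a p = P := by
      apply (WithLp.ofLp_injective 2)
      ext
      · exact jettGraph_fst a p
      · change (jettGraph a p).snd = P.snd
        rw [jettGraph_snd, hap, hσ']
    have hgr : Tendsto (fun y : E => z0 + jettGraph a (y - z0.fst)) (𝓝 z0.fst) (𝓝 z0) := by
      have h1 : Continuous (fun y : E => z0 + jettGraph a (y - z0.fst)) := by fun_prop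
      have h2 := h1.tendsto z0.fst
      simpa using h2
    have key := h z0.fst hz0 p (X.bilinearComp (jettGraph a) (jettGraph a)) (by
      filter_upwards [hgr.eventually hX] with y hy
      rw [add_sub_cancel_left, decay_inner_eq] at hy
      simp only [WithLp.add_fst, WithLp.add_snd, jettGraph_fst, jettGraph_snd,
        add_sub_cancel, hσ'] at hy
      simp only [ContinuousLinearMap.bilinearComp_apply]
      linarith)
    rw [ContinuousLinearMap.bilinearComp_apply, hLp] at key
    exact key

/-- **Paper Lemma 2.1**, jet form: the linear lift of an infinity harmonic function is infinity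
harmonic in the cylinder. -/
theorem jett_lift_harm {u : E → ℝ} {Ω : Set E} (h : JetHarm u Ω) :
    JetHarm (decayLift u) {z : WithLp 2 (E × ℝ) | z.fst ∈ Ω} := by
  refine ⟨?_, ?_, ?_⟩
  · have h1 : Continuous (fun z : WithLp 2 (E × ℝ) => z.fst) := WithLp.prod_continuous_ofLp 2 E ℝ |>.fst
    have h2 : Continuous (fun z : WithLp 2 (E × ℝ) => z.snd) := WithLp.prod_continuous_ofLp 2 E ℝ |>.snd
    have h3 : ContinuousOn (fun z : WithLp 2 (E × ℝ) => u z.fst) {z | z.fst ∈ Ω} :=
      h.1.comp h1.continuousOn (fun z hz => hz)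
    exact h3.add h2.continuousOn
  · have := jett_lift_sub (1 : ℝ) h.2.1
    refine fun z hz p X hX => this z hz p X ?_
    filter_upwards [hX] with y hy
    simp only [decayLift] at hy
    linarith
  · have := jett_lift_sub (-1 : ℝ) h.2.2
    refine fun z hz p X hX => this z hz p X ?_
    filter_upwards [hX] with y hy
    simp only [decayLift] at hy
    linarith

/-- The lift lemma on unit balls. -/
theorem jett_lift_ball {u : E → ℝ} (h : JetHarm u (ball 0 1)) :
    JetHarm (decayLift u) (ball (0 : WithLp 2 (E × ℝ)) 1) :=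
  (jett_lift_harm h).mono (fun z hz => by
    rw [mem_ball_zero_iff] at hz
    change z.fst ∈ ball (0 : E) 1
    rw [mem_ball_zero_iff]
    exact (decay_norm_fst_le z).trans_lt hz)

/-- The hypothesis `hlift` of `decay_main` and `decay_result`. -/
theorem jett_hlift (d : ℕ) : ∀ u : EuclideanSpace ℝ (Fin d) → ℝ, JetHarm u (ball 0 1) →
    JetHarm (decayLift u) (ball 0 1) :=
  fun _ h => jett_lift_ball h

end Claimed.Agent.R330
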