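import Claimed.Agent.R330.JetTDefs

/-!
# Row 330, package JetT, part T3: stability of space-time jets under locally uniform limits

If `v i` satisfies the upper quadratic tests for the operator with parameter `lam i` on every box
eventually, `lam i → 0` and `v i → w` uniformly on boxes along a nontrivial filter, then `w`
satisfies the upper quadratic tests of the limiting operator (`lam = 0`) everywhere.
Owner of this file: helper5.
-/

set_option autoImplicit false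

open scoped Topology RealInnerProductSpace
open Filter Metric

namespace Claimed.Agent.R330

variable {X : Type*} [NormedAddCommGroup X] [InnerProductSpace ℝ X]

section riesz

variable [CompleteSpace X]

/-- Riesz vector of the symmetrised linear form `k ↦ (A h k + A k h) / 2`. -/
noncomputable def jettsGrad (A : X →L[ℝ] X →L[ℝ] ℝ) (h : X) : X :=
  (InnerProductSpace.toDual ℝ X).symm ((1 / 2 : ℝ) • (A h + A.flip h))

lemma jetts_inner_grad (A : X →L[ℝ] X →L[ℝ] ℝ) (h k : X) :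
    ⟪jettsGrad A h, k⟫ = (A h k + A k h) / 2 := by
  unfold jettsGrad
  rw [InnerProductSpace.toDual_symm_apply]
  simp
  ring

lemma jetts_continuous_grad (A : X →L[ℝ] X →L[ℝ] ℝ) : Continuous (jettsGrad A) := by
  unfold jettsGrad
  exact (InnerProductSpace.toDual ℝ X).symm.continuous.comp (by fun_prop)

lemma jetts_grad_zero (A : X →L[ℝ] X →L[ℝ] ℝ) : jettsGrad A 0 = 0 := by
  simp [jettsGrad]

/-- spatial gradient of the perturbed quadratic at the increment `(h, τ)`. -/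
noncomputable def jettsP (p : X) (A : X →L[ℝ] X →L[ℝ] ℝ) (b : X) (ε : ℝ) (h : X) (τ : ℝ) : X :=
  p + jettsGrad A h + τ • b + (2 * ε) • h

/-- time derivative of the perturbed quadratic at the increment `(h, τ)`. -/
noncomputable def jettsQ (q : ℝ) (b : X) (c ε : ℝ) (h : X) (τ : ℝ) : ℝ :=
  q + ⟪b, h⟫ + c * τ + 2 * ε * τ

/-- the inner product as a continuous bilinear form. -/
noncomputable def jettsI : X →L[ℝ] X →L[ℝ] ℝ :=
  (isBoundedBilinearMap_inner (𝕜 := ℝ) (E := X)).toContinuousLinearMap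

omit [CompleteSpace X] in
lemma jettsI_apply (h k : X) : (jettsI : X →L[ℝ] X →L[ℝ] ℝ) h k = ⟪h, k⟫ := rfl

/-- spatial Hessian of the perturbed quadratic. -/
noncomputable def jettsA (A : X →L[ℝ] X →L[ℝ] ℝ) (ε : ℝ) : X →L[ℝ] X →L[ℝ] ℝ :=
  A + (2 * ε) • jettsI

omit [CompleteSpace X] in
lemma jettsA_apply (A : X →L[ℝ] X →L[ℝ] ℝ) (ε : ℝ) (h k : X) :
    jettsA A ε h k = A h k + 2 * ε * ⟪h, k⟫ := by
  simp [jettsA, jettsI_apply]

lemma jetts_recenter (p : X) (q : ℝ) (A : X →L[ℝ] X →L[ℝ] ℝ) (b : X) (c ε : ℝ)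
    (h k : X) (τ κ : ℝ) :
    stQuad p q A b c (h + k) (τ + κ) + ε * (‖h + k‖ ^ 2 + (τ + κ) ^ 2)
      - (stQuad p q A b c h τ + ε * (‖h‖ ^ 2 + τ ^ 2))
      = stQuad (jettsP p A b ε h τ) (jettsQ q b c ε h τ) (jettsA A ε) b (c + 2 * ε) k κ := by
  simp only [stQuad, jettsP, jettsQ, jettsA_apply, inner_add_left, inner_add_right,
    inner_smul_left, jetts_inner_grad, map_add, add_apply, norm_add_sq_real,
    real_inner_self_eq_norm_sq, RCLike.conj_to_real]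
  ring

/-- The operator along the perturbed jets, as a function of `(ε, (h, τ), lam)`. -/
noncomputable def jettsF (p : X) (q : ℝ) (A : X →L[ℝ] X →L[ℝ] ℝ) (b : X) (c : ℝ)
    (y : ℝ × (X × ℝ) × ℝ) : ℝ :=
  stOp y.2.2 (jettsP p A b y.1 y.2.1.1 y.2.1.2) (jettsQ q b c y.1 y.2.1.1 y.2.1.2)
    (jettsA A y.1) b (c + 2 * y.1)

lemma jetts_continuous_F (p : X) (q : ℝ) (A : X →L[ℝ] X →L[ℝ] ℝ) (b : X) (c : ℝ) :
    Continuous (jettsF p q A b c) := by
  unfold jettsF stOp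
  simp only [jettsA_apply]
  have hP : Continuous (fun y : ℝ × (X × ℝ) × ℝ => jettsP p A b y.1 y.2.1.1 y.2.1.2) := by
    unfold jettsP
    have := jetts_continuous_grad A
    fun_prop
  have hQ : Continuous (fun y : ℝ × (X × ℝ) × ℝ => jettsQ q b c y.1 y.2.1.1 y.2.1.2) := by
    unfold jettsQ
    fun_prop
  fun_prop

lemma jetts_F_zero (p : X) (q : ℝ) (A : X →L[ℝ] X →L[ℝ] ℝ) (b : X) (c : ℝ) :
    jettsF p q A b c 0 = stOp 0 p q A b c := by
  simp [jettsF, jettsP, jettsQ, stOp, jettsA_apply, jetts_grad_zero]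

end riesz

/-- **Stability of upper space-time jets** (paper, proof of Prop. 3.6, passage to the limit). -/
theorem jetts_sub [FiniteDimensional ℝ X] {I : Type*} {l : Filter I} [l.NeBot]
    {v : I → X → ℝ → ℝ} {lam : I → ℝ} {w : X → ℝ → ℝ} (hlam : Tendsto lam l (𝓝 0))
    (hsub : ∀ K : ℝ, ∀ᶠ i in l, STSub (lam i) (v i) {z | ‖z.1‖ ≤ K ∧ |z.2| ≤ K} ∧
      ContinuousOn (fun z : X × ℝ => v i z.1 z.2) {z | ‖z.1‖ ≤ K ∧ |z.2| ≤ K})
    (hconv : ∀ K eps : ℝ, 0 < eps → ∀ᶠ i in l, ∀ x t, ‖x‖ ≤ K → |t| ≤ K →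
      |v i x t - w x t| ≤ eps) : STSub 0 w Set.univ := by
  have : CompleteSpace X := FiniteDimensional.complete ℝ X
  have : ProperSpace X := FiniteDimensional.proper_real X
  intro w₀ _ p q A b c hT
  by_contra hneg
  push Not at hneg
  have hF : ∀ᶠ y in 𝓝 (0 : ℝ × (X × ℝ) × ℝ), jettsF p q A b c y < 0 := by
    have h0 := (jetts_continuous_F p q A b c).tendsto 0
    rw [jetts_F_zero] at h0
    exact h0.eventually (gt_mem_nhds hneg)
  obtain ⟨δ, hδ, hFδ⟩ := Metric.eventually_nhds_iff.1 hF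
  obtain ⟨ρ₀, hρ₀, hTρ⟩ := Metric.eventually_nhds_iff.1 hT
  obtain ⟨ρ, hρ, hρρ₀⟩ : ∃ ρ : ℝ, 0 < ρ ∧ ρ < ρ₀ := ⟨ρ₀ / 2, by positivity, by linarith⟩
  obtain ⟨ε, hε, hεδ⟩ : ∃ ε : ℝ, 0 < ε ∧ ε < δ := ⟨δ / 2, by positivity, by linarith⟩
  obtain ⟨ρ', hρ', hρ'ρ, hρ'δ⟩ : ∃ ρ' : ℝ, 0 < ρ' ∧ ρ' ≤ ρ ∧ ρ' ≤ δ :=
    ⟨min ρ δ, lt_min hρ hδ, min_le_left _ _, min_le_right _ _⟩
  obtain ⟨x₀, t₀⟩ := w₀
  simp only at hT hTρ
  set K : ℝ := ‖x₀‖ + |t₀| + ρ with hK
  have hbox : ∀ z ∈ closedBall ((x₀, t₀) : X × ℝ) ρ, ‖z.1‖ ≤ K ∧ |z.2| ≤ K := by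
    intro z hz
    rw [mem_closedBall, Prod.dist_eq, max_le_iff, dist_eq_norm, Real.dist_eq] at hz
    have h1 := norm_sub_norm_le z.1 x₀
    have h2 := abs_sub_abs_le_abs_sub z.2 t₀
    have h3 := norm_nonneg x₀
    have h4 := abs_nonneg t₀
    simp only at hz
    constructor <;> linarith [hz.1, hz.2]
  have hδ' : 0 < ε * ρ' ^ 2 / 4 := by positivity
  obtain ⟨i, ⟨hS, hC⟩, hcl, hli⟩ := ((hsub K).and ((hconv K _ hδ').and
    (hlam.eventually (Metric.ball_mem_nhds 0 hδ)))).exists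
  set G : X × ℝ → ℝ := fun z => v i z.1 z.2 -
    (stQuad p q A b c (z.1 - x₀) (z.2 - t₀) + ε * (‖z.1 - x₀‖ ^ 2 + (z.2 - t₀) ^ 2)) with hG
  have hGc : ContinuousOn G (closedBall ((x₀, t₀) : X × ℝ) ρ) := by
    refine (hC.mono hbox).sub (Continuous.continuousOn ?_)
    unfold stQuad
    fun_prop
  obtain ⟨zi, hzi, hmax⟩ := (isCompact_closedBall ((x₀, t₀) : X × ℝ) ρ).exists_isMaxOn
    ⟨(x₀, t₀), mem_closedBall_self hρ.le⟩ hGc
  have h1 : G (x₀, t₀) ≤ G zi := hmax (mem_closedBall_self hρ.le)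
  have hG0 : G (x₀, t₀) = v i x₀ t₀ := by simp [hG, stQuad]
  have hwz : w zi.1 zi.2 ≤ w x₀ t₀ + stQuad p q A b c (zi.1 - x₀) (zi.2 - t₀) :=
    hTρ (lt_of_le_of_lt hzi hρρ₀)
  have hc1 := hcl zi.1 zi.2 (hbox zi hzi).1 (hbox zi hzi).2
  have hc0 := hcl x₀ t₀ (hbox _ (mem_closedBall_self hρ.le)).1
    (hbox _ (mem_closedBall_self hρ.le)).2
  rw [abs_le] at hc1 hc0
  have hsq : ‖zi.1 - x₀‖ ^ 2 + (zi.2 - t₀) ^ 2 ≤ ρ' ^ 2 / 2 := by
    have h2 : ε * (‖zi.1 - x₀‖ ^ 2 + (zi.2 - t₀) ^ 2) ≤ ε * (ρ' ^ 2 / 2) := by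
      rw [hG0] at h1
      simp only [hG] at h1
      linarith [hc1.2, hc0.1]
    exact le_of_mul_le_mul_left h2 hε
  have hh : ‖zi.1 - x₀‖ < ρ' := by
    by_contra hcon
    push Not at hcon
    nlinarith [sq_nonneg (zi.2 - t₀), norm_nonneg (zi.1 - x₀)]
  have hτ : |zi.2 - t₀| < ρ' := by
    by_contra hcon
    push Not at hcon
    nlinarith [sq_nonneg ‖zi.1 - x₀‖, abs_nonneg (zi.2 - t₀), sq_abs (zi.2 - t₀)]
  have hzb : zi ∈ ball ((x₀, t₀) : X × ℝ) ρ := by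
    rw [mem_ball, Prod.dist_eq, max_lt_iff, dist_eq_norm, Real.dist_eq]
    exact ⟨lt_of_lt_of_le hh hρ'ρ, lt_of_lt_of_le hτ hρ'ρ⟩
  have key := hS zi (hbox zi hzi) (jettsP p A b ε (zi.1 - x₀) (zi.2 - t₀))
    (jettsQ q b c ε (zi.1 - x₀) (zi.2 - t₀)) (jettsA A ε) b (c + 2 * ε) (by
      filter_upwards [isOpen_ball.mem_nhds hzb] with w' hw'
      have h3 : G w' ≤ G zi := hmax (ball_subset_closedBall hw')
      have h4 := jetts_recenter p q A b c ε (zi.1 - x₀) (w'.1 - zi.1) (zi.2 - t₀) (w'.2 - zi.2)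
      rw [sub_add_sub_cancel', sub_add_sub_cancel'] at h4
      simp only [hG] at h3
      linarith)
  have hlt := hFδ (y := (ε, (zi.1 - x₀, zi.2 - t₀), lam i)) (by
    rw [dist_zero_right, Prod.norm_def, Prod.norm_def, Prod.norm_def]
    rw [dist_zero_right] at hli
    simp only [max_lt_iff, Real.norm_eq_abs, abs_of_pos hε]
    exact ⟨hεδ, ⟨lt_of_lt_of_le hh hρ'δ, lt_of_lt_of_le hτ hρ'δ⟩, hli⟩)
  simp only [jettsF] at hlt
  linarith

omit [NormedAddCommGroup X] [InnerProductSpace ℝ X] in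
lemma jetts_reflT_reflT (f : X → ℝ → ℝ) : reflT (reflT f) = f := by
  funext x t
  simp [reflT]

/-- **Stability of lower space-time jets.** -/
theorem jetts_super [FiniteDimensional ℝ X] {I : Type*} {l : Filter I} [l.NeBot]
    {v : I → X → ℝ → ℝ} {lam : I → ℝ} {w : X → ℝ → ℝ} (hlam : Tendsto lam l (𝓝 0))
    (hsub : ∀ K : ℝ, ∀ᶠ i in l, STSuper (lam i) (v i) {z | ‖z.1‖ ≤ K ∧ |z.2| ≤ K} ∧
      ContinuousOn (fun z : X × ℝ => v i z.1 z.2) {z | ‖z.1‖ ≤ K ∧ |z.2| ≤ K})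
    (hconv : ∀ K eps : ℝ, 0 < eps → ∀ᶠ i in l, ∀ x t, ‖x‖ ≤ K → |t| ≤ K →
      |v i x t - w x t| ≤ eps) : STSuper 0 w Set.univ := by
  have h1 : STSub 0 (reflT w) Set.univ := by
    refine jetts_sub (v := fun i => reflT (v i)) hlam ?_ ?_
    · intro K
      filter_upwards [hsub K] with i hi
      refine ⟨hi.1.reflT.mono ?_, ?_⟩
      · intro z hz
        simpa using hz
      · have hm : ContinuousOn (fun z : X × ℝ => ((z.1, -z.2) : X × ℝ))
            {z | ‖z.1‖ ≤ K ∧ |z.2| ≤ K} := by fun_prop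
        have h2 := (hi.2.comp hm (fun z hz => by simpa using hz)).neg
        exact h2
    · intro K eps heps
      filter_upwards [hconv K eps heps] with i hi x t hx ht
      have h2 := hi x (-t) hx (by simpa using ht)
      simp only [reflT]
      rw [abs_sub_comm] at h2
      convert h2 using 2
      ring
  have h2 := h1.reflT
  rw [jetts_reflT_reflT] at h2
  exact h2.mono (fun z _ => by simp)

end Claimed.Agent.R330
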