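/-
Row 330 (S0589), glue between package L8 (paper Section 6) and package L9 (paper Section 7):
the hypotheses `hH`, `hgap`, `hstep` of `walk_localize` for a pair `(f, v) = (W, v)`, and the
monotonicity of the slopes contained in `DpStanding`.  Owner: helper250.
-/
import Mathlib
import Claimed.Agent.R330.PartBDefs
import Claimed.Agent.R330.EnvBasic
import Claimed.Agent.R330.DPDrift

set_option autoImplicit false
set_option linter.unusedSectionVars false

namespace Claimed.Agent.R330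

open Set Filter Topology
open scoped RealInnerProductSpace

variable {X : Type*} [NormedAddCommGroup X] [InnerProductSpace ℝ X]

/-! ### Secant slopes of a convex function with a limit at `0+` -/

/-- Secant slopes from the limit value at `0+` of a function convex on `(0,∞)` are monotone. -/
theorem dpg_secant_mono {φ : ℝ → ℝ} {c : ℝ} (hφ : ConvexOn ℝ (Ioi (0 : ℝ)) φ)
    (hlim : Tendsto φ (𝓝[>] 0) (𝓝 c)) {l₁ l₂ : ℝ} (h1 : 0 < l₁) (h12 : l₁ ≤ l₂) :
    (φ l₁ - c) / l₁ ≤ (φ l₂ - c) / l₂ := by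
  have h2 : 0 < l₂ := h1.trans_le h12
  -- the inequality with `δ` in place of `0`
  have key : ∀ᶠ δ in 𝓝[>] (0 : ℝ), φ l₁ * (l₂ - δ) ≤ (l₂ - l₁) * φ δ + (l₁ - δ) * φ l₂ := by
    filter_upwards [Ioo_mem_nhdsGT h1] with δ hδ
    have hδ0 : 0 < δ := hδ.1
    have hδ1 : δ < l₁ := hδ.2
    have hpos : 0 < l₂ - δ := by linarith
    have hc := hφ.2 (mem_Ioi.2 hδ0) (mem_Ioi.2 h2)
      (show 0 ≤ (l₂ - l₁) / (l₂ - δ) from div_nonneg (by linarith) hpos.le)
      (show 0 ≤ (l₁ - δ) / (l₂ - δ) from div_nonneg (by linarith) hpos.le)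
      (by field_simp; ring)
    simp only [smul_eq_mul] at hc
    have e : (l₂ - l₁) / (l₂ - δ) * δ + (l₁ - δ) / (l₂ - δ) * l₂ = l₁ := by
      field_simp
      ring
    rw [e] at hc
    have hc' := mul_le_mul_of_nonneg_right hc hpos.le
    have e2 : ((l₂ - l₁) / (l₂ - δ) * φ δ + (l₁ - δ) / (l₂ - δ) * φ l₂) * (l₂ - δ)
        = (l₂ - l₁) * φ δ + (l₁ - δ) * φ l₂ := by
      field_simp
    rw [e2] at hc'
    exact hc'
  have hid : Tendsto (fun δ : ℝ => δ) (𝓝[>] (0 : ℝ)) (𝓝 0) :=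
    tendsto_id.mono_left nhdsWithin_le_nhds
  have hL : Tendsto (fun δ : ℝ => φ l₁ * (l₂ - δ)) (𝓝[>] (0 : ℝ)) (𝓝 (φ l₁ * (l₂ - 0))) :=
    (tendsto_const_nhds.sub hid).const_mul _
  have hR : Tendsto (fun δ : ℝ => (l₂ - l₁) * φ δ + (l₁ - δ) * φ l₂) (𝓝[>] (0 : ℝ))
      (𝓝 ((l₂ - l₁) * c + (l₁ - 0) * φ l₂)) :=
    (hlim.const_mul _).add ((tendsto_const_nhds.sub hid).mul_const _)
  have hfin := le_of_tendsto_of_tendsto hL hR key
  rw [div_le_div_iff₀ h1 h2]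
  nlinarith

/-- Forward slopes are monotone in the length, pointwise form. -/
theorem dpg_slopeP_mono {f : X → ℝ → ℝ} {x : X} {t : ℝ}
    (hφ : ConvexOn ℝ (Ioi (0 : ℝ)) (fun l => envP l f x t))
    (hlim : Tendsto (fun l => envP l f x t) (𝓝[>] 0) (𝓝 (f x t))) {l₁ l₂ : ℝ} (h1 : 0 < l₁)
    (h12 : l₁ ≤ l₂) : slopeP l₁ f x t ≤ slopeP l₂ f x t :=
  dpg_secant_mono hφ hlim h1 h12

/-- Backward slopes are monotone in the length, pointwise form. -/
theorem dpg_slopeM_mono {f : X → ℝ → ℝ} {x : X} {t : ℝ}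
    (hφ : ConcaveOn ℝ (Ioi (0 : ℝ)) (fun l => envM l f x t))
    (hlim : Tendsto (fun l => envM l f x t) (𝓝[>] 0) (𝓝 (f x t))) {l₁ l₂ : ℝ} (h1 : 0 < l₁)
    (h12 : l₁ ≤ l₂) : slopeM l₁ f x t ≤ slopeM l₂ f x t := by
  have h := dpg_secant_mono hφ.neg (c := - f x t) hlim.neg h1 h12
  simp only [Pi.neg_apply] at h
  unfold slopeM
  have e : ∀ l : ℝ, (f x t - envM l f x t) / l = (-envM l f x t - -f x t) / l := by
    intro l; ring
  rw [e, e]
  exact h

theorem DpStanding.slopeP_mono {f v : X → ℝ → ℝ} (H : DpStanding f v) (x : X) {t : ℝ}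
    (ht : 0 < t) {l₁ l₂ : ℝ} (h1 : 0 < l₁) (h12 : l₁ ≤ l₂) :
    slopeP l₁ f x t ≤ slopeP l₂ f x t := by
  have hc := H.convP x 0 t ht
  have hl := H.limP x 0 t ht
  simp only [smul_zero, add_zero, norm_zero, ne_eq, OfNat.ofNat_ne_zero, not_false_eq_true,
    zero_pow, zero_mul] at hc hl
  exact dpg_slopeP_mono hc hl h1 h12

theorem DpStanding.slopeM_mono {f v : X → ℝ → ℝ} (H : DpStanding f v) (x : X) (t : ℝ)
    {l₁ l₂ : ℝ} (h1 : 0 < l₁) (h12 : l₁ ≤ l₂) :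
    slopeM l₁ v x t ≤ slopeM l₂ v x t := by
  have hc := H.concM x 0 t
  simp only [smul_zero, add_zero, norm_zero, ne_eq, OfNat.ofNat_ne_zero, not_false_eq_true,
    zero_pow, zero_mul, sub_zero] at hc
  exact dpg_slopeM_mono hc (H.limM x t) h1 h12

/-! ### The start of the walk: hypothesis `hH` -/

/-- Lower bound of `J_ε` at a contact point with slopes bounded below. -/
theorem dpg_start {f v : X → ℝ → ℝ} {x : X} {t Λ₁ Λ₂ ε : ℝ} (hε : 0 < ε)
    (hcontact : f x t = v x t) (hP : -Λ₁ ≤ slopeP ε f x t) (hM : -Λ₂ ≤ slopeM ε v x t) :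
    -((Λ₁ + Λ₂) / 2) ≤ Jeps ε f v x t := by
  rw [dp_J_eq_slopes f v hε, hcontact, sub_self, zero_div]
  linarith

/-- Hypothesis `hH` of `walk_localize`. -/
theorem dpg_hH {f v : X → ℝ → ℝ} {Λ : ℝ} (hcontact : f 0 1 = v 0 1)
    (hP : ∀ ε : ℝ, 0 < ε → -Λ ≤ slopeP ε f 0 1) (hM : ∀ ε : ℝ, 0 < ε → -Λ ≤ slopeM ε v 0 1) :
    ∃ ε₀ > 0, ∀ ε, 0 < ε → ε ≤ ε₀ → -Λ ≤ Jeps ε f v 0 1 := by
  refine ⟨1, one_pos, fun ε hε _ => ?_⟩
  have h := dpg_start hε hcontact (hP ε hε) (hM ε hε)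
  linarith

/-! ### The contact defect: hypothesis `hgap` -/

/-- Pure algebra: the contact defect in terms of `J_ε` and upper bounds of the two slopes. -/
theorem dpg_gap_core (f v : X → ℝ → ℝ) {ε U₁ U₂ : ℝ} (hε : 0 < ε) (x : X) (t : ℝ)
    (h1 : slopeP ε f x t ≤ U₁) (h2 : slopeM ε v x t ≤ U₂) :
    v x t - f x t ≤ 2 * ε * ((U₁ + U₂) / 2 - Jeps ε f v x t) := by
  have h := dp_J_eq_slopes f v hε x t
  have e : 2 * ε * Jeps ε f v x t = (f x t - v x t) + ε * (slopeP ε f x t + slopeM ε v x t) := by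
    rw [h]
    field_simp
  have h3 : ε * (slopeP ε f x t + slopeM ε v x t) ≤ ε * (U₁ + U₂) :=
    mul_le_mul_of_nonneg_left (by linarith) hε.le
  nlinarith

/-- The forward slope of `f = W` is controlled by the forward slope of `v`. -/
theorem dpg_slopeP_le {f v : X → ℝ → ℝ} {G ρ t : ℝ} {x : X} (hρ : 0 < ρ)
    (hle : ∀ y, f y (t + ρ) ≤ v y (t + ρ))
    (hbdd : BddAbove (range fun y => v y (t + ρ) - ‖y - x‖ ^ 2 / (2 * ρ)))
    (hge : v x t - G * t ≤ f x t) :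
    slopeP ρ f x t ≤ slopeP ρ v x t + G * t / ρ := by
  have h1 : envP ρ f x t ≤ envP ρ v x t := by
    unfold envP supConv
    refine ciSup_le fun y => ?_
    refine le_trans ?_ (le_ciSup hbdd y)
    have := hle y
    linarith
  unfold slopeP
  rw [← add_div]
  exact div_le_div_of_nonneg_right (by linarith) hρ.le

/-- Upper bound for the short forward slopes of `f = W`. -/
theorem DpStanding.slopeP_le {f v : X → ℝ → ℝ} (H : DpStanding f v) {G U ε t : ℝ} {x : X}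
    (hG : 0 ≤ G) (hε : 0 < ε) (ht : 0 < t) (hge : v x t - G * t ≤ f x t)
    (hU : slopeP (max ε t) v x t ≤ U) : slopeP ε f x t ≤ U + G := by
  have hρ : 0 < max ε t := lt_max_of_lt_left hε
  have h1 := H.slopeP_mono x ht hε (le_max_left ε t)
  have h2 := dpg_slopeP_le (f := f) (v := v) (G := G) (x := x) (t := t) hρ
    (fun y => H.le y _ (by linarith)) (H.bddP _ x _ hρ) hge
  have h3 : G * t / max ε t ≤ G := by
    rw [div_le_iff₀ hρ]
    exact mul_le_mul_of_nonneg_left (le_max_right ε t) hG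
  linarith

/-- Hypothesis `hgap` of `walk_localize`. -/
theorem dpg_hgap {f v : X → ℝ → ℝ} (H : DpStanding f v) {G CU : ℝ} (hG : 0 ≤ G)
    (hge : ∀ (x : X) (t : ℝ), 0 < t → v x t - G * t ≤ f x t)
    (hSup : ∀ (B : ℝ) (x : X) (t ρ : ℝ), 2 ≤ B → ‖x‖ ≤ B → |t| ≤ B → 0 < ρ → ρ ≤ B →
      slopeP ρ v x t ≤ CU * (1 + Real.log B) ^ 4 ∧ slopeM ρ v x t ≤ CU * (1 + Real.log B) ^ 4) :
    ∀ B : ℝ, ∃ G' : ℝ, ∀ (ε : ℝ) (x : X) (t : ℝ), 0 < ε → ε ≤ 1 → ‖x‖ ≤ B → 0 < t → t ≤ B →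
      v x t - f x t ≤ 2 * ε * (G' - Jeps ε f v x t) := by
  intro B
  set B' : ℝ := max B 2 with hB'
  set U : ℝ := CU * (1 + Real.log B') ^ 4 with hU
  refine ⟨((U + G) + U) / 2, fun ε x t hε hε1 hx ht htB => ?_⟩
  have hB2 : 2 ≤ B' := le_max_right _ _
  have hBB : B ≤ B' := le_max_left _ _
  have htabs : |t| ≤ B' := by rw [abs_of_pos ht]; linarith
  have h1 := (hSup B' x t (max ε t) hB2 (hx.trans hBB) htabs (lt_max_of_lt_left hε)
    (max_le (by linarith) (by linarith))).1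
  have h2 := (hSup B' x t ε hB2 (hx.trans hBB) htabs hε (by linarith)).2
  exact dpg_gap_core f v hε x t (H.slopeP_le hG hε ht (hge x t ht) h1) h2

/-! ### Terminal slopes -/

/-- A lower bound for `J_ε` and upper bounds for the slopes give lower bounds for all longer
slopes. -/
theorem DpStanding.slopes_ge {f v : X → ℝ → ℝ} (H : DpStanding f v) {Λ U ε t : ℝ} {x : X}
    (hε : 0 < ε) (ht : 0 < t) (hJ : -Λ ≤ Jeps ε f v x t)
    (hP : slopeP ε v x t ≤ U) (hM : slopeM ε v x t ≤ U) :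
    -2 * Λ - U ≤ slopeP ε v x t ∧ -2 * Λ - U ≤ slopeM ε v x t := by
  have h := H.J_le hε ht x
  constructor <;> linarith

/-! ### Small steps: hypothesis `hstep` -/

/-- Elementary absorption. -/
theorem dpg_absorb {n A ε : ℝ} (hε : 0 < ε) (h16 : 16 * ε ≤ 1) (hA : 8 * ε * A ≤ 1)
    (h : n ^ 2 / (2 * (2 * ε)) ≤ 2 * n ^ 2 + A) : n ^ 2 ≤ 1 := by
  rw [div_le_iff₀ (by positivity)] at h
  nlinarith [sq_nonneg n]

/-- Hypothesis `hstep` of `walk_localize`: the optimising steps are short for small `ε`,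
uniformly in boxes. -/
theorem dpg_hstep {f v : X → ℝ → ℝ} {G : ℝ} (hG : 0 ≤ G) (hq : SubQuadLoc v)
    (hle : ∀ (x : X) (t : ℝ), 0 < t → f x t ≤ v x t)
    (hge : ∀ (x : X) (t : ℝ), 0 < t → v x t - G * t ≤ f x t) :
    ∀ B : ℝ, ∃ ε₀ > 0, ∀ (ε : ℝ) (x : X) (t : ℝ) (Qp Qm : X), 0 < ε → ε ≤ ε₀ → ‖x‖ ≤ B →
      ε < t → t ≤ B →
      DpIsMax (2 * ε) (fun y => f y (t + 2 * ε)) x (x + (2 * ε) • Qp) →
      DpIsMin (2 * ε) (fun y => v y (t - 2 * ε)) x (x - (2 * ε) • Qm) →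
      ε * ‖Qp‖ ≤ 1 ∧ ε * ‖Qm‖ ≤ 1 := by
  intro B
  obtain ⟨C, hC⟩ := hq (|B| + 2) 1 one_pos
  set A : ℝ := |3 * B ^ 2 + 2 * C + G * (|B| + 2)| + 1 with hA
  have hA0 : 0 < A := by positivity
  refine ⟨min (1 / 16) (1 / (8 * A)), lt_min (by norm_num) (by positivity), ?_⟩
  intro ε x t Qp Qm hε hε0 hx hεt htB hmax hmin
  have h16 : 16 * ε ≤ 1 := by
    have := hε0.trans (min_le_left _ _)
    linarith
  have h8A : 8 * ε * A ≤ 1 := by
    have h := hε0.trans (min_le_right _ _)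
    rw [le_div_iff₀ (by positivity)] at h
    linarith
  have hBabs : B ≤ |B| := le_abs_self B
  have ht0 : 0 < t := hε.trans hεt
  have hx2 : ‖x‖ ^ 2 ≤ B ^ 2 := by
    have := norm_nonneg x
    nlinarith
  -- the common growth estimate
  have hgrow : ∀ (y : X) (s : ℝ), s ∈ Icc (-(|B| + 2)) (|B| + 2) →
      |v y s| + |v x s| ≤ 2 * ‖y - x‖ ^ 2 + (3 * B ^ 2 + 2 * C) := by
    intro y s hs
    have h1 := hC y s hs
    have h2 := hC x s hs
    have h3 := env_norm_sq_le x y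
    linarith
  have hAle : 3 * B ^ 2 + 2 * C + G * (|B| + 2) ≤ A := by
    rw [hA]
    have := le_abs_self (3 * B ^ 2 + 2 * C + G * (|B| + 2))
    linarith
  have hGB : 0 ≤ G * (|B| + 2) := by positivity
  have hfin : ∀ Q : X, ‖(2 * ε) • Q‖ ^ 2 ≤ 1 → ε * ‖Q‖ ≤ 1 := by
    intro Q hQ
    rw [norm_smul, Real.norm_of_nonneg (by positivity)] at hQ
    have h0 : 0 ≤ ε * ‖Q‖ := by positivity
    nlinarith
  constructor
  · apply hfin
    have hs : t + 2 * ε ∈ Icc (-(|B| + 2)) (|B| + 2) := by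
      constructor <;> linarith [abs_nonneg B]
    have hs0 : 0 < t + 2 * ε := by linarith
    have h1 := hmax x
    simp only [sub_self, norm_zero, ne_eq, OfNat.ofNat_ne_zero, not_false_eq_true, zero_pow,
      zero_div, sub_zero, add_sub_cancel_left] at h1
    have h2 := hgrow (x + (2 * ε) • Qp) _ hs
    rw [add_sub_cancel_left] at h2
    have h3 := hle (x + (2 * ε) • Qp) _ hs0
    have h4 := hge x _ hs0
    have h5 := le_abs_self (v (x + (2 * ε) • Qp) (t + 2 * ε))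
    have h6 := neg_abs_le (v x (t + 2 * ε))
    have h7 : G * (t + 2 * ε) ≤ G * (|B| + 2) := mul_le_mul_of_nonneg_left hs.2 hG
    exact dpg_absorb hε h16 h8A (A := A) (by linarith)
  · apply hfin
    have hs : t - 2 * ε ∈ Icc (-(|B| + 2)) (|B| + 2) := by
      constructor <;> linarith [abs_nonneg B]
    have h1 := hmin x
    simp only [sub_self, norm_zero, ne_eq, OfNat.ofNat_ne_zero, not_false_eq_true, zero_pow,
      zero_div, add_zero, sub_sub_cancel_left, norm_neg] at h1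
    have h2 := hgrow (x - (2 * ε) • Qm) _ hs
    rw [sub_sub_cancel_left, norm_neg] at h2
    have h5 := le_abs_self (v x (t - 2 * ε))
    have h6 := neg_abs_le (v (x - (2 * ε) • Qm) (t - 2 * ε))
    exact dpg_absorb hε h16 h8A (A := A) (by linarith)

end Claimed.Agent.R330
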