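import Claimed.Agent.R330.EnvBasic

/-!
# Row 330: bounds for the envelope slopes of fitted solutions (paper Lemma 4.5)

Everything is derived from the abstract logarithmic growth bound (4.2) of the paper,
`|v x t| ≤ Cg * K * (1 + log K)^2` on the box `‖x‖, |t| ≤ K`, `K ≥ 2`.
The constants are explicit functions of `Cg`.  Owner of this file: helper41.
-/

namespace Claimed.Agent.R330

section scalar

/-- `log² u ≤ 16 √u` for `u ≥ 1`. -/
theorem slopebd_log_sq_le {u : ℝ} (hu : 1 ≤ u) : (Real.log u) ^ 2 ≤ 16 * Real.sqrt u := by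
  have hu0 : 0 < u := by linarith
  set s : ℝ := Real.sqrt (Real.sqrt u) with hs
  have h1 : 1 ≤ Real.sqrt u := by
    rw [show (1 : ℝ) = Real.sqrt 1 by simp]
    exact Real.sqrt_le_sqrt hu
  have h2 : 1 ≤ s := by
    rw [hs, show (1 : ℝ) = Real.sqrt 1 by simp]
    exact Real.sqrt_le_sqrt h1
  have hs2 : s ^ 2 = Real.sqrt u := Real.sq_sqrt (Real.sqrt_nonneg u)
  have hlog : Real.log u = 4 * Real.log s := by
    rw [hs, Real.log_sqrt (Real.sqrt_nonneg u), Real.log_sqrt hu0.le]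
    ring
  have h3 : Real.log s ≤ s - 1 := Real.log_le_sub_one_of_pos (by linarith)
  have h4 : 0 ≤ Real.log s := Real.log_nonneg h2
  rw [hlog, ← hs2]
  nlinarith

/-- Absorption of the logarithm (paper: "choose `B₀` so large that ..."). -/
theorem slopebd_absorb {Cg B L : ℝ} (hCg : 0 ≤ Cg) (hB : 2 ≤ B) (hL : 1 ≤ L)
    (h : B ≤ 8 * Cg * (L + Real.log (2 * B)) ^ 2) :
    B ≤ (32 * Cg + 131072 * Cg ^ 2) * L ^ 2 := by
  have h1 : (Real.log (2 * B)) ^ 2 ≤ 16 * Real.sqrt (2 * B) :=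
    slopebd_log_sq_le (by linarith)
  set r : ℝ := Real.sqrt (2 * B) with hr
  have hr2 : r ^ 2 = 2 * B := Real.sq_sqrt (by linarith)
  have hr0 : 0 ≤ r := Real.sqrt_nonneg _
  have h2 : (L + Real.log (2 * B)) ^ 2 ≤ 2 * L ^ 2 + 2 * (Real.log (2 * B)) ^ 2 := by
    nlinarith [sq_nonneg (L - Real.log (2 * B))]
  have h3 : B ≤ 8 * Cg * (2 * L ^ 2 + 32 * r) := by
    refine h.trans (mul_le_mul_of_nonneg_left ?_ (by positivity))
    linarith
  have h4 : 256 * Cg * r ≤ (256 * Cg) ^ 2 + B / 2 := by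
    nlinarith [sq_nonneg (256 * Cg - r / 2)]
  have h5 : B ≤ 32 * Cg * L ^ 2 + 131072 * Cg ^ 2 := by nlinarith
  have h6 : 131072 * Cg ^ 2 ≤ 131072 * Cg ^ 2 * L ^ 2 := by
    have : (1 : ℝ) ≤ L ^ 2 := by nlinarith
    nlinarith [sq_nonneg Cg]
  nlinarith

end scalar

variable {X : Type*} [NormedAddCommGroup X]

/-- The logarithmic growth bound (4.2) of the paper. -/
def SlopeBdGrowth (Cg : ℝ) (v : X → ℝ → ℝ) : Prop :=
  ∀ K : ℝ, 2 ≤ K → ∀ (x : X) (t : ℝ), ‖x‖ ≤ K → |t| ≤ K →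
    |v x t| ≤ Cg * K * (1 + Real.log K) ^ 2

/-- Constant in the displacement bound. -/
noncomputable def slopebdC1 (Cg : ℝ) : ℝ := 2 + 32 * Cg + 131072 * Cg ^ 2

/-- Constant in the value bound at confined competitors. -/
noncomputable def slopebdC2 (Cg : ℝ) : ℝ :=
  Cg * (slopebdC1 Cg + 2) * (3 + Real.log (slopebdC1 Cg + 2)) ^ 2

/-- Constant in the slope bound. -/
noncomputable def slopebdC3 (Cg : ℝ) : ℝ := slopebdC2 Cg + Cg

theorem slopebdC1_ge {Cg : ℝ} (hCg : 0 ≤ Cg) : 2 ≤ slopebdC1 Cg := by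
  unfold slopebdC1
  nlinarith [sq_nonneg Cg]

theorem slopebdC2_nonneg {Cg : ℝ} (hCg : 0 ≤ Cg) : 0 ≤ slopebdC2 Cg := by
  have := slopebdC1_ge hCg
  unfold slopebdC2
  positivity

theorem slopebdC3_nonneg {Cg : ℝ} (hCg : 0 ≤ Cg) : 0 ≤ slopebdC3 Cg := by
  have := slopebdC2_nonneg hCg
  unfold slopebdC3
  linarith

theorem SlopeBdGrowth.reflT {Cg : ℝ} {v : X → ℝ → ℝ} (hv : SlopeBdGrowth Cg v) :
    SlopeBdGrowth Cg (reflT v) := by
  intro K hK x t hx ht
  have := hv K hK x (-t) hx (by simpa using ht)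
  simpa [Claimed.Agent.R330.reflT] using this

/-- Confinement: a point `y` whose quadratic cost at length `K` is paid by the values of `v`
at `(y,τ)` and `(x,τ)` lies within `C₁ K L(K)²` of `x`. -/
theorem slopebd_confine {Cg : ℝ} (hCg : 0 ≤ Cg) {v : X → ℝ → ℝ} (hv : SlopeBdGrowth Cg v)
    {K : ℝ} (hK : 2 ≤ K) {x y : X} {τ : ℝ} (hx : ‖x‖ ≤ K) (hτ : |τ| ≤ 2 * K)
    (hy : ‖y - x‖ ^ 2 / (2 * K) ≤ |v y τ| + |v x τ|) :
    ‖y - x‖ ≤ slopebdC1 Cg * K * (1 + Real.log K) ^ 2 := by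
  have hK0 : 0 < K := by linarith
  have hlogK : 0 ≤ Real.log K := Real.log_nonneg (by linarith)
  set L : ℝ := 1 + Real.log K with hL
  have hL1 : 1 ≤ L := by linarith
  have hL2 : 1 ≤ L ^ 2 := by nlinarith
  set D : ℝ := ‖y - x‖ with hD
  by_cases hD2 : D ≤ 2 * K
  · have h1 : 2 * K ≤ slopebdC1 Cg * K * L ^ 2 := by
      have := slopebdC1_ge hCg
      have h2 : 2 * K ≤ slopebdC1 Cg * K := by nlinarith
      have h3 : 0 ≤ slopebdC1 Cg * K := by positivity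
      nlinarith
    linarith
  · rw [not_le] at hD2
    set B : ℝ := D / K with hB
    have hDB : D = B * K := by
      rw [hB]; field_simp
    have hB2 : 2 ≤ B := by
      rw [hB, le_div_iff₀ hK0]; linarith
    -- the big box
    have hK' : 2 ≤ 2 * D := by linarith
    have hyn : ‖y‖ ≤ 2 * D := by
      have : ‖y‖ ≤ ‖y - x‖ + ‖x‖ := by
        calc ‖y‖ = ‖(y - x) + x‖ := by simp
          _ ≤ _ := norm_add_le _ _
      linarith
    have h1 := hv (2 * D) hK' y τ hyn (by linarith)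
    have h2 := hv (2 * D) hK' x τ (by linarith) (by linarith)
    have hlog : Real.log (2 * D) = Real.log K + Real.log (2 * B) := by
      rw [hDB, show 2 * (B * K) = K * (2 * B) by ring,
        Real.log_mul (by positivity) (by positivity)]
    have h3 : 1 + Real.log (2 * D) = L + Real.log (2 * B) := by
      rw [hlog, hL]; ring
    rw [h3] at h1 h2
    have h4 : D ^ 2 / (2 * K) ≤ 2 * (Cg * (2 * D) * (L + Real.log (2 * B)) ^ 2) := by
      linarith
    have h5 : D ^ 2 / (2 * K) = B * (B * K) / 2 := by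
      rw [hDB]; field_simp
    rw [h5, hDB] at h4
    have hBK : 0 < B * K := by positivity
    have h6 : B ≤ 8 * Cg * (L + Real.log (2 * B)) ^ 2 := by
      have h7 : B * (B * K) ≤ (8 * Cg * (L + Real.log (2 * B)) ^ 2) * (B * K) := by
        nlinarith
      exact le_of_mul_le_mul_right h7 hBK
    have h8 := slopebd_absorb hCg hB2 hL1 h6
    have h9 : B * K ≤ (32 * Cg + 131072 * Cg ^ 2) * L ^ 2 * K :=
      mul_le_mul_of_nonneg_right h8 hK0.le
    rw [hDB]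
    unfold slopebdC1
    nlinarith [mul_nonneg hK0.le (by positivity : (0:ℝ) ≤ L ^ 2)]

/-- Value bound at confined points. -/
theorem slopebd_value {Cg : ℝ} (hCg : 0 ≤ Cg) {v : X → ℝ → ℝ} (hv : SlopeBdGrowth Cg v)
    {K : ℝ} (hK : 2 ≤ K) {x y : X} {τ : ℝ} (hx : ‖x‖ ≤ K) (hτ : |τ| ≤ 2 * K)
    (hy : ‖y - x‖ ≤ slopebdC1 Cg * K * (1 + Real.log K) ^ 2) :
    |v y τ| ≤ slopebdC2 Cg * K * (1 + Real.log K) ^ 4 := by
  have hK0 : 0 < K := by linarith
  have hlogK : 0 ≤ Real.log K := Real.log_nonneg (by linarith)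
  set L : ℝ := 1 + Real.log K with hL
  have hL1 : 1 ≤ L := by linarith
  have hL2 : 1 ≤ L ^ 2 := by nlinarith
  have hC1 := slopebdC1_ge hCg
  set C1 : ℝ := slopebdC1 Cg with hC1def
  set K2 : ℝ := (C1 + 2) * K * L ^ 2 with hK2
  have hKL : K ≤ K * L ^ 2 := by nlinarith
  have hK2a : 2 * K ≤ K2 := by
    rw [hK2]; nlinarith
  have hyn : ‖y‖ ≤ K2 := by
    have : ‖y‖ ≤ ‖y - x‖ + ‖x‖ := by
      calc ‖y‖ = ‖(y - x) + x‖ := by simp
        _ ≤ _ := norm_add_le _ _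
    rw [hK2]; nlinarith
  have h1 := hv K2 (by linarith) y τ hyn (by linarith)
  have hlog : Real.log K2 = Real.log (C1 + 2) + Real.log K + 2 * Real.log L := by
    rw [hK2, Real.log_mul (by positivity) (by positivity),
      Real.log_mul (by positivity) (by positivity), Real.log_pow]
    push_cast; ring
  have hlogL : Real.log L ≤ L - 1 := Real.log_le_sub_one_of_pos (by linarith)
  have hlogC : 0 ≤ Real.log (C1 + 2) := Real.log_nonneg (by linarith)
  have h2 : 1 + Real.log K2 ≤ (3 + Real.log (C1 + 2)) * L := by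
    rw [hlog]
    nlinarith
  have h3 : 0 ≤ 1 + Real.log K2 := by
    have : 0 ≤ Real.log K2 := Real.log_nonneg (by linarith)
    linarith
  have h4 : (1 + Real.log K2) ^ 2 ≤ ((3 + Real.log (C1 + 2)) * L) ^ 2 :=
    pow_le_pow_left₀ h3 h2 2
  have h5 : Cg * K2 * (1 + Real.log K2) ^ 2 ≤ Cg * K2 * ((3 + Real.log (C1 + 2)) * L) ^ 2 :=
    mul_le_mul_of_nonneg_left h4 (by positivity)
  refine h1.trans (h5.trans (le_of_eq ?_))
  rw [hK2]
  unfold slopebdC2
  rw [← hC1def]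
  ring

/-- Forward envelope at length `K` (paper Lemma 4.5). -/
theorem slopebd_envP_le {Cg : ℝ} (hCg : 0 ≤ Cg) {v : X → ℝ → ℝ} (hv : SlopeBdGrowth Cg v)
    {K : ℝ} (hK : 2 ≤ K) {x : X} {t : ℝ} (hx : ‖x‖ ≤ K) (ht : |t| ≤ K) :
    envP K v x t ≤ slopebdC2 Cg * K * (1 + Real.log K) ^ 4 := by
  have hK0 : 0 < K := by linarith
  have hτ : |t + K| ≤ 2 * K := by
    have := abs_add_le t K
    rw [abs_of_pos hK0] at this
    linarith
  have hpos : 0 ≤ slopebdC1 Cg * K * (1 + Real.log K) ^ 2 := by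
    have := slopebdC1_ge hCg
    positivity
  unfold envP
  refine supConv_le fun y => ?_
  have hc : 0 ≤ ‖y - x‖ ^ 2 / (2 * K) := by positivity
  by_cases hy : v x (t + K) ≤ v y (t + K) - ‖y - x‖ ^ 2 / (2 * K)
  · have h1 : ‖y - x‖ ^ 2 / (2 * K) ≤ |v y (t + K)| + |v x (t + K)| := by
      have := le_abs_self (v y (t + K))
      have := neg_abs_le (v x (t + K))
      linarith
    have h2 := slopebd_value hCg hv hK hx hτ (slopebd_confine hCg hv hK hx hτ h1)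
    have := le_abs_self (v y (t + K))
    linarith
  · rw [not_le] at hy
    have h2 := slopebd_value hCg hv hK hx hτ (y := x) (by simpa using hpos)
    have := le_abs_self (v x (t + K))
    linarith

/-- Backward envelope at length `K` (paper Lemma 4.5). -/
theorem slopebd_envM_ge {Cg : ℝ} (hCg : 0 ≤ Cg) {v : X → ℝ → ℝ} (hv : SlopeBdGrowth Cg v)
    {K : ℝ} (hK : 2 ≤ K) {x : X} {t : ℝ} (hx : ‖x‖ ≤ K) (ht : |t| ≤ K) :
    -(slopebdC2 Cg * K * (1 + Real.log K) ^ 4) ≤ envM K v x t := by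
  have hK0 : 0 < K := by linarith
  have hτ : |t - K| ≤ 2 * K := by
    have := abs_sub t K
    rw [abs_of_pos hK0] at this
    linarith
  have hpos : 0 ≤ slopebdC1 Cg * K * (1 + Real.log K) ^ 2 := by
    have := slopebdC1_ge hCg
    positivity
  unfold envM
  refine le_infConv fun y => ?_
  have hc : 0 ≤ ‖y - x‖ ^ 2 / (2 * K) := by positivity
  by_cases hy : v y (t - K) + ‖y - x‖ ^ 2 / (2 * K) ≤ v x (t - K)
  · have h1 : ‖y - x‖ ^ 2 / (2 * K) ≤ |v y (t - K)| + |v x (t - K)| := by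
      have := neg_abs_le (v y (t - K))
      have := le_abs_self (v x (t - K))
      linarith
    have h2 := slopebd_value hCg hv hK hx hτ (slopebd_confine hCg hv hK hx hτ h1)
    have := neg_abs_le (v y (t - K))
    linarith
  · rw [not_le] at hy
    have h2 := slopebd_value hCg hv hK hx hτ (y := x) (by simpa using hpos)
    have := neg_abs_le (v x (t - K))
    linarith

/-- Every competitor for `P_K v (x,t)` beating the zero displacement is confined. -/
theorem slopebd_dispP {Cg : ℝ} (hCg : 0 ≤ Cg) {v : X → ℝ → ℝ} (hv : SlopeBdGrowth Cg v)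
    {K : ℝ} (hK : 2 ≤ K) {x y : X} {t : ℝ} (hx : ‖x‖ ≤ K) (ht : |t| ≤ K)
    (hy : v x (t + K) ≤ v y (t + K) - ‖y - x‖ ^ 2 / (2 * K)) :
    ‖y - x‖ ≤ slopebdC1 Cg * K * (1 + Real.log K) ^ 2 := by
  have hK0 : 0 < K := by linarith
  have hτ : |t + K| ≤ 2 * K := by
    have := abs_add_le t K
    rw [abs_of_pos hK0] at this
    linarith
  refine slopebd_confine hCg hv hK hx hτ ?_
  have := le_abs_self (v y (t + K))
  have := neg_abs_le (v x (t + K))
  linarith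

/-- Every competitor for `M_K v (x,t)` beating the zero displacement is confined. -/
theorem slopebd_dispM {Cg : ℝ} (hCg : 0 ≤ Cg) {v : X → ℝ → ℝ} (hv : SlopeBdGrowth Cg v)
    {K : ℝ} (hK : 2 ≤ K) {x y : X} {t : ℝ} (hx : ‖x‖ ≤ K) (ht : |t| ≤ K)
    (hy : v y (t - K) + ‖y - x‖ ^ 2 / (2 * K) ≤ v x (t - K)) :
    ‖y - x‖ ≤ slopebdC1 Cg * K * (1 + Real.log K) ^ 2 := by
  have hK0 : 0 < K := by linarith
  have hτ : |t - K| ≤ 2 * K := by
    have := abs_sub t K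
    rw [abs_of_pos hK0] at this
    linarith
  refine slopebd_confine hCg hv hK hx hτ ?_
  have := neg_abs_le (v y (t - K))
  have := le_abs_self (v x (t - K))
  linarith

/-- Forward slope at length `K`. -/
theorem slopebd_slopeP_self {Cg : ℝ} (hCg : 0 ≤ Cg) {v : X → ℝ → ℝ} (hv : SlopeBdGrowth Cg v)
    {K : ℝ} (hK : 2 ≤ K) {x : X} {t : ℝ} (hx : ‖x‖ ≤ K) (ht : |t| ≤ K) :
    slopeP K v x t ≤ slopebdC3 Cg * (1 + Real.log K) ^ 4 := by
  have hK0 : 0 < K := by linarith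
  have hlogK : 0 ≤ Real.log K := Real.log_nonneg (by linarith)
  have h1 := slopebd_envP_le hCg hv hK hx ht
  have h2 := hv K hK x t hx ht
  have h3 := neg_abs_le (v x t)
  set L : ℝ := 1 + Real.log K with hL
  have hL1 : 1 ≤ L := by linarith
  have hL24 : L ^ 2 ≤ L ^ 4 := by
    have : 1 ≤ L ^ 2 := by nlinarith
    nlinarith
  have h4 : Cg * K * L ^ 2 ≤ Cg * K * L ^ 4 :=
    mul_le_mul_of_nonneg_left hL24 (by positivity)
  unfold slopeP
  rw [div_le_iff₀ hK0]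
  unfold slopebdC3
  nlinarith

/-- Backward slope at length `K`. -/
theorem slopebd_slopeM_self {Cg : ℝ} (hCg : 0 ≤ Cg) {v : X → ℝ → ℝ} (hv : SlopeBdGrowth Cg v)
    {K : ℝ} (hK : 2 ≤ K) {x : X} {t : ℝ} (hx : ‖x‖ ≤ K) (ht : |t| ≤ K) :
    slopeM K v x t ≤ slopebdC3 Cg * (1 + Real.log K) ^ 4 := by
  have hK0 : 0 < K := by linarith
  have hlogK : 0 ≤ Real.log K := Real.log_nonneg (by linarith)
  have h1 := slopebd_envM_ge hCg hv hK hx ht
  have h2 := hv K hK x t hx ht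
  have h3 := le_abs_self (v x t)
  set L : ℝ := 1 + Real.log K with hL
  have hL1 : 1 ≤ L := by linarith
  have hL24 : L ^ 2 ≤ L ^ 4 := by
    have : 1 ≤ L ^ 2 := by nlinarith
    nlinarith
  have h4 : Cg * K * L ^ 2 ≤ Cg * K * L ^ 4 :=
    mul_le_mul_of_nonneg_left hL24 (by positivity)
  unfold slopeM
  rw [div_le_iff₀ hK0]
  unfold slopebdC3
  nlinarith

/-- Paper (4.12), forward: slope bound at all lengths `0 < l ≤ K`, given monotone slopes. -/
theorem slopebd_slopeP {Cg : ℝ} (hCg : 0 ≤ Cg) {v : X → ℝ → ℝ} (hv : SlopeBdGrowth Cg v)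
    {K : ℝ} (hK : 2 ≤ K) {x : X} {t : ℝ} (hx : ‖x‖ ≤ K) (ht : |t| ≤ K)
    (hmono : ∀ l₁ l₂ : ℝ, 0 < l₁ → l₁ ≤ l₂ → slopeP l₁ v x t ≤ slopeP l₂ v x t)
    {l : ℝ} (hl : 0 < l) (hlK : l ≤ K) :
    slopeP l v x t ≤ slopebdC3 Cg * (1 + Real.log K) ^ 4 :=
  (hmono l K hl hlK).trans (slopebd_slopeP_self hCg hv hK hx ht)

/-- Paper (4.12), backward: slope bound at all lengths `0 < l ≤ K`, given monotone slopes. -/
theorem slopebd_slopeM {Cg : ℝ} (hCg : 0 ≤ Cg) {v : X → ℝ → ℝ} (hv : SlopeBdGrowth Cg v)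
    {K : ℝ} (hK : 2 ≤ K) {x : X} {t : ℝ} (hx : ‖x‖ ≤ K) (ht : |t| ≤ K)
    (hmono : ∀ l₁ l₂ : ℝ, 0 < l₁ → l₁ ≤ l₂ → slopeM l₁ v x t ≤ slopeM l₂ v x t)
    {l : ℝ} (hl : 0 < l) (hlK : l ≤ K) :
    slopeM l v x t ≤ slopebdC3 Cg * (1 + Real.log K) ^ 4 :=
  (hmono l K hl hlK).trans (slopebd_slopeM_self hCg hv hK hx ht)

end Claimed.Agent.R330
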