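/-
Row 330 (S0589), glue between packages L2a/L4b and L9: growth, subquadratic growth, monotone
slopes and the slope bound `hSup` of `walk_localize` for a member of the class centred at
`(0,tc)`, `|tc| ≤ 1`.  Owner: helper250.
-/
import Mathlib
import Claimed.Agent.R330.PartBDefs
import Claimed.Agent.R330.FitCompare
import Claimed.Agent.R330.FitBox
import Claimed.Agent.R330.FitModuli
import Claimed.Agent.R330.SlopeBd
import Claimed.Agent.R330.WStd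
import Claimed.Agent.R330.Prop6Glue

set_option autoImplicit false
set_option linter.unusedSectionVars false

namespace Claimed.Agent.R330

open Set Filter Topology
open scoped RealInnerProductSpace

variable {X : Type*} [NormedAddCommGroup X] [InnerProductSpace ℝ X]

theorem dpg_fitStep {C₀ : ℝ} (hC₀ : 0 ≤ C₀) (v : X → ℝ → ℝ) : FitStep C₀ (fitcC1 C₀) v :=
  fun _ _ _ _ _ _ _ _ hR hRR hR2 h1 h2 => fitc_step hC₀ hR hRR hR2 h1 h2

theorem dpg_fitShift {C₀ : ℝ} (hC₀ : 0 ≤ C₀) (v : X → ℝ → ℝ) : FitShift C₀ (fitcC2 C₀) v :=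
  fun _ _ _ _ _ _ _ _ _ hR ht hx h1 h2 => fitc_shift hC₀ hR ht hx h1 h2

/-- Growth bound (4.2) for a function with fits centred at `(0,tc)`. -/
theorem dpg_fitGrowth {C₀ : ℝ} (hC₀ : 0 ≤ C₀) {v : X → ℝ → ℝ} (hf : HasFits C₀ v) {tc : ℝ}
    (htc : |tc| ≤ 1) (hc : CenteredAt C₀ v 0 tc) : FitGrowth (fitboxCg C₀ (fitcC1 C₀)) v :=
  fitbox_growth hC₀ (fitcC1_nonneg hC₀) hf (dpg_fitStep hC₀ v) htc hc

/-- Parameter bound (4.3) for a function with fits centred at `(0,tc)`. -/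
theorem dpg_fitParam {C₀ : ℝ} (hC₀ : 0 ≤ C₀) {v : X → ℝ → ℝ} (hf : HasFits C₀ v) {tc : ℝ}
    (htc : |tc| ≤ 1) (hc : CenteredAt C₀ v 0 tc) :
    FitParam C₀ (fitboxCp (fitcC1 C₀) (fitcC2 C₀)) v :=
  fitbox_param (fitcC1_nonneg hC₀) (fitcC2_nonneg hC₀) hf (dpg_fitStep hC₀ v)
    (dpg_fitShift hC₀ v) htc hc

theorem dpg_Cg_nonneg {C₀ : ℝ} (hC₀ : 0 ≤ C₀) : 0 ≤ fitboxCg C₀ (fitcC1 C₀) :=
  fitbox_Cg_nonneg hC₀ (fitcC1_nonneg hC₀)

/-- Subquadratic growth for a function with fits centred at `(0,tc)`. -/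
theorem dpg_subQuadLoc {C₀ : ℝ} (hC₀ : 0 ≤ C₀) {v : X → ℝ → ℝ} (hf : HasFits C₀ v) {tc : ℝ}
    (htc : |tc| ≤ 1) (hc : CenteredAt C₀ v 0 tc) : SubQuadLoc v :=
  fitmod_subQuadLoc (dpg_Cg_nonneg hC₀) (dpg_fitGrowth hC₀ hf htc hc)

/-- Monotone forward slopes of a member of the class. -/
theorem dpg_classA_slopeP_mono {C₀ : ℝ} {v : X → ℝ → ℝ} (hv : ClassA C₀ v) (hq : SubQuadLoc v)
    (x : X) (t : ℝ) {l₁ l₂ : ℝ} (h1 : 0 < l₁) (h12 : l₁ ≤ l₂) :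
    slopeP l₁ v x t ≤ slopeP l₂ v x t := by
  have hc := hv.convP x 0 t
  have hl := wstd_tendsto_envP_zero hv.cont hq x 0 t
  simp only [smul_zero, add_zero, norm_zero, ne_eq, OfNat.ofNat_ne_zero, not_false_eq_true,
    zero_pow, zero_mul] at hc hl
  exact dpg_slopeP_mono hc hl h1 h12

/-- Monotone backward slopes of a member of the class. -/
theorem dpg_classA_slopeM_mono {C₀ : ℝ} {v : X → ℝ → ℝ} (hv : ClassA C₀ v) (hq : SubQuadLoc v)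
    (x : X) (t : ℝ) {l₁ l₂ : ℝ} (h1 : 0 < l₁) (h12 : l₁ ≤ l₂) :
    slopeM l₁ v x t ≤ slopeM l₂ v x t := by
  have hc := hv.concM x 0 t
  have hl := wstd_tendsto_envM_zero hv.cont hq x 0 t
  simp only [smul_zero, add_zero, norm_zero, ne_eq, OfNat.ofNat_ne_zero, not_false_eq_true,
    zero_pow, zero_mul, sub_zero] at hc hl
  exact dpg_slopeM_mono hc hl h1 h12

/-- Hypothesis `hSup` of `walk_localize` (paper Lemma 4.5), with an explicit constant which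
depends only on `C₀`. -/
theorem dpg_hSup {C₀ : ℝ} (hC₀ : 0 ≤ C₀) {v : X → ℝ → ℝ} (hv : ClassA C₀ v) {tc : ℝ}
    (htc : |tc| ≤ 1) (hc : CenteredAt C₀ v 0 tc) :
    ∀ (B : ℝ) (x : X) (t ρ : ℝ), 2 ≤ B → ‖x‖ ≤ B → |t| ≤ B → 0 < ρ → ρ ≤ B →
      slopeP ρ v x t ≤ slopebdC3 (fitboxCg C₀ (fitcC1 C₀)) * (1 + Real.log B) ^ 4 ∧
      slopeM ρ v x t ≤ slopebdC3 (fitboxCg C₀ (fitcC1 C₀)) * (1 + Real.log B) ^ 4 := by
  intro B x t ρ hB hx ht hρ hρB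
  have hq := dpg_subQuadLoc hC₀ hv.fits htc hc
  have hg : SlopeBdGrowth (fitboxCg C₀ (fitcC1 C₀)) v := dpg_fitGrowth hC₀ hv.fits htc hc
  exact ⟨slopebd_slopeP (dpg_Cg_nonneg hC₀) hg hB hx ht
      (fun l₁ l₂ h1 h12 => dpg_classA_slopeP_mono hv hq x t h1 h12) hρ hρB,
    slopebd_slopeM (dpg_Cg_nonneg hC₀) hg hB hx ht
      (fun l₁ l₂ h1 h12 => dpg_classA_slopeM_mono hv hq x t h1 h12) hρ hρB⟩

end Claimed.Agent.R330
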