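import Mathlib
import Claimed.Agent.R330.EnvConv
import Claimed.Agent.R330.WConvW

/-!
# Row 330, package L6b: the endpoint `l = 0` of path convexity, for `v` and for `W`

The paper uses path convexity of `l ↦ P_l f (x₀ + l d, t) + |d|² l log l` on the closed half line
`l ≥ 0`, with the value `f (x₀,t)` at `l = 0`.  `PathConvexP` is stated on `(0,∞)`.  Here the
endpoint inequality is isolated as `WstdEnd f d t`; it is proved for continuous `v` with
subquadratic growth, and transferred to `W = Wk G v` configuration by configuration (so that no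
continuity of `W` is needed).  Consequences: the midpoint inequality (6.8), monotone slopes.
Also the elementary standing facts on `W` (sandwich, growth, (6.3), (6.4)).
-/

namespace Claimed.Agent.R330

open Filter Topology Finset

variable {X : Type*} [NormedAddCommGroup X] [InnerProductSpace ℝ X]

/-- Endpoint form of path convexity at base time `t` in direction `d`: the convexity inequality
between the lengths `0` (value `f x₀ t`) and `y > 0`. -/
def WstdEnd (f : X → ℝ → ℝ) (d : X) (t : ℝ) : Prop :=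
  ∀ (x₀ : X) (y a b : ℝ), 0 < y → 0 ≤ a → 0 < b → a + b = 1 →
    envP (b * y) f (x₀ + (b * y) • d) t + ‖d‖ ^ 2 * ((b * y) * Real.log (b * y))
      ≤ a * f x₀ t + b * (envP y f (x₀ + y • d) t + ‖d‖ ^ 2 * (y * Real.log y))

/-- Zero-length limit of the forward envelope along an affine path. -/
theorem wstd_tendsto_envP_zero {v : X → ℝ → ℝ} (hc : Continuous (fun z : X × ℝ => v z.1 z.2))
    (hg : SubQuadLoc v) (x₀ d : X) (t : ℝ) :
    Tendsto (fun l => envP l v (x₀ + l • d) t) (𝓝[>] 0) (𝓝 (v x₀ t)) := by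
  obtain ⟨C, hC⟩ := hg (|t| + 1) 1 one_pos
  have hG : Tendsto (fun p : ℝ × X => v p.2 (t + p.1)) ((𝓝[>] (0 : ℝ)) ×ˢ 𝓝 x₀)
      (𝓝 (v x₀ t)) := by
    have h1 : Continuous (fun p : ℝ × X => v p.2 (t + p.1)) :=
      hc.comp (continuous_snd.prodMk (continuous_const.add continuous_fst))
    have h2 := h1.tendsto ((0 : ℝ), x₀)
    simp only [add_zero] at h2
    rw [nhds_prod_eq] at h2
    exact h2.mono_left (Filter.prod_mono nhdsWithin_le_nhds le_rfl)
  have hgrow : ∀ᶠ l in 𝓝[>] (0 : ℝ), ∀ y, v y (t + l) ≤ 1 * ‖y‖ ^ 2 + C := by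
    have h1 : ∀ᶠ l in 𝓝[>] (0 : ℝ), l < 1 :=
      (nhdsWithin_le_nhds) (gt_mem_nhds one_pos)
    filter_upwards [h1, self_mem_nhdsWithin] with l hl1 hl0 y
    have hl0 : 0 < l := hl0
    refine (le_abs_self _).trans (hC y (t + l) ⟨?_, ?_⟩)
    · have := neg_abs_le t
      linarith
    · have := le_abs_self t
      linarith
  have hx : Tendsto (fun l : ℝ => x₀ + l • d) (𝓝[>] 0) (𝓝 x₀) := by
    have h1 : Continuous (fun l : ℝ => x₀ + l • d) := by fun_prop
    have h2 := h1.tendsto 0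
    simp only [zero_smul, add_zero] at h2
    exact h2.mono_left nhdsWithin_le_nhds
  exact tendsto_supConv_zero (G := fun l y => v y (t + l)) (g := fun y => v y t) hG zero_le_one
    hgrow hx tendsto_id

/-- Zero-length limit of the backward envelope along an affine path. -/
theorem wstd_tendsto_envM_zero {v : X → ℝ → ℝ} (hc : Continuous (fun z : X × ℝ => v z.1 z.2))
    (hg : SubQuadLoc v) (x₀ d : X) (t : ℝ) :
    Tendsto (fun l => envM l v (x₀ + l • d) t) (𝓝[>] 0) (𝓝 (v x₀ t)) := by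
  obtain ⟨C, hC⟩ := hg (|t| + 1) 1 one_pos
  have hG : Tendsto (fun p : ℝ × X => v p.2 (t - p.1)) ((𝓝[>] (0 : ℝ)) ×ˢ 𝓝 x₀)
      (𝓝 (v x₀ t)) := by
    have h1 : Continuous (fun p : ℝ × X => v p.2 (t - p.1)) :=
      hc.comp (continuous_snd.prodMk (continuous_const.sub continuous_fst))
    have h2 := h1.tendsto ((0 : ℝ), x₀)
    simp only [sub_zero] at h2
    rw [nhds_prod_eq] at h2
    exact h2.mono_left (Filter.prod_mono nhdsWithin_le_nhds le_rfl)
  have hgrow : ∀ᶠ l in 𝓝[>] (0 : ℝ), ∀ y, -(1 * ‖y‖ ^ 2 + C) ≤ v y (t - l) := by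
    have h1 : ∀ᶠ l in 𝓝[>] (0 : ℝ), l < 1 :=
      (nhdsWithin_le_nhds) (gt_mem_nhds one_pos)
    filter_upwards [h1, self_mem_nhdsWithin] with l hl1 hl0 y
    have hl0 : 0 < l := hl0
    refine (abs_le.1 (hC y (t - l) ⟨?_, ?_⟩)).1
    · have := neg_abs_le t
      linarith
    · have := le_abs_self t
      linarith
  have hx : Tendsto (fun l : ℝ => x₀ + l • d) (𝓝[>] 0) (𝓝 x₀) := by
    have h1 : Continuous (fun l : ℝ => x₀ + l • d) := by fun_prop
    have h2 := h1.tendsto 0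
    simp only [zero_smul, add_zero] at h2
    exact h2.mono_left nhdsWithin_le_nhds
  exact tendsto_infConv_zero (G := fun l y => v y (t - l)) (g := fun y => v y t) hG zero_le_one
    hgrow hx tendsto_id

theorem wstd_tendsto_mul_log (c : ℝ) :
    Tendsto (fun l : ℝ => c * (l * Real.log l)) (𝓝[>] 0) (𝓝 0) := by
  have : Tendsto (fun l : ℝ => c * (l * Real.log l)) (𝓝 0) (𝓝 (c * (0 * Real.log 0))) :=
    (Real.continuous_mul_log.tendsto 0).const_mul _
  simp only [zero_mul, mul_zero] at this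
  exact this.mono_left nhdsWithin_le_nhds

/-- Endpoint inequality from convexity on `(0,∞)` and the zero-length limit. -/
theorem wstd_end_of_convexOn {f : X → ℝ → ℝ} {d : X} {t : ℝ}
    (h : ∀ x₀ : X, ConvexOn ℝ (Set.Ioi (0 : ℝ))
      (fun l => envP l f (x₀ + l • d) t + ‖d‖ ^ 2 * (l * Real.log l)))
    (hlim : ∀ x₀ : X, Tendsto (fun l => envP l f (x₀ + l • d) t) (𝓝[>] 0) (𝓝 (f x₀ t))) :
    WstdEnd f d t := by
  intro x₀ y a b hy ha hb hab
  have hlim' := (hlim x₀).add (wstd_tendsto_mul_log (‖d‖ ^ 2))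
  rw [add_zero] at hlim'
  exact wconv_convex_endpoint (h x₀) hlim' hy ha hb hab

/-- Endpoint inequality for a continuous path-convex `v` with subquadratic growth. -/
theorem wstd_end_of_pathConvexP {v : X → ℝ → ℝ}
    (hc : Continuous (fun z : X × ℝ => v z.1 z.2)) (hg : SubQuadLoc v) (hconv : PathConvexP v)
    (d : X) (t : ℝ) : WstdEnd v d t :=
  wstd_end_of_convexOn (fun x₀ => hconv x₀ d t) (fun x₀ => wstd_tendsto_envP_zero hc hg x₀ d t)

/-- **Endpoint inequality for `W`**, configuration by configuration from that of `v`. -/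
theorem wstd_end_Wk {v : X → ℝ → ℝ} (hv : ∀ t, SubQuadAbove (fun y => v y t)) {d : X} {t : ℝ}
    (ht : 0 < t) (hend : WstdEnd v d t) (G : ℝ) : WstdEnd (Wk G v) d t := by
  intro x₀ y a b hy ha hb hab
  have hl : 0 < b * y := mul_pos hb hy
  set l : ℝ := b * y with hldef
  have key : ∀ {l' : ℝ}, 0 < l' → envP l' (Wk G v) (x₀ + l' • d) t
      = bary t (fun z => envP l' v (z + l' • d) t) x₀ - G * (t + l') := by
    intro l' hl'
    rw [wconv_envP_Wk hv G ht hl', wconv_bary_translate t (fun z => envP l' v z t)]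
  have hsq : ∀ {l' : ℝ}, 0 < l' → SubQuadAbove (fun z => envP l' v (z + l' • d) t) := by
    intro l' hl' ε hε
    obtain ⟨C, hC⟩ := ((hv (t + l')).supConv hl') (ε / 2) (by positivity)
    refine ⟨C + ε * ‖l' • d‖ ^ 2, fun z => ?_⟩
    have h1 := hC (z + l' • d)
    have h2 : ‖z + l' • d‖ ^ 2 ≤ 2 * ‖z‖ ^ 2 + 2 * ‖l' • d‖ ^ 2 := by
      have := norm_add_le z (l' • d)
      nlinarith [norm_nonneg z, norm_nonneg (l' • d), norm_nonneg (z + l' • d),
        sq_nonneg (‖z‖ - ‖l' • d‖)]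
    have h3 : envP l' v (z + l' • d) t ≤ ε / 2 * ‖z + l' • d‖ ^ 2 + C := h1
    nlinarith
  rw [key hl, key hy]
  have hmain : bary t (fun z => envP l v (z + l • d) t) x₀ + ‖d‖ ^ 2 * (l * Real.log l)
      ≤ a * bary t (fun z => v z t) x₀
        + b * (bary t (fun z => envP y v (z + y • d) t) x₀ + ‖d‖ ^ 2 * (y * Real.log y)) := by
    rw [← le_sub_iff_add_le]
    refine wconv_bary_le fun N θ ξ hc => ?_
    have e1 := wconv_le_bary (hv t) ht hc
    have e2 := wconv_le_bary (hsq hy) ht hc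
    have e4 : ∑ i, θ i * (envP l v (ξ i + l • d) t + ‖d‖ ^ 2 * (l * Real.log l))
        ≤ ∑ i, θ i * (a * v (ξ i) t
          + b * (envP y v (ξ i + y • d) t + ‖d‖ ^ 2 * (y * Real.log y))) :=
      Finset.sum_le_sum fun i _ =>
        mul_le_mul_of_nonneg_left (hend (ξ i) y a b hy ha hb hab) (hc.1 i)
    have e5 : ∑ i, θ i * (envP l v (ξ i + l • d) t + ‖d‖ ^ 2 * (l * Real.log l))
        = ∑ i, θ i * envP l v (ξ i + l • d) t + ‖d‖ ^ 2 * (l * Real.log l) := by
      simp only [mul_add, Finset.sum_add_distrib, ← Finset.sum_mul, hc.2.1, one_mul]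
    have e6 : ∑ i, θ i * (a * v (ξ i) t
          + b * (envP y v (ξ i + y • d) t + ‖d‖ ^ 2 * (y * Real.log y)))
        = a * (∑ i, θ i * v (ξ i) t)
          + b * (∑ i, θ i * envP y v (ξ i + y • d) t + ‖d‖ ^ 2 * (y * Real.log y)) := by
      have : ∀ i, θ i * (a * v (ξ i) t
          + b * (envP y v (ξ i + y • d) t + ‖d‖ ^ 2 * (y * Real.log y)))
          = a * (θ i * v (ξ i) t) + b * (θ i * envP y v (ξ i + y • d) t)
            + θ i * (b * (‖d‖ ^ 2 * (y * Real.log y))) := by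
        intro i; ring
      simp only [this, Finset.sum_add_distrib, ← Finset.mul_sum, ← Finset.sum_mul, hc.2.1]
      ring
    unfold baryVal at e1 e2 ⊢
    set V : ℝ := (∑ i, θ i * ‖ξ i - x₀‖ ^ 2) / (2 * t) with hV
    have e7 := mul_le_mul_of_nonneg_left e1 ha
    have e8 := mul_le_mul_of_nonneg_left e2 hb.le
    have e9 : V = a * V + b * V := by rw [← add_mul, hab, one_mul]
    rw [e5, e6] at e4
    nlinarith
  have hlin : G * (t + l) = a * (G * t) + b * (G * (t + y)) := by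
    have ha' : a = 1 - b := by linarith
    rw [hldef, ha']
    ring
  have hW : Wk G v x₀ t = bary t (fun z => v z t) x₀ - G * t := rfl
  rw [hW]
  nlinarith

/-- The midpoint inequality (paper (6.8)). -/
theorem WstdEnd.midpoint {f : X → ℝ → ℝ} {d : X} {t : ℝ} (h : WstdEnd f d t) (x₀ : X) {ε : ℝ}
    (hε : 0 < ε) :
    -(‖d‖ ^ 2 * (2 * ε * Real.log 2))
      ≤ f x₀ t + envP (2 * ε) f (x₀ + (2 * ε) • d) t - 2 * envP ε f (x₀ + ε • d) t := by
  have h2ε : (0 : ℝ) < 2 * ε := by positivity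
  have := h x₀ (2 * ε) (1 / 2) (1 / 2) h2ε (by norm_num) (by norm_num) (by norm_num)
  have e : (1 / 2 : ℝ) * (2 * ε) = ε := by ring
  simp only [e] at this
  have hlog : Real.log (2 * ε) = Real.log 2 + Real.log ε :=
    Real.log_mul (by norm_num) hε.ne'
  rw [hlog] at this
  nlinarith

/-- The midpoint inequality in the paper's parametrisation (6.8): path from `x + d` to `x + b`. -/
theorem wstd_midpoint_bd {f : X → ℝ → ℝ} {t : ℝ} (h : ∀ d, WstdEnd f d t) (x b d : X) {ε : ℝ}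
    (hε : 0 < ε) :
    -(Real.log 2 / (2 * ε) * ‖b - d‖ ^ 2)
      ≤ f (x + d) t + envP (2 * ε) f (x + b) t
        - 2 * envP ε f (x + (1 / 2 : ℝ) • (b + d)) t := by
  have := (h ((1 / (2 * ε)) • (b - d))).midpoint (x + d) hε
  have e1 : x + d + (2 * ε) • (1 / (2 * ε)) • (b - d) = x + b := by
    rw [smul_smul, mul_one_div_cancel (by positivity), one_smul]
    abel
  have e2 : x + d + ε • (1 / (2 * ε)) • (b - d) = x + (1 / 2 : ℝ) • (b + d) := by
    rw [smul_smul]
    have : ε * (1 / (2 * ε)) = 1 / 2 := by field_simp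
    rw [this, smul_sub, smul_add]
    have h2 : d = (1 / 2 : ℝ) • d + (1 / 2 : ℝ) • d := by
      rw [← add_smul]; norm_num
    nth_rewrite 1 [h2]
    abel
  have e3 : ‖(1 / (2 * ε)) • (b - d)‖ ^ 2 * (2 * ε * Real.log 2)
      = Real.log 2 / (2 * ε) * ‖b - d‖ ^ 2 := by
    rw [norm_smul, Real.norm_eq_abs, abs_of_pos (by positivity)]
    field_simp
  rw [e1, e2, e3] at this
  exact this

/-- Fixed centre: `P_{b y} f ≤ a f + b P_y f`. -/
theorem WstdEnd.fixed {f : X → ℝ → ℝ} {t : ℝ} (h : WstdEnd f 0 t) (x₀ : X) {y a b : ℝ}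
    (hy : 0 < y) (ha : 0 ≤ a) (hb : 0 < b) (hab : a + b = 1) :
    envP (b * y) f x₀ t ≤ a * f x₀ t + b * envP y f x₀ t := by
  have := h x₀ y a b hy ha hb hab
  simpa using this

/-- Monotone forward slopes from the endpoint inequality. -/
theorem WstdEnd.slopeP_mono {f : X → ℝ → ℝ} {t : ℝ} (h : WstdEnd f 0 t) (x₀ : X) {l₁ l₂ : ℝ}
    (hl₁ : 0 < l₁) (hl : l₁ ≤ l₂) : slopeP l₁ f x₀ t ≤ slopeP l₂ f x₀ t := by
  have hl₂ : 0 < l₂ := lt_of_lt_of_le hl₁ hl
  have hb : 0 < l₁ / l₂ := div_pos hl₁ hl₂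
  have ha : 0 ≤ 1 - l₁ / l₂ := by
    rw [sub_nonneg, div_le_one hl₂]
    exact hl
  have := h.fixed x₀ hl₂ ha hb (by ring)
  have e : l₁ / l₂ * l₂ = l₁ := by field_simp
  rw [e] at this
  unfold slopeP
  rw [div_le_div_iff₀ hl₁ hl₂]
  have h2 : envP l₁ f x₀ t - f x₀ t ≤ l₁ / l₂ * (envP l₂ f x₀ t - f x₀ t) := by linarith
  have h3 := mul_le_mul_of_nonneg_right h2 hl₂.le
  have h4 : l₁ / l₂ * (envP l₂ f x₀ t - f x₀ t) * l₂ = (envP l₂ f x₀ t - f x₀ t) * l₁ := by
    field_simp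
  linarith

/-- `D ≥ 0` (paper Lemma 6.2). -/
theorem WstdEnd.D_nonneg {f : X → ℝ → ℝ} {t : ℝ} (h : WstdEnd f 0 t) (x₀ : X) {ε : ℝ}
    (hε : 0 < ε) : 0 ≤ f x₀ t + envP (2 * ε) f x₀ t - 2 * envP ε f x₀ t := by
  have := h.midpoint x₀ hε
  simpa using this

/-! ### Standing facts on `W` -/

theorem wstd_Wk_le {v : X → ℝ → ℝ} {G : ℝ} (hgap : GapBound G v) (x : X) {t : ℝ} (ht : 0 < t) :
    Wk G v x t ≤ v x t := by
  have := hgap x t t ht
  unfold Wk
  linarith

theorem wstd_le_Wk {v : X → ℝ → ℝ} (hv : ∀ t, SubQuadAbove (fun y => v y t)) (G : ℝ) (x : X)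
    {t : ℝ} (ht : 0 < t) : v x t - G * t ≤ Wk G v x t := by
  have := wconv_le_bary (hv t) ht (wconv_isConfig_single x)
  unfold baryVal at this
  unfold Wk
  simp at this
  linarith

theorem wstd_subQuadAbove_Wk {v : X → ℝ → ℝ} (hv : ∀ t, SubQuadAbove (fun y => v y t)) (G : ℝ)
    {t : ℝ} (ht : 0 < t) : SubQuadAbove (fun y => Wk G v y t) := by
  intro ε hε
  obtain ⟨C, hC⟩ := wconv_subQuadAbove_bary (hv t) ht ε hε
  exact ⟨C - G * t, fun x => by have := hC x; unfold Wk; linarith⟩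

theorem wstd_envP_Wk_le {v : X → ℝ → ℝ} (hv : ∀ t, SubQuadAbove (fun y => v y t)) {G : ℝ}
    (hgap : GapBound G v) (x : X) {t l : ℝ} (hl : 0 < l) (htl : 0 < t + l) :
    envP l (Wk G v) x t ≤ envP l v x t :=
  supConv_mono (hv (t + l)) (fun y => wstd_Wk_le hgap y htl) hl x

/-- **Zero-length limit of the forward envelope of `W`** along an affine path, `t > 0`.  Upper
bound from the endpoint inequality, lower bound from one near-optimal configuration; no
continuity of `W` is used. -/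
theorem wstd_tendsto_envP_Wk_zero {v : X → ℝ → ℝ}
    (hv : ∀ t, SubQuadAbove (fun y => v y t)) {d : X} {t : ℝ} (ht : 0 < t)
    (hend : WstdEnd v d t)
    (hlim : ∀ x₀ : X, Tendsto (fun l => envP l v (x₀ + l • d) t) (𝓝[>] 0) (𝓝 (v x₀ t)))
    (G : ℝ) (x₀ : X) :
    Tendsto (fun l => envP l (Wk G v) (x₀ + l • d) t) (𝓝[>] 0) (𝓝 (Wk G v x₀ t)) := by
  have hW := wstd_end_Wk hv ht hend G
  have hlog := wstd_tendsto_mul_log (‖d‖ ^ 2)
  have hid : Tendsto (fun l : ℝ => l) (𝓝[>] 0) (𝓝 0) :=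
    tendsto_id.mono_left nhdsWithin_le_nhds
  refine tendsto_order.2 ⟨fun c hc => ?_, fun c hc => ?_⟩
  · -- lower bound
    set η : ℝ := (Wk G v x₀ t - c) / 2 with hη
    have hη0 : 0 < η := by rw [hη]; linarith
    obtain ⟨r, ⟨N, θ, ξ, hcfg, rfl⟩, hr⟩ :
        ∃ r ∈ {r : ℝ | ∃ (N : ℕ) (θ : Fin N → ℝ) (y : Fin N → X),
          IsConfig x₀ θ y ∧ r = baryVal t (fun z => v z t) x₀ θ y},
          bary t (fun z => v z t) x₀ - η < r :=
      exists_lt_of_lt_csSup ⟨_, 1, _, _, wconv_isConfig_single x₀, rfl⟩ (by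
        show bary t (fun z => v z t) x₀ - η < bary t (fun z => v z t) x₀
        linarith)
    have hL : Tendsto (fun l : ℝ => ∑ i, θ i * envP l v (ξ i + l • d) t
        - (∑ i, θ i * ‖ξ i - x₀‖ ^ 2) / (2 * t) - G * (t + l)) (𝓝[>] 0)
        (𝓝 (∑ i, θ i * v (ξ i) t - (∑ i, θ i * ‖ξ i - x₀‖ ^ 2) / (2 * t) - G * (t + 0))) := by
      refine ((tendsto_finsetSum _ fun i _ => (hlim (ξ i)).const_mul (θ i)).sub_const _).sub ?_
      exact (hid.const_add t).const_mul G
    have hlt : c < ∑ i, θ i * v (ξ i) t - (∑ i, θ i * ‖ξ i - x₀‖ ^ 2) / (2 * t)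
        - G * (t + 0) := by
      unfold baryVal at hr
      have : Wk G v x₀ t = bary t (fun z => v z t) x₀ - G * t := rfl
      rw [add_zero]
      have h2 : c = Wk G v x₀ t - 2 * η := by rw [hη]; ring
      linarith
    filter_upwards [hL.eventually (lt_mem_nhds hlt), self_mem_nhdsWithin] with l hl hl0
    have hl0 : 0 < l := hl0
    refine lt_of_lt_of_le hl ?_
    have := wconv_le_envP_Wk hv G ht hl0 (wconv_isConfig_add hcfg (l • d))
    simpa using this
  · -- upper bound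
    have hU : Tendsto (fun l : ℝ => (1 - l) * Wk G v x₀ t
        + l * (envP 1 (Wk G v) (x₀ + (1 : ℝ) • d) t + ‖d‖ ^ 2 * (1 * Real.log 1))
        - ‖d‖ ^ 2 * (l * Real.log l)) (𝓝[>] 0)
        (𝓝 ((1 - 0) * Wk G v x₀ t
          + 0 * (envP 1 (Wk G v) (x₀ + (1 : ℝ) • d) t + ‖d‖ ^ 2 * (1 * Real.log 1)) - 0)) :=
      (((hid.const_sub 1).mul_const _).add (hid.mul_const _)).sub hlog
    have hgt : (1 - 0) * Wk G v x₀ t
          + 0 * (envP 1 (Wk G v) (x₀ + (1 : ℝ) • d) t + ‖d‖ ^ 2 * (1 * Real.log 1)) - 0 < c := by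
      simpa using hc
    have h1 : ∀ᶠ l in 𝓝[>] (0 : ℝ), l < 1 := nhdsWithin_le_nhds (gt_mem_nhds one_pos)
    filter_upwards [hU.eventually (gt_mem_nhds hgt), self_mem_nhdsWithin, h1] with l hl hl0 hl1
    have hl0 : 0 < l := hl0
    refine lt_of_le_of_lt ?_ hl
    have := hW x₀ 1 (1 - l) l one_pos (by linarith) hl0 (by ring)
    simp only [mul_one] at this
    linarith

/-- Upper bound of the forward slope of `W` at small lengths by data of `v`. -/
theorem wstd_slopeP_Wk_le {v : X → ℝ → ℝ} (hv : ∀ t, SubQuadAbove (fun y => v y t)) {G : ℝ}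
    (hgap : GapBound G v) {t : ℝ} (ht : 0 < t) (hend : WstdEnd v 0 t) (x : X) {ε L : ℝ}
    (hε : 0 < ε) (hεL : ε ≤ L) :
    slopeP ε (Wk G v) x t ≤ slopeP L v x t + G * t / L := by
  have hL : 0 < L := lt_of_lt_of_le hε hεL
  refine ((wstd_end_Wk hv ht hend G).slopeP_mono x hε hεL).trans ?_
  have h1 := wstd_envP_Wk_le hv hgap x hL (by linarith : 0 < t + L)
  have h2 := wstd_le_Wk hv G x ht
  unfold slopeP
  rw [← add_div]
  exact div_le_div_of_nonneg_right (by linarith) hL.le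

omit [InnerProductSpace ℝ X] in
/-- Paper (6.3). -/
theorem wstd_Jeps_identity (W v : X → ℝ → ℝ) (x : X) (t : ℝ) {ε : ℝ} (hε : 0 < ε) :
    2 * ε * Jeps ε W v x t
      = (W x t - v x t) + (envP ε W x t - W x t) + (v x t - envM ε v x t) := by
  unfold Jeps
  field_simp
  ring

omit [InnerProductSpace ℝ X] in
/-- The contact defect in terms of `J` and the slopes. -/
theorem wstd_gap_eq (W v : X → ℝ → ℝ) (x : X) (t : ℝ) {ε : ℝ} (hε : 0 < ε) :
    v x t - W x t = ε * slopeP ε W x t + ε * slopeM ε v x t - 2 * ε * Jeps ε W v x t := by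
  rw [wstd_Jeps_identity W v x t hε]
  unfold slopeP slopeM
  field_simp
  ring

/-- Paper (6.4). -/
theorem wstd_Jeps_le {v : X → ℝ → ℝ} (hv : ∀ t, SubQuadAbove (fun y => v y t)) {G : ℝ}
    (hgap : GapBound G v) (x : X) {t ε : ℝ} (hε : 0 < ε) (ht : 0 < t + ε) :
    Jeps ε (Wk G v) v x t ≤ (slopeP ε v x t + slopeM ε v x t) / 2 := by
  have h := wstd_envP_Wk_le hv hgap x hε ht
  unfold Jeps slopeP slopeM
  have e : ((envP ε v x t - v x t) / ε + (v x t - envM ε v x t) / ε) / 2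
      = (envP ε v x t - envM ε v x t) / (2 * ε) := by
    field_simp
    ring
  rw [e]
  exact div_le_div_of_nonneg_right (by linarith) (by positivity)

end Claimed.Agent.R330
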