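import Mathlib
import Claimed.Agent.R330.WStd
import Claimed.Agent.R330.DPDrift
import Claimed.Agent.R330.BaryCov
import Claimed.Agent.R330.EnvAlg

/-!
# Row 330, package L6b: the pair `(W, v)` satisfies the standing hypotheses of Section 6

`DpStanding (Wk G v) v` (structure of `DPDrift`, owner helper97) for a member `v` of the class
with subquadratic growth and gap bound `G`.  No continuity of `W` in `(x,t)` is used.
-/

namespace Claimed.Agent.R330

open Filter Topology

variable {X : Type*} [NormedAddCommGroup X] [InnerProductSpace ℝ X]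

theorem wstd_semiconc_Wk {v : X → ℝ → ℝ} (hv : ∀ t, SubQuadAbove (fun y => v y t)) (G : ℝ)
    {s : ℝ} (hs : 0 < s) : DpSemiconc s (fun y => Wk G v y s) := by
  have h := bary_concave hs (hv s)
  have h2 : (fun x => Wk G v x s - ‖x‖ ^ 2 / (2 * s))
      = fun x => (bary s (fun y => v y s) x - ‖x‖ ^ 2 / (2 * s)) + (-(G * s)) := by
    funext x; unfold Wk; ring
  unfold DpSemiconc
  rw [h2]
  exact h.add (concaveOn_const _ convex_univ)

/-- The standing hypotheses of Section 6 for `(W, v)`. -/
theorem wstd_dpStanding [FiniteDimensional ℝ X] {v : X → ℝ → ℝ}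
    (hc : Continuous (fun z : X × ℝ => v z.1 z.2)) (hg : SubQuadLoc v)
    (hconvP : PathConvexP v) (hconcM : PathConcaveM v) {G : ℝ} (hgap : GapBound G v) :
    DpStanding (Wk G v) v where
  semiconc := fun s hs => wstd_semiconc_Wk (fun t => (hg.slice t).above) G hs
  convP := wconv_pathConvexPOn_Wk (fun t => (hg.slice t).above) hconvP G
  limP := fun x d t ht =>
    wstd_tendsto_envP_Wk_zero (fun t => (hg.slice t).above) ht
      (wstd_end_of_pathConvexP hc hg hconvP d t)
      (fun x₀ => wstd_tendsto_envP_zero hc hg x₀ d t) G x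
  concM := hconcM
  limM := fun x t => by
    have := wstd_tendsto_envM_zero hc hg x 0 t
    simpa using this
  attM := fun l x t hl => by
    have hct : Continuous (fun y => v y t) := hc.comp (continuous_id.prodMk continuous_const)
    obtain ⟨y, hy⟩ := exists_infConv_eq hct (hg.slice t).below hl x
    refine ⟨y, fun y' => ?_⟩
    rw [← hy]
    exact infConv_le (hg.slice t).below hl x y'
  bddP := fun l x t hl => supConv_bddAbove (hg.slice t).above hl x
  le := fun x t ht => wstd_Wk_le hgap x ht

/-- The same for a member of the class. -/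
theorem wstd_dpStanding_classA [FiniteDimensional ℝ X] {C₀ G : ℝ} {v : X → ℝ → ℝ}
    (hv : ClassA C₀ v) (hg : SubQuadLoc v) (hgap : GapBound G v) : DpStanding (Wk G v) v :=
  wstd_dpStanding hv.cont hg hv.convP hv.concM hgap

end Claimed.Agent.R330
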