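/-
Row 330 (S0589), package L9 (paper Section 7), layer B, instantiation: definitions.
Owner: helper197.
-/
import Claimed.Agent.R330.PartBDefs
import Claimed.Agent.R330.DPDrift

namespace Claimed.Agent.R330

variable {X : Type*} [NormedAddCommGroup X] [InnerProductSpace ℝ X]

/-- The standing hypotheses of paper Sections 6 and 7 on the pair `(v, G)`
(`G = κ²/2`, `W = Wk G v`). -/
structure WalkBStd (C₀ G : ℝ) (v : X → ℝ → ℝ) : Prop where
  hC : 1 ≤ C₀
  hG : 0 < G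
  cls : ClassA C₀ v
  cen : CenteredAt C₀ v 0 1
  gap : GapBound G v

/-- Optimising steps at the state `(x,t)` with step size `ε` (paper (6.6), (6.7)):
`x + 2ε Q₊` maximises `P_{2ε} W (x,t)`, `x - 2ε Q₋` minimises `M_{2ε} v (x,t)`,
`x + ε Q₀` maximises `P_ε W (x,t)`, and the drift inequality of paper Lemma 6.2 holds. -/
structure WalkBStep (W v : X → ℝ → ℝ) (ε : ℝ) (x : X) (t : ℝ) (Qp Qm Q0 : X) : Prop where
  maxP : DpIsMax (2 * ε) (fun y => W y (t + 2 * ε)) x (x + (2 * ε) • Qp)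
  minM : DpIsMin (2 * ε) (fun y => v y (t - 2 * ε)) x (x - (2 * ε) • Qm)
  max0 : DpIsMax ε (fun y => W y (t + ε)) x (x + ε • Q0)
  drift : dpC * (‖Qp - Q0‖ ^ 2 + ‖Qm - Q0‖ ^ 2) ≤
    (Jeps ε W v (x + ε • Qp) (t + ε) + Jeps ε W v (x - ε • Qm) (t - ε)) / 2 - Jeps ε W v x t

open Classical in
/-- A choice of the three velocities at every state (zero where no optimising step exists). -/
noncomputable def walkBQ (W v : X → ℝ → ℝ) (ε : ℝ) (x : X) (t : ℝ) : X × X × X :=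
  if h : ∃ Q : X × X × X, WalkBStep W v ε x t Q.1 Q.2.1 Q.2.2 then h.choose else 0

theorem walkBQ_spec {W v : X → ℝ → ℝ} {ε : ℝ} {x : X} {t : ℝ}
    (h : ∃ Qp Qm Q0 : X, WalkBStep W v ε x t Qp Qm Q0) :
    WalkBStep W v ε x t (walkBQ W v ε x t).1 (walkBQ W v ε x t).2.1 (walkBQ W v ε x t).2.2 := by
  have h' : ∃ Q : X × X × X, WalkBStep W v ε x t Q.1 Q.2.1 Q.2.2 := by
    obtain ⟨Qp, Qm, Q0, hQ⟩ := h
    exact ⟨(Qp, Qm, Q0), hQ⟩
  unfold walkBQ
  rw [dif_pos h']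
  exact h'.choose_spec

end Claimed.Agent.R330
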