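/-
Row 330 (S0589), package L9 (paper Section 7), layer B, instantiation: standing facts on the
pair `(v, W)`, `W = Wk G v` (paper, beginning of Section 6).
Owner: helper197.
-/
import Claimed.Agent.R330.WalkBDefs
import Claimed.Agent.R330.WStdDP
import Claimed.Agent.R330.FitModuli
import Claimed.Agent.R330.SlopeBd
import Claimed.Agent.R330.EnvGlue
import Claimed.Agent.R330.Prop6Glue2

namespace Claimed.Agent.R330

open Filter Topology Set

variable {X : Type*} [NormedAddCommGroup X] [InnerProductSpace ℝ X]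
variable {C₀ G : ℝ} {v : X → ℝ → ℝ}

/-! ### Facts delivered by the fits package (L2a) -/

/-- Paper (4.2) (package L2a): growth of members centred at `(0,1)`, with a constant depending
only on `C₀`. -/
theorem walkB_fitGrowth (X : Type*) [NormedAddCommGroup X] [InnerProductSpace ℝ X] {C₀ : ℝ}
    (hC : 0 ≤ C₀) : ∃ Cg : ℝ, 0 ≤ Cg ∧ ∀ v : X → ℝ → ℝ, HasFits C₀ v → CenteredAt C₀ v 0 1 →
      FitGrowth Cg v :=
  ⟨_, dpg_Cg_nonneg hC, fun _ hf hc => dpg_fitGrowth hC hf (by norm_num) hc⟩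

/-- Paper (4.3) (package L2a): parameter bound for members centred at `(0,1)`, with a constant
depending only on `C₀`. -/
theorem walkB_fitParam (X : Type*) [NormedAddCommGroup X] [InnerProductSpace ℝ X] {C₀ : ℝ}
    (hC : 0 ≤ C₀) : ∃ Cp : ℝ, 0 ≤ Cp ∧ ∀ v : X → ℝ → ℝ, HasFits C₀ v → CenteredAt C₀ v 0 1 →
      FitParam C₀ Cp v := by
  refine ⟨max (fitboxCp (fitcC1 C₀) (fitcC2 C₀)) 0, le_max_right _ _, fun v hf hc => ?_⟩
  intro K hK x t hx ht r hr p a hpa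
  refine (dpg_fitParam hC hf (by norm_num) hc K hK x t hx ht r hr p a hpa).trans ?_
  exact mul_le_mul_of_nonneg_right (le_max_left _ _)
    (zero_le_one.trans (fitmod_one_le_bracket hK r))

/-! ### Growth, standing hypotheses of Section 6 -/

theorem WalkBStd.hC0 (h : WalkBStd C₀ G v) : 0 ≤ C₀ := zero_le_one.trans h.hC

theorem walkB_subQuadLoc (h : WalkBStd C₀ G v) : SubQuadLoc v := by
  obtain ⟨Cg, hCg, hg⟩ := walkB_fitGrowth X h.hC0
  exact fitmod_subQuadLoc hCg (hg v h.cls.fits h.cen)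

theorem walkB_above (h : WalkBStd C₀ G v) (t : ℝ) : SubQuadAbove (fun y => v y t) :=
  ((walkB_subQuadLoc h).slice t).above

theorem walkB_standing [FiniteDimensional ℝ X] (h : WalkBStd C₀ G v) : DpStanding (Wk G v) v :=
  wstd_dpStanding_classA h.cls (walkB_subQuadLoc h) h.gap

theorem walkB_end_v (h : WalkBStd C₀ G v) (d : X) (t : ℝ) : WstdEnd v d t :=
  wstd_end_of_pathConvexP h.cls.cont (walkB_subQuadLoc h) h.cls.convP d t

/-! ### Monotone slopes (paper Lemma 4.4) -/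

theorem walkB_slopeP_mono_v (h : WalkBStd C₀ G v) (x : X) (t : ℝ) {l₁ l₂ : ℝ} (h1 : 0 < l₁)
    (h12 : l₁ ≤ l₂) : slopeP l₁ v x t ≤ slopeP l₂ v x t :=
  (walkB_end_v h 0 t).slopeP_mono x h1 h12

theorem walkB_slopeM_mono_v (h : WalkBStd C₀ G v) (x : X) (t : ℝ) {l₁ l₂ : ℝ} (h1 : 0 < l₁)
    (h12 : l₁ ≤ l₂) : slopeM l₁ v x t ≤ slopeM l₂ v x t :=
  slopeM_mono_of_concaveOn (I := Set.Icc (t - 1) (t + 1))
    (Icc_mem_nhds (by linarith) (by linarith)) h.cls.cont.continuousAt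
    ((walkB_subQuadLoc h).on_Icc _ _) (h.cls.concM.concaveOn_envM x t) h1 h12

/-! ### Slope bounds (paper Lemma 4.5) -/

theorem walkB_slope_sup (h : WalkBStd C₀ G v) :
    ∃ CU : ℝ, ∀ B x t ρ, 2 ≤ B → ‖x‖ ≤ B → |t| ≤ B → 0 < ρ → ρ ≤ B →
      slopeP ρ v x t ≤ CU * (1 + Real.log B) ^ 4 ∧ slopeM ρ v x t ≤ CU * (1 + Real.log B) ^ 4 := by
  obtain ⟨Cg, hCg, hg⟩ := walkB_fitGrowth X h.hC0
  have hgv : SlopeBdGrowth Cg v := hg v h.cls.fits h.cen
  refine ⟨slopebdC3 Cg, fun B x t ρ hB hx ht hρ hρB => ⟨?_, ?_⟩⟩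
  · exact slopebd_slopeP hCg hgv hB hx ht (fun l₁ l₂ => walkB_slopeP_mono_v h x t) hρ hρB
  · exact slopebd_slopeM hCg hgv hB hx ht (fun l₁ l₂ => walkB_slopeM_mono_v h x t) hρ hρB

end Claimed.Agent.R330
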