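/-
Row 330 (S0589), package L9 (paper Section 7), layer B, instantiation: the functional
`J_ε = (P_ε W - M_ε v)/(2ε)` (paper (6.1)-(6.5)): start value and contact defect.
Owner: helper197.
-/
import Claimed.Agent.R330.WalkBFacts

namespace Claimed.Agent.R330

open Filter Topology Set

variable {X : Type*} [NormedAddCommGroup X] [InnerProductSpace ℝ X]
variable {C₀ G : ℝ} {v : X → ℝ → ℝ}

/-- Paper (6.5), lower bound only. -/
theorem walkB_J_start {Λ : ℝ} (hcontact : bary 1 (fun y => v y 1) 0 - v 0 1 = G)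
    (hP : ∀ ε : ℝ, 0 < ε → -Λ ≤ slopeP ε (Wk G v) 0 1)
    (hM : ∀ ε : ℝ, 0 < ε → -Λ ≤ slopeM ε v 0 1) {ε : ℝ} (hε : 0 < ε) :
    -Λ ≤ Jeps ε (Wk G v) v 0 1 := by
  have hW : Wk G v 0 1 = v 0 1 := by
    unfold Wk
    linarith
  rw [dp_J_eq_slopes _ _ hε, hW]
  have h1 := hP ε hε
  have h2 := hM ε hε
  simp only [sub_self, zero_div, zero_add]
  linarith

/-- Contact defect from a lower bound of `J` (uniformly down to `t = 0`). -/
theorem walkB_gap (h : WalkBStd C₀ G v) {CU : ℝ}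
    (hSup : ∀ B x t ρ, 2 ≤ B → ‖x‖ ≤ B → |t| ≤ B → 0 < ρ → ρ ≤ B →
      slopeP ρ v x t ≤ CU * (1 + Real.log B) ^ 4 ∧ slopeM ρ v x t ≤ CU * (1 + Real.log B) ^ 4)
    (B : ℝ) : ∃ G' : ℝ, ∀ ε x t, 0 < ε → ε ≤ 1 → ‖x‖ ≤ B → 0 < t → t ≤ B →
      v x t - Wk G v x t ≤ 2 * ε * (G' - Jeps ε (Wk G v) v x t) := by
  set B' : ℝ := max B 2 with hB'
  have hB2 : 2 ≤ B' := le_max_right _ _
  have hBB : B ≤ B' := le_max_left _ _
  refine ⟨CU * (1 + Real.log B') ^ 4 + G * B' / 2, fun ε x t hε hε1 hx ht htB => ?_⟩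
  have hx' : ‖x‖ ≤ B' := hx.trans hBB
  have ht' : |t| ≤ B' := by
    rw [abs_of_pos ht]
    exact htB.trans hBB
  have h1 := wstd_slopeP_Wk_le (walkB_above h) h.gap ht (walkB_end_v h 0 t) x hε hε1
  have h2 := (hSup B' x t 1 hB2 hx' ht' one_pos (by linarith)).1
  have h3 := (hSup B' x t ε hB2 hx' ht' hε (by linarith)).2
  have h4 : G * t ≤ G * B' := mul_le_mul_of_nonneg_left (htB.trans hBB) h.hG.le
  rw [wstd_gap_eq (Wk G v) v x t hε]
  have h5 : slopeP ε (Wk G v) x t + slopeM ε v x t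
      ≤ 2 * (CU * (1 + Real.log B') ^ 4 + G * B' / 2) := by
    rw [div_one] at h1
    linarith
  nlinarith [mul_le_mul_of_nonneg_left h5 hε.le]

end Claimed.Agent.R330
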