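/-
Row 330 (S0589), package L9 (paper Section 7), layer B, instantiation: existence of the
optimising steps and smallness of the steps, uniformly on boxes.
Owner: helper197.
-/
import Claimed.Agent.R330.WalkBFacts

namespace Claimed.Agent.R330

open Filter Topology Set

variable {X : Type*} [NormedAddCommGroup X] [InnerProductSpace ℝ X]
variable {C₀ G : ℝ} {v : X → ℝ → ℝ}

theorem walkB_exists_step [FiniteDimensional ℝ X] (h : WalkBStd C₀ G v) {ε : ℝ} (hε : 0 < ε)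
    (x : X) {t : ℝ} (ht : ε < t) : ∃ Qp Qm Q0 : X, WalkBStep (Wk G v) v ε x t Qp Qm Q0 := by
  obtain ⟨Qp, Qm, Q0, h1, h2, h3, h4⟩ := dp_step (walkB_standing h) hε ht x
  exact ⟨Qp, Qm, Q0, h1, h2, h3, h4⟩

/-- A maximiser at length `2ε` of a slice bounded by `‖y‖² + C` is close to the centre. -/
theorem walkB_confine {g : X → ℝ} {C M ε : ℝ} {x Q : X} (hε : 0 < ε) (hε16 : 16 * ε ≤ 1)
    (hg : ∀ y, g y ≤ 1 * ‖y‖ ^ 2 + C) (hM : 2 * 1 * ‖x‖ ^ 2 + C - g x + 0 ≤ M)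
    (hεM : 2 * ε * M ≤ 1) (hmax : DpIsMax (2 * ε) g x (x + (2 * ε) • Q)) : ε * ‖Q‖ ≤ 1 := by
  have h0 := hmax x
  have h1 : g x - 0 ≤ g (x + (2 * ε) • Q) - ‖x + (2 * ε) • Q - x‖ ^ 2 / (2 * (2 * ε)) := by
    simpa using h0
  have h2 := supConv_confine (ε := 1) (C := C) (l := 2 * ε) (η := 0) zero_le_one (by positivity)
    (by linarith) hg h1
  have h3 : ‖x + (2 * ε) • Q - x‖ = 2 * (ε * ‖Q‖) := by
    rw [add_sub_cancel_left, norm_smul, Real.norm_of_nonneg (by positivity)]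
    ring
  rw [h3] at h2
  have h4 : 4 * (2 * ε) * (2 * 1 * ‖x‖ ^ 2 + C - g x + 0) ≤ 4 * (2 * ε) * M :=
    mul_le_mul_of_nonneg_left hM (by positivity)
  have h5 : (ε * ‖Q‖) ^ 2 ≤ 1 := by nlinarith
  have h6 : 0 ≤ ε * ‖Q‖ := by positivity
  nlinarith

theorem walkB_small_steps (h : WalkBStd C₀ G v) (B : ℝ) :
    ∃ ε₀ : ℝ, 0 < ε₀ ∧ ∀ (ε : ℝ) (x : X) (t : ℝ) (Qp Qm Q0 : X), 0 < ε → ε ≤ ε₀ → ‖x‖ ≤ B →
      0 < t → t ≤ B → WalkBStep (Wk G v) v ε x t Qp Qm Q0 → ε * ‖Qp‖ ≤ 1 ∧ ε * ‖Qm‖ ≤ 1 := by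
  set T : ℝ := |B| + 3 with hT
  obtain ⟨C, hC⟩ := walkB_subQuadLoc h T 1 one_pos
  set M : ℝ := 3 * B ^ 2 + 2 * |C| + G * T + 1 with hM
  have hT0 : 0 < T := by positivity
  have hM0 : 0 < M := by
    have := h.hG
    positivity
  refine ⟨min (1 / 16) (1 / (2 * M)), lt_min (by norm_num) (by positivity), ?_⟩
  intro ε x t Qp Qm Q0 hε hε0 hx ht htB hs
  have hε16 : 16 * ε ≤ 1 := by
    have := hε0.trans (min_le_left _ _)
    linarith
  have hεM : 2 * ε * M ≤ 1 := by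
    have := hε0.trans (min_le_right _ _)
    rw [le_div_iff₀ (by positivity)] at this
    linarith
  have hBabs : B ≤ |B| := le_abs_self B
  have hx2 : ‖x‖ ^ 2 ≤ B ^ 2 := by
    have := norm_nonneg x
    nlinarith
  have hCabs : C ≤ |C| := le_abs_self C
  have hmemP : t + 2 * ε ∈ Set.Icc (-T) T := ⟨by rw [hT]; linarith [abs_nonneg B], by
    rw [hT]; linarith⟩
  have hmemM : t - 2 * ε ∈ Set.Icc (-T) T := ⟨by rw [hT]; linarith [abs_nonneg B], by
    rw [hT]; linarith⟩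
  have htP : 0 < t + 2 * ε := by positivity
  constructor
  · refine walkB_confine (g := fun y => Wk G v y (t + 2 * ε)) (C := C) (M := M) hε hε16 ?_ ?_ hεM
      hs.maxP
    · intro y
      exact (wstd_Wk_le h.gap y htP).trans ((le_abs_self _).trans (hC y _ hmemP))
    · have h1 := wstd_le_Wk (walkB_above h) G x htP
      have h2 := (abs_le.1 (hC x _ hmemP)).1
      have h3 : G * (t + 2 * ε) ≤ G * T := mul_le_mul_of_nonneg_left hmemP.2 h.hG.le
      rw [hM]
      linarith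
  · have hmin := hs.minM
    have hmax : DpIsMax (2 * ε) (fun y => - v y (t - 2 * ε)) x (x + (2 * ε) • (-Qm)) := by
      intro y'
      have := hmin y'
      rw [smul_neg, ← sub_eq_add_neg]
      linarith
    have := walkB_confine (g := fun y => - v y (t - 2 * ε)) (C := C) (M := M) hε hε16 ?_ ?_ hεM
      hmax
    · simpa using this
    · intro y
      exact (neg_le_abs _).trans (hC y _ hmemM)
    · have h2 := (abs_le.1 (hC x _ hmemM)).2
      have h3 : 0 ≤ G * T := by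
        have := h.hG
        positivity
      rw [hM]
      linarith

end Claimed.Agent.R330
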