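import Mathlib
import Claimed.Agent.R330.EnvDefs
import Claimed.Agent.R330.DPBasic

/-!
# Row 330, paper Section 6: velocity estimates (abstract / slice level)

* `dpv_velocity`: the last inequality of the drift estimate (6.7) (paper Lemma 6.2), from the
  path midpoint inequality (6.8), the competitor inequality and the two supports (6.5).
* `dpv_slice_shift`: slice-level core of the logarithmic velocity bound (paper Lemma 6.4),
  relative to a frame velocity `p0`; `dpv_slice` is the case `p0 = 0`.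
Owner of this file: helper162.
-/

namespace Claimed.Agent.R330

open scoped RealInnerProductSpace
open Set

variable {X : Type*} [NormedAddCommGroup X] [InnerProductSpace ℝ X]

/-- **Velocity estimate of Lemma 6.2.** -/
theorem dpv_velocity {f0 f1 f2 : X → ℝ} {ε t e : ℝ} {Qp Qm Q0 : X} (hε : 0 < ε) (ht : ε < t)
    (h1 : ∀ b d, -(Real.log 2 / (2 * ε)) * ‖b - d‖ ^ 2
      ≤ f0 d + f2 b - 2 * f1 ((1 / 2 : ℝ) • (b + d)))
    (h2 : ∀ d, f0 d ≤ f0 0 + e + ⟪Qm, d⟫ + ‖d‖ ^ 2 / (2 * ε))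
    (h3 : ∀ b, f2 b ≤ f2 0 + ⟪Qp, b⟫ + ‖b‖ ^ 2 / (2 * t))
    (h4 : ∀ k, f1 0 + ⟪Q0, k⟫ - ‖k‖ ^ 2 / (2 * ε) ≤ f1 k) :
    ε * (‖Qp - Q0‖ ^ 2 + ‖Qm - Q0‖ ^ 2) / (4 * (1 + Real.log 2))
      ≤ (f0 0 + f2 0 - 2 * f1 0) + e := by
  have hlog : 0 < Real.log 2 := Real.log_pos (by norm_num)
  set c := 1 + Real.log 2 with hc
  have hcpos : 0 < c := by positivity
  have htpos : 0 < t := hε.trans ht
  set μ := ε / (2 * c) with hμ
  have hμpos : 0 < μ := by positivity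
  set b : X := μ • (Q0 - Qp) with hb
  set d : X := μ • (Q0 - Qm) with hd
  have H1 := h1 b d
  have H2 := h2 d
  have H3 := h3 b
  have H4 := h4 ((1 / 2 : ℝ) • (b + d))
  -- norms and inner products
  set P := ‖Qp - Q0‖ ^ 2 with hP
  set M := ‖Qm - Q0‖ ^ 2 with hM
  have nb : ‖b‖ ^ 2 = μ ^ 2 * P := by
    rw [hb, norm_smul, mul_pow, Real.norm_eq_abs, sq_abs, norm_sub_rev]
  have nd : ‖d‖ ^ 2 = μ ^ 2 * M := by
    rw [hd, norm_smul, mul_pow, Real.norm_eq_abs, sq_abs, norm_sub_rev]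
  have par : ‖b + d‖ ^ 2 + ‖b - d‖ ^ 2 = 2 * (‖b‖ ^ 2 + ‖d‖ ^ 2) := by
    have := parallelogram_law_with_norm ℝ b d
    nlinarith
  have hbd1 : ‖b + d‖ ^ 2 ≤ 2 * (‖b‖ ^ 2 + ‖d‖ ^ 2) := by
    have := sq_nonneg ‖b - d‖
    linarith
  have hbd2 : ‖b - d‖ ^ 2 ≤ 2 * (‖b‖ ^ 2 + ‖d‖ ^ 2) := by
    have := sq_nonneg ‖b + d‖
    linarith
  have nh : ‖(1 / 2 : ℝ) • (b + d)‖ ^ 2 = ‖b + d‖ ^ 2 / 4 := by
    rw [norm_smul, mul_pow, Real.norm_eq_abs, sq_abs]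
    ring
  have ih : ⟪Q0, (1 / 2 : ℝ) • (b + d)⟫ = (⟪Q0, b⟫ + ⟪Q0, d⟫) / 2 := by
    rw [inner_smul_right, inner_add_right]
    ring
  -- ⟪Qp - Q0, b⟫ = - μ P,  ⟪Qm - Q0, d⟫ = - μ M
  have ib : ⟪Qp, b⟫ - ⟪Q0, b⟫ = - (μ * P) := by
    rw [← inner_sub_left, hb, inner_smul_right, hP, ← neg_sub Qp Q0, inner_neg_right,
      real_inner_self_eq_norm_sq]
    ring
  have id' : ⟪Qm, d⟫ - ⟪Q0, d⟫ = - (μ * M) := by
    rw [← inner_sub_left, hd, inner_smul_right, hM, ← neg_sub Qm Q0, inner_neg_right,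
      real_inner_self_eq_norm_sq]
    ring
  rw [nh, ih] at H4
  -- bound the quadratic error terms
  have hbt : ‖b‖ ^ 2 / (2 * t) ≤ ‖b‖ ^ 2 / (2 * ε) := by
    apply div_le_div_of_nonneg_left (sq_nonneg _) (by positivity) (by linarith)
  have E1 : Real.log 2 / (2 * ε) * ‖b - d‖ ^ 2
      ≤ Real.log 2 / (2 * ε) * (2 * (‖b‖ ^ 2 + ‖d‖ ^ 2)) :=
    mul_le_mul_of_nonneg_left hbd2 (by positivity)
  have E2 : ‖b + d‖ ^ 2 / 4 / (2 * ε) ≤ 2 * (‖b‖ ^ 2 + ‖d‖ ^ 2) / 4 / (2 * ε) := by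
    apply div_le_div_of_nonneg_right _ (by positivity)
    apply div_le_div_of_nonneg_right hbd1 (by norm_num)
  -- D + e ≥ μ (P + M) - (c/ε) (‖b‖² + ‖d‖²)
  have main : μ * (P + M) - c / ε * (‖b‖ ^ 2 + ‖d‖ ^ 2) ≤ (f0 0 + f2 0 - 2 * f1 0) + e := by
    have e1 : c / ε * (‖b‖ ^ 2 + ‖d‖ ^ 2)
        = Real.log 2 / (2 * ε) * (2 * (‖b‖ ^ 2 + ‖d‖ ^ 2))
          + ‖b‖ ^ 2 / (2 * ε) + ‖d‖ ^ 2 / (2 * ε)
          + 2 * (2 * (‖b‖ ^ 2 + ‖d‖ ^ 2) / 4 / (2 * ε)) := by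
      rw [hc]
      field_simp
      ring
    rw [e1]
    linarith
  have fin : ε * (P + M) / (4 * c) = μ * (P + M) - c / ε * (‖b‖ ^ 2 + ‖d‖ ^ 2) := by
    rw [nb, nd, hμ]
    field_simp
    ring
  rw [fin]
  exact main

/-- Three-point concavity of a semiconcave slice on the line through `x' - s e`, `x'`,
`x' + n e`. -/
theorem dpv_three_point {g : X → ℝ} {s n : ℝ} {x' e : X} (hg : DpSemiconc s g) (hspos : 0 < s)
    (hnpos : 0 < n) (hen : ‖e‖ = 1) :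
    s * (g (x' + n • e) - g x') ≤ n * (g x' - g (x' - s • e)) + n * s / 2 + n ^ 2 / 2 := by
  have hconc := hg.2 (mem_univ (x' - s • e)) (mem_univ (x' + n • e))
    (by positivity : (0:ℝ) ≤ n / (n + s)) (by positivity : (0:ℝ) ≤ s / (n + s))
    (by field_simp)
  have hcomb : (n / (n + s)) • (x' - s • e) + (s / (n + s)) • (x' + n • e) = x' := by
    rw [smul_sub, smul_add, smul_smul, smul_smul]
    have h1 : n / (n + s) * s = s / (n + s) * n := by ring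
    rw [h1]
    have h2 : (n / (n + s)) • x' + (s / (n + s)) • x' = x' := by
      rw [← add_smul]
      have : n / (n + s) + s / (n + s) = 1 := by field_simp
      rw [this, one_smul]
    calc (n / (n + s)) • x' - (s / (n + s) * n) • e
          + ((s / (n + s)) • x' + (s / (n + s) * n) • e)
        = (n / (n + s)) • x' + (s / (n + s)) • x' := by abel
      _ = x' := h2
  rw [hcomb] at hconc
  simp only [smul_eq_mul] at hconc
  have n1 : ‖x' - s • e‖ ^ 2 = ‖x'‖ ^ 2 - 2 * (s * ⟪x', e⟫) + s ^ 2 := by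
    rw [norm_sub_sq_real, norm_smul, inner_smul_right, mul_pow, Real.norm_eq_abs, sq_abs, hen]
    ring
  have n2 : ‖x' + n • e‖ ^ 2 = ‖x'‖ ^ 2 + 2 * (n * ⟪x', e⟫) + n ^ 2 := by
    rw [norm_add_sq_real, norm_smul, inner_smul_right, mul_pow, Real.norm_eq_abs, sq_abs,
      hen]
    ring
  rw [n1, n2] at hconc
  have hns : 0 < n + s := by positivity
  have hconc2 : n * (g (x' - s • e) - (‖x'‖ ^ 2 - 2 * (s * ⟪x', e⟫) + s ^ 2) / (2 * s))
      + s * (g (x' + n • e) - (‖x'‖ ^ 2 + 2 * (n * ⟪x', e⟫) + n ^ 2) / (2 * s))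
      ≤ (n + s) * (g x' - ‖x'‖ ^ 2 / (2 * s)) := by
    have := mul_le_mul_of_nonneg_left hconc hns.le
    have e1 : (n + s) * (n / (n + s) * (g (x' - s • e)
          - (‖x'‖ ^ 2 - 2 * (s * ⟪x', e⟫) + s ^ 2) / (2 * s))
        + s / (n + s) * (g (x' + n • e) - (‖x'‖ ^ 2 + 2 * (n * ⟪x', e⟫) + n ^ 2) / (2 * s)))
        = n * (g (x' - s • e) - (‖x'‖ ^ 2 - 2 * (s * ⟪x', e⟫) + s ^ 2) / (2 * s))
      + s * (g (x' + n • e) - (‖x'‖ ^ 2 + 2 * (n * ⟪x', e⟫) + n ^ 2) / (2 * s)) := by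
      field_simp
    rw [e1] at this
    exact this
  have e1 : n * (g (x' - s • e) - (‖x'‖ ^ 2 - 2 * (s * ⟪x', e⟫) + s ^ 2) / (2 * s))
    + s * (g (x' + n • e) - (‖x'‖ ^ 2 + 2 * (n * ⟪x', e⟫) + n ^ 2) / (2 * s))
    - (n + s) * (g x' - ‖x'‖ ^ 2 / (2 * s))
    = s * (g (x' + n • e) - g x') - n * (g x' - g (x' - s • e)) - n * s / 2 - n ^ 2 / 2 := by
    field_simp
    ring
  linarith

/-- Core of `dpv_slice_shift`, with the displacement written as `n • e`. -/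
theorem dpv_slice_core {g : X → ℝ} {s ε A n : ℝ} {x p0 e : X} (hg : DpSemiconc s g)
    (hε : 0 < ε) (hs : 2 * ε < s) (hnpos : 0 < n) (hen : ‖e‖ = 1)
    (hy : g (x + ε • p0) - ‖x + ε • p0 - x‖ ^ 2 / (2 * ε)
      ≤ g (x + ε • p0 + n • e) - ‖x + ε • p0 + n • e - x‖ ^ 2 / (2 * ε))
    (hA : g (x + ε • p0) - g (x + ε • p0 - s • e) - ⟪p0, s • e⟫ ≤ s * A) :
    n / ε ≤ 4 * (A + 1 / 2) := by
  have hspos : 0 < s := by linarith
  have c1 : ‖x + ε • p0 - x‖ ^ 2 = ε ^ 2 * ‖p0‖ ^ 2 := by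
    rw [add_sub_cancel_left, norm_smul, mul_pow, Real.norm_eq_abs, sq_abs]
  have c2 : ‖x + ε • p0 + n • e - x‖ ^ 2
      = n ^ 2 + 2 * (ε * (n * ⟪e, p0⟫)) + ε ^ 2 * ‖p0‖ ^ 2 := by
    have : x + ε • p0 + n • e - x = n • e + ε • p0 := by abel
    rw [this, norm_add_sq_real, norm_smul, norm_smul, inner_smul_left, inner_smul_right,
      mul_pow, mul_pow, Real.norm_eq_abs, Real.norm_eq_abs, sq_abs, sq_abs, hen]
    simp only [conj_trivial]
    ring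
  rw [c1, c2] at hy
  have h3 := dpv_three_point (x' := x + ε • p0) hg hspos hnpos hen
  generalize g (x + ε • p0 + n • e) = gy at hy h3
  generalize g (x + ε • p0) = gx at hy h3 hA
  generalize g (x + ε • p0 - s • e) = ga at h3 hA
  have hmax' : n ^ 2 / (2 * ε) + n * ⟪e, p0⟫ ≤ gy - gx := by
    have e1 : (n ^ 2 + 2 * (ε * (n * ⟪e, p0⟫)) + ε ^ 2 * ‖p0‖ ^ 2) / (2 * ε)
        = n ^ 2 / (2 * ε) + n * ⟪e, p0⟫ + ε ^ 2 * ‖p0‖ ^ 2 / (2 * ε) := by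
      field_simp
    rw [e1] at hy
    linarith
  rw [inner_smul_right, real_inner_comm] at hA
  have h5 : s * (n ^ 2 / (2 * ε) + n * ⟪e, p0⟫) ≤ s * (gy - gx) :=
    mul_le_mul_of_nonneg_left hmax' hspos.le
  have h6 : n * (gx - ga) ≤ n * (s * A + s * ⟪e, p0⟫) :=
    mul_le_mul_of_nonneg_left (by linarith) hnpos.le
  have h7 : s * (n ^ 2 / (2 * ε)) - n ^ 2 / 2 ≤ n * (s * (A + 1 / 2)) := by nlinarith
  have h8 : n * ((s - ε) / (2 * ε)) ≤ s * (A + 1 / 2) := by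
    have e1 : s * (n ^ 2 / (2 * ε)) - n ^ 2 / 2 = n * (n * ((s - ε) / (2 * ε))) := by
      field_simp
    rw [e1] at h7
    exact le_of_mul_le_mul_left h7 hnpos
  have h9 : n / ε * (s / 4) ≤ n * ((s - ε) / (2 * ε)) := by
    have e1 : n * ((s - ε) / (2 * ε)) - n / ε * (s / 4) = n * (s - 2 * ε) / (4 * ε) := by
      field_simp
      ring
    have : 0 ≤ n * (s - 2 * ε) / (4 * ε) := by
      apply div_nonneg (mul_nonneg hnpos.le (by linarith)) (by positivity)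
    linarith
  have h10 : n / ε * (s / 4) ≤ (4 * (A + 1 / 2)) * (s / 4) := by
    calc n / ε * (s / 4) ≤ s * (A + 1 / 2) := h9.trans h8
      _ = (4 * (A + 1 / 2)) * (s / 4) := by ring
  exact le_of_mul_le_mul_right h10 (by positivity)

/-- **Slice-level core of Lemma 6.4, relative to a frame velocity `p0`.**  The competitor is
`x' = x + ε p0`; three-point concavity on the line through `x' - s e`, `x'`, `y0`. -/
theorem dpv_slice_shift {g : X → ℝ} {s ε A : ℝ} {x y0 p0 : X} (hg : DpSemiconc s g)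
    (hε : 0 < ε) (hs : 2 * ε < s) (hy : DpIsMax ε g x y0) (hA0 : 0 ≤ A)
    (hA : ∀ e : X, ‖e‖ = 1 →
      g (x + ε • p0) - g (x + ε • p0 - s • e) - ⟪p0, s • e⟫ ≤ s * A) :
    ‖(1 / ε) • (y0 - x) - p0‖ ≤ 4 * (A + 1 / 2) := by
  obtain ⟨w, hw⟩ : ∃ w : X, w = y0 - (x + ε • p0) := ⟨_, rfl⟩
  have hnorm : ‖(1 / ε) • (y0 - x) - p0‖ = ‖w‖ / ε := by
    have : (1 / ε) • (y0 - x) - p0 = (1 / ε) • w := by
      rw [hw, ← sub_sub, smul_sub (1 / ε) (y0 - x), smul_smul, one_div,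
        inv_mul_cancel₀ hε.ne', one_smul]
    rw [this, norm_smul, Real.norm_eq_abs, abs_of_pos (by positivity)]
    ring
  rw [hnorm]
  by_cases hw0 : w = 0
  · rw [hw0, norm_zero, zero_div]
    linarith
  have hnpos : 0 < ‖w‖ := norm_pos_iff.2 hw0
  obtain ⟨e, he⟩ : ∃ e : X, e = (1 / ‖w‖) • w := ⟨_, rfl⟩
  have hen : ‖e‖ = 1 := by
    rw [he, norm_smul, Real.norm_eq_abs, abs_of_pos (by positivity)]
    field_simp
  have hwe : w = ‖w‖ • e := by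
    rw [he, smul_smul, mul_one_div_cancel hnpos.ne', one_smul]
  have hy0 : y0 = x + ε • p0 + ‖w‖ • e := by
    rw [← hwe, hw]
    abel
  have hmax := hy (x + ε • p0)
  rw [hy0] at hmax
  exact dpv_slice_core hg hε hs hnpos hen hmax (hA e hen)

/-- Slice-level core of Lemma 6.4 (paper form, `p0 = 0`). -/
theorem dpv_slice {g : X → ℝ} {s ε A : ℝ} {x y0 : X} (hg : DpSemiconc s g)
    (hε : 0 < ε) (hs : 2 * ε < s) (hy : DpIsMax ε g x y0) (hA0 : 0 ≤ A)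
    (hA : ∀ e : X, ‖e‖ = 1 → g x - g (x - s • e) ≤ s * A) :
    ‖y0 - x‖ / ε ≤ 4 * (A + 1 / 2) := by
  have h := dpv_slice_shift (p0 := 0) hg hε hs hy hA0 (by simpa using hA)
  rw [sub_zero, norm_smul, Real.norm_eq_abs, abs_of_pos (by positivity)] at h
  calc ‖y0 - x‖ / ε = 1 / ε * ‖y0 - x‖ := by ring
    _ ≤ _ := h

end Claimed.Agent.R330
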