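import Mathlib
import Claimed.Agent.R330.EnvDefs
import Claimed.Agent.R330.FrameDefs
import Claimed.Agent.R330.DPBasic
import Claimed.Agent.R330.Prop6Vel

/-!
# Row 330, paper Lemma 6.4 in frame-invariant space-time form

`dpv_log_velocity`: if `V = frame 1 x0 r r p0 a0 v` has the spatial modulus (4.4) of a centred
member of the class (abstract hypothesis `hmod`), `W` is sandwiched `v - G t ≤ W ≤ v` and
semiconcave, then the reference velocity `Q0 = (y0 - x)/ε` of `P_ε W (x,t)` satisfies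
`‖Q0 - p0‖ ≤ C (L(K) + |log (t/r)|)` whenever the frame coordinates of `(x,t)` lie in the
`K`-box.  Owner of this file: helper162.
-/

namespace Claimed.Agent.R330

open scoped RealInnerProductSpace
open Set

variable {X : Type*} [NormedAddCommGroup X] [InnerProductSpace ℝ X]

/-- `|log σ'| ≤ |log σ| + log 2` when `σ ≤ σ' ≤ 2 σ`. -/
theorem dpv_abs_log_le {σ σ' : ℝ} (hσ : 0 < σ) (h1 : σ ≤ σ') (h2 : σ' ≤ 2 * σ) :
    |Real.log σ'| ≤ |Real.log σ| + Real.log 2 := by
  have hlog2 : 0 < Real.log 2 := Real.log_pos (by norm_num)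
  have a1 : Real.log σ ≤ Real.log σ' := Real.log_le_log hσ h1
  have a2 : Real.log σ' ≤ Real.log 2 + Real.log σ := by
    rw [← Real.log_mul (by norm_num) hσ.ne']
    exact Real.log_le_log (by linarith) h2
  rw [abs_le]
  constructor
  · have := neg_abs_le (Real.log σ)
    linarith
  · have := le_abs_self (Real.log σ)
    linarith

/-- **Lemma 6.4, frame-invariant form**, with the spatial modulus of the framed function as an
abstract hypothesis. -/
theorem dpv_log_velocity {v W : X → ℝ → ℝ} {G Cm r a0 : ℝ} {x0 p0 : X}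
    (hr : 0 < r) (hG : 0 ≤ G) (hCm : 0 ≤ Cm)
    (hsand1 : ∀ (x : X) (t : ℝ), 0 < t → v x t - G * t ≤ W x t)
    (hsand2 : ∀ (x : X) (t : ℝ), 0 < t → W x t ≤ v x t)
    (hsc : ∀ s : ℝ, 0 < s → DpSemiconc s (fun y => W y s))
    (hmod : ∀ K : ℝ, 2 ≤ K → ∀ (y h : X) (σ ρ : ℝ), ‖y‖ ≤ K → |σ| ≤ K → 0 < ρ → ‖h‖ ≤ ρ →
      |frame 1 x0 r r p0 a0 v (y + h) σ - frame 1 x0 r r p0 a0 v y σ|
        ≤ Cm * ρ * ((1 + Real.log K) + |Real.log ρ|))
    {K ε t : ℝ} {x y0 : X} (hK : 2 ≤ K) (hε : 0 < ε) (hεt : ε < t)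
    (hy : ‖(1 / r) • (x - x0 - (t - r) • p0)‖ ≤ K) (hσ : t / r ≤ K)
    (hmax : DpIsMax ε (fun y => W y (t + ε)) x y0) :
    ‖(1 / ε) • (y0 - x) - p0‖
      ≤ 4 * (Cm * (1 + 2 * Real.log 2) + G + 1 / 2) * ((1 + Real.log K) + |Real.log (t / r)|) := by
  have hlog2 : 0 < Real.log 2 := Real.log_pos (by norm_num)
  have htpos : 0 < t := hε.trans hεt
  obtain ⟨s, hs⟩ : ∃ s : ℝ, s = t + ε := ⟨_, rfl⟩
  have hspos : 0 < s := by rw [hs]; positivity
  have hs2 : 2 * ε < s := by rw [hs]; linarith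
  obtain ⟨y, hydef⟩ : ∃ y : X, y = (1 / r) • (x - x0 - (t - r) • p0) := ⟨_, rfl⟩
  rw [← hydef] at hy
  obtain ⟨σ', hσ'⟩ : ∃ σ' : ℝ, σ' = s / r := ⟨_, rfl⟩
  have hσ'pos : 0 < σ' := by rw [hσ']; positivity
  have hσpos : 0 < t / r := by positivity
  have hσσ' : t / r ≤ σ' := by
    rw [hσ', hs]
    apply div_le_div_of_nonneg_right _ hr.le
    linarith
  have hσ'2 : σ' ≤ 2 * (t / r) := by
    rw [hσ', hs, ← mul_div_assoc]
    apply div_le_div_of_nonneg_right _ hr.le
    linarith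
  have hσ'K : |σ'| ≤ 2 * K := by
    rw [abs_of_pos hσ'pos]
    linarith
  have hrσ' : r * σ' = s := by
    rw [hσ']
    field_simp
  have hLK : 0 ≤ Real.log K := Real.log_nonneg (by linarith)
  -- the constant `A`
  obtain ⟨A, hAdef⟩ : ∃ A : ℝ, A = Cm * ((1 + Real.log (2 * K)) + |Real.log σ'|) + G := ⟨_, rfl⟩
  have hlog2K : Real.log (2 * K) = Real.log 2 + Real.log K :=
    Real.log_mul (by norm_num) (by linarith)
  have hA0 : 0 ≤ A := by
    rw [hAdef, hlog2K]
    have := abs_nonneg (Real.log σ')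
    positivity
  -- frame coordinates
  have hX : ∀ k : X, frameX 1 x0 r p0 (y + k) σ' = x + ε • p0 + r • k := by
    intro k
    unfold frameX
    rw [hydef, smul_add, smul_add, smul_smul, smul_smul, mul_one_div_cancel hr.ne', one_smul,
      mul_sub, hrσ', mul_one, hs]
    have : (t + ε - r) • p0 = (t - r) • p0 + ε • p0 := by
      rw [← add_smul]
      congr 1
      ring
    rw [this]
    abel
  have hT : frameT 1 r r σ' = s := by
    unfold frameT
    rw [mul_sub, hrσ']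
    ring
  have hA : ∀ e : X, ‖e‖ = 1 →
      (fun y => W y s) (x + ε • p0) - (fun y => W y s) (x + ε • p0 - s • e) - ⟪p0, s • e⟫
        ≤ s * A := by
    intro e he
    have hm := hmod (2 * K) (by linarith) y (-(σ' • e)) σ' σ' (by linarith) hσ'K hσ'pos
      (by rw [norm_neg, norm_smul, he, Real.norm_eq_abs, abs_of_pos hσ'pos, mul_one])
    have h0 := hX 0
    rw [add_zero, smul_zero, add_zero] at h0
    have h1 : frameX 1 x0 r p0 (y + -(σ' • e)) σ' = x + ε • p0 - s • e := by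
      rw [hX (-(σ' • e)), smul_neg, smul_smul, hrσ', ← sub_eq_add_neg]
    unfold frame at hm
    rw [h0, h1, hT] at hm
    have hm2 := (abs_le.1 hm).1
    have i1 : inner ℝ p0 (y + -(σ' • e)) = inner ℝ p0 y - σ' * ⟪p0, e⟫ := by
      rw [inner_add_right, inner_neg_right, inner_smul_right]
      ring
    rw [i1] at hm2
    have i2 : ⟪p0, s • e⟫ = s * ⟪p0, e⟫ := inner_smul_right _ _ _
    have s1 := hsand1 (x + ε • p0 - s • e) s hspos
    have s2 := hsand2 (x + ε • p0) s hspos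
    simp only
    rw [i2]
    -- multiply `hm2` by `r`
    have hm3 : v (x + ε • p0) s - v (x + ε • p0 - s • e) s - s * ⟪p0, e⟫
        ≤ r * (Cm * σ' * (1 + Real.log (2 * K) + |Real.log σ'|)) := by
      have e1 : v (x + ε • p0) s - v (x + ε • p0 - s • e) s - s * ⟪p0, e⟫
          = - (r * ((v (x + ε • p0 - s • e) s - v x0 r) / r - (inner ℝ p0 y - σ' * ⟪p0, e⟫)
              - (a0 + ‖p0‖ ^ 2 / 2) * (σ' - 1)
            - ((v (x + ε • p0) s - v x0 r) / r - inner ℝ p0 y
              - (a0 + ‖p0‖ ^ 2 / 2) * (σ' - 1)))) := by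
        rw [← hrσ']
        field_simp
        ring
      rw [e1]
      have := mul_le_mul_of_nonneg_left hm2 hr.le
      linarith
    have e2 : r * (Cm * σ' * (1 + Real.log (2 * K) + |Real.log σ'|))
        = s * (Cm * (1 + Real.log (2 * K) + |Real.log σ'|)) := by
      rw [← hrσ']
      ring
    rw [e2] at hm3
    rw [hAdef, mul_add]
    linarith
  rw [← hs] at hmax
  have hmain := dpv_slice_shift (hsc s hspos) hε hs2 hmax hA0 hA
  refine hmain.trans ?_
  have hlogσ' := dpv_abs_log_le hσpos hσσ' hσ'2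
  set Λ := (1 + Real.log K) + |Real.log (t / r)| with hΛ
  have hΛ1 : 1 ≤ Λ := by
    have := abs_nonneg (Real.log (t / r))
    linarith
  have hAle : A ≤ Cm * (Λ + 2 * Real.log 2) + G := by
    rw [hAdef, hlog2K]
    have : (1 + (Real.log 2 + Real.log K)) + |Real.log σ'| ≤ Λ + 2 * Real.log 2 := by
      linarith
    have := mul_le_mul_of_nonneg_left this hCm
    linarith
  have h3 : Cm * (Λ + 2 * Real.log 2) + G + 1 / 2
      ≤ (Cm * (1 + 2 * Real.log 2) + G + 1 / 2) * Λ := by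
    have h4 : 0 ≤ (Cm * (2 * Real.log 2) + G + 1 / 2) * (Λ - 1) := by
      apply mul_nonneg _ (by linarith)
      positivity
    nlinarith
  calc 4 * (A + 1 / 2) ≤ 4 * ((Cm * (1 + 2 * Real.log 2) + G + 1 / 2) * Λ) := by linarith
    _ = 4 * (Cm * (1 + 2 * Real.log 2) + G + 1 / 2) * Λ := by ring

end Claimed.Agent.R330
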