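/-
Row 330 (S0589), package L9 (paper Section 7), layer B, instantiation: the logarithmic velocity
bound (paper Lemma 6.4) in all fitted frames, in the shape consumed by `WalkB.lean`.
Owner: helper197.
-/
import Claimed.Agent.R330.WalkBFacts
import Claimed.Agent.R330.Prop6VelST
import Claimed.Agent.R330.FrameClass

namespace Claimed.Agent.R330

open Filter Topology Set

variable {X : Type*} [NormedAddCommGroup X] [InnerProductSpace ℝ X]
variable {C₀ G : ℝ} {v : X → ℝ → ℝ}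

/-- Paper Lemma 4.1/6.3 (package L1): fits in a fitted frame. -/
theorem walkB_frame_hasFits (hv : HasFits C₀ v) (x₁ : X) {r : ℝ} (hr : 0 < r) (p₁ : X) (a₁ : ℝ) :
    HasFits C₀ (frame 1 x₁ r r p₁ a₁ v) :=
  frame_hasFits 1 x₁ r p₁ a₁ hr hv

/-- Paper Lemma 4.1/6.3 (package L1): a fitted frame is centred at `(0,1)`. -/
theorem walkB_frame_centered {x₁ : X} {r : ℝ} (hr : 0 < r) {p₁ : X} {a₁ : ℝ}
    (hfit : IsFit C₀ v x₁ r r p₁ a₁) : CenteredAt C₀ (frame 1 x₁ r r p₁ a₁ v) 0 1 :=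
  frame_centeredAt 1 x₁ r p₁ a₁ hr hfit

/-- Paper Lemma 6.4 in the frame-invariant form (logarithmic velocity bound). -/
theorem walkB_vel (h : WalkBStd C₀ G v) :
    ∃ CQ : ℝ, ∀ (ε : ℝ) (x₁ : X) (r : ℝ) (p₁ : X) (a₁ : ℝ), IsFit C₀ v x₁ r r p₁ a₁ → 0 < ε →
      ε ≤ r → ∀ (x : X) (t Kf : ℝ) (Q0 : X), ε < t → 2 ≤ Kf →
      ‖x - x₁ - (t - r) • p₁‖ ≤ Kf * r → t ≤ Kf * r →
      DpIsMax ε (fun y => Wk G v y (t + ε)) x (x + ε • Q0) →
      ‖Q0 - p₁‖ ≤ CQ * (1 + Real.log Kf + |Real.log (t / r)|) := by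
  obtain ⟨Cp, hCp, hpar⟩ := walkB_fitParam X h.hC0
  refine ⟨4 * ((C₀ + Cp) * (1 + 2 * Real.log 2) + G + 1 / 2), ?_⟩
  intro ε x₁ r p₁ a₁ hfit hε hεr x t Kf Q0 ht hKf hx htK hmax
  have hr : 0 < r := hε.trans_le hεr
  have hfitsV := walkB_frame_hasFits h.cls.fits x₁ hr p₁ a₁
  have hparV := hpar _ hfitsV (walkB_frame_centered hr hfit)
  have key := dpv_log_velocity (v := v) (W := Wk G v) (G := G) (Cm := C₀ + Cp) (r := r) (a0 := a₁)
    (x0 := x₁) (p0 := p₁) hr h.hG.le (add_nonneg h.hC0 hCp)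
    (fun x t ht => wstd_le_Wk (walkB_above h) G x ht)
    (fun x t ht => wstd_Wk_le h.gap x ht)
    (fun s hs => wstd_semiconc_Wk (walkB_above h) G hs)
    (fun K hK y k σ ρ hy hσ hρ hk => fitmod_spatial h.hC0 hfitsV hparV hK hy hσ hρ hk)
    (K := Kf) (ε := ε) (t := t) (x := x) (y0 := x + ε • Q0) hKf hε ht
    (by
      rw [norm_smul, Real.norm_of_nonneg (by positivity), one_div, inv_mul_le_iff₀ hr]
      linarith)
    (by rwa [div_le_iff₀ hr])
    hmax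
  have e : (1 / ε) • (x + ε • Q0 - x) = Q0 := by
    rw [add_sub_cancel_left, smul_smul, one_div, inv_mul_cancel₀ hε.ne', one_smul]
  rwa [e] at key

end Claimed.Agent.R330
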