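/-
Row 330 (S0589), package L9 (paper Section 7), layer A2a: the stopped walk, its invariants,
the `J`-potential (error budget (7.7), stopped expectations (7.6)) and the probability of
being still alive.
Owner: helper137.
-/
import Claimed.Agent.R330.WalkTravel

set_option autoImplicit false

namespace Claimed.Agent.R330

/-- Data of a stopped walk on `X × ℝ`. -/
structure WalkData (X : Type*) [NormedAddCommGroup X] [InnerProductSpace ℝ X] where
  /-- time step -/
  ε : ℝ
  /-- lower stopping level -/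
  δmin : ℝ
  /-- upper stopping level -/
  T : ℝ
  /-- horizontal cutoff -/
  R : ℝ
  /-- the potential `J_ε` -/
  J : X → ℝ → ℝ
  /-- forward velocity -/
  Qp : X → ℝ → X
  /-- backward velocity -/
  Qm : X → ℝ → X
  /-- reference velocity -/
  Q0 : X → ℝ → X
  /-- slope of the chosen fit at a point -/
  P : X × ℝ → X

namespace WalkData

variable {X : Type*} [NormedAddCommGroup X] [InnerProductSpace ℝ X] (W : WalkData X)

/-- The walk moves on from `z`. -/
def live (z : X × ℝ) : Prop := W.δmin < z.2 ∧ z.2 < W.T ∧ ‖z.1‖ < W.R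

/-- velocity of the step with sign `b` -/
noncomputable def vel (b : Bool) (z : X × ℝ) : X := if b then W.Qp z.1 z.2 else W.Qm z.1 z.2

/-- one step -/
noncomputable def step (b : Bool) (z : X × ℝ) : X × ℝ :=
  (z.1 + (walkSgn b * W.ε) • W.vel b z, z.2 + walkSgn b * W.ε)

theorem step_true (z : X × ℝ) : W.step true z = (z.1 + W.ε • W.Qp z.1 z.2, z.2 + W.ε) := by
  simp [step, vel]

theorem step_false (z : X × ℝ) : W.step false z = (z.1 - W.ε • W.Qm z.1 z.2, z.2 - W.ε) := by
  simp [step, vel, sub_eq_add_neg]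

open Classical in
/-- position of the stopped walk after the history `l` -/
noncomputable def pos : List Bool → X × ℝ
  | [] => (0, 1)
  | b :: l => if W.live (pos l) then W.step b (pos l) else pos l

/-- squared velocity discrepancies at a state -/
noncomputable def disc (z : X × ℝ) : ℝ :=
  ‖W.Qp z.1 z.2 - W.Q0 z.1 z.2‖ ^ 2 + ‖W.Qm z.1 z.2 - W.Q0 z.1 z.2‖ ^ 2

open Classical in
/-- accumulated squared velocity discrepancies -/
noncomputable def dsum : List Bool → ℝ
  | [] => 0
  | _ :: l => dsum l + if W.live (W.pos l) then W.disc (W.pos l) else 0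

open Classical in
/-- number of steps made -/
noncomputable def cnt : List Bool → ℝ
  | [] => 0
  | _ :: l => cnt l + if W.live (W.pos l) then 1 else 0

open Classical in
/-- the mark at level `d`: first point of the walk with time `≤ d` (current point before). -/
noncomputable def mark (d : ℝ) : List Bool → X × ℝ
  | [] => (0, 1)
  | b :: l => if (mark d l).2 ≤ d then mark d l else W.pos (b :: l)

/-- Standing hypotheses on a walk. -/
structure Hyp (c U H : ℝ) : Prop where
  hc : 0 < c
  hε : 0 < W.ε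
  hεδ : 4 * W.ε ≤ W.δmin
  hδmin : W.δmin < 1
  hT : 1 ≤ W.T
  hR0 : 0 < W.R
  hdrift : ∀ x t, W.δmin < t → t < W.T → ‖x‖ < W.R →
      W.J x t + c * (‖W.Qp x t - W.Q0 x t‖ ^ 2 + ‖W.Qm x t - W.Q0 x t‖ ^ 2) ≤
        (W.J (x + W.ε • W.Qp x t) (t + W.ε) + W.J (x - W.ε • W.Qm x t) (t - W.ε)) / 2
  hU : ∀ x t, ‖x‖ ≤ W.R + 1 → 0 < t → t ≤ W.T + 1 → W.J x t ≤ U
  hH : H ≤ W.J 0 1
  hstep : ∀ x t, W.δmin < t → t < W.T → ‖x‖ < W.R →
      W.ε * ‖W.Qp x t‖ ≤ 1 ∧ W.ε * ‖W.Qm x t‖ ≤ 1

variable {W} {c U H : ℝ}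

theorem pos_nil : W.pos [] = (0, 1) := rfl

theorem pos_cons_live {b : Bool} {l : List Bool} (h : W.live (W.pos l)) :
    W.pos (b :: l) = W.step b (W.pos l) := by
  simp [pos, h]

theorem pos_cons_dead {b : Bool} {l : List Bool} (h : ¬ W.live (W.pos l)) :
    W.pos (b :: l) = W.pos l := by
  simp [pos, h]

theorem disc_nonneg (z : X × ℝ) : 0 ≤ W.disc z := by
  unfold disc; positivity

theorem dsum_nonneg : ∀ l, 0 ≤ W.dsum l
  | [] => le_refl _
  | _ :: l => by
    have ih := dsum_nonneg l
    simp only [dsum]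
    split_ifs
    · have := W.disc_nonneg (W.pos l); linarith
    · linarith

theorem dsum_mono (b : Bool) (l : List Bool) : W.dsum l ≤ W.dsum (b :: l) := by
  simp only [dsum]
  split_ifs
  · have := W.disc_nonneg (W.pos l); linarith
  · linarith

theorem Hyp.eps_le (h : W.Hyp c U H) : W.ε ≤ 1 / 4 := by
  have := h.hεδ; have := h.hδmin; linarith

/-- Box invariants of the walk. -/
theorem Hyp.pos_inv (h : W.Hyp c U H) : ∀ l,
    W.δmin - W.ε < (W.pos l).2 ∧ (W.pos l).2 ≤ W.T + 1 ∧ ‖(W.pos l).1‖ ≤ W.R + 1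
  | [] => by
    have h1 := h.hε; have h2 := h.hδmin; have h3 := h.hT; have h4 := h.hR0
    refine ⟨?_, ?_, ?_⟩ <;> simp [pos] <;> linarith
  | b :: l => by
    have ih := h.pos_inv l
    by_cases hl : W.live (W.pos l)
    · rw [pos_cons_live hl]
      obtain ⟨h1, h2, h3⟩ := hl
      have hs := h.hstep _ _ h1 h2 h3
      have he := h.eps_le
      have he0 := h.hε
      cases b
      · rw [step_false]
        refine ⟨by simp only; linarith, by simp only; linarith, ?_⟩
        calc ‖(W.pos l).1 - W.ε • W.Qm (W.pos l).1 (W.pos l).2‖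
            ≤ ‖(W.pos l).1‖ + ‖W.ε • W.Qm (W.pos l).1 (W.pos l).2‖ := norm_sub_le _ _
          _ = ‖(W.pos l).1‖ + W.ε * ‖W.Qm (W.pos l).1 (W.pos l).2‖ := by
              rw [norm_smul, Real.norm_eq_abs, abs_of_pos he0]
          _ ≤ W.R + 1 := by linarith [hs.2]
      · rw [step_true]
        refine ⟨by simp only; linarith, by simp only; linarith, ?_⟩
        calc ‖(W.pos l).1 + W.ε • W.Qp (W.pos l).1 (W.pos l).2‖
            ≤ ‖(W.pos l).1‖ + ‖W.ε • W.Qp (W.pos l).1 (W.pos l).2‖ := norm_add_le _ _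
          _ = ‖(W.pos l).1‖ + W.ε * ‖W.Qp (W.pos l).1 (W.pos l).2‖ := by
              rw [norm_smul, Real.norm_eq_abs, abs_of_pos he0]
          _ ≤ W.R + 1 := by linarith [hs.1]
    · rw [pos_cons_dead hl]; exact ih

theorem Hyp.pos_time_gt (h : W.Hyp c U H) (l : List Bool) : 3 * W.ε < (W.pos l).2 := by
  have := (h.pos_inv l).1; have := h.hεδ; linarith

theorem Hyp.pos_time_pos (h : W.Hyp c U H) (l : List Bool) : 0 < (W.pos l).2 := by
  have := h.pos_time_gt l; have := h.hε; linarith

theorem Hyp.J_le (h : W.Hyp c U H) (l : List Bool) : W.J (W.pos l).1 (W.pos l).2 ≤ U :=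
  h.hU _ _ (h.pos_inv l).2.2 (h.pos_time_pos l) (h.pos_inv l).2.1

/-- One step decreases the time by at most `ε`. -/
theorem Hyp.pos_cons_time_ge (h : W.Hyp c U H) (b : Bool) (l : List Bool) :
    (W.pos l).2 - W.ε ≤ (W.pos (b :: l)).2 := by
  have he0 := h.hε
  by_cases hl : W.live (W.pos l)
  · rw [pos_cons_live hl]
    cases b
    · rw [step_false]
    · rw [step_true]; simp only; linarith
  · rw [pos_cons_dead hl]; linarith

open Classical in
/-- One-step drift of `J` along the walk. -/
theorem Hyp.J_drift (h : W.Hyp c U H) (l : List Bool) :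
    W.J (W.pos l).1 (W.pos l).2 + c * (if W.live (W.pos l) then W.disc (W.pos l) else 0) ≤
      (W.J (W.pos (true :: l)).1 (W.pos (true :: l)).2 +
        W.J (W.pos (false :: l)).1 (W.pos (false :: l)).2) / 2 := by
  by_cases hl : W.live (W.pos l)
  · rw [pos_cons_live hl, pos_cons_live hl, step_true, step_false, if_pos hl]
    exact h.hdrift _ _ hl.1 hl.2.1 hl.2.2
  · rw [pos_cons_dead hl, pos_cons_dead hl, if_neg hl]
    linarith

/-- `E J(z_n) - c E Σ disc ≥ J(z_*)`. -/
theorem Hyp.J_budget (h : W.Hyp c U H) (n : ℕ) :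
    H + c * walkE n W.dsum ≤ walkE n (fun l => W.J (W.pos l).1 (W.pos l).2) := by
  classical
  have hsub := walkE_submart n
    (Φ := fun l => W.J (W.pos l).1 (W.pos l).2 - c * W.dsum l) (by
      intro l
      have := h.J_drift l
      simp only [dsum]
      linarith)
  rw [walkE_sub, walkE_mul_left] at hsub
  simp only [pos, dsum] at hsub
  have := h.hH
  linarith

/-- Error budget (7.7). -/
theorem Hyp.dsum_budget (h : W.Hyp c U H) (n : ℕ) : walkE n W.dsum ≤ (U - H) / c := by
  have h1 := h.J_budget n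
  have h2 : walkE n (fun l => W.J (W.pos l).1 (W.pos l).2) ≤ U := walkE_le_const n h.J_le
  rw [le_div_iff₀ h.hc]
  linarith

/-- Stopped expectation (7.6) at the end. -/
theorem Hyp.J_end (h : W.Hyp c U H) (n : ℕ) :
    H ≤ walkE n (fun l => W.J (W.pos l).1 (W.pos l).2) := by
  have h1 := h.J_budget n
  have h2 : 0 ≤ walkE n W.dsum := walkE_nonneg n dsum_nonneg
  have := mul_nonneg h.hc.le h2
  linarith

/-! ### Marks -/

theorem mark_cons_reached {d : ℝ} {b : Bool} {l : List Bool} (h : (W.mark d l).2 ≤ d) :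
    W.mark d (b :: l) = W.mark d l := by
  simp [mark, h]

theorem mark_cons_not {d : ℝ} {b : Bool} {l : List Bool} (h : ¬ (W.mark d l).2 ≤ d) :
    W.mark d (b :: l) = W.pos (b :: l) := by
  simp [mark, h]

theorem mark_eq_pos {d : ℝ} : ∀ {l : List Bool}, ¬ (W.mark d l).2 ≤ d → W.mark d l = W.pos l
  | [], _ => rfl
  | b :: l, h => by
    by_cases hr : (W.mark d l).2 ≤ d
    · rw [mark_cons_reached hr] at h; exact absurd hr h
    · exact mark_cons_not hr

theorem mark_exists_pos (d : ℝ) : ∀ l : List Bool, ∃ l', W.mark d l = W.pos l'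
  | [] => ⟨[], rfl⟩
  | b :: l => by
    by_cases hr : (W.mark d l).2 ≤ d
    · rw [mark_cons_reached hr]; exact mark_exists_pos d l
    · exact ⟨b :: l, mark_cons_not hr⟩

theorem Hyp.mark_inv (h : W.Hyp c U H) (d : ℝ) (l : List Bool) :
    3 * W.ε < (W.mark d l).2 ∧ ‖(W.mark d l).1‖ ≤ W.R + 1 ∧
      W.J (W.mark d l).1 (W.mark d l).2 ≤ U := by
  obtain ⟨l', hl'⟩ := mark_exists_pos (W := W) d l
  rw [hl']
  exact ⟨h.pos_time_gt l', (h.pos_inv l').2.2, h.J_le l'⟩

theorem Hyp.mark_time_gt (h : W.Hyp c U H) {d : ℝ} (hd : d < 1) :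
    ∀ l, d - W.ε < (W.mark d l).2
  | [] => by have := h.hε; simp [mark]; linarith
  | b :: l => by
    by_cases hr : (W.mark d l).2 ≤ d
    · rw [mark_cons_reached hr]; exact h.mark_time_gt hd l
    · rw [mark_cons_not hr]
      have h1 := h.pos_cons_time_ge b l
      rw [← mark_eq_pos hr] at h1
      rw [not_le] at hr
      linarith

/-- Stopped expectation (7.6) at a mark. -/
theorem Hyp.J_mark (h : W.Hyp c U H) (d : ℝ) (n : ℕ) :
    H ≤ walkE n (fun l => W.J (W.mark d l).1 (W.mark d l).2) := by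
  classical
  have hsub := walkE_submart n
    (Φ := fun l => W.J (W.mark d l).1 (W.mark d l).2) (by
      intro l
      by_cases hr : (W.mark d l).2 ≤ d
      · rw [mark_cons_reached hr, mark_cons_reached hr]; linarith
      · rw [mark_cons_not hr, mark_cons_not hr, mark_eq_pos hr]
        have h1 := h.J_drift l
        have h2 : 0 ≤ c * (if W.live (W.pos l) then W.disc (W.pos l) else 0) := by
          apply mul_nonneg h.hc.le
          split_ifs
          · exact disc_nonneg _
          · exact le_refl _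
        linarith)
  simp only [mark] at hsub
  exact le_trans h.hH hsub

/-- If the walk has come below the level, the mark has been set. -/
theorem mark_reached_of_pos_le {d : ℝ} {l : List Bool} (h : (W.pos l).2 ≤ d) :
    (W.mark d l).2 ≤ d := by
  by_contra hr
  rw [mark_eq_pos hr] at hr
  exact hr h

/-! ### Probability of being alive -/

theorem live_of_live_cons {b : Bool} {l : List Bool} (h : W.live (W.pos (b :: l))) :
    W.live (W.pos l) := by
  by_contra hl
  rw [pos_cons_dead hl] at h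
  exact hl h

theorem cnt_eq_length : ∀ {l : List Bool}, W.live (W.pos l) → W.cnt l = l.length
  | [], _ => by simp [cnt]
  | b :: l, h => by
    have hl := live_of_live_cons h
    have ih := cnt_eq_length hl
    simp [cnt, hl, ih]

theorem cnt_nonneg : ∀ l : List Bool, 0 ≤ W.cnt l
  | [] => le_refl _
  | _ :: l => by
    have ih := cnt_nonneg l
    simp only [cnt]
    split_ifs <;> linarith

theorem Hyp.cnt_budget (h : W.Hyp c U H) (n : ℕ) :
    W.ε ^ 2 * walkE n W.cnt ≤ (W.T + 1) ^ 2 := by
  have hmart := walkE_mart n (Φ := fun l => (W.pos l).2 ^ 2 - W.ε ^ 2 * W.cnt l) (by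
    intro l
    by_cases hl : W.live (W.pos l)
    · rw [pos_cons_live hl, pos_cons_live hl, step_true, step_false]
      simp only [cnt, if_pos hl]
      ring
    · rw [pos_cons_dead hl, pos_cons_dead hl]
      simp only [cnt, if_neg hl]
      ring)
  rw [walkE_sub, walkE_mul_left] at hmart
  simp only [pos, cnt] at hmart
  have h2 : walkE n (fun l => (W.pos l).2 ^ 2) ≤ (W.T + 1) ^ 2 := by
    apply walkE_le_const
    intro l
    exact pow_le_pow_left₀ (h.pos_time_pos l).le (h.pos_inv l).2.1 2
  linarith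

theorem Hyp.live_prob (h : W.Hyp c U H) {n : ℕ} (hn : 0 < n) :
    walkP n (fun l => W.live (W.pos l)) ≤ (W.T + 1) ^ 2 / (W.ε ^ 2 * n) := by
  classical
  have hn' : (0 : ℝ) < n := by exact_mod_cast hn
  have he2 : 0 < W.ε ^ 2 := by have := h.hε; positivity
  have h1 : walkP n (fun l => W.live (W.pos l)) ≤ walkE n (fun l => (1 / (n : ℝ)) * W.cnt l) := by
    apply walkE_mono_length
    intro l hl
    split_ifs with hlive
    · rw [cnt_eq_length hlive, hl]
      field_simp
      exact le_refl _
    · exact mul_nonneg (by positivity) (cnt_nonneg l)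
  rw [walkE_mul_left] at h1
  have h2 := h.cnt_budget n
  calc walkP n (fun l => W.live (W.pos l)) ≤ 1 / (n : ℝ) * walkE n W.cnt := h1
    _ ≤ 1 / (n : ℝ) * ((W.T + 1) ^ 2 / W.ε ^ 2) := by
        apply mul_le_mul_of_nonneg_left _ (by positivity)
        rw [le_div_iff₀ he2]; linarith
    _ = (W.T + 1) ^ 2 / (W.ε ^ 2 * n) := by field_simp

end WalkData

end Claimed.Agent.R330
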