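/-
Row 330 (S0589), package L9 (paper Section 7), layer A2b: the portion of the walk after a mark,
seen in the frame of the mark, with two additional cutoffs (paper (7.13)-(7.17)).
Owner: helper137.
-/
import Claimed.Agent.R330.WalkProc

set_option autoImplicit false

namespace Claimed.Agent.R330

namespace WalkData

variable {X : Type*} [NormedAddCommGroup X] [InnerProductSpace ℝ X] (W : WalkData X)

/-- frame time of `z` in the frame based at `z₁` -/
noncomputable def frS (z₁ z : X × ℝ) : ℝ := z.2 / z₁.2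

/-- frame position of `z` in the frame based at `z₁` -/
noncomputable def frY (z₁ z : X × ℝ) : X := (z₁.2)⁻¹ • (z.1 - z₁.1 - (z.2 - z₁.2) • W.P z₁)

/-- additional cutoffs in the frame based at `z₁` -/
def cut (M K : ℝ) (z₁ z : X × ℝ) : Prop := M ≤ frS z₁ z ∨ K ≤ ‖W.frY z₁ z‖

open Classical in
/-- the walk, frozen once (after the mark at level `d`) an additional cutoff is hit -/
noncomputable def ppos (d M K : ℝ) : List Bool → X × ℝ
  | [] => (0, 1)
  | b :: l => if (W.mark d l).2 ≤ d ∧ W.cut M K (W.mark d l) (ppos d M K l) then ppos d M K l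
      else W.pos (b :: l)

/-- the step after the history `l` belongs to the portion -/
def act (d M K : ℝ) (l : List Bool) : Prop :=
  (W.mark d l).2 ≤ d ∧ ¬ W.cut M K (W.mark d l) (W.ppos d M K l) ∧ W.live (W.pos l)

open Classical in
/-- step size in the frame -/
noncomputable def fa (d M K : ℝ) (l : List Bool) : ℝ :=
  if W.act d M K l then W.ε / (W.mark d l).2 else 0

/-- reference velocity in the frame -/
noncomputable def fV0 (d : ℝ) (l : List Bool) : X :=
  W.Q0 (W.pos l).1 (W.pos l).2 - W.P (W.mark d l)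

/-- forward velocity in the frame -/
noncomputable def fVp (d : ℝ) (l : List Bool) : X :=
  W.Qp (W.pos l).1 (W.pos l).2 - W.P (W.mark d l)

/-- backward velocity in the frame -/
noncomputable def fVm (d : ℝ) (l : List Bool) : X :=
  W.Qm (W.pos l).1 (W.pos l).2 - W.P (W.mark d l)

variable {W} {c U H d M K : ℝ}

theorem ppos_cons_frozen {b : Bool} {l : List Bool}
    (h : (W.mark d l).2 ≤ d ∧ W.cut M K (W.mark d l) (W.ppos d M K l)) :
    W.ppos d M K (b :: l) = W.ppos d M K l := by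
  rw [ppos, if_pos h]

theorem ppos_cons_not {b : Bool} {l : List Bool}
    (h : ¬ ((W.mark d l).2 ≤ d ∧ W.cut M K (W.mark d l) (W.ppos d M K l))) :
    W.ppos d M K (b :: l) = W.pos (b :: l) := by
  rw [ppos, if_neg h]

theorem ppos_eq_pos : ∀ {l : List Bool},
    ¬ ((W.mark d l).2 ≤ d ∧ W.cut M K (W.mark d l) (W.ppos d M K l)) →
      W.ppos d M K l = W.pos l
  | [], _ => rfl
  | b :: l, h => by
    by_cases hf : (W.mark d l).2 ≤ d ∧ W.cut M K (W.mark d l) (W.ppos d M K l)
    · exfalso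
      apply h
      rw [mark_cons_reached hf.1, ppos_cons_frozen hf]
      exact hf
    · exact ppos_cons_not hf

theorem fa_of_act {l : List Bool} (h : W.act d M K l) :
    W.fa d M K l = W.ε / (W.mark d l).2 := by
  simp [fa, h]

theorem fa_of_not_act {l : List Bool} (h : ¬ W.act d M K l) : W.fa d M K l = 0 := by
  simp [fa, h]

theorem act_of_fa_ne {l : List Bool} (h : W.fa d M K l ≠ 0) : W.act d M K l := by
  by_contra hn
  exact h (fa_of_not_act hn)

/-- The abstract processes of `WalkTravel` are the frame coordinates of the frozen walk. -/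
theorem Hyp.coords (h : W.Hyp c U H) : ∀ l : List Bool,
    ((W.mark d l).2 ≤ d →
      trS (W.fa d M K) l = frS (W.mark d l) (W.ppos d M K l) ∧
      trY (W.fa d M K) (W.fVp d) (W.fVm d) l = W.frY (W.mark d l) (W.ppos d M K l)) ∧
    (¬ (W.mark d l).2 ≤ d →
      trS (W.fa d M K) l = 1 ∧ trY (W.fa d M K) (W.fVp d) (W.fVm d) l = 0)
  | [] => by
    refine ⟨fun _ => ?_, fun _ => ⟨rfl, rfl⟩⟩
    simp [trS, trY, frS, frY, mark, ppos]
  | b :: l => by
    have ih := Hyp.coords h l
    by_cases hr : (W.mark d l).2 ≤ d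
    · -- the mark has been set before
      have hr' : (W.mark d (b :: l)).2 ≤ d := by rw [mark_cons_reached hr]; exact hr
      refine ⟨fun _ => ?_, fun hn => absurd hr' hn⟩
      obtain ⟨ihS, ihY⟩ := ih.1 hr
      rw [mark_cons_reached hr]
      by_cases hcut : W.cut M K (W.mark d l) (W.ppos d M K l)
      · have hna : ¬ W.act d M K l := fun ha => ha.2.1 hcut
        rw [ppos_cons_frozen ⟨hr, hcut⟩]
        simp only [trS, trY, fa_of_not_act hna, mul_zero, add_zero, zero_smul]
        exact ⟨ihS, ihY⟩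
      · have hnf : ¬ ((W.mark d l).2 ≤ d ∧ W.cut M K (W.mark d l) (W.ppos d M K l)) :=
          fun hf => hcut hf.2
        have hpp := ppos_eq_pos hnf
        rw [ppos_cons_not hnf]
        by_cases hl : W.live (W.pos l)
        · have ha : W.act d M K l := ⟨hr, hcut, hl⟩
          have hr0 : (W.mark d l).2 ≠ 0 := by
            have := (h.mark_inv d l).1; have := h.hε; linarith
          rw [pos_cons_live hl]
          simp only [trS, trY, fa_of_act ha, ihS, ihY, hpp]
          constructor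
          · simp only [frS, step]
            field_simp
          · have hv : (if b = true then W.fVp d l else W.fVm d l) =
                W.vel b (W.pos l) - W.P (W.mark d l) := by
              cases b <;> simp [fVp, fVm, vel]
            rw [hv]
            simp only [frY, step]
            rw [div_eq_mul_inv]
            module
        · have hna : ¬ W.act d M K l := fun ha => hl ha.2.2
          rw [pos_cons_dead hl]
          simp only [trS, trY, fa_of_not_act hna, mul_zero, add_zero, zero_smul]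
          rw [← hpp]
          exact ⟨ihS, ihY⟩
    · -- the mark has not been set before
      obtain ⟨ihS, ihY⟩ := ih.2 hr
      have hna : ¬ W.act d M K l := fun ha => hr ha.1
      have hnf : ¬ ((W.mark d l).2 ≤ d ∧ W.cut M K (W.mark d l) (W.ppos d M K l)) :=
        fun hf => hr hf.1
      have hS : trS (W.fa d M K) (b :: l) = 1 := by
        simp only [trS, fa_of_not_act hna, mul_zero, add_zero]; exact ihS
      have hY : trY (W.fa d M K) (W.fVp d) (W.fVm d) (b :: l) = 0 := by
        simp only [trY, fa_of_not_act hna, mul_zero, add_zero, zero_smul]; exact ihY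
      refine ⟨fun _ => ?_, fun _ => ⟨hS, hY⟩⟩
      rw [hS, hY, mark_cons_not hr, ppos_cons_not hnf]
      have hp0 : (W.pos (b :: l)).2 ≠ 0 := (h.pos_time_pos _).ne'
      simp [frS, frY, hp0]

/-- If no additional cutoff is seen by the abstract processes, the frozen walk is the walk. -/
theorem Hyp.not_cut (h : W.Hyp c U H) {l : List Bool} (hr : (W.mark d l).2 ≤ d)
    (h1 : ¬ M ≤ trS (W.fa d M K) l)
    (h2 : ¬ K ≤ ‖trY (W.fa d M K) (W.fVp d) (W.fVm d) l‖) :
    frS (W.mark d l) (W.pos l) < M ∧ ‖W.frY (W.mark d l) (W.pos l)‖ < K := by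
  obtain ⟨hS, hY⟩ := (h.coords (d := d) (M := M) (K := K) l).1 hr
  rw [hS] at h1
  rw [hY] at h2
  have hnf : ¬ ((W.mark d l).2 ≤ d ∧ W.cut M K (W.mark d l) (W.ppos d M K l)) := by
    rintro ⟨_, hc | hc⟩
    · exact h1 hc
    · exact h2 hc
  rw [ppos_eq_pos hnf] at h1 h2
  exact ⟨not_le.mp h1, not_le.mp h2⟩

/-! ### Verification of the hypotheses of the travel estimate -/

theorem Hyp.fa_nonneg (h : W.Hyp c U H) (l : List Bool) : 0 ≤ W.fa d M K l := by
  by_cases ha : W.act d M K l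
  · rw [fa_of_act ha]
    have := (h.mark_inv d l).1; have := h.hε
    apply div_nonneg <;> linarith
  · rw [fa_of_not_act ha]

theorem Hyp.fa_le_one (h : W.Hyp c U H) (l : List Bool) : W.fa d M K l ≤ 1 := by
  by_cases ha : W.act d M K l
  · rw [fa_of_act ha]
    have h1 := (h.mark_inv d l).1; have h2 := h.hε
    rw [div_le_one (by linarith)]
    linarith
  · rw [fa_of_not_act ha]; norm_num

theorem Hyp.trS_of_act (h : W.Hyp c U H) {l : List Bool} (ha : W.act d M K l) :
    trS (W.fa d M K) l = (W.pos l).2 / (W.mark d l).2 := by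
  have hnf : ¬ ((W.mark d l).2 ≤ d ∧ W.cut M K (W.mark d l) (W.ppos d M K l)) :=
    fun hf => ha.2.1 hf.2
  rw [((h.coords l).1 ha.1).1, ppos_eq_pos hnf, frS]

theorem Hyp.fa_le_trS (h : W.Hyp c U H) (l : List Bool) (hne : W.fa d M K l ≠ 0) :
    W.fa d M K l ≤ trS (W.fa d M K) l := by
  have ha := act_of_fa_ne hne
  rw [h.trS_of_act ha, fa_of_act ha]
  have h1 := (h.mark_inv d l).1; have h2 := h.hε; have h3 := h.pos_time_gt l
  apply div_le_div_of_nonneg_right _ (by linarith)
  linarith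

theorem Hyp.trS_lt (h : W.Hyp c U H) (l : List Bool) (hne : W.fa d M K l ≠ 0) :
    trS (W.fa d M K) l < M := by
  have ha := act_of_fa_ne hne
  rw [((h.coords l).1 ha.1).1]
  by_contra hn
  exact ha.2.1 (Or.inl (not_lt.mp hn))

theorem Hyp.fV0_le (h : W.Hyp c U H) {Fr : X → ℝ → X → Prop} {CQ : ℝ}
    (hP : ∀ z : X × ℝ, 0 < z.2 → Fr z.1 z.2 (W.P z))
    (hvel : ∀ x₁ r p₁, Fr x₁ r p₁ → 0 < r → W.ε ≤ r → ∀ x t Kf, W.ε < t → 2 ≤ Kf →
      ‖x - x₁ - (t - r) • p₁‖ ≤ Kf * r → t ≤ Kf * r →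
      ‖W.Q0 x t - p₁‖ ≤ CQ * (1 + Real.log Kf + |Real.log (t / r)|))
    (hM : 0 ≤ M) (hK : 0 ≤ K) (l : List Bool) (hne : W.fa d M K l ≠ 0) :
    ‖W.fV0 d l‖ ≤ CQ * ((1 + Real.log (K + M + 2)) + |Real.log (trS (W.fa d M K) l)|) := by
  have ha := act_of_fa_ne hne
  have hnf : ¬ ((W.mark d l).2 ≤ d ∧ W.cut M K (W.mark d l) (W.ppos d M K l)) :=
    fun hf => ha.2.1 hf.2
  have hpp := ppos_eq_pos hnf
  have h1 := (h.mark_inv d l).1
  have h2 := h.hε
  have h3 := h.pos_time_gt l
  have hr : 0 < (W.mark d l).2 := by linarith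
  have hcut := ha.2.1
  rw [hpp] at hcut
  have hS : frS (W.mark d l) (W.pos l) < M := by
    by_contra hn; exact hcut (Or.inl (not_lt.mp hn))
  have hY : ‖W.frY (W.mark d l) (W.pos l)‖ < K := by
    by_contra hn; exact hcut (Or.inr (not_lt.mp hn))
  rw [h.trS_of_act ha]
  unfold fV0
  apply hvel _ _ _ (hP _ hr) hr (by linarith) _ _ _ (by linarith) (by linarith)
  · rw [frY, norm_smul, norm_inv, Real.norm_eq_abs, abs_of_pos hr, inv_mul_lt_iff₀ hr] at hY
    have : (W.mark d l).2 * K ≤ (K + M + 2) * (W.mark d l).2 := by nlinarith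
    linarith
  · rw [frS, div_lt_iff₀ hr] at hS
    have : M * (W.mark d l).2 ≤ (K + M + 2) * (W.mark d l).2 := by nlinarith
    linarith

theorem Hyp.dsum_p (_h : W.Hyp c U H) (l : List Bool) (hne : W.fa d M K l ≠ 0) :
    W.dsum l + ‖W.fVp d l - W.fV0 d l‖ ^ 2 ≤ W.dsum (true :: l) := by
  have ha := act_of_fa_ne hne
  simp only [dsum, if_pos ha.2.2, disc, fVp, fV0, sub_sub_sub_cancel_right]
  have : 0 ≤ ‖W.Qm (W.pos l).1 (W.pos l).2 - W.Q0 (W.pos l).1 (W.pos l).2‖ ^ 2 := by positivity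
  linarith

theorem Hyp.dsum_m (_h : W.Hyp c U H) (l : List Bool) (hne : W.fa d M K l ≠ 0) :
    W.dsum l + ‖W.fVm d l - W.fV0 d l‖ ^ 2 ≤ W.dsum (false :: l) := by
  have ha := act_of_fa_ne hne
  simp only [dsum, if_pos ha.2.2, disc, fVm, fV0, sub_sub_sub_cancel_right]
  have : 0 ≤ ‖W.Qp (W.pos l).1 (W.pos l).2 - W.Q0 (W.pos l).1 (W.pos l).2‖ ^ 2 := by positivity
  linarith

/-- Probability of the upper time cutoff in the frame. -/
theorem Hyp.portion_S (h : W.Hyp c U H) (hM : 0 < M) (n : ℕ) :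
    walkP n (fun l => M ≤ trS (W.fa d M K) l) ≤ 1 / M :=
  walkP_trS_ge hM h.fa_nonneg h.fa_le_trS n

/-- Probability of the horizontal cutoff in the frame. -/
theorem Hyp.portion_Y (h : W.Hyp c U H) {Fr : X → ℝ → X → Prop} {CQ : ℝ}
    (hP : ∀ z : X × ℝ, 0 < z.2 → Fr z.1 z.2 (W.P z))
    (hvel : ∀ x₁ r p₁, Fr x₁ r p₁ → 0 < r → W.ε ≤ r → ∀ x t Kf, W.ε < t → 2 ≤ Kf →
      ‖x - x₁ - (t - r) • p₁‖ ≤ Kf * r → t ≤ Kf * r →
      ‖W.Q0 x t - p₁‖ ≤ CQ * (1 + Real.log Kf + |Real.log (t / r)|))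
    (hM : 1 ≤ M) (hK : 0 < K) (n : ℕ) :
    walkP n (fun l => K ≤ ‖trY (W.fa d M K) (W.fVp d) (W.fVm d) l‖) ≤
      trBound M CQ (1 + Real.log (K + M + 2)) ((U - H) / c) / K :=
  walkP_trY_ge (V0 := W.fV0 d) (Dsum := W.dsum) hM h.fa_nonneg h.fa_le_one h.fa_le_trS h.trS_lt
    (h.fV0_le hP hvel (by linarith) hK.le) (le_refl _) h.dsum_p h.dsum_m dsum_mono n
    (h.dsum_budget n) hK

end WalkData

end Claimed.Agent.R330
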