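/-
Row 330 (S0589), package L9 (paper Section 7), layer A2: the abstract walk theorem.
Owner: helper137.
-/
import Claimed.Agent.R330.WalkFrame

set_option autoImplicit false

namespace Claimed.Agent.R330

/-- Union bound with seven bad events. -/
theorem walkP_seven (n : ℕ) (G A1 A2 A3 A4 A5 A6 A7 : List Bool → Prop)
    (h : ∀ l, ¬ A1 l → ¬ A2 l → ¬ A3 l → ¬ A4 l → ¬ A5 l → ¬ A6 l → ¬ A7 l → G l) :
    1 ≤ walkP n G + walkP n A1 + walkP n A2 + walkP n A3 + walkP n A4 + walkP n A5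
      + walkP n A6 + walkP n A7 := by
  classical
  unfold walkP
  simp only [← walkE_add]
  calc (1 : ℝ) = walkE n (fun _ => 1) := (walkE_const n 1).symm
    _ ≤ _ := walkE_mono n (fun l => ?_)
  have i0 : ∀ p : Prop, (0 : ℝ) ≤ if p then 1 else 0 := by
    intro p; split_ifs <;> norm_num
  have hG := i0 (G l)
  have h1 := i0 (A1 l)
  have h2 := i0 (A2 l)
  have h3 := i0 (A3 l)
  have h4 := i0 (A4 l)
  have h5 := i0 (A5 l)
  have h6 := i0 (A6 l)
  have h7 := i0 (A7 l)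
  by_cases c1 : A1 l
  · rw [if_pos c1] at *; linarith
  by_cases c2 : A2 l
  · rw [if_pos c2] at *; linarith
  by_cases c3 : A3 l
  · rw [if_pos c3] at *; linarith
  by_cases c4 : A4 l
  · rw [if_pos c4] at *; linarith
  by_cases c5 : A5 l
  · rw [if_pos c5] at *; linarith
  by_cases c6 : A6 l
  · rw [if_pos c6] at *; linarith
  by_cases c7 : A7 l
  · rw [if_pos c7] at *; linarith
  rw [if_pos (h l c1 c2 c3 c4 c5 c6 c7)] at *
  linarith

variable {X : Type*} [NormedAddCommGroup X] [InnerProductSpace ℝ X]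

theorem WalkData.mark_one (W : WalkData X) : ∀ l, W.mark 1 l = (0, 1)
  | [] => rfl
  | b :: l => by
    have ih := WalkData.mark_one W l
    rw [WalkData.mark_cons_reached (by rw [ih]), ih]

/-- **Abstract walk theorem** (finite form of the first two thirds of the proof of Prop. 7.1).
`Fr x r p` stands for "`p` is the slope of a fit at `(x,r)` of radius `r`".  The walk starts at
`(0,1)`, has time step `ε`, and is stopped when `t ≤ δmin`, `t ≥ T` or `‖x‖ ≥ R`.  The mark `j`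
is the first point of the walk with `t ≤ δ j`. -/
theorem walk_main
    (Fr : X → ℝ → X → Prop) (J : X → ℝ → ℝ) (Qp Qm Q0 : X → ℝ → X)
    {c CQ U H T R M K Λ ε δmin : ℝ} {N : ℕ} {δ : ℕ → ℝ}
    (hc : 0 < c) (hT : 16 ≤ T) (hM : 16 ≤ M) (hR0 : 0 < R) (hK0 : 0 < K)
    (hR : 16 * trBound T CQ (1 + Real.log (R + T + 2)) ((U - H) / c) ≤ R)
    (hK : 16 * trBound M CQ (1 + Real.log (K + M + 2)) ((U - H) / c) ≤ K)
    (hΛ0 : 0 < U + Λ) (hΛ : 16 * (U - H) ≤ U + Λ)
    (hε : 0 < ε) (hεδ : 4 * ε ≤ δmin) (hδmin : δmin < 1) (hN : 1 ≤ N)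
    (hδ : ∀ j < N, δmin ≤ δ j ∧ δ j < 1)
    (hFr0 : Fr 0 1 0) (hFrex : ∀ x r, 0 < r → ∃ p, Fr x r p)
    (hdrift : ∀ x t, δmin < t → t < T → ‖x‖ < R →
      J x t + c * (‖Qp x t - Q0 x t‖ ^ 2 + ‖Qm x t - Q0 x t‖ ^ 2) ≤
        (J (x + ε • Qp x t) (t + ε) + J (x - ε • Qm x t) (t - ε)) / 2)
    (hU : ∀ x t, ‖x‖ ≤ R + 1 → 0 < t → t ≤ T + 1 → J x t ≤ U)
    (hH : H ≤ J 0 1)
    (hstep : ∀ x t, δmin < t → t < T → ‖x‖ < R → ε * ‖Qp x t‖ ≤ 1 ∧ ε * ‖Qm x t‖ ≤ 1)
    (hvel : ∀ x₁ r p₁, Fr x₁ r p₁ → 0 < r → ε ≤ r → ∀ x t Kf, ε < t → 2 ≤ Kf →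
      ‖x - x₁ - (t - r) • p₁‖ ≤ Kf * r → t ≤ Kf * r →
      ‖Q0 x t - p₁‖ ≤ CQ * (1 + Real.log Kf + |Real.log (t / r)|)) :
    ∃ (xe : X) (te : ℝ) (xm : ℕ → X) (rm : ℕ → ℝ) (pm : ℕ → X) (S : Finset ℕ),
      S ⊆ Finset.range N ∧ (N : ℝ) ≤ 2 * S.card ∧
      δmin - ε < te ∧ te ≤ δmin ∧ ‖xe‖ ≤ R + 1 ∧ -Λ ≤ J xe te ∧
      ∀ j ∈ S, δ j - ε < rm j ∧ rm j ≤ δ j ∧ ‖xm j‖ ≤ R + 1 ∧ -Λ ≤ J (xm j) (rm j) ∧
        Fr (xm j) (rm j) (pm j) ∧ ‖xe - xm j - (te - rm j) • pm j‖ ≤ K * rm j := by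
  classical
  -- the slope function
  let P : X × ℝ → X := fun z =>
    if z = (0, 1) then 0 else if hz : 0 < z.2 then Classical.choose (hFrex z.1 z.2 hz) else 0
  have hP : ∀ z : X × ℝ, 0 < z.2 → Fr z.1 z.2 (P z) := by
    intro z hz
    by_cases h01 : z = (0, 1)
    · simp only [P, if_pos h01]; rw [h01]; exact hFr0
    · simp only [P, if_neg h01, dif_pos hz]; exact Classical.choose_spec (hFrex z.1 z.2 hz)
  have hP01 : P (0, 1) = 0 := by simp [P]
  let W : WalkData X := ⟨ε, δmin, T, R, J, Qp, Qm, Q0, P⟩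
  have h : W.Hyp c U H :=
    ⟨hc, hε, hεδ, hδmin, by linarith, hR0, hdrift, hU, hH, hstep⟩
  -- the number of steps
  obtain ⟨n, hn⟩ := exists_nat_gt (16 * (T + 1) ^ 2 / ε ^ 2)
  have he2 : 0 < ε ^ 2 := by positivity
  have hn0 : 0 < n := by
    have : (0 : ℝ) < n := lt_of_le_of_lt (by positivity) hn
    exact_mod_cast this
  have hn' : (0 : ℝ) < n := by exact_mod_cast hn0
  -- the seven probabilities
  have pL : walkP n (fun l => W.live (W.pos l)) ≤ 1 / 16 := by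
    refine le_trans (h.live_prob hn0) ?_
    rw [div_le_iff₀ (by positivity)]
    rw [div_lt_iff₀ he2] at hn
    show (T + 1) ^ 2 ≤ 1 / 16 * (ε ^ 2 * n)
    linarith
  have pT : walkP n (fun l => T ≤ trS (W.fa 1 T R) l) ≤ 1 / 16 := by
    refine le_trans (h.portion_S (by linarith) n) ?_
    exact one_div_le_one_div_of_le (by norm_num) hT
  have pR : walkP n (fun l => R ≤ ‖trY (W.fa 1 T R) (W.fVp 1) (W.fVm 1) l‖) ≤ 1 / 16 := by
    refine le_trans (h.portion_Y hP hvel (by linarith) hR0 n) ?_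
    rw [div_le_iff₀ hR0]
    linarith
  have hUH : (U - H) / (U + Λ) ≤ 1 / 16 := by
    rw [div_le_iff₀ hΛ0]; linarith
  have pE : walkP n (fun l => W.J (W.pos l).1 (W.pos l).2 < -Λ) ≤ 1 / 16 :=
    le_trans (walkP_lower_tail n h.J_le (h.J_end n) hΛ0) hUH
  have pJ : ∀ d : ℝ, walkP n (fun l => W.J (W.mark d l).1 (W.mark d l).2 < -Λ) ≤ 1 / 16 :=
    fun d => le_trans (walkP_lower_tail n (fun l => (h.mark_inv d l).2.2) (h.J_mark d n) hΛ0) hUH
  have pS : ∀ d : ℝ, walkP n (fun l => M ≤ trS (W.fa d M K) l) ≤ 1 / 16 := by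
    intro d
    refine le_trans (h.portion_S (by linarith) n) ?_
    exact one_div_le_one_div_of_le (by norm_num) hM
  have pY : ∀ d : ℝ,
      walkP n (fun l => K ≤ ‖trY (W.fa d M K) (W.fVp d) (W.fVm d) l‖) ≤ 1 / 16 := by
    intro d
    refine le_trans (h.portion_Y hP hvel (by linarith) hK0 n) ?_
    rw [div_le_iff₀ hK0]
    linarith
  -- good histories for the index `j`
  let good : ℕ → List Bool → Prop := fun j l =>
    (W.pos l).2 ≤ δmin ∧ -Λ ≤ W.J (W.pos l).1 (W.pos l).2 ∧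
      -Λ ≤ W.J (W.mark (δ j) l).1 (W.mark (δ j) l).2 ∧ (W.mark (δ j) l).2 ≤ δ j ∧
      ‖W.frY (W.mark (δ j) l) (W.pos l)‖ < K
  have hgood : ∀ j < N, 9 / 16 ≤ walkP n (good j) := by
    intro j hj
    have key := walkP_seven n (good j) (fun l => W.live (W.pos l))
      (fun l => T ≤ trS (W.fa 1 T R) l)
      (fun l => R ≤ ‖trY (W.fa 1 T R) (W.fVp 1) (W.fVm 1) l‖)
      (fun l => W.J (W.pos l).1 (W.pos l).2 < -Λ)
      (fun l => W.J (W.mark (δ j) l).1 (W.mark (δ j) l).2 < -Λ)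
      (fun l => M ≤ trS (W.fa (δ j) M K) l)
      (fun l => K ≤ ‖trY (W.fa (δ j) M K) (W.fVp (δ j)) (W.fVm (δ j)) l‖) (by
        intro l c1 c2 c3 c4 c5 c6 c7
        have hm1 : (W.mark 1 l).2 ≤ 1 := by rw [W.mark_one l]
        obtain ⟨a1, a2⟩ := h.not_cut hm1 c2 c3
        rw [W.mark_one l] at a1 a2
        have a1' : (W.pos l).2 < T := by simpa [WalkData.frS] using a1
        have a2' : ‖(W.pos l).1‖ < R := by
          have : W.P (0, 1) = 0 := hP01
          simpa [WalkData.frY, this] using a2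
        have hlow : (W.pos l).2 ≤ δmin := by
          by_contra hn
          exact c1 ⟨not_le.mp hn, a1', a2'⟩
        have hreach : (W.mark (δ j) l).2 ≤ δ j :=
          WalkData.mark_reached_of_pos_le (le_trans hlow (hδ j hj).1)
        exact ⟨hlow, not_lt.mp c4, not_lt.mp c5, hreach, (h.not_cut hreach c6 c7).2⟩)
    have := pJ (δ j); have := pS (δ j); have := pY (δ j)
    linarith
  -- one history is good for many indices
  have hsum : (N : ℝ) / 2 ≤
      walkE n (fun l => ∑ j ∈ Finset.range N, if good j l then (1 : ℝ) else 0) := by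
    rw [walkE_sum]
    have : ∑ j ∈ Finset.range N, (9 / 16 : ℝ) ≤
        ∑ j ∈ Finset.range N, walkE n (fun l => if good j l then (1 : ℝ) else 0) :=
      Finset.sum_le_sum (fun j hj => by
        have h9 := hgood j (Finset.mem_range.mp hj)
        unfold walkP at h9
        refine le_of_le_of_eq h9 ?_
        congr 1
        funext l
        congr)
    rw [Finset.sum_const, Finset.card_range, nsmul_eq_mul] at this
    have hN0 : (0 : ℝ) ≤ N := Nat.cast_nonneg N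
    linarith
  obtain ⟨l, -, hl⟩ := walkE_exists_ge n hsum
  rw [Finset.sum_boole] at hl
  set S := (Finset.range N).filter (fun j => good j l) with hS
  have hScard : (N : ℝ) ≤ 2 * S.card := by linarith
  have hSne : S.Nonempty := by
    rw [← Finset.card_pos]
    have : (0 : ℝ) < S.card := by
      have : (1 : ℝ) ≤ N := by exact_mod_cast hN
      linarith
    exact_mod_cast this
  obtain ⟨j0, hj0⟩ := hSne
  have hg0 : good j0 l := (Finset.mem_filter.mp hj0).2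
  refine ⟨(W.pos l).1, (W.pos l).2, fun j => (W.mark (δ j) l).1, fun j => (W.mark (δ j) l).2,
    fun j => P (W.mark (δ j) l), S, Finset.filter_subset _ _, hScard, (h.pos_inv l).1, hg0.1,
    (h.pos_inv l).2.2, hg0.2.1, ?_⟩
  intro j hj
  obtain ⟨hjN, hg⟩ := Finset.mem_filter.mp hj
  have hjN' : j < N := Finset.mem_range.mp hjN
  have hinv := h.mark_inv (δ j) l
  have hr : 0 < (W.mark (δ j) l).2 := by
    have : 3 * ε < (W.mark (δ j) l).2 := hinv.1
    linarith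
  refine ⟨h.mark_time_gt (hδ j hjN').2 l, hg.2.2.2.1, hinv.2.1, hg.2.2.1, hP _ hr, ?_⟩
  have hY := hg.2.2.2.2
  rw [WalkData.frY, norm_smul, norm_inv, Real.norm_eq_abs, abs_of_pos hr,
    inv_mul_lt_iff₀ hr] at hY
  have : ‖(W.pos l).1 - (W.mark (δ j) l).1 - ((W.pos l).2 - (W.mark (δ j) l).2) •
      P (W.mark (δ j) l)‖ < (W.mark (δ j) l).2 * K := hY
  linarith

end Claimed.Agent.R330
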