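import Mathlib

/-!
# Row 330, Section 7 (layer B0): pigeonhole on monotone slopes over dyadic windows

`g i` stands for a slope at length `2^{-i}`; it is antitone in `i` and has total variation at
most `V` on `[0,N]`.  Among many indices `j` there is one such that `g` varies by at most `η` on
the window `[j-k, j+k]`.
-/

namespace Claimed.Agent.R330

/-- Sum of the window variations of an antitone sequence. -/
theorem wpg_sum_window (g : ℕ → ℝ) (N m n : ℕ) (V : ℝ)
    (hanti : ∀ i j, i ≤ j → j ≤ N → g j ≤ g i) (hV : g 0 - g N ≤ V) (hn : n + m ≤ N) :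
    ∑ i ∈ Finset.range (n + 1), (g i - g (i + m)) ≤ m * V := by
  have key : ∀ i, g i - g (i + m) = ∑ a ∈ Finset.range m, (g (i + a) - g (i + a + 1)) := by
    intro i
    have := Finset.sum_range_sub' (fun a => g (i + a)) m
    simpa [add_assoc] using this.symm
  simp_rw [key]
  rw [Finset.sum_comm]
  have h2 : ∀ a ∈ Finset.range m,
      ∑ i ∈ Finset.range (n + 1), (g (i + a) - g (i + a + 1)) ≤ V := by
    intro a ha
    have ha' : a < m := Finset.mem_range.mp ha
    have := Finset.sum_range_sub' (fun i => g (i + a)) (n + 1)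
    have e : ∑ i ∈ Finset.range (n + 1), (g (i + a) - g (i + a + 1))
        = g (0 + a) - g (n + 1 + a) := by
      rw [← this]
      apply Finset.sum_congr rfl
      intro i _
      congr 2
      omega
    rw [e]
    have h3 : g (0 + a) ≤ g 0 := hanti 0 (0 + a) (Nat.zero_le _) (by omega)
    have h4 : g N ≤ g (n + 1 + a) := hanti (n + 1 + a) N (by omega) le_rfl
    linarith
  calc ∑ a ∈ Finset.range m, ∑ i ∈ Finset.range (n + 1), (g (i + a) - g (i + a + 1))
      ≤ ∑ _a ∈ Finset.range m, V := Finset.sum_le_sum h2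
    _ = m * V := by simp

/-- The number of indices `j ∈ [k, N-k]` whose window variation exceeds `η` is at most
`2 k V / η`. -/
theorem wpg_card_bad (g : ℕ → ℝ) (N k : ℕ) (V η : ℝ) (hη : 0 < η)
    (hanti : ∀ i j, i ≤ j → j ≤ N → g j ≤ g i) (hV : g 0 - g N ≤ V)
    (S : Finset ℕ) (hS : ∀ j ∈ S, k ≤ j ∧ j + k ≤ N ∧ η < g (j - k) - g (j + k)) :
    (S.card : ℝ) * η ≤ 2 * k * V := by
  classical
  by_cases hne : S.Nonempty
  swap
  · rw [Finset.not_nonempty_iff_eq_empty] at hne
    subst hne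
    have hV0 : 0 ≤ V := by
      have := hanti 0 N (Nat.zero_le _) le_rfl
      linarith
    simp only [Finset.card_empty, Nat.cast_zero, zero_mul]
    positivity
  obtain ⟨j0, hj0⟩ := hne
  have h2k : 2 * k ≤ N := by
    have := hS j0 hj0
    omega
  -- shift the index set by `k`
  set n := N - 2 * k with hn
  have hsub : S.image (fun j => j - k) ⊆ Finset.range (n + 1) := by
    intro i hi
    rw [Finset.mem_image] at hi
    obtain ⟨j, hj, rfl⟩ := hi
    have := hS j hj
    rw [Finset.mem_range]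
    omega
  have hinj : Set.InjOn (fun j => j - k) (S : Set ℕ) := by
    intro a ha b hb hab
    have h1 := hS a ha
    have h2 := hS b hb
    simp only at hab
    omega
  have hnonneg : ∀ i ∈ Finset.range (n + 1), 0 ≤ g i - g (i + 2 * k) := by
    intro i hi
    rw [Finset.mem_range] at hi
    have := hanti i (i + 2 * k) (by omega) (by omega)
    linarith
  have h1 : (S.card : ℝ) * η ≤ ∑ i ∈ S.image (fun j => j - k), (g i - g (i + 2 * k)) := by
    rw [Finset.sum_image hinj]
    have : ∀ j ∈ S, η ≤ g (j - k) - g (j - k + 2 * k) := by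
      intro j hj
      obtain ⟨h1, h2, h3⟩ := hS j hj
      have e : j - k + 2 * k = j + k := by omega
      rw [e]
      exact h3.le
    calc (S.card : ℝ) * η = ∑ _j ∈ S, η := by simp
      _ ≤ _ := Finset.sum_le_sum this
  have h2 : ∑ i ∈ S.image (fun j => j - k), (g i - g (i + 2 * k))
      ≤ ∑ i ∈ Finset.range (n + 1), (g i - g (i + 2 * k)) :=
    Finset.sum_le_sum_of_subset_of_nonneg hsub (fun i hi _ => hnonneg i hi)
  have h3 := wpg_sum_window g N (2 * k) n V hanti hV (by omega)
  calc (S.card : ℝ) * η ≤ _ := h1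
    _ ≤ _ := h2
    _ ≤ ((2 * k : ℕ) : ℝ) * V := h3
    _ = 2 * k * V := by push_cast; ring

/-- **Pigeonhole.** Two antitone sequences with total variation at most `V` on `[0,N]`, and a
set `S ⊆ [1,N]` of more than `2k + 4kV/η` indices: some `j ∈ S` has `k ≤ j`, `j + k ≤ N` and both
sequences vary by at most `η` on the window `[j-k, j+k]`. -/
theorem wpg_pigeon (g₁ g₂ : ℕ → ℝ) (N k : ℕ) (V η : ℝ) (hη : 0 < η)
    (h₁ : ∀ i j, i ≤ j → j ≤ N → g₁ j ≤ g₁ i) (h₂ : ∀ i j, i ≤ j → j ≤ N → g₂ j ≤ g₂ i)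
    (hV₁ : g₁ 0 - g₁ N ≤ V) (hV₂ : g₂ 0 - g₂ N ≤ V)
    (S : Finset ℕ) (hS : ∀ j ∈ S, 1 ≤ j ∧ j ≤ N)
    (hcard : 2 * (k : ℝ) + 4 * k * V / η < S.card) :
    ∃ j ∈ S, k ≤ j ∧ j + k ≤ N ∧ g₁ (j - k) - g₁ (j + k) ≤ η ∧ g₂ (j - k) - g₂ (j + k) ≤ η := by
  classical
  by_contra hcon
  push_neg at hcon
  -- split `S`
  set A := S.filter (fun j => ¬ (k ≤ j ∧ j + k ≤ N)) with hA
  set B₁ := S.filter (fun j => (k ≤ j ∧ j + k ≤ N) ∧ η < g₁ (j - k) - g₁ (j + k)) with hB₁
  set B₂ := S.filter (fun j => (k ≤ j ∧ j + k ≤ N) ∧ η < g₂ (j - k) - g₂ (j + k)) with hB₂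
  have hcover : S ⊆ A ∪ (B₁ ∪ B₂) := by
    intro j hj
    by_cases hw : k ≤ j ∧ j + k ≤ N
    · by_cases hb : η < g₁ (j - k) - g₁ (j + k)
      · simp only [Finset.mem_union]
        right; left
        simp [hB₁, hj, hw, hb]
      · have := hcon j hj hw.1 hw.2 (not_lt.mp hb)
        simp only [Finset.mem_union]
        right; right
        simp [hB₂, hj, hw, this]
    · simp only [Finset.mem_union]
      left
      simp only [hA, Finset.mem_filter]
      exact ⟨hj, hw⟩
  have hAcard : A.card ≤ 2 * k := by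
    have hsub : A ⊆ (Finset.Ico 1 k) ∪ (Finset.Ioc (N - k) N) := by
      intro j hj
      simp only [hA, Finset.mem_filter] at hj
      obtain ⟨hjS, hw⟩ := hj
      have := hS j hjS
      simp only [Finset.mem_union, Finset.mem_Ico, Finset.mem_Ioc]
      by_cases hk : k ≤ j
      · right
        have : ¬ (j + k ≤ N) := fun h => hw ⟨hk, h⟩
        omega
      · left
        omega
    calc A.card ≤ ((Finset.Ico 1 k) ∪ (Finset.Ioc (N - k) N)).card := Finset.card_le_card hsub
      _ ≤ (Finset.Ico 1 k).card + (Finset.Ioc (N - k) N).card := Finset.card_union_le _ _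
      _ ≤ 2 * k := by
        simp only [Nat.card_Ico, Nat.card_Ioc]
        omega
  have hB₁card := wpg_card_bad g₁ N k V η hη h₁ hV₁ B₁ (by
    intro j hj
    simp only [hB₁, Finset.mem_filter] at hj
    exact ⟨hj.2.1.1, hj.2.1.2, hj.2.2⟩)
  have hB₂card := wpg_card_bad g₂ N k V η hη h₂ hV₂ B₂ (by
    intro j hj
    simp only [hB₂, Finset.mem_filter] at hj
    exact ⟨hj.2.1.1, hj.2.1.2, hj.2.2⟩)
  have hScard : S.card ≤ A.card + (B₁.card + B₂.card) := by
    calc S.card ≤ (A ∪ (B₁ ∪ B₂)).card := Finset.card_le_card hcover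
      _ ≤ A.card + (B₁ ∪ B₂).card := Finset.card_union_le _ _
      _ ≤ A.card + (B₁.card + B₂.card) := by
        have := Finset.card_union_le B₁ B₂
        omega
  have hScardR : (S.card : ℝ) ≤ A.card + (B₁.card + B₂.card) := by exact_mod_cast hScard
  have hAR : (A.card : ℝ) ≤ 2 * k := by exact_mod_cast hAcard
  have e1 : (B₁.card : ℝ) ≤ 2 * k * V / η := by
    rw [le_div_iff₀ hη]; exact hB₁card
  have e2 : (B₂.card : ℝ) ≤ 2 * k * V / η := by
    rw [le_div_iff₀ hη]; exact hB₂card
  have e3 : 4 * (k : ℝ) * V / η = 2 * k * V / η + 2 * k * V / η := by ring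
  linarith

end Claimed.Agent.R330
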