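/-
Row 330 (S0589), package L9 (paper Section 7), layer B (abstract): finite form of Prop. 7.1.
Statement by helper137; OWNER of this file (proof): helper250.
-/
import Claimed.Agent.R330.WalkMain
import Claimed.Agent.R330.WpgPigeon

set_option autoImplicit false

namespace Claimed.Agent.R330

open Filter Asymptotics

/-- A fourth power of a logarithm is eventually beaten by the identity. -/
theorem wloc_exists_cutoff (A S : ℝ) (hS : 0 ≤ S) :
    ∃ R : ℝ, 2 ≤ R ∧ A * (1 + Real.log (R + S)) ^ 4 ≤ R := by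
  have h1 : (fun x : ℝ => Real.log x ^ 4) =o[atTop] (id : ℝ → ℝ) :=
    Real.isLittleO_pow_log_id_atTop
  have ht : Tendsto (fun R : ℝ => Real.exp 1 * (R + S)) atTop atTop :=
    Tendsto.const_mul_atTop (Real.exp_pos 1) (tendsto_atTop_add_const_right _ _ tendsto_id)
  have h2 := h1.comp_tendsto ht
  have hc : 0 < 1 / (2 * Real.exp 1 * (|A| + 1)) := by positivity
  have h3 := h2.bound hc
  obtain ⟨R, hR1, hR2, hR3⟩ :=
    (h3.and ((eventually_ge_atTop (2 : ℝ)).and (eventually_ge_atTop S))).exists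
  refine ⟨R, hR2, ?_⟩
  simp only [Function.comp, id, Real.norm_eq_abs] at hR1
  have hpos : 0 < R + S := by linarith
  have hlog : Real.log (Real.exp 1 * (R + S)) = 1 + Real.log (R + S) := by
    rw [Real.log_mul (Real.exp_pos 1).ne' hpos.ne', Real.log_exp]
  rw [hlog] at hR1
  have habs : |Real.exp 1 * (R + S)| = Real.exp 1 * (R + S) :=
    abs_of_pos (mul_pos (Real.exp_pos 1) hpos)
  rw [habs, abs_of_nonneg (by positivity)] at hR1
  have h4 : 1 / (2 * Real.exp 1 * (|A| + 1)) * (Real.exp 1 * (R + S))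
      = (R + S) / (2 * (|A| + 1)) := by
    have := (Real.exp_pos 1).ne'
    field_simp
  rw [h4] at hR1
  have h5 : (|A| + 1) * (1 + Real.log (R + S)) ^ 4 ≤ (R + S) / 2 := by
    have hA : 0 < |A| + 1 := by positivity
    calc (|A| + 1) * (1 + Real.log (R + S)) ^ 4 ≤ (|A| + 1) * ((R + S) / (2 * (|A| + 1))) :=
          mul_le_mul_of_nonneg_left hR1 hA.le
      _ = (R + S) / 2 := by field_simp
  have h6 : A * (1 + Real.log (R + S)) ^ 4 ≤ (|A| + 1) * (1 + Real.log (R + S)) ^ 4 :=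
    mul_le_mul_of_nonneg_right (by linarith [le_abs_self A]) (by positivity)
  linarith

/-- The constant in front of `L ^ 4` in the bound of `trBound 16`. -/
noncomputable def wlocA (CQ : ℝ) : ℝ :=
  (1 + 2 * CQ ^ 2 * (1 + Real.log 16 ^ 2) * (16 + 1) ^ 2 + 64 * CQ ^ 2 + (16 + 1) ^ 2) / 2

theorem wlocA_nonneg (CQ : ℝ) : 0 ≤ wlocA CQ := by
  unfold wlocA
  positivity

theorem wloc_trBound_le (CQ L B0 : ℝ) (hL : 1 ≤ L) :
    trBound 16 CQ L B0 ≤ wlocA CQ * L ^ 4 + B0 / 2 := by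
  have h2 : L ^ 2 ≤ L ^ 4 := pow_le_pow_right₀ hL (by norm_num)
  have h1 : (1 : ℝ) ≤ L ^ 4 := one_le_pow₀ hL
  have hl : 0 ≤ Real.log 16 ^ 2 := sq_nonneg _
  have hq : 0 ≤ CQ ^ 2 := sq_nonneg _
  have e1 : L ^ 2 + Real.log 16 ^ 2 ≤ (1 + Real.log 16 ^ 2) * L ^ 4 := by nlinarith
  have e2 : 2 * CQ ^ 2 * (L ^ 2 + Real.log 16 ^ 2) * (16 + 1) ^ 2
      ≤ 2 * CQ ^ 2 * ((1 + Real.log 16 ^ 2) * L ^ 4) * (16 + 1) ^ 2 := by
    apply mul_le_mul_of_nonneg_right _ (by positivity)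
    exact mul_le_mul_of_nonneg_left e1 (by positivity)
  have e3 : 64 * CQ ^ 2 ≤ 64 * CQ ^ 2 * L ^ 4 := by nlinarith
  unfold trBound wlocA
  nlinarith

variable {X : Type*} [NormedAddCommGroup X] [InnerProductSpace ℝ X]

/-- **Abstract finite form of Prop. 7.1.** -/
theorem walk_localize
    (Fr : X → ℝ → X → Prop) (J : ℝ → X → ℝ → ℝ) (Qp Qm Q0 : ℝ → X → ℝ → X)
    (Sp Sm : ℝ → X → ℝ → ℝ) (gap : X → ℝ → ℝ)
    {c CQ CU H : ℝ} (hc : 0 < c)
    (hFr0 : Fr 0 1 0) (hFrex : ∀ x r, 0 < r → ∃ p, Fr x r p)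
    (hdrift : ∀ ε x t, 0 < ε → ε < t →
      J ε x t + c * (‖Qp ε x t - Q0 ε x t‖ ^ 2 + ‖Qm ε x t - Q0 ε x t‖ ^ 2) ≤
        (J ε (x + ε • Qp ε x t) (t + ε) + J ε (x - ε • Qm ε x t) (t - ε)) / 2)
    (hJS : ∀ ε x t, 0 < ε → 0 < t → J ε x t ≤ (Sp ε x t + Sm ε x t) / 2)
    (hSpmono : ∀ x t ρ₁ ρ₂, 0 < ρ₁ → ρ₁ ≤ ρ₂ → Sp ρ₁ x t ≤ Sp ρ₂ x t)
    (hSmmono : ∀ x t ρ₁ ρ₂, 0 < ρ₁ → ρ₁ ≤ ρ₂ → Sm ρ₁ x t ≤ Sm ρ₂ x t)
    (hSup : ∀ B x t ρ, 2 ≤ B → ‖x‖ ≤ B → |t| ≤ B → 0 < ρ → ρ ≤ B →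
      Sp ρ x t ≤ CU * (1 + Real.log B) ^ 4 ∧ Sm ρ x t ≤ CU * (1 + Real.log B) ^ 4)
    (hH : ∃ ε₀ > 0, ∀ ε, 0 < ε → ε ≤ ε₀ → H ≤ J ε 0 1)
    (hstep : ∀ B, ∃ ε₀ > 0, ∀ ε x t, 0 < ε → ε ≤ ε₀ → ‖x‖ ≤ B → ε < t → t ≤ B →
      ε * ‖Qp ε x t‖ ≤ 1 ∧ ε * ‖Qm ε x t‖ ≤ 1)
    (hvel : ∀ ε x₁ r p₁, Fr x₁ r p₁ → 0 < ε → ε ≤ r → ∀ x t Kf, ε < t → 2 ≤ Kf →
      ‖x - x₁ - (t - r) • p₁‖ ≤ Kf * r → t ≤ Kf * r →
      ‖Q0 ε x t - p₁‖ ≤ CQ * (1 + Real.log Kf + |Real.log (t / r)|))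
    (hgap : ∀ B, ∃ G, ∀ ε x t, 0 < ε → ε ≤ 1 → ‖x‖ ≤ B → 0 < t → t ≤ B →
      gap x t ≤ 2 * ε * (G - J ε x t)) :
    ∃ K : ℝ, ∀ η : ℝ, 0 < η → ∀ k : ℕ, ∃ (x₁ : X) (r : ℝ) (p₁ : X) (xe : X) (te : ℝ),
      0 < r ∧ r ≤ 1 ∧ Fr x₁ r p₁ ∧ 0 < te ∧ te ≤ r ∧
      ‖xe - x₁ - (te - r) • p₁‖ ≤ K * r ∧ gap x₁ r ≤ η * r ∧
      ∀ ρ ρ', r / 2 ^ k ≤ ρ → ρ ≤ ρ' → ρ' ≤ 2 ^ k * r →
        Sp ρ' xe te - Sp ρ xe te ≤ η ∧ Sm ρ' xe te - Sm ρ xe te ≤ η := by
  classical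
  obtain ⟨εH, hεH, hH'⟩ := hH
  -- the outer cutoff `R`
  obtain ⟨R, hR2, hRA⟩ :=
    wloc_exists_cutoff (16 * wlocA CQ + 8 * ((|CU| + |H|) / c)) 18 (by norm_num)
  have hR0 : 0 < R := by linarith
  set LR : ℝ := 1 + Real.log (R + 18) with hLR
  have hLR1 : 1 ≤ LR := by
    have : 0 ≤ Real.log (R + 18) := Real.log_nonneg (by linarith)
    linarith
  set U : ℝ := |CU| * LR ^ 4 with hUdef
  have hLR4 : (1 : ℝ) ≤ LR ^ 4 := one_le_pow₀ hLR1
  -- upper bound of the slopes in the box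
  have hSU : ∀ x t ρ, ‖x‖ ≤ R + 1 → 0 < t → t ≤ 17 → 0 < ρ → ρ ≤ 1 →
      Sp ρ x t ≤ U ∧ Sm ρ x t ≤ U := by
    intro x t ρ hx ht0 ht hρ0 hρ
    have h := hSup (R + 18) x t ρ (by linarith) (by linarith)
      (by rw [abs_of_pos ht0]; linarith) hρ0 (by linarith)
    have hle : CU * (1 + Real.log (R + 18)) ^ 4 ≤ U :=
      mul_le_mul_of_nonneg_right (le_abs_self CU) (by positivity)
    exact ⟨h.1.trans hle, h.2.trans hle⟩
  have hJU : ∀ ε x t, 0 < ε → ε ≤ 1 → ‖x‖ ≤ R + 1 → 0 < t → t ≤ 17 → J ε x t ≤ U := by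
    intro ε x t hε0 hε1 hx ht0 ht
    have h1 := hJS ε x t hε0 ht0
    have h2 := hSU x t ε hx ht0 ht hε0 hε1
    linarith [h2.1, h2.2]
  have hUH : H ≤ U := by
    have h1 := hH' (min εH 1) (lt_min hεH one_pos) (min_le_left _ _)
    have h2 := hJU (min εH 1) 0 1 (lt_min hεH one_pos) (min_le_right _ _)
      (by rw [norm_zero]; linarith) one_pos (by norm_num)
    linarith
  have hR : 16 * trBound 16 CQ (1 + Real.log (R + 16 + 2)) ((U - H) / c) ≤ R := by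
    have e : R + 16 + 2 = R + 18 := by ring
    rw [e]
    have h1 := wloc_trBound_le CQ LR ((U - H) / c) hLR1
    have h2 : (U - H) / c ≤ (|CU| + |H|) / c * LR ^ 4 := by
      rw [div_mul_eq_mul_div]
      apply div_le_div_of_nonneg_right _ hc.le
      have : -H ≤ |H| * LR ^ 4 := by
        have h3 : -H ≤ |H| := neg_le_abs H
        have h4 : |H| ≤ |H| * LR ^ 4 := le_mul_of_one_le_right (abs_nonneg H) hLR4
        linarith
      rw [hUdef]
      linarith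
    have h3 : (16 * wlocA CQ + 8 * ((|CU| + |H|) / c)) * LR ^ 4 ≤ R := hRA
    nlinarith
  -- the frame cutoff `K`
  obtain ⟨K, hK2, hKA⟩ :=
    wloc_exists_cutoff (16 * wlocA CQ + 8 * ((U - H) / c)) 18 (by norm_num)
  have hK0 : 0 < K := by linarith
  have hK : 16 * trBound 16 CQ (1 + Real.log (K + 16 + 2)) ((U - H) / c) ≤ K := by
    have e : K + 16 + 2 = K + 18 := by ring
    rw [e]
    have hL1 : 1 ≤ 1 + Real.log (K + 18) := by
      have : 0 ≤ Real.log (K + 18) := Real.log_nonneg (by linarith)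
      linarith
    have h1 := wloc_trBound_le CQ (1 + Real.log (K + 18)) ((U - H) / c) hL1
    have h4 : (1 : ℝ) ≤ (1 + Real.log (K + 18)) ^ 4 := one_le_pow₀ hL1
    have h5 : 0 ≤ (U - H) / c := div_nonneg (by linarith) hc.le
    have h2 : (U - H) / c ≤ (U - H) / c * (1 + Real.log (K + 18)) ^ 4 :=
      le_mul_of_one_le_right h5 h4
    nlinarith
  set Λ : ℝ := 16 * (U - H) - U + 1 with hΛdef
  have hΛ0 : 0 < U + Λ := by rw [hΛdef]; linarith
  have hΛ : 16 * (U - H) ≤ U + Λ := by rw [hΛdef]; linarith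
  refine ⟨K, fun η hη k => ?_⟩
  set V : ℝ := 2 * U + 2 * Λ with hVdef
  have hV0 : 0 < V := by rw [hVdef]; linarith
  obtain ⟨N, hNbig⟩ := exists_nat_gt (2 * (2 * ((k + 1 : ℕ) : ℝ) + 4 * ((k + 1 : ℕ) : ℝ) * V / η))
  have hNpos : (0 : ℝ) < N := by
    refine lt_of_le_of_lt ?_ hNbig
    positivity
  have hN1 : 1 ≤ N := by
    have : 0 < N := by exact_mod_cast hNpos
    omega
  set δ : ℕ → ℝ := fun j => (1 / 2 : ℝ) ^ (j + 1) with hδdef
  set δmin : ℝ := (1 / 2 : ℝ) ^ (N + 1) with hδmin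
  have hδmin0 : 0 < δmin := by positivity
  obtain ⟨εs, hεs, hstep'⟩ := hstep (R + 18)
  obtain ⟨Gc, hGc⟩ := hgap (R + 18)
  set ε : ℝ := min (min εH εs)
    (min ((1 / 2 : ℝ) ^ (N + (k + 1) + 2)) (η * δmin / (2 * (|Gc + Λ| + 1)))) with hεdef
  have hε0 : 0 < ε := by
    refine lt_min (lt_min hεH hεs) (lt_min (by positivity) (by positivity))
  have hε_H : ε ≤ εH := (min_le_left _ _).trans (min_le_left _ _)
  have hε_s : ε ≤ εs := (min_le_left _ _).trans (min_le_right _ _)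
  have hε_p : ε ≤ (1 / 2 : ℝ) ^ (N + (k + 1) + 2) := (min_le_right _ _).trans (min_le_left _ _)
  have hε_g : ε ≤ η * δmin / (2 * (|Gc + Λ| + 1)) := (min_le_right _ _).trans (min_le_right _ _)
  have hpow_anti : ∀ i j : ℕ, i ≤ j → (1 / 2 : ℝ) ^ j ≤ (1 / 2 : ℝ) ^ i := fun i j hij =>
    pow_le_pow_of_le_one (by norm_num) (by norm_num) hij
  have hε_Np : ε ≤ (1 / 2 : ℝ) ^ (N + (k + 1)) := hε_p.trans (hpow_anti _ _ (by omega))
  have h4ε : 4 * ε ≤ δmin := by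
    have h1 : ε ≤ (1 / 2 : ℝ) ^ (N + 1 + 2) := hε_p.trans (hpow_anti _ _ (by omega))
    have h2 : (1 / 2 : ℝ) ^ (N + 1 + 2) = δmin / 4 := by
      rw [hδmin, pow_add]; ring
    linarith
  have hδmin1 : δmin < 1 := by
    rw [hδmin]
    exact pow_lt_one₀ (by norm_num) (by norm_num) (by omega)
  have hε1 : ε ≤ 1 := by linarith
  have hδ : ∀ j < N, δmin ≤ δ j ∧ δ j < 1 := by
    intro j hj
    refine ⟨hpow_anti _ _ (by omega), ?_⟩
    exact pow_lt_one₀ (by norm_num) (by norm_num) (by omega)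
  obtain ⟨xe, te, xm, rm, pm, S, hSsub, hScard, hte1, hte2, hxe, hJe, hS⟩ :=
    walk_main Fr (J ε) (Qp ε) (Qm ε) (Q0 ε) (c := c) (CQ := CQ) (U := U) (H := H) (T := 16)
      (R := R) (M := 16) (K := K) (Λ := Λ) (ε := ε) (δmin := δmin) (N := N) (δ := δ)
      hc le_rfl le_rfl hR0 hK0 hR hK hΛ0 hΛ hε0 h4ε hδmin1 hN1 hδ hFr0 hFrex
      (fun x t ht _ _ => hdrift ε x t hε0 (by linarith))
      (fun x t hx ht0 ht => hJU ε x t hε0 hε1 hx ht0 (by linarith))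
      (hH' ε hε0 hε_H)
      (fun x t ht1 ht2 hx => hstep' ε x t hε0 hε_s (by linarith) (by linarith) (by linarith))
      (fun x₁ r p₁ hFr _ hεr x t Kf ht hKf h1 h2 => hvel ε x₁ r p₁ hFr hε0 hεr x t Kf ht hKf h1 h2)
  have hte0 : 0 < te := by linarith
  have hte17 : te ≤ 17 := by linarith
  -- slopes at the terminal point
  have hSe := hSU xe te ε hxe hte0 hte17 hε0 hε1
  have hJSe := hJS ε xe te hε0 hte0
  have hSpε : -2 * Λ - U ≤ Sp ε xe te := by linarith [hSe.2]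
  have hSmε : -2 * Λ - U ≤ Sm ε xe te := by linarith [hSe.1]
  have hS1 := hSU xe te 1 hxe hte0 hte17 one_pos le_rfl
  set g₁ : ℕ → ℝ := fun i => Sp ((1 / 2 : ℝ) ^ i) xe te with hg₁
  set g₂ : ℕ → ℝ := fun i => Sm ((1 / 2 : ℝ) ^ i) xe te with hg₂
  have hcardimg : (S.image (fun j => j + 1)).card = S.card :=
    Finset.card_image_of_injective _ (fun a b h => by simpa using h)
  obtain ⟨jp, hjp, hk1, hk2, hv1, hv2⟩ := wpg_pigeon g₁ g₂ (N + (k + 1)) (k + 1) V η hη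
    (fun i j hij _ => hSpmono xe te _ _ (by positivity) (hpow_anti i j hij))
    (fun i j hij _ => hSmmono xe te _ _ (by positivity) (hpow_anti i j hij))
    (by
      have h1 : Sp ε xe te ≤ g₁ (N + (k + 1)) := hSpmono xe te _ _ hε0 hε_Np
      have h2 : g₁ 0 ≤ U := by simpa [hg₁] using hS1.1
      rw [hVdef]; linarith)
    (by
      have h1 : Sm ε xe te ≤ g₂ (N + (k + 1)) := hSmmono xe te _ _ hε0 hε_Np
      have h2 : g₂ 0 ≤ U := by simpa [hg₂] using hS1.2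
      rw [hVdef]; linarith)
    (S.image (fun j => j + 1))
    (by
      intro j hj
      rw [Finset.mem_image] at hj
      obtain ⟨i, hi, rfl⟩ := hj
      have := Finset.mem_range.mp (hSsub hi)
      omega)
    (by
      rw [hcardimg]
      linarith)
  rw [Finset.mem_image] at hjp
  obtain ⟨j, hjS, rfl⟩ := hjp
  obtain ⟨hr1, hr2, hxm, hJm, hFrm, hloc⟩ := hS j hjS
  have hjN : j < N := Finset.mem_range.mp (hSsub hjS)
  have hδj := hδ j hjN
  have hr_half : δ j / 2 < rm j := by linarith [hδj.1]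
  have hr0 : 0 < rm j := by
    have : 0 < δ j := by positivity
    linarith
  have hr_min : δmin < rm j := by
    have h1 : (1 / 2 : ℝ) ^ N ≤ δ j := hpow_anti _ _ (by omega)
    have h2 : (1 / 2 : ℝ) ^ N = 2 * δmin := by
      rw [hδmin, pow_succ]; ring
    linarith
  refine ⟨xm j, rm j, pm j, xe, te, hr0, by linarith [hδj.2], hFrm, hte0, by linarith, hloc,
    ?_, ?_⟩
  · -- the contact defect
    have h1 := hGc ε (xm j) (rm j) hε0 hε1 (by linarith) hr0 (by linarith [hδj.2])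
    have h2 : 2 * ε * (Gc - J ε (xm j) (rm j)) ≤ 2 * ε * (|Gc + Λ| + 1) := by
      apply mul_le_mul_of_nonneg_left _ (by positivity)
      have := le_abs_self (Gc + Λ)
      linarith
    have h3 : 2 * ε * (|Gc + Λ| + 1) ≤ η * δmin := by
      have hpos : 0 < 2 * (|Gc + Λ| + 1) := by positivity
      have := (le_div_iff₀ hpos).mp hε_g
      linarith
    have h4 : η * δmin ≤ η * rm j := mul_le_mul_of_nonneg_left hr_min.le hη.le
    linarith
  · intro ρ ρ' hρ1 hρρ' hρ2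
    have h2k : (0 : ℝ) < 2 ^ k := by positivity
    -- lower end of the window
    have hlow : (1 / 2 : ℝ) ^ (j + 1 + (k + 1)) ≤ ρ := by
      have e : (1 / 2 : ℝ) ^ (j + 1 + (k + 1)) = δ j / 2 / 2 ^ k := by
        rw [hδdef]
        simp only
        rw [pow_add, pow_succ (1 / 2 : ℝ) k, one_div_pow (2 : ℝ) k]
        field_simp
      rw [e]
      refine le_trans ?_ hρ1
      exact div_le_div_of_nonneg_right hr_half.le h2k.le
    have hhigh : ρ' ≤ (1 / 2 : ℝ) ^ (j + 1 - (k + 1)) := by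
      have e : (1 / 2 : ℝ) ^ (j + 1 - (k + 1)) = 2 ^ (k + 1) * δ j := by
        have gen : ∀ m n : ℕ, (1 / 2 : ℝ) ^ m = 2 ^ n * (1 / 2 : ℝ) ^ (m + n) := by
          intro m n
          rw [pow_add, one_div_pow (2 : ℝ) n]
          field_simp
        have h := gen (j + 1 - (k + 1)) (k + 1)
        rwa [Nat.sub_add_cancel hk1] at h
      rw [e]
      refine le_trans hρ2 ?_
      have h1 : (2 : ℝ) ^ k * rm j ≤ 2 ^ k * δ j := mul_le_mul_of_nonneg_left hr2 h2k.le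
      have h2 : (2 : ℝ) ^ k * δ j ≤ 2 ^ (k + 1) * δ j := by
        apply mul_le_mul_of_nonneg_right _ (by positivity)
        exact pow_le_pow_right₀ (by norm_num) (by omega)
      linarith
    have hρ0 : 0 < ρ := lt_of_lt_of_le (by positivity) hlow
    have hρ'0 : 0 < ρ' := lt_of_lt_of_le hρ0 hρρ'
    constructor
    · have a1 : Sp ρ' xe te ≤ g₁ (j + 1 - (k + 1)) := hSpmono xe te _ _ hρ'0 hhigh
      have a2 : g₁ (j + 1 + (k + 1)) ≤ Sp ρ xe te := hSpmono xe te _ _ (by positivity) hlow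
      linarith
    · have a1 : Sm ρ' xe te ≤ g₂ (j + 1 - (k + 1)) := hSmmono xe te _ _ hρ'0 hhigh
      have a2 : g₂ (j + 1 + (k + 1)) ≤ Sm ρ xe te := hSmmono xe te _ _ (by positivity) hlow
      linarith

end Claimed.Agent.R330
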