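/-
Row 330 (S0589), package L9 (paper Section 7), layer B, instantiation: statement T2 of
`PartB.lean` (`pb_contact_propagation`) from the abstract theorem `walk_localize`.
Owner: helper197.
-/
import Claimed.Agent.R330.WalkLocalize
import Claimed.Agent.R330.WalkBJ
import Claimed.Agent.R330.WalkBSteps
import Claimed.Agent.R330.WalkBSupply

namespace Claimed.Agent.R330

open Filter Topology Set

variable {X : Type*} [NormedAddCommGroup X] [InnerProductSpace ℝ X]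

/-- **T2** (paper Prop 7.1 in the finite, measure-free form); same statement as
`pb_contact_propagation`. -/
theorem walkB_contact_propagation [FiniteDimensional ℝ X] {C₀ G Λ : ℝ} (hC : 1 ≤ C₀) (hG : 0 < G)
    {v : X → ℝ → ℝ} (hv : ClassA C₀ v) (hc : CenteredAt C₀ v 0 1) (hgap : GapBound G v)
    (hcontact : bary 1 (fun y => v y 1) 0 - v 0 1 = G)
    (hP : ∀ ε : ℝ, 0 < ε → -Λ ≤ slopeP ε (Wk G v) 0 1)
    (hM : ∀ ε : ℝ, 0 < ε → -Λ ≤ slopeM ε v 0 1) :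
    ∃ K : ℝ, ∀ (k : ℕ) (η : ℝ), 0 < η →
      ∃ (r : ℝ) (xj pj : X) (aj : ℝ) (xe : X) (te : ℝ),
        0 < r ∧ IsFit C₀ v xj r r pj aj ∧ 0 < te ∧ te ≤ r ∧
        ‖xe - xj - (te - r) • pj‖ ≤ K * r ∧
        v xj r - Wk G v xj r ≤ η * r ∧
        slopeP (2 ^ k * r) v xe te - slopeP (r / 2 ^ k) v xe te ≤ η ∧
        slopeM (2 ^ k * r) v xe te - slopeM (r / 2 ^ k) v xe te ≤ η := by
  have h : WalkBStd C₀ G v := ⟨hC, hG, hv, hc, hgap⟩
  obtain ⟨CU, hCU⟩ := walkB_slope_sup h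
  obtain ⟨CQ, hCQ⟩ := walkB_vel h
  have hstepspec : ∀ (ε : ℝ) (x : X) (t : ℝ), 0 < ε → ε < t →
      WalkBStep (Wk G v) v ε x t (walkBQ (Wk G v) v ε x t).1 (walkBQ (Wk G v) v ε x t).2.1
        (walkBQ (Wk G v) v ε x t).2.2 :=
    fun ε x t hε ht => walkBQ_spec (walkB_exists_step h hε x ht)
  obtain ⟨K, hK⟩ := walk_localize
    (Fr := fun x r p => ∃ a, IsFit C₀ v x r r p a)
    (J := fun ε => Jeps ε (Wk G v) v)
    (Qp := fun ε x t => (walkBQ (Wk G v) v ε x t).1)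
    (Qm := fun ε x t => (walkBQ (Wk G v) v ε x t).2.1)
    (Q0 := fun ε x t => (walkBQ (Wk G v) v ε x t).2.2)
    (Sp := fun ρ => slopeP ρ v) (Sm := fun ρ => slopeM ρ v)
    (gap := fun x t => v x t - Wk G v x t)
    (c := dpC) (CQ := CQ) (CU := CU) (H := -Λ)
    dpC_pos
    ⟨0, hc.2⟩
    (fun x r hr => by
      obtain ⟨p, a, hpa⟩ := hv.fits x r r hr
      exact ⟨p, a, hpa⟩)
    (fun ε x t hε ht => by
      have := (hstepspec ε x t hε ht).drift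
      linarith)
    (fun ε x t hε ht => (walkB_standing h).J_le hε ht x)
    (fun x t ρ₁ ρ₂ h1 h12 => walkB_slopeP_mono_v h x t h1 h12)
    (fun x t ρ₁ ρ₂ h1 h12 => walkB_slopeM_mono_v h x t h1 h12)
    hCU
    ⟨1, one_pos, fun ε hε _ => walkB_J_start hcontact hP hM hε⟩
    (fun B => by
      obtain ⟨ε₀, hε₀, hs⟩ := walkB_small_steps h B
      exact ⟨ε₀, hε₀, fun ε x t hε hε' hx ht htB =>
        hs ε x t _ _ _ hε hε' hx (hε.trans ht) htB (hstepspec ε x t hε ht)⟩)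
    (fun ε x₁ r p₁ hFr hε hεr x t Kf ht hKf hx htK => by
      obtain ⟨a₁, ha₁⟩ := hFr
      exact hCQ ε x₁ r p₁ a₁ ha₁ hε hεr x t Kf _ ht hKf hx htK
        (hstepspec ε x t hε ht).max0)
    (fun B => walkB_gap h hCU B)
  refine ⟨K, fun k η hη => ?_⟩
  obtain ⟨x₁, r, p₁, xe, te, hr, _, ⟨a₁, ha₁⟩, hte, hter, hloc, hg, hwin⟩ := hK η hη k
  have h2k : (1 : ℝ) ≤ 2 ^ k := one_le_pow₀ (by norm_num)
  have hle : r / 2 ^ k ≤ 2 ^ k * r := by
    rw [div_le_iff₀ (by positivity)]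
    nlinarith [mul_le_mul h2k h2k zero_le_one (by positivity : (0 : ℝ) ≤ 2 ^ k)]
  obtain ⟨hw1, hw2⟩ := hwin (r / 2 ^ k) (2 ^ k * r) le_rfl hle le_rfl
  exact ⟨r, x₁, p₁, a₁, xe, te, hr, ha₁, hte, hter, hloc, hg, hw1, hw2⟩

end Claimed.Agent.R330
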