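import Mathlib
import Claimed.Agent.R330.PartBDefs
import Claimed.Agent.R330.Contact
import Claimed.Agent.R330.WalkB
import Claimed.Agent.R330.FinalFrame
import Claimed.Agent.R330.FinalMain

/-!
# Row 330, Part B: top-level skeleton of the Liouville theorem (paper Theorem 3.1)

Interface statements of the big packages (with `sorry` while the packages are in progress) and
the derivation of `liouville` from them.  Owner of this file: helper170.

* `pb_extremal_contact`   = T1 = output of package L7  (paper Prop 5.4),   owner helper53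
* `pb_contact_propagation` = T2 = output of package L9 (paper Prop 7.1, finite form), owner helper137
* `pb_frame_transfer`     = frame transfer T2 -> T3 (paper Lemma 6.3 + (5.11)), owner helper244
* `pb_fin_core`           = T3 = final contradiction (paper Section 8),   owner helper244

When a package is finished its owner tells helper170, who replaces the `sorry` here by the
reference to the finished theorem (the statement must match verbatim).
-/

namespace Claimed.Agent.R330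

open scoped RealInnerProductSpace

variable {X : Type*} [NormedAddCommGroup X] [InnerProductSpace ℝ X]

/-- Fits are monotone in the constant. -/
theorem pb_isFit_mono {C₀ C₁ : ℝ} (h : C₀ ≤ C₁) {v : X → ℝ → ℝ} {x : X} {t R : ℝ} (hR : 0 ≤ R)
    {p : X} {a : ℝ} (hf : IsFit C₀ v x t R p a) : IsFit C₁ v x t R p a := by
  intro k l hl hk
  exact (hf k l hl hk).trans (mul_le_mul_of_nonneg_right h hR)

/-- The class is monotone in the constant. -/
theorem pb_classA_mono {C₀ C₁ : ℝ} (h : C₀ ≤ C₁) {v : X → ℝ → ℝ} (hv : ClassA C₀ v) :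
    ClassA C₁ v where
  cont := hv.cont
  fits := fun x t R hR => by
    obtain ⟨p, a, hpa⟩ := hv.fits x t R hR
    exact ⟨p, a, pb_isFit_mono h hR.le hpa⟩
  convP := hv.convP
  concM := hv.concM

/-- **T1** (package L7, paper Prop 5.4, measure-free form).  A nonaffine member of the class
produces an extremal member: centred at `(0,1)`, with gap bound `G > 0` attained at `(0,1)` with
parameter `1`, and with envelope slopes bounded below at the contact point `(0,1)`. -/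
theorem pb_extremal_contact [FiniteDimensional ℝ X] {C₀ : ℝ} (hC : 1 ≤ C₀)
    (h : ∃ v0 : X → ℝ → ℝ, ClassA C₀ v0 ∧ ¬ IsAffineST v0) :
    ∃ (v : X → ℝ → ℝ) (G Λ : ℝ), 0 < G ∧ ClassA C₀ v ∧ CenteredAt C₀ v 0 1 ∧ GapBound G v ∧
      bary 1 (fun y => v y 1) 0 - v 0 1 = G ∧
      (∀ ε : ℝ, 0 < ε → -Λ ≤ slopeP ε (Wk G v) 0 1) ∧
      (∀ ε : ℝ, 0 < ε → -Λ ≤ slopeM ε v 0 1) :=
  ct_extremal_contact h

/-- **T2** (package L9, paper Prop 7.1 in the finite, measure-free form).  There is `K` such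
that for every window `k` and every `η > 0` there are a scale `r`, an almost-contact `(xj,r)`
with a fit `(pj,aj)` of radius `r` there, and a terminal point `(xe,te)`, `0 < te ≤ r`, lying in
the `K`-part of the fitted frame, at which both envelope slopes of `v` vary by at most `η` over
the lengths `[r/2^k, 2^k r]`. -/
theorem pb_contact_propagation [FiniteDimensional ℝ X] {C₀ G Λ : ℝ} (hC : 1 ≤ C₀) (hG : 0 < G)
    {v : X → ℝ → ℝ} (hv : ClassA C₀ v) (hc : CenteredAt C₀ v 0 1) (hgap : GapBound G v)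
    (hcontact : bary 1 (fun y => v y 1) 0 - v 0 1 = G)
    (hP : ∀ ε : ℝ, 0 < ε → -Λ ≤ slopeP ε (Wk G v) 0 1)
    (hM : ∀ ε : ℝ, 0 < ε → -Λ ≤ slopeM ε v 0 1) :
    ∃ K : ℝ, ∀ (k : ℕ) (η : ℝ), 0 < η →
      ∃ (r : ℝ) (xj pj : X) (aj : ℝ) (xe : X) (te : ℝ),
        0 < r ∧ IsFit C₀ v xj r r pj aj ∧ 0 < te ∧ te ≤ r ∧
        ‖xe - xj - (te - r) • pj‖ ≤ K * r ∧
        v xj r - Wk G v xj r ≤ η * r ∧
        slopeP (2 ^ k * r) v xe te - slopeP (r / 2 ^ k) v xe te ≤ η ∧
        slopeM (2 ^ k * r) v xe te - slopeM (r / 2 ^ k) v xe te ≤ η :=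
  walkB_contact_propagation hC hG hv hc hgap hcontact hP hM

/-- Frame transfer (paper Lemma 6.3, (6.10), (6.11)): the data of T2 seen in the fitted frame
`V = frame 1 xj r r pj aj v`, `b = (xe - xj - (te - r) pj)/r`, `s = te / r`. -/
theorem pb_frame_transfer [FiniteDimensional ℝ X] {C₀ G K η : ℝ} (hC : 1 ≤ C₀) {k : ℕ}
    {v : X → ℝ → ℝ} (hv : ClassA C₀ v)
    {r : ℝ} {xj pj : X} {aj : ℝ} {xe : X} {te : ℝ}
    (hr : 0 < r) (hfit : IsFit C₀ v xj r r pj aj) (hte : 0 < te) (hte' : te ≤ r)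
    (hloc : ‖xe - xj - (te - r) • pj‖ ≤ K * r)
    (hdef : v xj r - Wk G v xj r ≤ η * r)
    (hP : slopeP (2 ^ k * r) v xe te - slopeP (r / 2 ^ k) v xe te ≤ η)
    (hM : slopeM (2 ^ k * r) v xe te - slopeM (r / 2 ^ k) v xe te ≤ η) :
    ∃ (V : X → ℝ → ℝ) (b : X) (s : ℝ), ClassA C₀ V ∧ CenteredAt C₀ V 0 1 ∧ ‖b‖ ≤ K ∧
      0 ≤ s ∧ s ≤ 1 ∧ G - η ≤ bary 1 (fun y => V y 1) 0 - V 0 1 ∧
      slopeP (2 ^ k) V b s - slopeP (1 / 2 ^ k) V b s ≤ η ∧
      slopeM (2 ^ k) V b s - slopeM (1 / 2 ^ k) V b s ≤ η :=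
  finfr_transfer hC hv hr hfit hte hte' hloc hdef hP hM

/-- **T3** (package L10b, paper Section 8): the final contradiction.  Ultralimit of the `V n`
(package L2b), convergence of envelopes (L3) and of the barycentric envelope (L5), monotone
slopes and equality of the two slope limits (L4), rigidity (L10a), `bary` of an affine
function (L5). -/
theorem pb_fin_core [FiniteDimensional ℝ X] {C₀ G K : ℝ} (hC : 1 ≤ C₀) (hG : 0 < G)
    (V : ℕ → X → ℝ → ℝ) (b : ℕ → X) (s : ℕ → ℝ)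
    (hV : ∀ n, ClassA C₀ (V n)) (hc : ∀ n, CenteredAt C₀ (V n) 0 1)
    (hb : ∀ n, ‖b n‖ ≤ K) (hs0 : ∀ n, 0 ≤ s n) (hs1 : ∀ n, s n ≤ 1)
    (hgap : ∀ n : ℕ, G - 1 / ((n : ℝ) + 1) ≤ bary 1 (fun y => V n y 1) 0 - V n 0 1)
    (hP : ∀ n : ℕ, slopeP (2 ^ n) (V n) (b n) (s n) - slopeP (1 / 2 ^ n) (V n) (b n) (s n)
      ≤ 1 / ((n : ℝ) + 1))
    (hM : ∀ n : ℕ, slopeM (2 ^ n) (V n) (b n) (s n) - slopeM (1 / 2 ^ n) (V n) (b n) (s n)
      ≤ 1 / ((n : ℝ) + 1)) : False :=
  fin_core hC hG V b s hV hc hb hs0 hs1 hgap hP hM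

/-- **Liouville theorem** (paper Theorem 3.1) for the class `ClassA`. -/
theorem liouville [FiniteDimensional ℝ X] {C₀ : ℝ} {v : X → ℝ → ℝ} (hv : ClassA C₀ v) :
    IsAffineST v := by
  by_contra hna
  have hC : (1 : ℝ) ≤ max C₀ 1 := le_max_right _ _
  have hv1 : ClassA (max C₀ 1) v := pb_classA_mono (le_max_left _ _) hv
  obtain ⟨w, G, Λ, hG, hw, hcw, hgap, hcontact, hP, hM⟩ :=
    pb_extremal_contact hC ⟨v, hv1, hna⟩
  obtain ⟨K, hK⟩ := pb_contact_propagation hC hG hw hcw hgap hcontact hP hM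
  have key : ∀ n : ℕ, ∃ (V : X → ℝ → ℝ) (b : X) (s : ℝ), ClassA (max C₀ 1) V ∧
      CenteredAt (max C₀ 1) V 0 1 ∧ ‖b‖ ≤ K ∧ 0 ≤ s ∧ s ≤ 1 ∧
      G - 1 / ((n : ℝ) + 1) ≤ bary 1 (fun y => V y 1) 0 - V 0 1 ∧
      slopeP (2 ^ n) V b s - slopeP (1 / 2 ^ n) V b s ≤ 1 / ((n : ℝ) + 1) ∧
      slopeM (2 ^ n) V b s - slopeM (1 / 2 ^ n) V b s ≤ 1 / ((n : ℝ) + 1) := by
    intro n
    have hη : (0 : ℝ) < 1 / ((n : ℝ) + 1) := by positivity
    obtain ⟨r, xj, pj, aj, xe, te, hr, hfit, hte, hte', hloc, hdef, hP', hM'⟩ := hK n _ hη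
    exact pb_frame_transfer hC hw hr hfit hte hte' hloc hdef hP' hM'
  choose V b s hV hc hb hs0 hs1 hg hPn hMn using key
  exact pb_fin_core hC hG V b s hV hc hb hs0 hs1 hg hPn hMn

end Claimed.Agent.R330
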