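import Claimed.Agent.R330.TPMaj

/-!
Row 330 (S0589), package threePoint, LEAF A1: majorant of `B(c) f(r)`.
-/

set_option autoImplicit false

open scoped Topology RealInnerProductSpace
open Metric Filter

namespace Claimed.Agent.R330

variable {E : Type*} [NormedAddCommGroup E] [InnerProductSpace ℝ E]

/-- scalar core of A1. -/
lemma tp_maj1_scalar {Bm bg g2 b f f' t q2 R s g M η ε nb : ℝ}
    (hb : 0 ≤ b) (hB' : 0 ≤ Bm + bg + b * g2) (hR : R ≤ f + f' * t + q2)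
    (hg2 : g2 = g ^ 2) (hg0 : 0 ≤ g) (hs0 : 0 ≤ s) (hnb : 0 ≤ nb) (hM0 : 0 ≤ M)
    (hbg : |bg| ≤ nb * g) (ht : |t| ≤ s) (hq2 : |q2| ≤ M * s ^ 2)
    (hgη : g ≤ η) (hsη : s ≤ η) (hη1 : η ≤ 1)
    (h1 : nb * M * η ≤ ε) (h2 : b * |f'| * η ≤ ε / 2) (h3 : b * M * η ≤ ε / 2) :
    (Bm + bg + b * g2) * R ≤ Bm * f + (Bm * f' * t + f * bg)
      + (Bm * q2 + f' * bg * t + f * b * g2) + ε * (s ^ 2 + g ^ 2) := by
  have hη0 : 0 ≤ η := le_trans hg0 hgη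
  have e0 : (Bm + bg + b * g2) * R ≤ (Bm + bg + b * g2) * (f + f' * t + q2) :=
    mul_le_mul_of_nonneg_left hR hB'
  have e1 : (Bm + bg + b * g2) * (f + f' * t + q2) = Bm * f + (Bm * f' * t + f * bg)
      + (Bm * q2 + f' * bg * t + f * b * g2) + (bg * q2 + b * g2 * (f' * t) + b * g2 * q2) := by
    ring
  -- the three remainder terms
  have r1 : bg * q2 ≤ ε * s ^ 2 := by
    have a1 : bg * q2 ≤ |bg| * |q2| := by rw [← abs_mul]; exact le_abs_self _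
    have a2 : |bg| * |q2| ≤ (nb * g) * (M * s ^ 2) :=
      mul_le_mul hbg hq2 (abs_nonneg _) (by positivity)
    have a3 : (nb * g) * (M * s ^ 2) ≤ (nb * η) * (M * s ^ 2) := by
      apply mul_le_mul_of_nonneg_right _ (by positivity)
      exact mul_le_mul_of_nonneg_left hgη hnb
    have a4 : (nb * η) * (M * s ^ 2) = (nb * M * η) * s ^ 2 := by ring
    have a5 : (nb * M * η) * s ^ 2 ≤ ε * s ^ 2 := mul_le_mul_of_nonneg_right h1 (by positivity)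
    linarith
  have r2 : b * g2 * (f' * t) ≤ ε / 2 * g ^ 2 := by
    have a1 : f' * t ≤ |f'| * |t| := by rw [← abs_mul]; exact le_abs_self _
    have a2 : |f'| * |t| ≤ |f'| * η :=
      mul_le_mul_of_nonneg_left (le_trans ht hsη) (abs_nonneg _)
    have a3 : b * g2 * (f' * t) ≤ b * g2 * (|f'| * η) := by
      apply mul_le_mul_of_nonneg_left (le_trans a1 a2)
      rw [hg2]; positivity
    have a4 : b * g2 * (|f'| * η) = (b * |f'| * η) * g ^ 2 := by rw [hg2]; ring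
    have a5 : (b * |f'| * η) * g ^ 2 ≤ ε / 2 * g ^ 2 :=
      mul_le_mul_of_nonneg_right h2 (by positivity)
    linarith
  have r3 : b * g2 * q2 ≤ ε / 2 * g ^ 2 := by
    have a1 : q2 ≤ M * s ^ 2 := le_trans (le_abs_self _) hq2
    have a2 : s ^ 2 ≤ η := by nlinarith
    have a3 : M * s ^ 2 ≤ M * η := mul_le_mul_of_nonneg_left a2 hM0
    have a4 : b * g2 * q2 ≤ b * g2 * (M * η) := by
      apply mul_le_mul_of_nonneg_left (le_trans a1 a3)
      rw [hg2]; positivity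
    have a5 : b * g2 * (M * η) = (b * M * η) * g ^ 2 := by rw [hg2]; ring
    have a6 : (b * M * η) * g ^ 2 ≤ ε / 2 * g ^ 2 :=
      mul_le_mul_of_nonneg_right h3 (by positivity)
    linarith
  have e2 : ε * (s ^ 2 + g ^ 2) = ε * s ^ 2 + ε / 2 * g ^ 2 + ε / 2 * g ^ 2 := by ring
  linarith

theorem tp_maj1 : TPMaj1Stmt E := by
  intro δ b Λ a m hδ hb ha ε hε
  have hr : 0 < ‖a‖ := norm_pos_iff.mpr ha
  set r : ℝ := ‖a‖ with hrdef
  set M : ℝ := 1 / r + |Λ| with hM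
  have hM0 : 0 ≤ M := by positivity
  set nb : ℝ := ‖(2 * b) • m‖ with hnb
  have hnb0 : 0 ≤ nb := norm_nonneg _
  set f' : ℝ := 1 - 2 * Λ * r with hf'
  set D : ℝ := nb * M + 2 * (b * |f'|) + 2 * (b * M) + 1 with hD
  have hD1 : 1 ≤ D := by
    have : 0 ≤ nb * M + 2 * (b * |f'|) + 2 * (b * M) := by positivity
    linarith
  have hD0 : 0 < D := by linarith
  set η : ℝ := min (min 1 (r / 2)) (ε / D) with hη
  have hη0 : 0 < η := lt_min (lt_min one_pos (by positivity)) (by positivity)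
  have hη1 : η ≤ 1 := le_trans (min_le_left _ _) (min_le_left _ _)
  have hηr : η ≤ r / 2 := le_trans (min_le_left _ _) (min_le_right _ _)
  have hηD : D * η ≤ ε := by
    have : η ≤ ε / D := min_le_right _ _
    calc D * η ≤ D * (ε / D) := mul_le_mul_of_nonneg_left this hD0.le
      _ = ε := by field_simp
  have hnear : ∀ᶠ p : E × E in 𝓝 0, ‖p‖ ≤ η := by
    have := closedBall_mem_nhds (0 : E × E) hη0
    filter_upwards [this] with p hp
    simpa using hp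
  filter_upwards [hnear] with p hp
  obtain ⟨d, γ⟩ := p
  simp only
  have hd : ‖d‖ ≤ η := le_trans (norm_fst_le (d, γ)) hp
  have hγ : ‖γ‖ ≤ η := le_trans (norm_snd_le (d, γ)) hp
  set t : ℝ := ⟪r⁻¹ • a, d⟫ with ht
  have ht' : t = ⟪a, d⟫ / r := by
    rw [ht, real_inner_smul_left]; field_simp
  have htabs : |t| ≤ ‖d‖ := by
    rw [ht', abs_div, abs_of_pos hr, div_le_iff₀ hr]
    calc |⟪a, d⟫| ≤ ‖a‖ * ‖d‖ := abs_real_inner_le_norm a d
      _ = ‖d‖ * r := by rw [hrdef]; ring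
  have hquad := norm_add_le_quad ha (le_trans hd hηr)
  rw [← hrdef, ← ht'] at hquad
  have hsq : ‖a + d‖ ^ 2 = r ^ 2 + 2 * (r * t) + ‖d‖ ^ 2 := by
    rw [norm_add_sq_real, ht', ← hrdef]; field_simp
  set q2 : ℝ := (‖d‖ ^ 2 - t ^ 2) / r - Λ * ‖d‖ ^ 2 with hq2
  have hR : ‖a + d‖ - Λ * ‖a + d‖ ^ 2 ≤ (r - Λ * r ^ 2) + f' * t + q2 := by
    rw [hsq, hq2, hf']
    have : r + t + (‖d‖ ^ 2 - t ^ 2) / r - Λ * (r ^ 2 + 2 * (r * t) + ‖d‖ ^ 2) =
        r - Λ * r ^ 2 + (1 - 2 * Λ * r) * t + ((‖d‖ ^ 2 - t ^ 2) / r - Λ * ‖d‖ ^ 2) := by ring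
    linarith
  have hq2abs : |q2| ≤ M * ‖d‖ ^ 2 := by
    have h1 : 0 ≤ ‖d‖ ^ 2 - t ^ 2 := by
      have : t ^ 2 ≤ ‖d‖ ^ 2 := sq_le_sq' (by linarith [(abs_le.mp htabs).1]) (abs_le.mp htabs).2
      linarith
    have h2 : ‖d‖ ^ 2 - t ^ 2 ≤ ‖d‖ ^ 2 := by nlinarith [sq_nonneg t]
    have h3 : |(‖d‖ ^ 2 - t ^ 2) / r| ≤ 1 / r * ‖d‖ ^ 2 := by
      rw [abs_of_nonneg (by positivity), div_eq_mul_inv, one_div, mul_comm]
      exact mul_le_mul_of_nonneg_left h2 (by positivity)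
    have h4 : |Λ * ‖d‖ ^ 2| = |Λ| * ‖d‖ ^ 2 := by
      rw [abs_mul, abs_of_nonneg (by positivity : (0 : ℝ) ≤ ‖d‖ ^ 2)]
    calc |q2| ≤ |(‖d‖ ^ 2 - t ^ 2) / r| + |Λ * ‖d‖ ^ 2| := abs_sub _ _
      _ ≤ 1 / r * ‖d‖ ^ 2 + |Λ| * ‖d‖ ^ 2 := by rw [h4]; linarith
      _ = M * ‖d‖ ^ 2 := by rw [hM]; ring
  set bg : ℝ := ⟪(2 * b) • m, γ⟫ with hbg
  have hbgabs : |bg| ≤ nb * ‖γ‖ := abs_real_inner_le_norm _ _
  have hBexp : δ / 2 + b * ‖m + γ‖ ^ 2 = (δ / 2 + b * ‖m‖ ^ 2) + bg + b * ‖γ‖ ^ 2 := by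
    rw [norm_add_sq_real, hbg, real_inner_smul_left]; ring
  have hB' : 0 ≤ (δ / 2 + b * ‖m‖ ^ 2) + bg + b * ‖γ‖ ^ 2 := by
    rw [← hBexp]; positivity
  have k1 : nb * M * η ≤ ε := by
    have : nb * M * η ≤ D * η := by
      apply mul_le_mul_of_nonneg_right _ hη0.le
      have : 0 ≤ 2 * (b * |f'|) + 2 * (b * M) + 1 := by positivity
      rw [hD]; linarith
    linarith
  have k2 : b * |f'| * η ≤ ε / 2 := by
    have : 2 * (b * |f'|) * η ≤ D * η := by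
      apply mul_le_mul_of_nonneg_right _ hη0.le
      have : 0 ≤ nb * M + 2 * (b * M) + 1 := by positivity
      rw [hD]; linarith
    linarith
  have k3 : b * M * η ≤ ε / 2 := by
    have : 2 * (b * M) * η ≤ D * η := by
      apply mul_le_mul_of_nonneg_right _ hη0.le
      have : 0 ≤ nb * M + 2 * (b * |f'|) + 1 := by positivity
      rw [hD]; linarith
    linarith
  rw [hBexp]
  have key := tp_maj1_scalar (Bm := δ / 2 + b * ‖m‖ ^ 2) (bg := bg) (g2 := ‖γ‖ ^ 2) (b := b)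
    (f := r - Λ * r ^ 2) (f' := f') (t := t) (q2 := q2) (R := ‖a + d‖ - Λ * ‖a + d‖ ^ 2)
    (s := ‖d‖) (g := ‖γ‖) (M := M) (η := η) (ε := ε) (nb := nb)
    hb hB' hR rfl (norm_nonneg _) (norm_nonneg _) hnb0 hM0 hbgabs htabs hq2abs hγ hd hη1 k1 k2 k3
  linarith

end Claimed.Agent.R330
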