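import Claimed.Agent.R330.TPMaj

/-!
Row 330 (S0589), package threePoint, LEAF A2: majorant of `|h|^2/r^2`.
-/

set_option autoImplicit false

open scoped Topology RealInnerProductSpace
open Metric Filter

namespace Claimed.Agent.R330

variable {E : Type*} [NormedAddCommGroup E] [InnerProductSpace ℝ E]

/-- `1/(1+s) ≤ 1 - s + 2 s^2` for `|s| ≤ 1/2`. -/
lemma tp_inv_one_add_le {s : ℝ} (hs : |s| ≤ 1 / 2) : 1 / (1 + s) ≤ 1 - s + 2 * s ^ 2 := by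
  have h1 := (abs_le.mp hs).1
  have h2 : 0 < 1 + s := by linarith
  rw [div_le_iff₀ h2]
  nlinarith [sq_nonneg s, mul_nonneg (sq_nonneg s) (by linarith : (0 : ℝ) ≤ 1 + 2 * s)]

/-- scalar core of A2. -/
lemma tp_maj2_scalar {H hk K2 k r t D2 dn η ε nh : ℝ} (hr : 0 < r)
    (hN : 0 ≤ H + 2 * hk + K2) (hK2 : K2 = k ^ 2) (hk0 : 0 ≤ k) (hdn0 : 0 ≤ dn)
    (hnh : 0 ≤ nh) (hhk : |hk| ≤ nh * k) (ht : |t| ≤ dn) (hD2 : r ^ 2 + 2 * (r * t) ≤ D2)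
    (hkη : k ≤ η) (hdη : dn ≤ η) (hηr : η ≤ r / 4)
    (h1 : (4 / r ^ 3) * η ≤ ε) (h2 : (16 * nh / r ^ 4) * η ≤ ε) :
    (H + 2 * hk + K2) / D2 ≤ H / r ^ 2 + (2 * hk / r ^ 2 - 2 * H * t / r ^ 3)
      + (K2 / r ^ 2 - 4 * hk * t / r ^ 3 + 8 * H * t ^ 2 / r ^ 4) + ε * (dn ^ 2 + k ^ 2) := by
  have hη0 : 0 ≤ η := le_trans hk0 hkη
  set s : ℝ := 2 * t / r with hs
  have hsabs : |s| ≤ 2 * dn / r := by
    rw [hs, abs_div, abs_mul, abs_of_pos hr, abs_of_pos (by norm_num : (0 : ℝ) < 2)]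
    apply div_le_div_of_nonneg_right _ hr.le
    linarith
  have hs12 : |s| ≤ 1 / 2 := by
    have : 2 * dn / r ≤ 1 / 2 := by
      rw [div_le_iff₀ hr]; linarith
    linarith
  have h1s : 0 < 1 + s := by linarith [(abs_le.mp hs12).1]
  have hD2' : r ^ 2 * (1 + s) ≤ D2 := by
    have : r ^ 2 * (1 + s) = r ^ 2 + 2 * (r * t) := by rw [hs]; field_simp
    linarith
  have hpos : 0 < r ^ 2 * (1 + s) := by positivity
  have e1 : (H + 2 * hk + K2) / D2 ≤ (H + 2 * hk + K2) / (r ^ 2 * (1 + s)) :=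
    div_le_div_of_nonneg_left hN hpos hD2'
  have e2 : (H + 2 * hk + K2) / (r ^ 2 * (1 + s)) = (H + 2 * hk + K2) / r ^ 2 * (1 / (1 + s)) := by
    field_simp
  have e3 : (H + 2 * hk + K2) / r ^ 2 * (1 / (1 + s)) ≤
      (H + 2 * hk + K2) / r ^ 2 * (1 - s + 2 * s ^ 2) :=
    mul_le_mul_of_nonneg_left (tp_inv_one_add_le hs12) (by positivity)
  have e4 : (H + 2 * hk + K2) / r ^ 2 * (1 - s + 2 * s ^ 2) =
      H / r ^ 2 + (2 * hk / r ^ 2 - 2 * H * t / r ^ 3)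
      + (K2 / r ^ 2 - 4 * hk * t / r ^ 3 + 8 * H * t ^ 2 / r ^ 4)
      + (K2 * (- s + 2 * s ^ 2) + 4 * hk * s ^ 2) / r ^ 2 := by
    rw [hs]; field_simp; ring
  -- remainder
  have hs2 : s ^ 2 ≤ 4 * dn ^ 2 / r ^ 2 := by
    have : s ^ 2 ≤ (2 * dn / r) ^ 2 := by
      rw [← sq_abs s]
      exact pow_le_pow_left₀ (abs_nonneg _) hsabs 2
    calc s ^ 2 ≤ (2 * dn / r) ^ 2 := this
      _ = 4 * dn ^ 2 / r ^ 2 := by ring
  have r1 : K2 * (- s + 2 * s ^ 2) ≤ k ^ 2 * (4 * η / r) := by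
    rw [hK2]
    apply mul_le_mul_of_nonneg_left _ (by positivity)
    have a1 : - s ≤ |s| := neg_le_abs s
    have a2 : 2 * s ^ 2 ≤ |s| := by
      have : s ^ 2 = |s| * |s| := by rw [← sq_abs]; ring
      rw [this]
      nlinarith [abs_nonneg s]
    have a3 : 2 * dn / r ≤ 2 * η / r := by
      apply div_le_div_of_nonneg_right _ hr.le
      linarith
    have a4 : 4 * η / r = 2 * (2 * η / r) := by ring
    linarith
  have r2 : 4 * hk * s ^ 2 ≤ dn ^ 2 * (16 * nh * η / r ^ 2) := by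
    have a1 : hk ≤ nh * η :=
      le_trans (le_abs_self _) (le_trans hhk (mul_le_mul_of_nonneg_left hkη hnh))
    have a2 : 4 * hk * s ^ 2 ≤ 4 * (nh * η) * s ^ 2 := by
      apply mul_le_mul_of_nonneg_right _ (sq_nonneg _)
      linarith
    have a3 : 4 * (nh * η) * s ^ 2 ≤ 4 * (nh * η) * (4 * dn ^ 2 / r ^ 2) :=
      mul_le_mul_of_nonneg_left hs2 (by positivity)
    have a4 : 4 * (nh * η) * (4 * dn ^ 2 / r ^ 2) = dn ^ 2 * (16 * nh * η / r ^ 2) := by ring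
    linarith
  have r3 : (K2 * (- s + 2 * s ^ 2) + 4 * hk * s ^ 2) / r ^ 2 ≤ ε * (dn ^ 2 + k ^ 2) := by
    have b1 : (K2 * (- s + 2 * s ^ 2) + 4 * hk * s ^ 2) / r ^ 2 ≤
        (k ^ 2 * (4 * η / r) + dn ^ 2 * (16 * nh * η / r ^ 2)) / r ^ 2 :=
      div_le_div_of_nonneg_right (by linarith) (by positivity)
    have b2 : (k ^ 2 * (4 * η / r) + dn ^ 2 * (16 * nh * η / r ^ 2)) / r ^ 2 =
        ((4 / r ^ 3) * η) * k ^ 2 + ((16 * nh / r ^ 4) * η) * dn ^ 2 := by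
      field_simp
    have b3 : ((4 / r ^ 3) * η) * k ^ 2 ≤ ε * k ^ 2 :=
      mul_le_mul_of_nonneg_right h1 (by positivity)
    have b4 : ((16 * nh / r ^ 4) * η) * dn ^ 2 ≤ ε * dn ^ 2 :=
      mul_le_mul_of_nonneg_right h2 (by positivity)
    have b5 : ε * (dn ^ 2 + k ^ 2) = ε * k ^ 2 + ε * dn ^ 2 := by ring
    linarith
  linarith

theorem tp_maj2 : TPMaj2Stmt E := by
  intro a h ha ε hε
  have hr : 0 < ‖a‖ := norm_pos_iff.mpr ha
  set r : ℝ := ‖a‖ with hrdef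
  set D : ℝ := 4 / r ^ 3 + 16 * ‖h‖ / r ^ 4 + 1 with hD
  have hD0 : 0 < D := by positivity
  set η : ℝ := min (r / 4) (ε / D) with hη
  have hη0 : 0 < η := lt_min (by positivity) (by positivity)
  have hηr : η ≤ r / 4 := min_le_left _ _
  have hηD : D * η ≤ ε := by
    have : η ≤ ε / D := min_le_right _ _
    calc D * η ≤ D * (ε / D) := mul_le_mul_of_nonneg_left this hD0.le
      _ = ε := by field_simp
  have hnear : ∀ᶠ p : E × E in 𝓝 0, ‖p‖ ≤ η := by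
    have := closedBall_mem_nhds (0 : E × E) hη0
    filter_upwards [this] with p hp
    simpa using hp
  filter_upwards [hnear] with p hp
  obtain ⟨d, κ⟩ := p
  simp only
  have hd : ‖d‖ ≤ η := le_trans (norm_fst_le (d, κ)) hp
  have hκ : ‖κ‖ ≤ η := le_trans (norm_snd_le (d, κ)) hp
  set t : ℝ := ⟪r⁻¹ • a, d⟫ with ht
  have ht' : t = ⟪a, d⟫ / r := by
    rw [ht, real_inner_smul_left]; field_simp
  have htabs : |t| ≤ ‖d‖ := by
    rw [ht', abs_div, abs_of_pos hr, div_le_iff₀ hr]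
    calc |⟪a, d⟫| ≤ ‖a‖ * ‖d‖ := abs_real_inner_le_norm a d
      _ = ‖d‖ * r := by rw [hrdef]; ring
  have hsq : ‖a + d‖ ^ 2 = r ^ 2 + 2 * (r * t) + ‖d‖ ^ 2 := by
    rw [norm_add_sq_real, ht', ← hrdef]; field_simp
  have hD2 : r ^ 2 + 2 * (r * t) ≤ ‖a + d‖ ^ 2 := by
    rw [hsq]; nlinarith [sq_nonneg ‖d‖]
  have hNexp : ‖h + κ‖ ^ 2 = ‖h‖ ^ 2 + 2 * ⟪h, κ⟫ + ‖κ‖ ^ 2 := norm_add_sq_real h κ
  have hN : 0 ≤ ‖h‖ ^ 2 + 2 * ⟪h, κ⟫ + ‖κ‖ ^ 2 := by rw [← hNexp]; positivity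
  have k1 : (4 / r ^ 3) * η ≤ ε := by
    have : (4 / r ^ 3) * η ≤ D * η := by
      apply mul_le_mul_of_nonneg_right _ hη0.le
      have : 0 ≤ 16 * ‖h‖ / r ^ 4 + 1 := by positivity
      rw [hD]; linarith
    linarith
  have k2 : (16 * ‖h‖ / r ^ 4) * η ≤ ε := by
    have : (16 * ‖h‖ / r ^ 4) * η ≤ D * η := by
      apply mul_le_mul_of_nonneg_right _ hη0.le
      have : 0 ≤ 4 / r ^ 3 + 1 := by positivity
      rw [hD]; linarith
    linarith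
  rw [hNexp]
  exact tp_maj2_scalar (H := ‖h‖ ^ 2) (hk := ⟪h, κ⟫) (K2 := ‖κ‖ ^ 2) (k := ‖κ‖) (r := r) (t := t)
    (D2 := ‖a + d‖ ^ 2) (dn := ‖d‖) (η := η) (ε := ε) (nh := ‖h‖) hr hN rfl (norm_nonneg _)
    (norm_nonneg _) (norm_nonneg _) (abs_real_inner_le_norm _ _) htabs hD2 hκ hd hηr k1 k2

end Claimed.Agent.R330
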