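import Claimed.Agent.R330.TPDefs

/-!
Row 330 (S0589), package threePoint, LEAF B: negativity of the quadratic majorant `tpQ`
of the barrier along the direction `sigma = (q + G1, q + G2, q + G0)`.  Pure algebra.
-/

set_option autoImplicit false
set_option linter.unusedSectionVars false
set_option linter.unusedVariables false

open scoped Topology RealInnerProductSpace
open Metric Filter

namespace Claimed.Agent.R330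

variable {E : Type*} [NormedAddCommGroup E] [InnerProductSpace ℝ E]

lemma tpn_norm_E {x y : E} (hxy : x ≠ y) : ‖tpE x y‖ = 1 := by
  unfold tpE
  have h : ‖x - y‖ ≠ 0 := by
    rw [norm_ne_zero_iff]; exact sub_ne_zero.mpr hxy
  rw [norm_smul, norm_inv, norm_norm, inv_mul_cancel₀ h]

lemma tpn_diff (δ b Λ : ℝ) (q c0 x y z : E) :
    (q + tpG1 δ b Λ c0 x y z) - (q + tpG2 δ b Λ c0 x y z)
      = (2 * tpA δ b Λ c0 x y z) • tpE x y := by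
  unfold tpG1 tpG2
  rw [two_mul, add_smul]
  abel

lemma tpn_mid (δ b Λ : ℝ) (q c0 x y z : E) :
    tpMid (q + tpG1 δ b Λ c0 x y z) (q + tpG2 δ b Λ c0 x y z) = q + tpGc b Λ c0 x y z := by
  unfold tpMid tpG1 tpG2
  have : q + (tpGc b Λ c0 x y z + tpA δ b Λ c0 x y z • tpE x y)
      + (q + (tpGc b Λ c0 x y z - tpA δ b Λ c0 x y z • tpE x y))
      = (2 : ℝ) • (q + tpGc b Λ c0 x y z) := by
    rw [two_smul]; abel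
  rw [this, smul_smul]
  norm_num

lemma tpn_kap (b Λ : ℝ) (q c0 x y z : E) :
    (q + tpG0 x y z) - (q + tpGc b Λ c0 x y z)
      = -(((‖x - y‖ - Λ * ‖x - y‖ ^ 2) / 2) • tpBeta b c0 x y) := by
  unfold tpG0 tpGc
  abel

/-- exact value of `tpQ` along `sigma`. -/
lemma tpn_Q_sigma (δ b Λ : ℝ) (q c0 x y z : E) (hxy : x ≠ y) :
    tpQ δ b Λ c0 x y z (q + tpG1 δ b Λ c0 x y z) (q + tpG2 δ b Λ c0 x y z) (q + tpG0 x y z)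
      = - 4 * Λ * tpB δ b c0 x y * tpA δ b Λ c0 x y z ^ 2
        + 2 * tpA δ b Λ c0 x y z * (1 - 2 * Λ * ‖x - y‖)
            * ⟪tpBeta b c0 x y, q + tpGc b Λ c0 x y z⟫
        + (‖x - y‖ - Λ * ‖x - y‖ ^ 2) * b * ‖q + tpGc b Λ c0 x y z‖ ^ 2
        + ((‖x - y‖ - Λ * ‖x - y‖ ^ 2) / 2) ^ 2 * ‖tpBeta b c0 x y‖ ^ 2 / ‖x - y‖ ^ 2
        + 4 * tpA δ b Λ c0 x y z * (‖x - y‖ - Λ * ‖x - y‖ ^ 2)
            * ⟪z - tpMid x y, tpBeta b c0 x y⟫ / ‖x - y‖ ^ 3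
        + 32 * tpA δ b Λ c0 x y z ^ 2 * ‖z - tpMid x y‖ ^ 2 / ‖x - y‖ ^ 4 := by
  have he := tpn_norm_E hxy
  unfold tpQ
  rw [tpn_diff, tpn_mid, tpn_kap, norm_smul, he, inner_smul_right, real_inner_self_eq_norm_sq,
    he, norm_neg, norm_smul, inner_neg_right, inner_smul_right]
  simp only [Real.norm_eq_abs, mul_one, one_pow, mul_pow, sq_abs]
  ring


/-- the bound for all the non-dominant terms. -/
noncomputable def tpnK (C δ b : ℝ) : ℝ :=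
  4 * (δ / 2 + b) * b * (3 * C + b) + b * (3 * C + b) ^ 2 + b ^ 2 + 16 * (δ / 2 + b) * C * b
    + 128 * (δ / 2 + b) ^ 2 * C ^ 2 + 2 * (3 * C + b + (δ / 2 + b)) ^ 2 + 9 * C ^ 2

lemma tpnK_nonneg {C δ b : ℝ} (hC : 0 ≤ C) (hδ : 0 < δ) (hb : 0 ≤ b) : 0 ≤ tpnK C δ b := by
  unfold tpnK; positivity

/-- the threshold for `Λ`. -/
noncomputable def tpnLam0 (C δ b : ℝ) : ℝ :=
  1 / 4 + 16 * C ^ 2 / δ + 32 * (tpnK C δ b + 1) / δ ^ 3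

section scalar

variable {C δ b Λ r : ℝ}

lemma tpnLam0_pos (hC : 0 ≤ C) (hδ : 0 < δ) (hb : 0 ≤ b) : 0 < tpnLam0 C δ b := by
  have := tpnK_nonneg hC hδ hb
  unfold tpnLam0; positivity

lemma tpn_Lam_ge1 (hC : 0 ≤ C) (hδ : 0 < δ) (hb : 0 ≤ b) (hΛ : tpnLam0 C δ b ≤ Λ) :
    1 / 4 ≤ Λ := by
  have := tpnK_nonneg hC hδ hb
  have h1 : 0 ≤ 16 * C ^ 2 / δ := by positivity
  have h2 : 0 ≤ 32 * (tpnK C δ b + 1) / δ ^ 3 := by positivity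
  unfold tpnLam0 at hΛ; linarith

lemma tpn_Lam_ge2 (hC : 0 ≤ C) (hδ : 0 < δ) (hb : 0 ≤ b) (hΛ : tpnLam0 C δ b ≤ Λ) :
    16 * C ^ 2 ≤ Λ * δ := by
  have := tpnK_nonneg hC hδ hb
  have h2 : 0 ≤ 32 * (tpnK C δ b + 1) / δ ^ 3 := by positivity
  have h3 : 16 * C ^ 2 / δ ≤ Λ := by unfold tpnLam0 at hΛ; linarith
  rwa [div_le_iff₀ hδ] at h3

lemma tpn_Lam_ge3 (hC : 0 ≤ C) (hδ : 0 < δ) (hb : 0 ≤ b) (hΛ : tpnLam0 C δ b ≤ Λ) :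
    tpnK C δ b + 1 ≤ Λ * δ ^ 3 / 32 := by
  have h1 : 0 ≤ 16 * C ^ 2 / δ := by positivity
  have h3 : 32 * (tpnK C δ b + 1) / δ ^ 3 ≤ Λ := by unfold tpnLam0 at hΛ; linarith
  rw [div_le_iff₀ (by positivity)] at h3
  linarith

lemma tpn_r_facts (hC : 0 ≤ C) (hδ : 0 < δ) (hb : 0 ≤ b) (hΛ : tpnLam0 C δ b ≤ Λ)
    (hr : 0 < r) (hrΛ : r ≤ 1 / (4 * Λ)) :
    4 * Λ * r ≤ 1 ∧ r ≤ 1 ∧ 64 * C ^ 2 * r ≤ δ := by
  have hΛ1 := tpn_Lam_ge1 hC hδ hb hΛ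
  have hΛ0 : 0 < Λ := by linarith
  have h1 : 4 * Λ * r ≤ 1 := by
    rw [le_div_iff₀ (by positivity)] at hrΛ
    linarith
  refine ⟨h1, ?_, ?_⟩
  · have : 1 * r ≤ 4 * Λ * r := mul_le_mul_of_nonneg_right (by linarith) hr.le
    linarith
  · have h2 := tpn_Lam_ge2 hC hδ hb hΛ
    have h3 : 16 * C ^ 2 * (4 * r) ≤ Λ * δ * (4 * r) :=
      mul_le_mul_of_nonneg_right h2 (by positivity)
    have h4 : δ * (4 * Λ * r) ≤ δ * 1 := mul_le_mul_of_nonneg_left h1 hδ.le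
    nlinarith

end scalar

section bounds

variable {C δ b Λ : ℝ} {q c0 x y z : E}

lemma tpn_B_ge (hb : 0 ≤ b) : δ / 2 ≤ tpB δ b c0 x y := by
  unfold tpB
  have : 0 ≤ b * ‖tpMid x y - c0‖ ^ 2 := by positivity
  linarith

lemma tpn_B_le (hb : 0 ≤ b) (hc : ‖tpMid x y - c0‖ ≤ 1) : tpB δ b c0 x y ≤ δ / 2 + b := by
  unfold tpB
  have h1 : ‖tpMid x y - c0‖ ^ 2 ≤ 1 := by
    have := pow_le_pow_left₀ (norm_nonneg _) hc 2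
    simpa using this
  have h2 := mul_le_mul_of_nonneg_left h1 hb
  linarith

lemma tpn_beta_le (hb : 0 ≤ b) (hc : ‖tpMid x y - c0‖ ≤ 1) : ‖tpBeta b c0 x y‖ ≤ 2 * b := by
  unfold tpBeta
  rw [norm_smul, Real.norm_eq_abs, abs_of_nonneg (by positivity)]
  have := mul_le_mul_of_nonneg_left hc (by positivity : (0:ℝ) ≤ 2 * b)
  linarith

/-- `2 |h|² / r³ ≤ 8 C² r`. -/
lemma tpn_hterm {r H : ℝ} (hr : 0 < r) (hC : 0 ≤ C) (hH0 : 0 ≤ H) (hH : H ≤ 2 * C * r ^ 2) :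
    2 * H ^ 2 / r ^ 3 ≤ 8 * C ^ 2 * r := by
  rw [div_le_iff₀ (by positivity)]
  have h1 : H ^ 2 ≤ (2 * C * r ^ 2) ^ 2 := pow_le_pow_left₀ hH0 hH 2
  have e : 8 * C ^ 2 * r * r ^ 3 = 2 * (2 * C * r ^ 2) ^ 2 := by ring
  linarith

lemma tpn_A_ge (hC : 0 ≤ C) (hδ : 0 < δ) (hb : 0 ≤ b) (hxy : x ≠ y)
    (h4 : 4 * Λ * ‖x - y‖ ≤ 1) (h64 : 64 * C ^ 2 * ‖x - y‖ ≤ δ)
    (hh : ‖z - tpMid x y‖ ≤ 2 * C * ‖x - y‖ ^ 2) : δ / 8 ≤ tpA δ b Λ c0 x y z := by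
  have hr : 0 < ‖x - y‖ := norm_pos_iff.mpr (sub_ne_zero.mpr hxy)
  unfold tpA
  have h1 := tpn_hterm hr hC (norm_nonneg _) hh
  have h2 : δ / 2 * (1 / 2) ≤ tpB δ b c0 x y * (1 - 2 * Λ * ‖x - y‖) :=
    mul_le_mul (tpn_B_ge hb) (by linarith) (by norm_num) (le_trans (by positivity) (tpn_B_ge hb))
  linarith

lemma tpn_A_le (hδ : 0 < δ) (hb : 0 ≤ b) (hΛ : 0 ≤ Λ) (hc : ‖tpMid x y - c0‖ ≤ 1) :
    tpA δ b Λ c0 x y z ≤ δ / 2 + b := by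
  unfold tpA
  have h1 : 0 ≤ 2 * ‖z - tpMid x y‖ ^ 2 / ‖x - y‖ ^ 3 := by positivity
  have hB0 : 0 ≤ tpB δ b c0 x y := le_trans (by positivity) (tpn_B_ge (δ := δ) hb)
  have h2 : tpB δ b c0 x y * (1 - 2 * Λ * ‖x - y‖) ≤ tpB δ b c0 x y * 1 := by
    apply mul_le_mul_of_nonneg_left _ hB0
    have : 0 ≤ Λ * ‖x - y‖ := by positivity
    linarith
  have h3 := tpn_B_le (δ := δ) hb hc
  linarith

lemma tpn_hr2 (hC : 0 ≤ C) (hxy : x ≠ y) (hh : ‖z - tpMid x y‖ ≤ 2 * C * ‖x - y‖ ^ 2) :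
    ‖(‖x - y‖ ^ 2)⁻¹ • (z - tpMid x y)‖ ≤ 2 * C := by
  have hr : 0 < ‖x - y‖ := norm_pos_iff.mpr (sub_ne_zero.mpr hxy)
  rw [norm_smul, Real.norm_eq_abs, abs_of_nonneg (by positivity), inv_mul_le_iff₀ (by positivity)]
  linarith

lemma tpn_Gc_le (hC : 0 ≤ C) (hb : 0 ≤ b) (hΛ : 0 ≤ Λ) (hxy : x ≠ y)
    (h4 : 4 * Λ * ‖x - y‖ ≤ 1) (hr1 : ‖x - y‖ ≤ 1)
    (hh : ‖z - tpMid x y‖ ≤ 2 * C * ‖x - y‖ ^ 2) (hc : ‖tpMid x y - c0‖ ≤ 1) :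
    ‖tpGc b Λ c0 x y z‖ ≤ 2 * C + b := by
  have hr : 0 < ‖x - y‖ := norm_pos_iff.mpr (sub_ne_zero.mpr hxy)
  unfold tpGc
  refine (norm_sub_le _ _).trans ?_
  have h1 := tpn_hr2 hC hxy hh
  have hf0 : 0 ≤ ‖x - y‖ - Λ * ‖x - y‖ ^ 2 := by
    have : ‖x - y‖ - Λ * ‖x - y‖ ^ 2 = ‖x - y‖ * (1 - Λ * ‖x - y‖) := by ring
    rw [this]
    apply mul_nonneg hr.le
    linarith
  have hf1 : ‖x - y‖ - Λ * ‖x - y‖ ^ 2 ≤ 1 := by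
    have : 0 ≤ Λ * ‖x - y‖ ^ 2 := by positivity
    linarith
  have h2 : ‖((‖x - y‖ - Λ * ‖x - y‖ ^ 2) / 2) • tpBeta b c0 x y‖ ≤ b := by
    rw [norm_smul, Real.norm_eq_abs, abs_of_nonneg (by positivity)]
    have := mul_le_mul (by linarith : (‖x - y‖ - Λ * ‖x - y‖ ^ 2) / 2 ≤ 1 / 2)
      (tpn_beta_le (c0 := c0) (x := x) (y := y) hb hc) (norm_nonneg _) (by norm_num)
    linarith
  linarith

end bounds

section final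

lemma tpn_s1 {δ Λ B a : ℝ} (hδ : 0 < δ) (hΛ : 0 ≤ Λ) (hB : δ / 2 ≤ B) (ha : δ / 8 ≤ a) :
    Λ * δ ^ 3 / 32 ≤ 4 * Λ * B * a ^ 2 := by
  have h2 : (δ / 8) ^ 2 ≤ a ^ 2 := pow_le_pow_left₀ (by positivity) ha 2
  have h3 : δ / 2 * (δ / 8) ^ 2 ≤ B * a ^ 2 :=
    mul_le_mul hB h2 (by positivity) (le_trans (by positivity) hB)
  have h4 := mul_le_mul_of_nonneg_left h3 (by positivity : (0:ℝ) ≤ 4 * Λ)
  calc Λ * δ ^ 3 / 32 = 4 * Λ * (δ / 2 * (δ / 8) ^ 2) := by ring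
    _ ≤ 4 * Λ * (B * a ^ 2) := h4
    _ = 4 * Λ * B * a ^ 2 := by ring

lemma tpn_s2 {Bb b Gm a f' I1 : ℝ} (hb : 0 ≤ b) (hGm : 0 ≤ Gm) (ha0 : 0 ≤ a) (ha : a ≤ Bb)
    (hf0 : 0 ≤ f') (hf1 : f' ≤ 1) (hI : |I1| ≤ 2 * b * Gm) :
    2 * a * f' * I1 ≤ 4 * Bb * b * Gm := by
  have h1 : a * f' ≤ Bb * 1 := mul_le_mul ha hf1 hf0 (ha0.trans ha)
  have h2 : I1 ≤ 2 * b * Gm := (le_abs_self _).trans hI
  have h3 : (a * f') * I1 ≤ (Bb * 1) * (2 * b * Gm) := by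
    calc (a * f') * I1 ≤ (a * f') * (2 * b * Gm) :=
          mul_le_mul_of_nonneg_left h2 (mul_nonneg ha0 hf0)
      _ ≤ (Bb * 1) * (2 * b * Gm) := mul_le_mul_of_nonneg_right h1 (by positivity)
  calc 2 * a * f' * I1 = 2 * ((a * f') * I1) := by ring
    _ ≤ 2 * ((Bb * 1) * (2 * b * Gm)) := by linarith
    _ = 4 * Bb * b * Gm := by ring

lemma tpn_s3 {b Gm f g : ℝ} (hb : 0 ≤ b) (hf0 : 0 ≤ f) (hf1 : f ≤ 1) (hg0 : 0 ≤ g)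
    (hg : g ≤ Gm) : f * b * g ^ 2 ≤ b * Gm ^ 2 := by
  have h1 : g ^ 2 ≤ Gm ^ 2 := pow_le_pow_left₀ hg0 hg 2
  have h2 : f * g ^ 2 ≤ 1 * Gm ^ 2 := mul_le_mul hf1 h1 (by positivity) (by norm_num)
  calc f * b * g ^ 2 = b * (f * g ^ 2) := by ring
    _ ≤ b * (1 * Gm ^ 2) := mul_le_mul_of_nonneg_left h2 hb
    _ = b * Gm ^ 2 := by ring

lemma tpn_s4 {b r f nb : ℝ} (hb : 0 ≤ b) (hr : 0 < r) (hf0 : 0 ≤ f) (hf1 : f ≤ r)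
    (hn0 : 0 ≤ nb) (hn : nb ≤ 2 * b) : (f / 2) ^ 2 * nb ^ 2 / r ^ 2 ≤ b ^ 2 := by
  rw [div_le_iff₀ (by positivity)]
  have h1 : (f / 2) ^ 2 ≤ (r / 2) ^ 2 := pow_le_pow_left₀ (by positivity) (by linarith) 2
  have h2 : nb ^ 2 ≤ (2 * b) ^ 2 := pow_le_pow_left₀ hn0 hn 2
  calc (f / 2) ^ 2 * nb ^ 2 ≤ (r / 2) ^ 2 * (2 * b) ^ 2 :=
        mul_le_mul h1 h2 (by positivity) (by positivity)
    _ = b ^ 2 * r ^ 2 := by ring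

lemma tpn_s5 {Bb C b r a f I2 : ℝ} (hC : 0 ≤ C) (hb : 0 ≤ b) (hr : 0 < r) (ha0 : 0 ≤ a)
    (ha : a ≤ Bb) (hf0 : 0 ≤ f) (hf1 : f ≤ r) (hI : |I2| ≤ (2 * C * r ^ 2) * (2 * b)) :
    4 * a * f * I2 / r ^ 3 ≤ 16 * Bb * C * b := by
  rw [div_le_iff₀ (by positivity)]
  have h1 : a * f ≤ Bb * r := mul_le_mul ha hf1 hf0 (ha0.trans ha)
  have h2 : I2 ≤ (2 * C * r ^ 2) * (2 * b) := (le_abs_self _).trans hI
  have h3 : (a * f) * I2 ≤ (Bb * r) * ((2 * C * r ^ 2) * (2 * b)) := by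
    calc (a * f) * I2 ≤ (a * f) * ((2 * C * r ^ 2) * (2 * b)) :=
          mul_le_mul_of_nonneg_left h2 (mul_nonneg ha0 hf0)
      _ ≤ (Bb * r) * ((2 * C * r ^ 2) * (2 * b)) :=
          mul_le_mul_of_nonneg_right h1 (by positivity)
  calc 4 * a * f * I2 = 4 * ((a * f) * I2) := by ring
    _ ≤ 4 * ((Bb * r) * ((2 * C * r ^ 2) * (2 * b))) := by linarith
    _ = 16 * Bb * C * b * r ^ 3 := by ring

lemma tpn_s6 {Bb C r a H : ℝ} (hC : 0 ≤ C) (hr : 0 < r) (ha0 : 0 ≤ a) (ha : a ≤ Bb)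
    (hH0 : 0 ≤ H) (hH : H ≤ 2 * C * r ^ 2) :
    32 * a ^ 2 * H ^ 2 / r ^ 4 ≤ 128 * Bb ^ 2 * C ^ 2 := by
  rw [div_le_iff₀ (by positivity)]
  have h1 : a ^ 2 ≤ Bb ^ 2 := pow_le_pow_left₀ ha0 ha 2
  have h2 : H ^ 2 ≤ (2 * C * r ^ 2) ^ 2 := pow_le_pow_left₀ hH0 hH 2
  have h3 : a ^ 2 * H ^ 2 ≤ Bb ^ 2 * (2 * C * r ^ 2) ^ 2 :=
    mul_le_mul h1 h2 (by positivity) (by positivity)
  calc 32 * a ^ 2 * H ^ 2 = 32 * (a ^ 2 * H ^ 2) := by ring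
    _ ≤ 32 * (Bb ^ 2 * (2 * C * r ^ 2) ^ 2) := by linarith
    _ = 128 * Bb ^ 2 * C ^ 2 * r ^ 4 := by ring

/-- LEAF B of the three-point package. -/
theorem tpn_neg (E : Type*) [NormedAddCommGroup E] [InnerProductSpace ℝ E] : TPNegStmt E := by
  intro C δ b hC hδ hb
  refine ⟨tpnLam0 C δ b, tpnLam0_pos hC hδ hb, ?_⟩
  intro Λ hΛ q c0 x y z hq hxy hrΛ hh hc
  have hr : 0 < ‖x - y‖ := norm_pos_iff.mpr (sub_ne_zero.mpr hxy)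
  obtain ⟨h4, hr1, h64⟩ := tpn_r_facts hC hδ hb hΛ hr hrΛ
  have hΛ0 : 0 ≤ Λ := le_trans (by norm_num) (tpn_Lam_ge1 hC hδ hb hΛ)
  have hK := tpn_Lam_ge3 hC hδ hb hΛ
  have he := tpn_norm_E hxy
  rw [tpn_Q_sigma δ b Λ q c0 x y z hxy]
  have hBge : δ / 2 ≤ tpB δ b c0 x y := tpn_B_ge hb
  have hAge : δ / 8 ≤ tpA δ b Λ c0 x y z := tpn_A_ge hC hδ hb hxy h4 h64 hh
  have hAle : tpA δ b Λ c0 x y z ≤ δ / 2 + b := tpn_A_le hδ hb hΛ0 hc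
  have hA0 : 0 ≤ tpA δ b Λ c0 x y z := le_trans (by positivity) hAge
  have hβ : ‖tpBeta b c0 x y‖ ≤ 2 * b := tpn_beta_le hb hc
  have hGc : ‖tpGc b Λ c0 x y z‖ ≤ 2 * C + b := tpn_Gc_le hC hb hΛ0 hxy h4 hr1 hh hc
  have hgam : ‖q + tpGc b Λ c0 x y z‖ ≤ 3 * C + b := by
    refine (norm_add_le _ _).trans ?_
    linarith
  have hf0 : 0 ≤ ‖x - y‖ - Λ * ‖x - y‖ ^ 2 := by
    have : ‖x - y‖ - Λ * ‖x - y‖ ^ 2 = ‖x - y‖ * (1 - Λ * ‖x - y‖) := by ring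
    rw [this]
    apply mul_nonneg hr.le
    linarith
  have hfr : ‖x - y‖ - Λ * ‖x - y‖ ^ 2 ≤ ‖x - y‖ := by
    have : 0 ≤ Λ * ‖x - y‖ ^ 2 := by positivity
    linarith
  have hfp0 : 0 ≤ 1 - 2 * Λ * ‖x - y‖ := by linarith
  have hfp1 : 1 - 2 * Λ * ‖x - y‖ ≤ 1 := by
    have : 0 ≤ Λ * ‖x - y‖ := by positivity
    linarith
  have hGm : 0 ≤ 3 * C + b := by positivity
  have hI1 : |⟪tpBeta b c0 x y, q + tpGc b Λ c0 x y z⟫| ≤ 2 * b * (3 * C + b) :=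
    (abs_real_inner_le_norm _ _).trans (mul_le_mul hβ hgam (norm_nonneg _) (by positivity))
  have hI2 : |⟪z - tpMid x y, tpBeta b c0 x y⟫| ≤ (2 * C * ‖x - y‖ ^ 2) * (2 * b) :=
    (abs_real_inner_le_norm _ _).trans (mul_le_mul hh hβ (norm_nonneg _) (by positivity))
  have s1 := tpn_s1 hδ hΛ0 hBge hAge
  have s2 := tpn_s2 hb hGm hA0 hAle hfp0 hfp1 hI1
  have s3 := tpn_s3 hb hf0 (hfr.trans hr1) (norm_nonneg _) hgam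
  have s4 := tpn_s4 hb hr hf0 hfr (norm_nonneg _) hβ
  have s5 := tpn_s5 hC hb hr hA0 hAle hf0 hfr hI2
  have s6 := tpn_s6 hC hr hA0 hAle (norm_nonneg _) hh
  have hae : ‖tpA δ b Λ c0 x y z • tpE x y‖ ≤ δ / 2 + b := by
    rw [norm_smul, he, mul_one, Real.norm_eq_abs, abs_of_nonneg hA0]
    exact hAle
  have n1 : ‖q + tpG1 δ b Λ c0 x y z‖ ≤ 3 * C + b + (δ / 2 + b) := by
    have : q + tpG1 δ b Λ c0 x y z
        = (q + tpGc b Λ c0 x y z) + tpA δ b Λ c0 x y z • tpE x y := by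
      unfold tpG1; abel
    rw [this]
    exact (norm_add_le _ _).trans (add_le_add hgam hae)
  have n2 : ‖q + tpG2 δ b Λ c0 x y z‖ ≤ 3 * C + b + (δ / 2 + b) := by
    have : q + tpG2 δ b Λ c0 x y z
        = (q + tpGc b Λ c0 x y z) - tpA δ b Λ c0 x y z • tpE x y := by
      unfold tpG2; abel
    rw [this]
    exact (norm_sub_le _ _).trans (add_le_add hgam hae)
  have n3 : ‖q + tpG0 x y z‖ ≤ 3 * C := by
    refine (norm_add_le _ _).trans ?_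
    unfold tpG0
    rw [norm_neg]
    have := tpn_hr2 hC hxy hh
    linarith
  have m1 := pow_le_pow_left₀ (norm_nonneg _) n1 2
  have m2 := pow_le_pow_left₀ (norm_nonneg _) n2 2
  have m3 := pow_le_pow_left₀ (norm_nonneg _) n3 2
  unfold tpnK at hK
  have e9 : (3 * C) ^ 2 = 9 * C ^ 2 := by ring
  rw [e9] at m3
  have e1 : -4 * Λ * tpB δ b c0 x y * tpA δ b Λ c0 x y z ^ 2
      = -(4 * Λ * tpB δ b c0 x y * tpA δ b Λ c0 x y z ^ 2) := by ring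
  rw [e1]
  linarith

end final

end Claimed.Agent.R330
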