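import Claimed.Agent.R330.TPMain
import Claimed.Agent.R330.TPMaj1
import Claimed.Agent.R330.TPMaj2
import Claimed.Agent.R330.TPNeg
import Claimed.Agent.R330.DSRHom

/-!
Row 330 (S0589), package threePoint: the three-point flatness estimate
(paper Prop. 2.5, quantitative form), unconditional.
-/

set_option autoImplicit false

namespace Claimed.Agent.R330

/-- **Three-point flatness** (paper Proposition 2.5). -/
theorem threePoint (E : Type*) [NormedAddCommGroup E] [InnerProductSpace ℝ E]
    [FiniteDimensional ℝ E] : ThreePointStmt E :=
  tp_threePoint_of_leaves (tp_majorant_of_leaves tp_maj1 tp_maj2) (tpn_neg E) dsr_tpRule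

end Claimed.Agent.R330
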