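import Claimed.Agent.R330.TPMax

/-!
Row 330 (S0589), package threePoint: assembly of the three-point flatness estimate
(paper Prop. 2.5, quantitative form) from the three leaves
`TPMajorantStmt`, `TPNegStmt`, `TPRuleStmt`.
-/

set_option autoImplicit false

open scoped Topology RealInnerProductSpace
open Metric Filter

namespace Claimed.Agent.R330

variable {E : Type*} [NormedAddCommGroup E] [InnerProductSpace ℝ E]

/-- the quadratic function handed to the sum rule. -/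
noncomputable def tpQ1 (δ b Λ : ℝ) (c0 x y z k1 k2 k3 : E) : ℝ :=
  tpQ δ b Λ c0 x y z k1 k2 k3 + (‖k1‖ ^ 2 + ‖k2‖ ^ 2 + ‖k3‖ ^ 2)

lemma tpQ1_continuous (δ b Λ : ℝ) (c0 x y z : E) :
    Continuous (fun k : E × E × E => tpQ1 δ b Λ c0 x y z k.1 k.2.1 k.2.2) := by
  unfold tpQ1 tpQ tpMid
  fun_prop

lemma tpMid_smul (t : ℝ) (a b : E) : tpMid (t • a) (t • b) = t • tpMid a b := by
  unfold tpMid
  rw [← smul_add, smul_comm]

lemma tpQ1_smul (δ b Λ : ℝ) (c0 x y z : E) (t : ℝ) (k1 k2 k3 : E) :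
    tpQ1 δ b Λ c0 x y z (t • k1) (t • k2) (t • k3) = t ^ 2 * tpQ1 δ b Λ c0 x y z k1 k2 k3 := by
  unfold tpQ1 tpQ
  rw [tpMid_smul, ← smul_sub, ← smul_sub]
  simp only [norm_smul, inner_smul_right, mul_pow, Real.norm_eq_abs, sq_abs]
  ring

/-- slope bound for an affine function close to a Lipschitz function. -/
lemma tp_q_bound {U : E → ℝ} {C0 ε c : ℝ} {q : E} (hC0 : 0 ≤ C0)
    (hlip : ∀ x ∈ ball (0 : E) 1, ∀ y ∈ ball (0 : E) 1, |U x - U y| ≤ C0 * ‖x - y‖)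
    (haff : ∀ x ∈ ball (0 : E) 1, |U x - (c + ⟪q, x⟫)| ≤ ε) : ‖q‖ ≤ C0 + 2 * ε := by
  have hε : 0 ≤ ε := le_trans (abs_nonneg _) (haff 0 (mem_ball_self one_pos))
  by_cases hq : q = 0
  · rw [hq, norm_zero]; positivity
  have hn : 0 < ‖q‖ := norm_pos_iff.mpr hq
  set e : E := (1 / (2 * ‖q‖)) • q with he
  have hen : ‖e‖ = 1 / 2 := by
    rw [he, norm_smul, Real.norm_eq_abs, abs_of_pos (by positivity)]
    field_simp
  have he1 : e ∈ ball (0 : E) 1 := by rw [mem_ball_zero_iff, hen]; norm_num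
  have he2 : -e ∈ ball (0 : E) 1 := by rw [mem_ball_zero_iff, norm_neg, hen]; norm_num
  have hqe : ⟪q, e⟫ = ‖q‖ / 2 := by
    rw [he, real_inner_smul_right, real_inner_self_eq_norm_sq]
    field_simp
  have h1 := (abs_le.mp (hlip e he1 (-e) he2)).2
  have h2 := (abs_le.mp (haff e he1)).1
  have h3 := (abs_le.mp (haff (-e) he2)).2
  have h4 : ‖e - -e‖ = 1 := by
    rw [sub_neg_eq_add, ← two_smul ℝ e, norm_smul, hen]; norm_num
  rw [h4] at h1
  rw [inner_neg_right, hqe] at h3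
  rw [hqe] at h2
  linarith

/-- One-sided three-point estimate. -/
theorem tp_oneSided [FiniteDimensional ℝ E] (hA : TPMajorantStmt E) (hB : TPNegStmt E)
    (hR : TPRuleStmt E) (C δ : ℝ) (hC : 0 ≤ C) (hδ : 0 < δ) :
    ∃ ε₀ > 0, ∀ w : E → ℝ, JetHarm w (ball 0 1) →
      (∀ x ∈ ball (0 : E) 1, ∀ y ∈ ball (0 : E) 1, |w x - w y| ≤ C * ‖x - y‖) →
      (∃ (q : E) (c : ℝ), ∀ x ∈ ball (0 : E) 1, |w x - (c + ⟪q, x⟫)| ≤ ε₀) →
      ∀ x ∈ ball (0 : E) (1 / 4), ∀ y ∈ ball (0 : E) (1 / 4),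
        w x + w y - 2 * w (tpMid x y) ≤ δ * ‖x - y‖ := by
  set C₁ : ℝ := 2 * C + 1 with hC₁
  have hC₁1 : 1 ≤ C₁ := by linarith
  set b : ℝ := 32 * (C₁ + C₁ ^ 2) with hb
  have hb0 : 0 ≤ b := by positivity
  obtain ⟨Λ0, hΛ0, hneg⟩ := hB C₁ δ b (by linarith) hδ hb0
  set Λ : ℝ := max Λ0 (1 + C₁) with hΛ
  have hΛa : Λ0 ≤ Λ := le_max_left _ _
  have hΛb : 1 + C₁ ≤ Λ := le_max_right _ _
  have hΛpos : 0 < Λ := by linarith
  refine ⟨min (1 / 2) (δ / (64 * Λ)), lt_min (by norm_num) (by positivity), ?_⟩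
  intro U hU hlip ⟨q, c, haff⟩ xv hxv yv hyv
  by_contra hcon
  push Not at hcon
  set ε : ℝ := min (1 / 2) (δ / (64 * Λ)) with hε
  have hε1 : ε ≤ 1 / 2 := min_le_left _ _
  have hε2 : ε ≤ δ / (64 * Λ) := min_le_right _ _
  have hq : ‖q‖ ≤ C + 1 := by
    have := tp_q_bound hC hlip haff
    linarith
  have hq1 : ‖q‖ ≤ C₁ := by linarith
  set v : E → ℝ := fun x => U x - (c + ⟪q, x⟫) with hv
  have hvc : ContinuousOn v (ball (0 : E) 1) :=
    hU.1.sub (Continuous.continuousOn (by fun_prop))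
  have hvb : ∀ x ∈ ball (0 : E) 1, |v x| ≤ ε := haff
  have hvlip : ∀ x ∈ ball (0 : E) 1, ∀ y ∈ ball (0 : E) 1, |v x - v y| ≤ C₁ * ‖x - y‖ := by
    intro x hx y hy
    have h1 := hlip x hx y hy
    have h2 : |⟪q, x - y⟫| ≤ ‖q‖ * ‖x - y‖ := abs_real_inner_le_norm _ _
    have h3 : v x - v y = (U x - U y) - ⟪q, x - y⟫ := by
      simp only [hv, inner_sub_right]; ring
    rw [h3]
    have h4 : ‖q‖ * ‖x - y‖ ≤ (C + 1) * ‖x - y‖ :=
      mul_le_mul_of_nonneg_right hq (norm_nonneg _)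
    calc |(U x - U y) - ⟪q, x - y⟫| ≤ |U x - U y| + |⟪q, x - y⟫| := abs_sub _ _
      _ ≤ C * ‖x - y‖ + (C + 1) * ‖x - y‖ := by linarith
      _ = C₁ * ‖x - y‖ := by rw [hC₁]; ring
  have hviol : δ * ‖xv - yv‖ < v xv + v yv - 2 * v (tpMid xv yv) := by
    have h1 : v xv + v yv - 2 * v (tpMid xv yv) = U xv + U yv - 2 * U (tpMid xv yv) := by
      simp only [hv, tpMid, inner_smul_right, inner_add_right]; ring
    rw [h1]; exact hcon
  obtain ⟨x, y, z, hx, hy, hz, hxy, hr1, hh, hc, hmax⟩ :=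
    tp_exists_max hC₁1 hδ hΛb hε2 hvc hvb hvlip hxv hyv hviol
  rw [← hb] at hmax
  set c0 : E := tpMid xv yv with hc0
  have hmaj := hA δ b Λ c0 x y z hδ.le hb0 hΛpos.le hxy 1 one_pos
  have hrule := hR U (ball 0 1) isOpen_ball hU x hx y hy z hz
    (q + tpG1 δ b Λ c0 x y z) (q + tpG2 δ b Λ c0 x y z) (q + tpG0 x y z)
    (tpQ1 δ b Λ c0 x y z) (tpQ1_continuous δ b Λ c0 x y z) (tpQ1_smul δ b Λ c0 x y z) (by
      filter_upwards [hmax, hmaj] with k h1 h2
      unfold tpPhi at h1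
      simp only [hv, inner_add_right] at h1
      simp only [inner_add_left]
      unfold tpQ1
      linarith)
  have hn := hneg Λ hΛa q c0 x y z hq1 hxy hr1 hh hc
  unfold tpQ1 at hrule
  linarith

/-- Three-point flatness (paper Prop. 2.5, quantitative form), from the three leaves. -/
theorem tp_threePoint_of_leaves [FiniteDimensional ℝ E] (hA : TPMajorantStmt E)
    (hB : TPNegStmt E) (hR : TPRuleStmt E) : ThreePointStmt E := by
  intro C δ hδ
  obtain ⟨ε₀, hε₀, h⟩ := tp_oneSided hA hB hR (max C 0) δ (le_max_right _ _) hδ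
  refine ⟨ε₀, hε₀, ?_⟩
  intro w hw hlip ⟨q, c, haff⟩ x hx y hy
  have hlip' : ∀ x ∈ ball (0 : E) 1, ∀ y ∈ ball (0 : E) 1, |w x - w y| ≤ max C 0 * ‖x - y‖ :=
    fun x hx y hy => le_trans (hlip x hx y hy)
      (mul_le_mul_of_nonneg_right (le_max_left _ _) (norm_nonneg _))
  have h1 := h w hw hlip' ⟨q, c, haff⟩ x hx y hy
  have h2 := h (fun x => - w x) hw.neg
    (fun x hx y hy => by
      have := hlip' x hx y hy
      rw [abs_sub_comm] at this
      have e : - w x - - w y = w y - w x := by ring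
      rw [e]; exact this)
    ⟨-q, -c, fun x hx => by
      have := haff x hx
      rw [abs_sub_comm] at this
      have e : - w x - (-c + ⟪-q, x⟫) = c + ⟪q, x⟫ - w x := by
        rw [inner_neg_left]; ring
      rw [e]; exact this⟩ x hx y hy
  unfold tpMid at h1 h2
  rw [abs_le]
  constructor <;> linarith

end Claimed.Agent.R330
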