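import Claimed.Agent.R330.TPMax

/-!
Row 330 (S0589), package threePoint, LEAF A: the quadratic majorant of the barrier.
Split into A1 (term `B(c) f(r)`), A2 (term `|h|^2/r^2`) and the combination.
-/

set_option autoImplicit false

open scoped Topology RealInnerProductSpace
open Metric Filter

namespace Claimed.Agent.R330

variable {E : Type*} [NormedAddCommGroup E] [InnerProductSpace ℝ E]

/-- LEAF A1: majorant of `(δ/2 + b |m+γ|^2) (|a+d| - Λ |a+d|^2)`; increments `p = (d, γ)`. -/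
def TPMaj1Stmt (E : Type*) [NormedAddCommGroup E] [InnerProductSpace ℝ E] : Prop :=
  ∀ (δ b Λ : ℝ) (a m : E), 0 ≤ δ → 0 ≤ b → a ≠ 0 → ∀ ε : ℝ, 0 < ε →
    ∀ᶠ p : E × E in 𝓝 0,
      (δ / 2 + b * ‖m + p.2‖ ^ 2) * (‖a + p.1‖ - Λ * ‖a + p.1‖ ^ 2) ≤
        (δ / 2 + b * ‖m‖ ^ 2) * (‖a‖ - Λ * ‖a‖ ^ 2)
        + ((δ / 2 + b * ‖m‖ ^ 2) * (1 - 2 * Λ * ‖a‖) * ⟪‖a‖⁻¹ • a, p.1⟫
            + (‖a‖ - Λ * ‖a‖ ^ 2) * ⟪(2 * b) • m, p.2⟫)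
        + ((δ / 2 + b * ‖m‖ ^ 2) * ((‖p.1‖ ^ 2 - ⟪‖a‖⁻¹ • a, p.1⟫ ^ 2) / ‖a‖ - Λ * ‖p.1‖ ^ 2)
            + (1 - 2 * Λ * ‖a‖) * ⟪(2 * b) • m, p.2⟫ * ⟪‖a‖⁻¹ • a, p.1⟫
            + (‖a‖ - Λ * ‖a‖ ^ 2) * b * ‖p.2‖ ^ 2)
        + ε * (‖p.1‖ ^ 2 + ‖p.2‖ ^ 2)

/-- LEAF A2: majorant of `|h+κ|^2 / |a+d|^2`; increments `p = (d, κ)`. -/
def TPMaj2Stmt (E : Type*) [NormedAddCommGroup E] [InnerProductSpace ℝ E] : Prop :=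
  ∀ (a h : E), a ≠ 0 → ∀ ε : ℝ, 0 < ε →
    ∀ᶠ p : E × E in 𝓝 0,
      ‖h + p.2‖ ^ 2 / ‖a + p.1‖ ^ 2 ≤
        ‖h‖ ^ 2 / ‖a‖ ^ 2
        + (2 * ⟪h, p.2⟫ / ‖a‖ ^ 2 - 2 * ‖h‖ ^ 2 * ⟪‖a‖⁻¹ • a, p.1⟫ / ‖a‖ ^ 3)
        + (‖p.2‖ ^ 2 / ‖a‖ ^ 2 - 4 * ⟪h, p.2⟫ * ⟪‖a‖⁻¹ • a, p.1⟫ / ‖a‖ ^ 3
            + 8 * ‖h‖ ^ 2 * ⟪‖a‖⁻¹ • a, p.1⟫ ^ 2 / ‖a‖ ^ 4)
        + ε * (‖p.1‖ ^ 2 + ‖p.2‖ ^ 2)

omit [InnerProductSpace ℝ E] in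
lemma tp_norm_sub_sq_le (k1 k2 : E) : ‖k1 - k2‖ ^ 2 ≤ 2 * (‖k1‖ ^ 2 + ‖k2‖ ^ 2) := by
  have h1 := norm_sub_le k1 k2
  have h2 : ‖k1 - k2‖ ^ 2 ≤ (‖k1‖ + ‖k2‖) ^ 2 := pow_le_pow_left₀ (norm_nonneg _) h1 2
  nlinarith [sq_nonneg (‖k1‖ - ‖k2‖)]

lemma tp_norm_mid_sq_le (k1 k2 : E) : ‖tpMid k1 k2‖ ^ 2 ≤ (‖k1‖ ^ 2 + ‖k2‖ ^ 2) / 2 := by
  have h0 : ‖tpMid k1 k2‖ = ‖k1 + k2‖ / 2 := by
    unfold tpMid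
    rw [norm_smul]; norm_num; ring
  have h1 := norm_add_le k1 k2
  have h2 : ‖k1 + k2‖ ^ 2 ≤ (‖k1‖ + ‖k2‖) ^ 2 := pow_le_pow_left₀ (norm_nonneg _) h1 2
  rw [h0]
  nlinarith [sq_nonneg (‖k1‖ - ‖k2‖)]

/-- combination of the two leaves. -/
theorem tp_majorant_of_leaves (h1 : TPMaj1Stmt E) (h2 : TPMaj2Stmt E) : TPMajorantStmt E := by
  intro δ b Λ c0 x y z hδ hb _ hxy ε hε
  have ha : x - y ≠ 0 := sub_ne_zero.mpr hxy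
  have e1 := h1 δ b Λ (x - y) (tpMid x y - c0) hδ hb ha (ε / 6) (by positivity)
  have e2 := h2 (x - y) (z - tpMid x y) ha (ε / 6) (by positivity)
  have t1 : Tendsto (fun k : E × E × E => ((k.1 - k.2.1, tpMid k.1 k.2.1) : E × E)) (𝓝 0)
      (𝓝 0) := by
    have hc : Continuous (fun k : E × E × E => ((k.1 - k.2.1, tpMid k.1 k.2.1) : E × E)) := by
      unfold tpMid; fun_prop
    have h0 : (((0 : E × E × E).1 - (0 : E × E × E).2.1,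
        tpMid (0 : E × E × E).1 (0 : E × E × E).2.1) : E × E) = 0 := by simp [tpMid]
    rw [← h0]
    exact hc.tendsto 0
  have t2 : Tendsto (fun k : E × E × E => ((k.1 - k.2.1, k.2.2 - tpMid k.1 k.2.1) : E × E)) (𝓝 0)
      (𝓝 0) := by
    have hc : Continuous
        (fun k : E × E × E => ((k.1 - k.2.1, k.2.2 - tpMid k.1 k.2.1) : E × E)) := by
      unfold tpMid; fun_prop
    have h0 : (((0 : E × E × E).1 - (0 : E × E × E).2.1,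
        (0 : E × E × E).2.2 - tpMid (0 : E × E × E).1 (0 : E × E × E).2.1) : E × E) = 0 := by
      simp [tpMid]
    rw [← h0]
    exact hc.tendsto 0
  filter_upwards [t1.eventually e1, t2.eventually e2] with k g1 g2
  obtain ⟨k1, k2, k3⟩ := k
  simp only at g1 g2 ⊢
  have i1 : x + k1 - (y + k2) = x - y + (k1 - k2) := by abel
  have i2 : tpMid (x + k1) (y + k2) - c0 = tpMid x y - c0 + tpMid k1 k2 := by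
    rw [tpMid_add]; abel
  have i3 : z + k3 - tpMid (x + k1) (y + k2) = z - tpMid x y + (k3 - tpMid k1 k2) := by
    rw [tpMid_add]; abel
  have n1 := tp_norm_sub_sq_le k1 k2
  have n2 := tp_norm_mid_sq_le k1 k2
  have n3 := tp_norm_sub_sq_le k3 (tpMid k1 k2)
  have hr : 0 < ‖x - y‖ := norm_pos_iff.mpr ha
  -- the linear part
  have hlin : ⟪tpG1 δ b Λ c0 x y z, k1⟫ + ⟪tpG2 δ b Λ c0 x y z, k2⟫ - 2 * ⟪tpG0 x y z, k3⟫ =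
      ((δ / 2 + b * ‖tpMid x y - c0‖ ^ 2) * (1 - 2 * Λ * ‖x - y‖) * ⟪‖x - y‖⁻¹ • (x - y), k1 - k2⟫
        + (‖x - y‖ - Λ * ‖x - y‖ ^ 2) * ⟪(2 * b) • (tpMid x y - c0), tpMid k1 k2⟫)
      + (2 * ⟪z - tpMid x y, k3 - tpMid k1 k2⟫ / ‖x - y‖ ^ 2
        - 2 * ‖z - tpMid x y‖ ^ 2 * ⟪‖x - y‖⁻¹ • (x - y), k1 - k2⟫ / ‖x - y‖ ^ 3) := by
    unfold tpG1 tpG2 tpG0 tpGc tpA tpB tpBeta tpE
    have hm : tpMid k1 k2 = (1 / 2 : ℝ) • (k1 + k2) := rfl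
    rw [hm]
    simp only [inner_add_left, inner_sub_left, inner_neg_left, inner_smul_left, inner_add_right,
      inner_sub_right, inner_smul_right, RCLike.conj_to_real]
    field_simp
    ring
  unfold tpPsi tpB
  rw [i1, i2, i3]
  unfold tpQ tpB tpBeta tpE
  have hsum : ε / 6 * (‖k1 - k2‖ ^ 2 + ‖tpMid k1 k2‖ ^ 2)
      + ε / 6 * (‖k1 - k2‖ ^ 2 + ‖k3 - tpMid k1 k2‖ ^ 2) ≤
      ε * (‖k1‖ ^ 2 + ‖k2‖ ^ 2 + ‖k3‖ ^ 2) := by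
    have : (‖k1 - k2‖ ^ 2 + ‖tpMid k1 k2‖ ^ 2) + (‖k1 - k2‖ ^ 2 + ‖k3 - tpMid k1 k2‖ ^ 2)
        ≤ 6 * (‖k1‖ ^ 2 + ‖k2‖ ^ 2 + ‖k3‖ ^ 2) := by
      nlinarith [sq_nonneg ‖k1‖, sq_nonneg ‖k2‖, sq_nonneg ‖k3‖]
    have h6 := mul_le_mul_of_nonneg_left this (by positivity : (0 : ℝ) ≤ ε / 6)
    linarith
  linarith

end Claimed.Agent.R330
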