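import Claimed.Agent.R330.TPDefs

/-!
Row 330 (S0589), package threePoint: existence and localisation of the maximum of
`v x + v y - 2 v z - Psi(x,y,z)`.
-/

set_option autoImplicit false

open scoped Topology RealInnerProductSpace
open Metric Filter

namespace Claimed.Agent.R330

variable {E : Type*} [NormedAddCommGroup E] [InnerProductSpace ℝ E]

lemma tpMid_self (x : E) : tpMid x x = x := by
  unfold tpMid
  rw [← two_smul ℝ x, smul_smul]
  norm_num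

lemma tpMid_add (x y k1 k2 : E) : tpMid (x + k1) (y + k2) = tpMid x y + tpMid k1 k2 := by
  unfold tpMid
  rw [← smul_add]
  congr 1
  abel

lemma tp_sub_mid_left (x y : E) : x - tpMid x y = (1 / 2 : ℝ) • (x - y) := by
  unfold tpMid
  have : x = (1 / 2 : ℝ) • x + (1 / 2 : ℝ) • x := by
    rw [← add_smul]; norm_num
  nth_rewrite 1 [this]
  rw [smul_add, smul_sub]
  abel

lemma tp_sub_mid_right (x y : E) : y - tpMid x y = (1 / 2 : ℝ) • (y - x) := by
  unfold tpMid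
  have : y = (1 / 2 : ℝ) • y + (1 / 2 : ℝ) • y := by
    rw [← add_smul]; norm_num
  nth_rewrite 1 [this]
  rw [smul_add, smul_sub]
  abel

lemma tp_norm_sub_mid_left (x y : E) : ‖x - tpMid x y‖ = ‖x - y‖ / 2 := by
  rw [tp_sub_mid_left, norm_smul]
  norm_num
  ring

lemma tp_norm_sub_mid_right (x y : E) : ‖y - tpMid x y‖ = ‖x - y‖ / 2 := by
  rw [tp_sub_mid_right, norm_smul, norm_sub_rev y x]
  norm_num
  ring

lemma tp_norm_mid_le {x y : E} {R : ℝ} (hx : ‖x‖ ≤ R) (hy : ‖y‖ ≤ R) : ‖tpMid x y‖ ≤ R := by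
  unfold tpMid
  rw [norm_smul]
  have := norm_add_le x y
  norm_num
  linarith

lemma tp_norm_mid_lt {x y : E} {R : ℝ} (hx : ‖x‖ < R) (hy : ‖y‖ < R) : ‖tpMid x y‖ < R := by
  unfold tpMid
  rw [norm_smul]
  have := norm_add_le x y
  norm_num
  linarith

/-- scalar inequality: `2 C s - s^2/r^2 ≤ C^2 r^2`. -/
lemma tp_pen_bound {C s r : ℝ} (hr : 0 < r) : 2 * C * s - s ^ 2 / r ^ 2 ≤ C ^ 2 * r ^ 2 := by
  have h1 : 0 ≤ (s / r - C * r) ^ 2 := sq_nonneg _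
  have h2 : (s / r - C * r) ^ 2 = s ^ 2 / r ^ 2 - 2 * C * s + C ^ 2 * r ^ 2 := by
    field_simp
    ring
  linarith

/-- first-order bound for the three-point combination of a Lipschitz function. -/
lemma tp_comb_le {v : E → ℝ} {C₁ : ℝ}
    (hlip : ∀ x ∈ ball (0 : E) 1, ∀ y ∈ ball (0 : E) 1, |v x - v y| ≤ C₁ * ‖x - y‖)
    {x y z : E} (hx : x ∈ ball (0 : E) 1) (hy : y ∈ ball (0 : E) 1) (hz : z ∈ ball (0 : E) 1) :
    v x + v y - 2 * v z ≤ C₁ * ‖x - y‖ + 2 * C₁ * ‖z - tpMid x y‖ := by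
  have hc : tpMid x y ∈ ball (0 : E) 1 := by
    rw [mem_ball_zero_iff] at *
    exact tp_norm_mid_lt hx hy
  have h1 := (abs_le.mp (hlip x hx _ hc)).2
  have h2 := (abs_le.mp (hlip y hy _ hc)).2
  have h3 := (abs_le.mp (hlip _ hc z hz)).2
  rw [tp_norm_sub_mid_left] at h1
  rw [tp_norm_sub_mid_right] at h2
  rw [norm_sub_rev] at h3
  linarith

/-- the functional to be maximised. -/
noncomputable def tpPhi (v : E → ℝ) (δ b Λ : ℝ) (c0 x y z : E) : ℝ :=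
  v x + v y - 2 * v z - tpPsi δ b Λ c0 x y z

/-- `f(r) ≥ 3r/4` on the admissible range. -/
lemma tp_f_ge {Λ r : ℝ} (hΛ : 0 < Λ) (hr : 0 ≤ r) (hr1 : r ≤ 1 / (4 * Λ)) :
    3 * r / 4 ≤ r - Λ * r ^ 2 := by
  have h1 : Λ * r ≤ 1 / 4 := by
    have : Λ * r ≤ Λ * (1 / (4 * Λ)) := mul_le_mul_of_nonneg_left hr1 hΛ.le
    have e : Λ * (1 / (4 * Λ)) = 1 / 4 := by field_simp
    linarith
  nlinarith

/-- Lipschitz bound of the functional. -/
lemma tp_phi_le_lip {v : E → ℝ} {C₁ δ b Λ : ℝ} {c0 : E} (hΛ : 1 ≤ Λ)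
    (hlip : ∀ x ∈ ball (0 : E) 1, ∀ y ∈ ball (0 : E) 1, |v x - v y| ≤ C₁ * ‖x - y‖)
    {x y z : E} (hx : x ∈ ball (0 : E) 1) (hy : y ∈ ball (0 : E) 1) (hz : z ∈ ball (0 : E) 1)
    (hr : 0 < ‖x - y‖) (hr1 : ‖x - y‖ ≤ 1 / (4 * Λ)) (hB : 0 ≤ tpB δ b c0 x y) :
    tpPhi v δ b Λ c0 x y z ≤ (C₁ + C₁ ^ 2) * ‖x - y‖ - tpB δ b c0 x y * (3 * ‖x - y‖ / 4) := by
  have h1 := tp_comb_le hlip hx hy hz
  have h2 := tp_pen_bound (C := C₁) (s := ‖z - tpMid x y‖) hr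
  have h3 := tp_f_ge (by linarith : (0 : ℝ) < Λ) hr.le hr1
  have h4 : ‖x - y‖ ≤ 1 := by
    have : 1 / (4 * Λ) ≤ 1 := by
      rw [div_le_one (by linarith)]; linarith
    linarith
  have h5 : ‖x - y‖ ^ 2 ≤ ‖x - y‖ := by nlinarith
  have h6 : C₁ ^ 2 * ‖x - y‖ ^ 2 ≤ C₁ ^ 2 * ‖x - y‖ :=
    mul_le_mul_of_nonneg_left h5 (sq_nonneg _)
  have h7 := mul_le_mul_of_nonneg_left h3 hB
  unfold tpPhi tpPsi
  linarith

/-- sup bound of the functional. -/
lemma tp_phi_le_sup {v : E → ℝ} {δ b Λ ε : ℝ} {c0 : E} (hδ : 0 ≤ δ) (hb : 0 ≤ b) (hΛ : 1 ≤ Λ)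
    (hv : ∀ x ∈ ball (0 : E) 1, |v x| ≤ ε)
    {x y z : E} (hx : x ∈ ball (0 : E) 1) (hy : y ∈ ball (0 : E) 1) (hz : z ∈ ball (0 : E) 1)
    (hr1 : ‖x - y‖ ≤ 1 / (4 * Λ)) :
    tpPhi v δ b Λ c0 x y z ≤ 4 * ε - δ / 2 * (3 * ‖x - y‖ / 4) := by
  have h1 := (abs_le.mp (hv x hx)).2
  have h2 := (abs_le.mp (hv y hy)).2
  have h3 := (abs_le.mp (hv z hz)).1
  have h4 := tp_f_ge (by linarith : (0 : ℝ) < Λ) (norm_nonneg (x - y)) hr1
  have h5 : δ / 2 ≤ tpB δ b c0 x y := by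
    unfold tpB
    have : 0 ≤ b * ‖tpMid x y - c0‖ ^ 2 := by positivity
    linarith
  have h6 : 0 ≤ ‖z - tpMid x y‖ ^ 2 / ‖x - y‖ ^ 2 := by positivity
  have h7 : δ / 2 * (3 * ‖x - y‖ / 4) ≤ tpB δ b c0 x y * (‖x - y‖ - Λ * ‖x - y‖ ^ 2) := by
    have h8 : 0 ≤ 3 * ‖x - y‖ / 4 := by positivity
    calc δ / 2 * (3 * ‖x - y‖ / 4) ≤ tpB δ b c0 x y * (3 * ‖x - y‖ / 4) :=
          mul_le_mul_of_nonneg_right h5 h8
      _ ≤ _ := mul_le_mul_of_nonneg_left h4 (by linarith)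
  unfold tpPhi tpPsi
  linarith

set_option maxHeartbeats 1000000 in
/-- Existence of an interior, localised maximum point. -/
theorem tp_exists_max [FiniteDimensional ℝ E] {v : E → ℝ} {C₁ δ Λ ε : ℝ}
    (hC₁ : 1 ≤ C₁) (hδ : 0 < δ) (hΛ : 1 + C₁ ≤ Λ) (hε : ε ≤ δ / (64 * Λ))
    (hvc : ContinuousOn v (ball (0 : E) 1))
    (hv : ∀ x ∈ ball (0 : E) 1, |v x| ≤ ε)
    (hlip : ∀ x ∈ ball (0 : E) 1, ∀ y ∈ ball (0 : E) 1, |v x - v y| ≤ C₁ * ‖x - y‖)
    {xv yv : E} (hxv : xv ∈ ball (0 : E) (1 / 4)) (hyv : yv ∈ ball (0 : E) (1 / 4))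
    (hviol : δ * ‖xv - yv‖ < v xv + v yv - 2 * v (tpMid xv yv)) :
    ∃ x y z : E, x ∈ ball (0 : E) 1 ∧ y ∈ ball (0 : E) 1 ∧ z ∈ ball (0 : E) 1 ∧ x ≠ y ∧
      ‖x - y‖ ≤ 1 / (4 * Λ) ∧ ‖z - tpMid x y‖ ≤ 2 * C₁ * ‖x - y‖ ^ 2 ∧
      ‖tpMid x y - tpMid xv yv‖ ≤ 1 ∧
      ∀ᶠ k : E × E × E in 𝓝 0,
        tpPhi v δ (32 * (C₁ + C₁ ^ 2)) Λ (tpMid xv yv) (x + k.1) (y + k.2.1) (z + k.2.2) ≤
          tpPhi v δ (32 * (C₁ + C₁ ^ 2)) Λ (tpMid xv yv) x y z := by
  set K₁ : ℝ := C₁ + C₁ ^ 2 with hK₁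
  set b : ℝ := 32 * K₁ with hb
  set c0 : E := tpMid xv yv with hc0
  set r1 : ℝ := 1 / (4 * Λ) with hr1
  set rv : ℝ := ‖xv - yv‖ with hrv
  have hK₁2 : 2 ≤ K₁ := by nlinarith
  have hb0 : 0 ≤ b := by positivity
  have hΛ2 : 2 ≤ Λ := by linarith
  have hΛ1 : 1 ≤ Λ := by linarith
  have hΛ0 : 0 < Λ := by linarith
  have hr1pos : 0 < r1 := by positivity
  have hr18 : r1 ≤ 1 / 8 := by
    rw [hr1]
    apply one_div_le_one_div_of_le (by norm_num)
    linarith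
  rw [mem_ball_zero_iff] at hxv hyv
  have hc0n : ‖c0‖ < 1 / 4 := tp_norm_mid_lt hxv hyv
  have hxv1 : xv ∈ ball (0 : E) 1 := by rw [mem_ball_zero_iff]; linarith
  have hyv1 : yv ∈ ball (0 : E) 1 := by rw [mem_ball_zero_iff]; linarith
  have hc01 : c0 ∈ ball (0 : E) 1 := by rw [mem_ball_zero_iff]; linarith
  -- the violating pair is nondegenerate and short
  have hrvpos : 0 < rv := by
    rcases (norm_nonneg (xv - yv)).lt_or_eq with h | h
    · exact h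
    · exfalso
      have h1 : xv = yv := by
        have : xv - yv = 0 := norm_eq_zero.mp h.symm
        exact sub_eq_zero.mp this
      have hc : c0 = xv := by rw [hc0, ← h1, tpMid_self]
      have hrv0 : rv = 0 := h.symm
      rw [hc, ← h1, hrv0] at hviol
      linarith
  have hrv_small : rv < r1 / 4 := by
    have h1 := (abs_le.mp (hv xv hxv1)).2
    have h2 := (abs_le.mp (hv yv hyv1)).2
    have h3 := (abs_le.mp (hv c0 hc01)).1
    have h4 : δ * rv < 4 * (δ / (64 * Λ)) := by linarith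
    have h5 : 4 * (δ / (64 * Λ)) = δ * (r1 / 4) := by
      rw [hr1]; field_simp; ring
    rw [h5] at h4
    exact lt_of_mul_lt_mul_left h4 hδ.le
  -- value at the violating triple
  set m0 : ℝ := tpPhi v δ b Λ c0 xv yv c0 with hm0
  have hm0pos : δ * rv / 2 < m0 := by
    have h1 : tpPsi δ b Λ c0 xv yv c0 = δ / 2 * (rv - Λ * rv ^ 2) := by
      unfold tpPsi tpB
      rw [← hc0, ← hrv]
      simp
    have h2 : δ / 2 * (rv - Λ * rv ^ 2) ≤ δ / 2 * rv := by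
      apply mul_le_mul_of_nonneg_left _ (by positivity)
      have : 0 ≤ Λ * rv ^ 2 := by positivity
      linarith
    rw [hm0]
    unfold tpPhi
    rw [h1]
    linarith
  have hm00 : 0 < m0 := by
    have : 0 < δ * rv / 2 := by positivity
    linarith
  set rmin : ℝ := min rv (m0 / (2 * (K₁ + 1))) with hrmin
  have hrminpos : 0 < rmin := lt_min hrvpos (by positivity)
  have hrmin_rv : rmin ≤ rv := min_le_left _ _
  have hrmin_m0 : K₁ * rmin < m0 := by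
    have h1 : rmin ≤ m0 / (2 * (K₁ + 1)) := min_le_right _ _
    have h2 : K₁ * rmin ≤ K₁ * (m0 / (2 * (K₁ + 1))) :=
      mul_le_mul_of_nonneg_left h1 (by linarith)
    have h3 : K₁ * (m0 / (2 * (K₁ + 1))) < m0 := by
      rw [mul_div_assoc', div_lt_iff₀ (by positivity)]
      nlinarith
    linarith
  -- the compact set
  set S : Set (E × E × E) :=
    (closedBall (0 : E) (3 / 4) ×ˢ (closedBall (0 : E) (3 / 4) ×ˢ closedBall (0 : E) (3 / 4))) ∩
      {p : E × E × E | rmin ≤ ‖p.1 - p.2.1‖ ∧ ‖p.1 - p.2.1‖ ≤ r1} with hS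
  have hSmem : ∀ p : E × E × E, p ∈ S ↔ (‖p.1‖ ≤ 3 / 4 ∧ ‖p.2.1‖ ≤ 3 / 4 ∧ ‖p.2.2‖ ≤ 3 / 4) ∧
      rmin ≤ ‖p.1 - p.2.1‖ ∧ ‖p.1 - p.2.1‖ ≤ r1 := by
    intro p
    simp [hS, Set.mem_prod, mem_closedBall_zero_iff]
  have hScomp : IsCompact S := by
    have h1 : IsCompact (closedBall (0 : E) (3 / 4) ×ˢ
        (closedBall (0 : E) (3 / 4) ×ˢ closedBall (0 : E) (3 / 4))) :=
      (isCompact_closedBall _ _).prod ((isCompact_closedBall _ _).prod (isCompact_closedBall _ _))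
    have h2 : IsClosed {p : E × E × E | rmin ≤ ‖p.1 - p.2.1‖ ∧ ‖p.1 - p.2.1‖ ≤ r1} := by
      have ha : IsClosed {p : E × E × E | rmin ≤ ‖p.1 - p.2.1‖} :=
        isClosed_le continuous_const (by fun_prop)
      have hb' : IsClosed {p : E × E × E | ‖p.1 - p.2.1‖ ≤ r1} :=
        isClosed_le (by fun_prop) continuous_const
      exact ha.inter hb'
    exact h1.inter_right h2
  have hball : ∀ w : E, ‖w‖ ≤ 3 / 4 → w ∈ ball (0 : E) 1 := by
    intro w hw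
    rw [mem_ball_zero_iff]; linarith
  have hcont : ContinuousOn (fun p : E × E × E => tpPhi v δ b Λ c0 p.1 p.2.1 p.2.2) S := by
    have hv1 : ContinuousOn (fun p : E × E × E => v p.1) S :=
      hvc.comp continuousOn_fst (fun p hp => hball _ ((hSmem p).mp hp).1.1)
    have hv2 : ContinuousOn (fun p : E × E × E => v p.2.1) S :=
      hvc.comp (by fun_prop) (fun p hp => hball _ ((hSmem p).mp hp).1.2.1)
    have hv3 : ContinuousOn (fun p : E × E × E => v p.2.2) S :=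
      hvc.comp (by fun_prop) (fun p hp => hball _ ((hSmem p).mp hp).1.2.2)
    unfold tpPhi tpPsi tpB tpMid
    refine ((hv1.add hv2).sub (continuousOn_const.mul hv3)).sub
      (ContinuousOn.add (Continuous.continuousOn (by fun_prop))
        (ContinuousOn.div (by fun_prop) (by fun_prop) (fun p hp => ?_)))
    have := ((hSmem p).mp hp).2.1
    have h3 : 0 < ‖p.1 - p.2.1‖ := by linarith
    positivity
  have hvmem : (xv, yv, c0) ∈ S := by
    rw [hSmem]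
    refine ⟨⟨by simp only; linarith, by simp only; linarith, by simp only; linarith⟩,
      hrmin_rv, ?_⟩
    simp only
    rw [← hrv]
    linarith
  obtain ⟨P, hPS, hPmax⟩ := hScomp.exists_isMaxOn ⟨_, hvmem⟩ hcont
  obtain ⟨x, y, z⟩ := P
  have hP := (hSmem _).mp hPS
  simp only at hP
  obtain ⟨⟨hx34, hy34, hz34⟩, hrlo, hrhi⟩ := hP
  have hmaxle : ∀ p ∈ S, tpPhi v δ b Λ c0 p.1 p.2.1 p.2.2 ≤ tpPhi v δ b Λ c0 x y z :=
    fun p hp => hPmax hp
  have hval : m0 ≤ tpPhi v δ b Λ c0 x y z := hmaxle _ hvmem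
  set r : ℝ := ‖x - y‖ with hr
  have hrpos : 0 < r := by linarith
  have hx1 := hball x hx34
  have hy1 := hball y hy34
  have hz1 := hball z hz34
  have hB0 : 0 ≤ tpB δ b c0 x y := by
    unfold tpB; positivity
  have hlipb := tp_phi_le_lip (δ := δ) (b := b) (c0 := c0) hΛ1 hlip hx1 hy1 hz1 hrpos hrhi hB0
  have hsupb := tp_phi_le_sup (b := b) (c0 := c0) hδ.le hb0 hΛ1 hv hx1 hy1 hz1 hrhi
  rw [← hr, ← hK₁] at hlipb
  rw [← hr] at hsupb
  -- strict lower bound for r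
  have hrlo' : rmin < r := by
    rcases hrlo.lt_or_eq with h | h
    · exact h
    · exfalso
      have : 0 ≤ tpB δ b c0 x y * (3 * r / 4) := by positivity
      rw [← h] at hlipb this
      linarith
  -- strict upper bound for r
  have hrhi' : r < r1 := by
    rcases hrhi.lt_or_eq with h | h
    · exact h
    · exfalso
      rw [h] at hsupb
      have h1 : 4 * ε ≤ δ * r1 / 4 := by
        have : 4 * (δ / (64 * Λ)) = δ * r1 / 4 := by
          rw [hr1]; field_simp; ring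
        linarith
      nlinarith
  -- localisation of the midpoint
  have hcloc : ‖tpMid x y - c0‖ < 1 / 4 := by
    by_contra hcon
    push Not at hcon
    have h1 : 2 * K₁ ≤ tpB δ b c0 x y := by
      unfold tpB
      have h2 : (1 / 4 : ℝ) ^ 2 ≤ ‖tpMid x y - c0‖ ^ 2 :=
        pow_le_pow_left₀ (by norm_num) hcon 2
      have h3 : b * (1 / 4 : ℝ) ^ 2 ≤ b * ‖tpMid x y - c0‖ ^ 2 :=
        mul_le_mul_of_nonneg_left h2 hb0
      rw [hb] at h3 ⊢
      linarith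
    have h4 : 2 * K₁ * (3 * r / 4) ≤ tpB δ b c0 x y * (3 * r / 4) :=
      mul_le_mul_of_nonneg_right h1 (by positivity)
    nlinarith
  have hcn : ‖tpMid x y‖ < 1 / 2 := by
    have : ‖tpMid x y‖ ≤ ‖tpMid x y - c0‖ + ‖c0‖ := by
      have := norm_add_le (tpMid x y - c0) c0
      simpa using this
    linarith
  -- bound for h
  have hh : ‖z - tpMid x y‖ ≤ 2 * C₁ * r ^ 2 := by
    have hcm : (x, y, tpMid x y) ∈ S := by
      rw [hSmem]
      exact ⟨⟨hx34, hy34, by simp only; linarith⟩, hrlo, hrhi⟩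
    have h1 := hmaxle _ hcm
    simp only at h1
    unfold tpPhi tpPsi at h1
    rw [sub_self, norm_zero] at h1
    have hc1 : tpMid x y ∈ ball (0 : E) 1 := by rw [mem_ball_zero_iff]; linarith
    have h2 := (abs_le.mp (hlip _ hc1 z hz1)).2
    rw [norm_sub_rev] at h2
    rw [← hr] at h1
    set s : ℝ := ‖z - tpMid x y‖ with hs
    have h3 : s ^ 2 / r ^ 2 ≤ 2 * C₁ * s := by
      have : (0 : ℝ) ^ 2 / r ^ 2 = 0 := by simp
      rw [this] at h1
      linarith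
    have h4 : s ^ 2 ≤ 2 * C₁ * s * r ^ 2 := by
      rwa [div_le_iff₀ (by positivity)] at h3
    have hs0 : 0 ≤ s := norm_nonneg _
    rcases hs0.lt_or_eq with h | h
    · have h5 : s * s ≤ s * (2 * C₁ * r ^ 2) := by
        calc s * s = s ^ 2 := by ring
          _ ≤ 2 * C₁ * s * r ^ 2 := h4
          _ = s * (2 * C₁ * r ^ 2) := by ring
      exact le_of_mul_le_mul_left h5 h
    · rw [← h]; positivity
  have hr2 : 2 * C₁ * r ^ 2 ≤ 1 / 8 := by
    have h1 : r ^ 2 ≤ r1 ^ 2 := pow_le_pow_left₀ hrpos.le hrhi 2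
    have h2 : 2 * C₁ * r1 ^ 2 ≤ 1 / 8 := by
      have h3 : r1 ^ 2 = 1 / (16 * Λ ^ 2) := by rw [hr1]; field_simp; ring
      rw [h3, mul_one_div, div_le_iff₀ (by positivity)]
      nlinarith
    have h4 : 2 * C₁ * r ^ 2 ≤ 2 * C₁ * r1 ^ 2 := mul_le_mul_of_nonneg_left h1 (by linarith)
    linarith
  -- strict interior
  have hxs : ‖x‖ < 3 / 4 := by
    have h1 : ‖x‖ ≤ ‖x - tpMid x y‖ + ‖tpMid x y‖ := by
      have := norm_add_le (x - tpMid x y) (tpMid x y)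
      simpa using this
    rw [tp_norm_sub_mid_left] at h1
    linarith
  have hys : ‖y‖ < 3 / 4 := by
    have h1 : ‖y‖ ≤ ‖y - tpMid x y‖ + ‖tpMid x y‖ := by
      have := norm_add_le (y - tpMid x y) (tpMid x y)
      simpa using this
    rw [tp_norm_sub_mid_right] at h1
    linarith
  have hzs : ‖z‖ < 3 / 4 := by
    have h1 : ‖z‖ ≤ ‖z - tpMid x y‖ + ‖tpMid x y‖ := by
      have := norm_add_le (z - tpMid x y) (tpMid x y)
      simpa using this
    linarith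
  refine ⟨x, y, z, hx1, hy1, hz1, ?_, hrhi, hh, by linarith, ?_⟩
  · intro hxy
    rw [hr, hxy, sub_self, norm_zero] at hrpos
    exact lt_irrefl _ hrpos
  · have e1 : ∀ᶠ k : E × E × E in 𝓝 0, ‖x + k.1‖ < 3 / 4 := by
      have hc : ContinuousAt (fun k : E × E × E => ‖x + k.1‖) 0 := by fun_prop
      exact hc.eventually_lt continuousAt_const (by simpa using hxs)
    have e2 : ∀ᶠ k : E × E × E in 𝓝 0, ‖y + k.2.1‖ < 3 / 4 := by
      have hc : ContinuousAt (fun k : E × E × E => ‖y + k.2.1‖) 0 := by fun_prop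
      exact hc.eventually_lt continuousAt_const (by simpa using hys)
    have e3 : ∀ᶠ k : E × E × E in 𝓝 0, ‖z + k.2.2‖ < 3 / 4 := by
      have hc : ContinuousAt (fun k : E × E × E => ‖z + k.2.2‖) 0 := by fun_prop
      exact hc.eventually_lt continuousAt_const (by simpa using hzs)
    have e4 : ∀ᶠ k : E × E × E in 𝓝 0, ‖(x + k.1) - (y + k.2.1)‖ < r1 := by
      have hc : ContinuousAt (fun k : E × E × E => ‖(x + k.1) - (y + k.2.1)‖) 0 := by fun_prop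
      exact hc.eventually_lt continuousAt_const (by simpa using hrhi')
    have e5 : ∀ᶠ k : E × E × E in 𝓝 0, rmin < ‖(x + k.1) - (y + k.2.1)‖ := by
      have hc : ContinuousAt (fun k : E × E × E => ‖(x + k.1) - (y + k.2.1)‖) 0 := by fun_prop
      exact continuousAt_const.eventually_lt hc (by simpa using hrlo')
    filter_upwards [e1, e2, e3, e4, e5] with k h1 h2 h3 h4 h5
    exact hmaxle (x + k.1, y + k.2.1, z + k.2.2)
      ((hSmem _).mpr ⟨⟨h1.le, h2.le, h3.le⟩, h5.le, h4.le⟩)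

end Claimed.Agent.R330
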