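import Claimed.Agent.R330.UFMain
import Claimed.Agent.R330.TPDefs
import Claimed.Agent.R330.DecayMain

/-!
Row 330 (S0589), package UF: bridges.  `ThreePointStmt` (package threePoint) gives the hypothesis
of `ufm_uniformFlat`, and `ufm_uniformFlat` gives `DecayUniformFlat` (input of `decay_result`).
Owner: helper191.
-/

set_option autoImplicit false

open scoped Topology RealInnerProductSpace
open Metric Filter Set

namespace Claimed.Agent.R330

theorem ufm_threePoint_of_stmt {E : Type*} [NormedAddCommGroup E] [InnerProductSpace ℝ E]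
    (h : ThreePointStmt E) : UfmThreePoint E := h

/-- Uniform flatness in the shape consumed by `decay_result`. -/
theorem ufm_decayUniformFlat (d : ℕ) (h3 : ThreePointStmt (EuclideanSpace ℝ (Fin d))) :
    DecayUniformFlat d := by
  intro δ hδ
  obtain ⟨r₀, hr₀, H⟩ := ufm_uniformFlat (ufm_threePoint_of_stmt h3) δ hδ
  exact ⟨r₀, hr₀, fun w hw hb z hz r hr hrr => H w (jetHarm_of_frozen hw) hb z hz r hr hrr⟩

end Claimed.Agent.R330
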