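import Mathlib
import Claimed.Agent.R330.PartBDefs
import Claimed.Agent.R330.UlimGen

/-!
# Row 330, package W8, leaves (D)+(E): from normalised fits to the limit function

Paper Prop. 3.6, middle part.  Input: a family `v i : X → ℝ → ℝ` which, along a filter, has
"normalised fits" (paper (3.19)-(3.20)) with locally bounded coefficients at every centre of
every box and every size `S`.  Output: eventual local bounds, eventual equicontinuity, and for an
ultrafilter a limit function `w` which is continuous, vanishes at the origin, has the fits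
(3.2) with constant `256`, and to which the family converges continuously.
Owner: helper120.
-/

set_option autoImplicit false

namespace Claimed.Agent.R330

open Filter Topology Set Metric
open scoped RealInnerProductSpace

variable {X : Type*} [NormedAddCommGroup X] [InnerProductSpace ℝ X]

/-- Normalised fit of `v` at `(x,t)` of size `S`, with parameter `lam` and coefficients `(p,q)`
(paper (3.19)-(3.20), with `Λ / c ≤ 64`). -/
def W8NormFit (lam : ℝ) (v : X → ℝ → ℝ) (x : X) (t S : ℝ) (p : X) (q : ℝ) : Prop :=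
  ∀ (h : X) (s : ℝ), |s| ≤ S / 2 → ‖h - (s / (1 + lam * q)) • p‖ ≤ S →
    |v (x + h) (t + s) - v x t - ⟪p, h⟫ - q * s| ≤ 64 * S

/-- The family `v` has, eventually along `l`, normalised fits with bounded coefficients at all
centres of any box `‖x‖, |t| ≤ K` and any size `S > 0`. -/
def W8NormFits {ι : Type*} (l : Filter ι) (lam : ι → ℝ) (v : ι → X → ℝ → ℝ) : Prop :=
  ∀ K S : ℝ, 0 < S → ∃ Cb : ℝ, ∀ᶠ i in l, ∀ (x : X) (t : ℝ), ‖x‖ ≤ K → |t| ≤ K →
    ∃ (p : X) (q : ℝ), ‖p‖ ≤ Cb ∧ |q| ≤ Cb ∧ W8NormFit (lam i) (v i) x t S p q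

/-! ### One function -/

/-- Increment bound from one normalised fit. -/
theorem w8l_incr {lam : ℝ} {v : X → ℝ → ℝ} {x : X} {t S C : ℝ} {p : X} {q : ℝ}
    (hp : ‖p‖ ≤ C) (hq : |q| ≤ C) (hlam : |lam| * C ≤ 1 / 2)
    (hfit : W8NormFit lam v x t S p q) {h : X} {s : ℝ} (hs : |s| ≤ S / 2)
    (hh : ‖h‖ + 2 * C * |s| ≤ S) :
    |v (x + h) (t + s) - v x t| ≤ 64 * S + C * ‖h‖ + C * |s| := by
  have h1 : 1 / 2 ≤ 1 + lam * q := by
    have h11 : |lam * q| ≤ 1 / 2 := by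
      rw [abs_mul]
      calc |lam| * |q| ≤ |lam| * C := by gcongr
        _ ≤ 1 / 2 := hlam
    have := (abs_le.1 h11).1
    linarith
  have h1' : (0 : ℝ) < 1 + lam * q := by linarith
  have h2 : ‖(s / (1 + lam * q)) • p‖ ≤ 2 * C * |s| := by
    rw [norm_smul, Real.norm_eq_abs, abs_div, abs_of_pos h1']
    have h21 : |s| / (1 + lam * q) ≤ 2 * |s| := by
      rw [div_le_iff₀ h1']
      nlinarith [abs_nonneg s]
    calc |s| / (1 + lam * q) * ‖p‖ ≤ (2 * |s|) * C := by gcongr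
      _ = 2 * C * |s| := by ring
  have h3 : ‖h - (s / (1 + lam * q)) • p‖ ≤ S :=
    (norm_sub_le _ _).trans (by linarith)
  have h4 := hfit h s hs h3
  have h5 : |⟪p, h⟫| ≤ C * ‖h‖ := (abs_real_inner_le_norm _ _).trans (by gcongr)
  have h6 : |q * s| ≤ C * |s| := by rw [abs_mul]; gcongr
  calc |v (x + h) (t + s) - v x t|
      = |(v (x + h) (t + s) - v x t - ⟪p, h⟫ - q * s) + ⟪p, h⟫ + q * s| := by ring_nf
    _ ≤ |v (x + h) (t + s) - v x t - ⟪p, h⟫ - q * s| + |⟪p, h⟫| + |q * s| := abs_add_three _ _ _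
    _ ≤ 64 * S + C * ‖h‖ + C * |s| := by linarith

/-- Telescoping bound. -/
theorem w8l_chain (f : ℕ → ℝ) (D : ℝ) (n : ℕ) (h : ∀ k < n, |f (k + 1) - f k| ≤ D) :
    |f n - f 0| ≤ n * D := by
  induction n with
  | zero => simp
  | succ n ih =>
    have h1 := ih (fun k hk => h k (Nat.lt_succ_of_lt hk))
    have h2 := h n (Nat.lt_succ_self n)
    calc |f (n + 1) - f 0| = |(f (n + 1) - f n) + (f n - f 0)| := by ring_nf
      _ ≤ |f (n + 1) - f n| + |f n - f 0| := abs_add_le _ _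
      _ ≤ D + n * D := by linarith
      _ = ((n + 1 : ℕ) : ℝ) * D := by push_cast; ring

/-- Bound on a box by chaining size-one fits whose centres stay in the box. -/
theorem w8l_box_bound {lam : ℝ} {v : X → ℝ → ℝ} {K C : ℝ} (hK : 0 ≤ K) (hC : 0 ≤ C)
    (hlam : |lam| * C ≤ 1 / 2) (h0 : v 0 0 = 0)
    (hfit : ∀ (x : X) (t : ℝ), ‖x‖ ≤ K → |t| ≤ K →
      ∃ (p : X) (q : ℝ), ‖p‖ ≤ C ∧ |q| ≤ C ∧ W8NormFit lam v x t 1 p q)
    {x : X} {t : ℝ} (hx : ‖x‖ ≤ K) (ht : |t| ≤ K) :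
    |v x t| ≤ ((⌈K * (2 * C + 2)⌉₊ + 1 : ℕ) : ℝ) * 65 + ((⌈K⌉₊ + 1 : ℕ) : ℝ) * (64 + C) := by
  set n : ℕ := ⌈K * (2 * C + 2)⌉₊ + 1 with hn
  set m : ℕ := ⌈K⌉₊ + 1 with hm
  have hnpos : (0 : ℝ) < n := by rw [hn]; positivity
  have hmpos : (0 : ℝ) < m := by rw [hm]; positivity
  have hnK : K * (2 * C + 2) ≤ n := by
    rw [hn]; push_cast
    linarith [Nat.le_ceil (K * (2 * C + 2))]
  have hmK : K ≤ m := by
    rw [hm]; push_cast
    linarith [Nat.le_ceil K]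
  have hC2 : (0 : ℝ) < 2 * C + 2 := by linarith
  -- the time step
  set τ : ℝ := t / n with hτdef
  have hτ : |τ| * (2 * C + 2) ≤ 1 := by
    rw [hτdef, abs_div, abs_of_pos hnpos, div_mul_eq_mul_div, div_le_one hnpos]
    calc |t| * (2 * C + 2) ≤ K * (2 * C + 2) := by gcongr
      _ ≤ n := hnK
  have hτn : (n : ℝ) * τ = t := by rw [hτdef]; field_simp
  have hτabs : (n : ℝ) * |τ| = |t| := by
    rw [← hτn, abs_mul, abs_of_pos hnpos]
  have htime : |v 0 ((n : ℝ) * τ) - v 0 (((0 : ℕ) : ℝ) * τ)| ≤ n * 65 := by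
    refine w8l_chain (fun k => v 0 ((k : ℝ) * τ)) 65 n ?_
    intro k hk
    have hkn : (k : ℝ) ≤ n := by exact_mod_cast hk.le
    have hc : |(k : ℝ) * τ| ≤ K := by
      rw [abs_mul, abs_of_nonneg (Nat.cast_nonneg k)]
      calc (k : ℝ) * |τ| ≤ n * |τ| := by gcongr
        _ = |t| := hτabs
        _ ≤ K := ht
    obtain ⟨p, q, hp, hq, hf⟩ := hfit 0 ((k : ℝ) * τ) (by simpa using hK) hc
    have hs1 : |τ| ≤ 1 / 2 := by nlinarith [abs_nonneg τ]
    have hs2 : ‖(0 : X)‖ + 2 * C * |τ| ≤ 1 := by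
      rw [norm_zero]; nlinarith [abs_nonneg τ]
    have := w8l_incr hp hq hlam hf (h := 0) (s := τ) (by linarith) hs2
    have e : (k : ℝ) * τ + τ = ((k + 1 : ℕ) : ℝ) * τ := by push_cast; ring
    rw [add_zero, e, norm_zero] at this
    have h3 : C * |τ| ≤ 1 := by nlinarith [abs_nonneg τ]
    linarith
  rw [hτn] at htime
  simp only [Nat.cast_zero, zero_mul, h0, sub_zero] at htime
  -- the space step
  set η : X := ((m : ℝ)⁻¹) • x with hηdef
  have hη : ‖η‖ ≤ 1 := by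
    rw [hηdef, norm_smul, norm_inv, Real.norm_eq_abs, abs_of_pos hmpos, inv_mul_le_iff₀ hmpos]
    linarith
  have hηm : (m : ℝ) • η = x := by
    rw [hηdef, smul_smul, mul_inv_cancel₀ hmpos.ne', one_smul]
  have hηnorm : (m : ℝ) * ‖η‖ = ‖x‖ := by
    have h1 : ‖(m : ℝ) • η‖ = (m : ℝ) * ‖η‖ := by
      rw [norm_smul, Real.norm_eq_abs, abs_of_pos hmpos]
    rw [← h1, hηm]
  have hspace : |v ((m : ℝ) • η) t - v ((((0 : ℕ) : ℝ)) • η) t| ≤ m * (64 + C) := by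
    refine w8l_chain (fun k => v ((k : ℝ) • η) t) (64 + C) m ?_
    intro k hk
    have hkm : (k : ℝ) ≤ m := by exact_mod_cast hk.le
    have hc : ‖(k : ℝ) • η‖ ≤ K := by
      rw [norm_smul, Real.norm_eq_abs, abs_of_nonneg (Nat.cast_nonneg k)]
      calc (k : ℝ) * ‖η‖ ≤ m * ‖η‖ := by gcongr
        _ = ‖x‖ := hηnorm
        _ ≤ K := hx
    obtain ⟨p, q, hp, hq, hf⟩ := hfit ((k : ℝ) • η) t hc ht
    have := w8l_incr hp hq hlam hf (h := η) (s := 0) (by simp) (by simpa using hη)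
    have e : (k : ℝ) • η + η = ((k + 1 : ℕ) : ℝ) • η := by
      push_cast; rw [add_smul, one_smul]
    rw [add_zero, e, abs_zero, mul_zero, add_zero] at this
    have h3 : C * ‖η‖ ≤ C := by nlinarith [norm_nonneg η]
    linarith
  rw [hηm] at hspace
  simp only [Nat.cast_zero, zero_smul] at hspace
  calc |v x t| = |(v x t - v 0 t) + v 0 t| := by ring_nf
    _ ≤ |v x t - v 0 t| + |v 0 t| := abs_add_le _ _
    _ ≤ (n : ℝ) * 65 + (m : ℝ) * (64 + C) := by linarith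

/-! ### Families -/

variable {ι : Type*}

theorem w8l_eventually_small {l : Filter ι} {lam : ι → ℝ} (hlam : Tendsto lam l (𝓝 0)) (C : ℝ) :
    ∀ᶠ i in l, |lam i| * C ≤ 1 / 2 := by
  have h : Tendsto (fun i => |lam i| * C) l (𝓝 (|(0 : ℝ)| * C)) := (hlam.abs).mul_const C
  simp only [abs_zero, zero_mul] at h
  exact h.eventually_le_const (by norm_num)

/-- (D1) Eventual uniform bound on every box. -/
theorem w8l_bounded {l : Filter ι} {lam : ι → ℝ} {v : ι → X → ℝ → ℝ}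
    (hlam : Tendsto lam l (𝓝 0)) (h0 : ∀ᶠ i in l, v i 0 0 = 0) (H : W8NormFits l lam v)
    (K : ℝ) :
    ∃ M, ∀ᶠ i in l, ∀ (x : X) (t : ℝ), ‖x‖ ≤ K → |t| ≤ K → |v i x t| ≤ M := by
  obtain ⟨Cb, hCb⟩ := H (max K 0) 1 one_pos
  set C := max Cb 0 with hC
  refine ⟨((⌈max K 0 * (2 * C + 2)⌉₊ + 1 : ℕ) : ℝ) * 65 + ((⌈max K 0⌉₊ + 1 : ℕ) : ℝ) * (64 + C), ?_⟩
  filter_upwards [hCb, h0, w8l_eventually_small hlam C] with i hi h0i hli x t hx ht
  refine w8l_box_bound (le_max_right _ _) (le_max_right _ _) hli h0i ?_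
    (hx.trans (le_max_left _ _)) (ht.trans (le_max_left _ _))
  intro x' t' hx' ht'
  obtain ⟨p, q, hp, hq, hf⟩ := hi x' t' hx' ht'
  exact ⟨p, q, hp.trans (le_max_left _ _), hq.trans (le_max_left _ _), hf⟩

/-- (D2) Eventual equicontinuity at every point. -/
theorem w8l_equicont {l : Filter ι} {lam : ι → ℝ} {v : ι → X → ℝ → ℝ}
    (hlam : Tendsto lam l (𝓝 0)) (H : W8NormFits l lam v) :
    UlimEquicont l (fun i (z : X × ℝ) => v i z.1 z.2) := by
  rintro ⟨x, t⟩ ε hε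
  set S : ℝ := ε / 192 with hS
  have hSpos : 0 < S := by positivity
  obtain ⟨Cb, hCb⟩ := H (max ‖x‖ |t|) S hSpos
  set C := max Cb 0 with hC
  have hC0 : 0 ≤ C := le_max_right _ _
  refine ⟨min (S / (2 + 2 * C)) (ε / (3 * (C + 1))), by positivity, ?_⟩
  filter_upwards [hCb, w8l_eventually_small hlam C] with i hi hli
  rintro ⟨x', t'⟩ hz
  rw [Prod.dist_eq, max_lt_iff, dist_eq_norm, Real.dist_eq] at hz
  simp only at hz
  obtain ⟨hz1, hz2⟩ := hz
  obtain ⟨p, q, hp, hq, hf⟩ := hi x t (le_max_left _ _) (le_max_right _ _)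
  have hδ1 : ∀ a : ℝ, a < min (S / (2 + 2 * C)) (ε / (3 * (C + 1))) → a * (2 + 2 * C) ≤ S := by
    intro a ha
    have := (ha.trans_le (min_le_left _ _)).le
    rwa [le_div_iff₀ (by positivity)] at this
  have hδ2 : ∀ a : ℝ, a < min (S / (2 + 2 * C)) (ε / (3 * (C + 1))) →
      a * (3 * (C + 1)) ≤ ε := by
    intro a ha
    have := (ha.trans_le (min_le_right _ _)).le
    rwa [le_div_iff₀ (by positivity)] at this
  have a1 := hδ1 _ hz1
  have a2 := hδ1 _ hz2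
  have b1 := hδ2 _ hz1
  have b2 := hδ2 _ hz2
  have n1 := norm_nonneg (x' - x)
  have n2 := abs_nonneg (t' - t)
  have := w8l_incr (hp.trans (le_max_left _ _)) (hq.trans (le_max_left _ _)) hli hf
    (h := x' - x) (s := t' - t) (by nlinarith) (by nlinarith)
  rw [add_sub_cancel, add_sub_cancel] at this
  simp only
  have c1 : C * ‖x' - x‖ ≤ ε / 3 := by nlinarith
  have c2 : C * |t' - t| ≤ ε / 3 := by nlinarith
  have c3 : 64 * S = ε / 3 := by rw [hS]; ring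
  linarith

/-- Pointwise convergence plus eventual equicontinuity give convergence along the product
filter (continuous convergence). -/
theorem w8l_tendsto_prod {Z : Type*} [PseudoMetricSpace Z] {l : Filter ι} {f : ι → Z → ℝ}
    {g : Z → ℝ} (hlim : ∀ z, Tendsto (fun j => f j z) l (𝓝 (g z))) (heq : UlimEquicont l f)
    (z : Z) : Tendsto (fun p : ι × Z => f p.1 p.2) (l ×ˢ 𝓝 z) (𝓝 (g z)) := by
  rw [Metric.tendsto_nhds]
  intro ε hε
  obtain ⟨δ, hδ, hj⟩ := heq z (ε / 2) (by positivity)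
  have h2 : ∀ᶠ j in l, dist (f j z) (g z) < ε / 2 :=
    (Metric.tendsto_nhds.1 (hlim z)) (ε / 2) (by positivity)
  have h3 : ∀ᶠ z' in 𝓝 z, dist z' z < δ := Metric.ball_mem_nhds z hδ
  filter_upwards [(hj.and h2).prod_mk h3] with p hp
  obtain ⟨⟨hp1, hp2⟩, hp3⟩ := hp
  have h4 := hp1 _ hp3
  rw [Real.dist_eq] at hp2 ⊢
  calc |f p.1 p.2 - g z| = |(f p.1 p.2 - f p.1 z) + (f p.1 z - g z)| := by ring_nf
    _ ≤ |f p.1 p.2 - f p.1 z| + |f p.1 z - g z| := abs_add_le _ _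
    _ < ε := by linarith

/-- (E) The pointwise limit along an ultrafilter has the fits (3.2) with constant `256`. -/
theorem w8l_hasFits [FiniteDimensional ℝ X] (U : Ultrafilter ι) {lam : ι → ℝ}
    {v : ι → X → ℝ → ℝ} {w : X → ℝ → ℝ} (hlam : Tendsto lam U (𝓝 0))
    (H : W8NormFits (U : Filter ι) lam v)
    (hlim : ∀ x t, Tendsto (fun i => v i x t) U (𝓝 (w x t))) : HasFits 256 w := by
  have : ProperSpace X := FiniteDimensional.proper_real X
  intro x t R hR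
  obtain ⟨Cb, hCb⟩ := H (max ‖x‖ |t|) (4 * R) (by positivity)
  have h1 : ∀ᶠ i in (U : Filter ι), ∃ (p : X) (q : ℝ), ‖p‖ ≤ Cb ∧ |q| ≤ Cb ∧
      W8NormFit (lam i) (v i) x t (4 * R) p q :=
    hCb.mono fun i hi => hi x t (le_max_left _ _) (le_max_right _ _)
  have h2 : ∀ i, ∃ pq : X × ℝ, (∃ (p : X) (q : ℝ), ‖p‖ ≤ Cb ∧ |q| ≤ Cb ∧
      W8NormFit (lam i) (v i) x t (4 * R) p q) →
      (‖pq.1‖ ≤ Cb ∧ |pq.2| ≤ Cb ∧ W8NormFit (lam i) (v i) x t (4 * R) pq.1 pq.2) := by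
    intro i
    by_cases hi : ∃ (p : X) (q : ℝ), ‖p‖ ≤ Cb ∧ |q| ≤ Cb ∧
        W8NormFit (lam i) (v i) x t (4 * R) p q
    · obtain ⟨p, q, h⟩ := hi
      exact ⟨(p, q), fun _ => h⟩
    · exact ⟨(0, 0), fun h => absurd h hi⟩
  choose pq hpq using h2
  have h3 : ∀ᶠ i in (U : Filter ι), ‖(pq i).1‖ ≤ Cb ∧ |(pq i).2| ≤ Cb ∧
      W8NormFit (lam i) (v i) x t (4 * R) (pq i).1 (pq i).2 := h1.mono fun i hi => hpq i hi
  obtain ⟨p, hp, -⟩ := ulim_exists_norm U (fun i => (pq i).1) Cb (h3.mono fun i hi => hi.1)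
  obtain ⟨q, hq, -⟩ := ulim_exists_real U (fun i => (pq i).2) Cb (h3.mono fun i hi => hi.2.1)
  refine ⟨p, q + ‖p‖ ^ 2 / 2, ?_⟩
  intro h s hs hh
  have hlq : Tendsto (fun i => lam i * (pq i).2) U (𝓝 0) := by simpa using hlam.mul hq
  have hden : Tendsto (fun i => s / (1 + lam i * (pq i).2)) U (𝓝 s) := by
    have h4 : Tendsto (fun i => 1 + lam i * (pq i).2) U (𝓝 (1 + 0)) :=
      tendsto_const_nhds.add hlq
    have h5 : Tendsto (fun i => s / (1 + lam i * (pq i).2)) U (𝓝 (s / (1 + 0))) :=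
      (tendsto_const_nhds (x := s) (f := (U : Filter ι))).div h4 (by norm_num)
    simpa using h5
  have hvec : Tendsto (fun i => ‖h - (s / (1 + lam i * (pq i).2)) • (pq i).1‖) U
      (𝓝 ‖h - s • p‖) := (tendsto_const_nhds.sub (hden.smul hp)).norm
  have h4 : ∀ᶠ i in (U : Filter ι), ‖h - (s / (1 + lam i * (pq i).2)) • (pq i).1‖ ≤ 4 * R :=
    hvec.eventually_le_const (by linarith)
  have h5 : Tendsto (fun i => |v i (x + h) (t + s) - v i x t - ⟪(pq i).1, h⟫ - (pq i).2 * s|) U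
      (𝓝 |w (x + h) (t + s) - w x t - ⟪p, h⟫ - q * s|) :=
    ((((hlim _ _).sub (hlim _ _)).sub (hp.inner tendsto_const_nhds)).sub (hq.mul_const s)).abs
  have h6 : |w (x + h) (t + s) - w x t - ⟪p, h⟫ - q * s| ≤ 64 * (4 * R) := by
    refine le_of_tendsto h5 ?_
    filter_upwards [h3, h4] with i hi3 hi4
    exact hi3.2.2 h s (by linarith) hi4
  have e : q + ‖p‖ ^ 2 / 2 - ‖p‖ ^ 2 / 2 = q := by ring
  rw [e]
  linarith

/-- **W8 (D)+(E)**: the limit function of the normalised family. -/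
theorem w8l_main [FiniteDimensional ℝ X] (U : Ultrafilter ι) {lam : ι → ℝ}
    {v : ι → X → ℝ → ℝ} (hlam : Tendsto lam U (𝓝 0))
    (h0 : ∀ᶠ i in (U : Filter ι), v i 0 0 = 0) (H : W8NormFits (U : Filter ι) lam v) :
    ∃ w : X → ℝ → ℝ, w 0 0 = 0 ∧ Continuous (fun z : X × ℝ => w z.1 z.2) ∧ HasFits 256 w ∧
      (∀ x t, Tendsto (fun i => v i x t) U (𝓝 (w x t))) ∧
      UlimEquicont (U : Filter ι) (fun i (z : X × ℝ) => v i z.1 z.2) ∧
      (∀ z : X × ℝ, Tendsto (fun p : ι × (X × ℝ) => v p.1 p.2.1 p.2.2)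
        ((U : Filter ι) ×ˢ 𝓝 z) (𝓝 (w z.1 z.2))) ∧
      (∀ K : Set (X × ℝ), IsCompact K → ∀ ε : ℝ, 0 < ε →
        ∀ᶠ i in (U : Filter ι), ∀ z ∈ K, |v i z.1 z.2 - w z.1 z.2| ≤ ε) := by
  have hb : ∀ (x : X) (t : ℝ), ∃ M, ∀ᶠ i in (U : Filter ι), |v i x t| ≤ M := by
    intro x t
    obtain ⟨M, hM⟩ := w8l_bounded hlam h0 H (max ‖x‖ |t|)
    exact ⟨M, hM.mono fun i hi => hi x t (le_max_left _ _) (le_max_right _ _)⟩
  obtain ⟨w, hw⟩ := ulim_exists_fun₂ U v hb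
  have heq := w8l_equicont hlam H
  have hw' : ∀ z : X × ℝ, Tendsto (fun i => (fun i (z : X × ℝ) => v i z.1 z.2) i z) U
      (𝓝 ((fun z : X × ℝ => w z.1 z.2) z)) := fun z => hw z.1 z.2
  refine ⟨w, ?_, ulim_continuous hw' heq, w8l_hasFits U hlam H hw, hw, heq,
    fun z => w8l_tendsto_prod hw' heq z, fun K hK ε hε => ulim_uniform_on_compact hw' heq hK hε⟩
  have h1 : Tendsto (fun i => v i 0 0) U (𝓝 0) :=
    tendsto_const_nhds.congr' (h0.mono fun i hi => hi.symm)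
  exact tendsto_nhds_unique (hw 0 0) h1

end Claimed.Agent.R330
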