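/-
Row 330 (S0589), package W8, leaf D (backup proof by helper28, adapted from helper120's `W8Lim`):
abstract compactness for normalised fits at dyadic radii with a general error constant.
Owner: helper28.
-/
import Claimed.Agent.R330.W8Lim

set_option autoImplicit false

namespace Claimed.Agent.R330

open scoped RealInnerProductSpace Topology
open Filter

variable {X : Type*} [NormedAddCommGroup X] [InnerProductSpace ℝ X]

/-- Normalised fit of size `S` with error `Er`. -/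
def W8cbFit (v : X → ℝ → ℝ) (x : X) (t S Er : ℝ) (p : X) (q : ℝ) : Prop :=
  ∀ (h : X) (s : ℝ), |s| ≤ S / 2 → ‖h - s • p‖ ≤ S / 2 →
    |v (x + h) (t + s) - v x t - ⟪p, h⟫ - q * s| ≤ Er

theorem w8cb_incr {v : X → ℝ → ℝ} {x : X} {t S Er C : ℝ} {p : X} {q : ℝ}
    (hp : ‖p‖ ≤ C) (hq : |q| ≤ C) (hfit : W8cbFit v x t S Er p q) {h : X} {s : ℝ}
    (hs : |s| ≤ S / 2) (hh : ‖h‖ + C * |s| ≤ S / 2) :
    |v (x + h) (t + s) - v x t| ≤ Er + C * ‖h‖ + C * |s| := by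
  have h2 : ‖s • p‖ ≤ C * |s| := by
    rw [norm_smul, Real.norm_eq_abs, mul_comm]
    gcongr
  have h3 : ‖h - s • p‖ ≤ S / 2 := (norm_sub_le _ _).trans (by linarith)
  have h4 := hfit h s hs h3
  have h5 : |⟪p, h⟫| ≤ C * ‖h‖ := (abs_real_inner_le_norm _ _).trans (by gcongr)
  have h6 : |q * s| ≤ C * |s| := by rw [abs_mul]; gcongr
  calc |v (x + h) (t + s) - v x t|
      = |(v (x + h) (t + s) - v x t - ⟪p, h⟫ - q * s) + ⟪p, h⟫ + q * s| := by ring_nf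
    _ ≤ |v (x + h) (t + s) - v x t - ⟪p, h⟫ - q * s| + |⟪p, h⟫| + |q * s| := abs_add_three _ _ _
    _ ≤ Er + C * ‖h‖ + C * |s| := by linarith

/-- Bound on a box by chaining size-one fits whose centres stay in the box. -/
theorem w8cb_box_bound {v : X → ℝ → ℝ} {K C Er : ℝ} (hK : 0 ≤ K) (hC : 0 ≤ C)
    (h0 : v 0 0 = 0)
    (hfit : ∀ (x : X) (t : ℝ), ‖x‖ ≤ K → |t| ≤ K →
      ∃ (p : X) (q : ℝ), ‖p‖ ≤ C ∧ |q| ≤ C ∧ W8cbFit v x t 1 Er p q)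
    {x : X} {t : ℝ} (hx : ‖x‖ ≤ K) (ht : |t| ≤ K) :
    |v x t| ≤ ((⌈K * (2 * C + 2)⌉₊ + 1 : ℕ) : ℝ) * (Er + 1)
      + ((⌈2 * K⌉₊ + 1 : ℕ) : ℝ) * (Er + C) := by
  set n : ℕ := ⌈K * (2 * C + 2)⌉₊ + 1 with hn
  set m : ℕ := ⌈2 * K⌉₊ + 1 with hm
  have hnpos : (0 : ℝ) < n := by rw [hn]; positivity
  have hmpos : (0 : ℝ) < m := by rw [hm]; positivity
  have hnK : K * (2 * C + 2) ≤ n := by
    rw [hn]; push_cast
    linarith [Nat.le_ceil (K * (2 * C + 2))]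
  have hmK : 2 * K ≤ m := by
    rw [hm]; push_cast
    linarith [Nat.le_ceil (2 * K)]
  have hC2 : (0 : ℝ) < 2 * C + 2 := by linarith
  -- the time step
  set τ : ℝ := t / n with hτdef
  have hτ : |τ| * (2 * C + 2) ≤ 1 := by
    rw [hτdef, abs_div, abs_of_pos hnpos, div_mul_eq_mul_div, div_le_one hnpos]
    calc |t| * (2 * C + 2) ≤ K * (2 * C + 2) := by gcongr
      _ ≤ n := hnK
  have hτn : (n : ℝ) * τ = t := by rw [hτdef]; field_simp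
  have hτabs : (n : ℝ) * |τ| = |t| := by
    rw [← hτn, abs_mul, abs_of_pos hnpos]
  have htime : |v 0 ((n : ℝ) * τ) - v 0 (((0 : ℕ) : ℝ) * τ)| ≤ n * (Er + 1) := by
    refine w8l_chain (fun k => v 0 ((k : ℝ) * τ)) (Er + 1) n ?_
    intro k hk
    have hkn : (k : ℝ) ≤ n := by exact_mod_cast hk.le
    have hc : |(k : ℝ) * τ| ≤ K := by
      rw [abs_mul, abs_of_nonneg (Nat.cast_nonneg k)]
      calc (k : ℝ) * |τ| ≤ n * |τ| := by gcongr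
        _ = |t| := hτabs
        _ ≤ K := ht
    obtain ⟨p, q, hp, hq, hf⟩ := hfit 0 ((k : ℝ) * τ) (by simpa using hK) hc
    have hs1 : |τ| ≤ 1 / 2 := by nlinarith [abs_nonneg τ]
    have hs2 : ‖(0 : X)‖ + C * |τ| ≤ 1 / 2 := by
      rw [norm_zero]; nlinarith [abs_nonneg τ]
    have := w8cb_incr hp hq hf (h := 0) (s := τ) hs1 hs2
    have e : (k : ℝ) * τ + τ = ((k + 1 : ℕ) : ℝ) * τ := by push_cast; ring
    rw [add_zero, e, norm_zero] at this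
    have h3 : C * |τ| ≤ 1 := by nlinarith [abs_nonneg τ]
    linarith
  rw [hτn] at htime
  simp only [Nat.cast_zero, zero_mul, h0, sub_zero] at htime
  -- the space step
  set η : X := ((m : ℝ)⁻¹) • x with hηdef
  have hη : ‖η‖ ≤ 1 / 2 := by
    rw [hηdef, norm_smul, norm_inv, Real.norm_eq_abs, abs_of_pos hmpos, inv_mul_le_iff₀ hmpos]
    linarith
  have hηm : (m : ℝ) • η = x := by
    rw [hηdef, smul_smul, mul_inv_cancel₀ hmpos.ne', one_smul]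
  have hηnorm : (m : ℝ) * ‖η‖ = ‖x‖ := by
    have h1 : ‖(m : ℝ) • η‖ = (m : ℝ) * ‖η‖ := by
      rw [norm_smul, Real.norm_eq_abs, abs_of_pos hmpos]
    rw [← h1, hηm]
  have hspace : |v ((m : ℝ) • η) t - v ((((0 : ℕ) : ℝ)) • η) t| ≤ m * (Er + C) := by
    refine w8l_chain (fun k => v ((k : ℝ) • η) t) (Er + C) m ?_
    intro k hk
    have hkm : (k : ℝ) ≤ m := by exact_mod_cast hk.le
    have hc : ‖(k : ℝ) • η‖ ≤ K := by
      rw [norm_smul, Real.norm_eq_abs, abs_of_nonneg (Nat.cast_nonneg k)]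
      calc (k : ℝ) * ‖η‖ ≤ m * ‖η‖ := by gcongr
        _ = ‖x‖ := hηnorm
        _ ≤ K := hx
    obtain ⟨p, q, hp, hq, hf⟩ := hfit ((k : ℝ) • η) t hc ht
    have := w8cb_incr hp hq hf (h := η) (s := 0) (by simp) (by simpa using hη)
    have e : (k : ℝ) • η + η = ((k + 1 : ℕ) : ℝ) • η := by
      push_cast; rw [add_smul, one_smul]
    rw [add_zero, e, abs_zero, mul_zero, add_zero] at this
    have h3 : C * ‖η‖ ≤ C := by nlinarith [norm_nonneg η]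
    linarith
  rw [hηm] at hspace
  simp only [Nat.cast_zero, zero_smul] at hspace
  calc |v x t| = |(v x t - v 0 t) + v 0 t| := by ring_nf
    _ ≤ |v x t - v 0 t| + |v 0 t| := abs_add_le _ _
    _ ≤ (n : ℝ) * (Er + 1) + (m : ℝ) * (Er + C) := by linarith

/-- The hypothesis of the compactness lemma. -/
def W8cbFits (l : Filter ℕ) (v : ℕ → X → ℝ → ℝ) (A : ℝ) : Prop :=
  ∀ (K : ℝ) (j : ℤ), ∃ C : ℝ, ∀ᶠ i in l, ∀ (x : X) (t : ℝ),
      ‖x‖ ≤ K → |t| ≤ K → ∃ (p : X) (q : ℝ), ‖p‖ ≤ C ∧ |q| ≤ C ∧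
        W8cbFit (v i) x t ((2 : ℝ) ^ j) (A * (2 : ℝ) ^ j) p q

theorem w8cb_bounded {l : Filter ℕ} {v : ℕ → X → ℝ → ℝ} {A : ℝ} (h0 : ∀ i, v i 0 0 = 0)
    (H : W8cbFits l v A) (K : ℝ) :
    ∃ M, ∀ᶠ i in l, ∀ (x : X) (t : ℝ), ‖x‖ ≤ K → |t| ≤ K → |v i x t| ≤ M := by
  obtain ⟨Cb, hCb⟩ := H (max K 0) 0
  set C := max Cb 0 with hC
  refine ⟨((⌈max K 0 * (2 * C + 2)⌉₊ + 1 : ℕ) : ℝ) * (A + 1)
    + ((⌈2 * max K 0⌉₊ + 1 : ℕ) : ℝ) * (A + C), ?_⟩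
  filter_upwards [hCb] with i hi x t hx ht
  refine w8cb_box_bound (le_max_right _ _) (le_max_right _ _) (h0 i) ?_
    (hx.trans (le_max_left _ _)) (ht.trans (le_max_left _ _))
  intro x' t' hx' ht'
  obtain ⟨p, q, hp, hq, hf⟩ := hi x' t' hx' ht'
  refine ⟨p, q, hp.trans (le_max_left _ _), hq.trans (le_max_left _ _), ?_⟩
  simpa using hf

theorem w8cb_exists_zpow_le {a : ℝ} (ha : 0 < a) : ∃ j : ℤ, (2 : ℝ) ^ j ≤ a := by
  obtain ⟨j, hj, -⟩ := exists_mem_Ico_zpow (x := a) (y := (2 : ℝ)) ha (by norm_num)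
  exact ⟨j, hj⟩

theorem w8cb_equicont {l : Filter ℕ} {v : ℕ → X → ℝ → ℝ} {A : ℝ} (hA : 0 ≤ A)
    (H : W8cbFits l v A) :
    UlimEquicont l (fun i (z : X × ℝ) => v i z.1 z.2) := by
  rintro ⟨x, t⟩ ε hε
  obtain ⟨j, hj⟩ := w8cb_exists_zpow_le (a := ε / (3 * (A + 1))) (by positivity)
  set S : ℝ := (2 : ℝ) ^ j with hS
  have hSpos : 0 < S := by positivity
  have hAS : A * S ≤ ε / 3 := by
    have h1 : S * (3 * (A + 1)) ≤ ε := by rwa [le_div_iff₀ (by positivity)] at hj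
    nlinarith
  obtain ⟨Cb, hCb⟩ := H (max ‖x‖ |t|) j
  set C := max Cb 0 with hC
  have hC0 : 0 ≤ C := le_max_right _ _
  refine ⟨min (S / (2 * (1 + C))) (ε / (3 * (C + 1))), by positivity, ?_⟩
  filter_upwards [hCb] with i hi
  rintro ⟨x', t'⟩ hz
  rw [Prod.dist_eq, max_lt_iff, dist_eq_norm, Real.dist_eq] at hz
  simp only at hz
  obtain ⟨hz1, hz2⟩ := hz
  obtain ⟨p, q, hp, hq, hf⟩ := hi x t (le_max_left _ _) (le_max_right _ _)
  have hδ1 : ∀ a : ℝ, a < min (S / (2 * (1 + C))) (ε / (3 * (C + 1))) →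
      a * (2 * (1 + C)) ≤ S := by
    intro a ha
    have := (ha.trans_le (min_le_left _ _)).le
    rwa [le_div_iff₀ (by positivity)] at this
  have hδ2 : ∀ a : ℝ, a < min (S / (2 * (1 + C))) (ε / (3 * (C + 1))) →
      a * (3 * (C + 1)) ≤ ε := by
    intro a ha
    have := (ha.trans_le (min_le_right _ _)).le
    rwa [le_div_iff₀ (by positivity)] at this
  have a1 := hδ1 _ hz1
  have a2 := hδ1 _ hz2
  have b1 := hδ2 _ hz1
  have b2 := hδ2 _ hz2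
  have n1 := norm_nonneg (x' - x)
  have n2 := abs_nonneg (t' - t)
  -- we need `‖h‖ + C |s| ≤ S/2`; use a maximum
  set a := max ‖x' - x‖ |t' - t| with ha
  have ha1 : a * (2 * (1 + C)) ≤ S := by
    rcases max_cases ‖x' - x‖ |t' - t| with ⟨h, _⟩ | ⟨h, _⟩ <;> rw [ha, h] <;> assumption
  have hxa : ‖x' - x‖ ≤ a := le_max_left _ _
  have hta : |t' - t| ≤ a := le_max_right _ _
  have ha0 : 0 ≤ a := n1.trans hxa
  have hpC : ‖p‖ ≤ C := hp.trans (le_max_left _ _)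
  have hqC : |q| ≤ C := hq.trans (le_max_left _ _)
  have g1 : |t' - t| ≤ S / 2 := by nlinarith
  have g2 : ‖x' - x‖ + C * |t' - t| ≤ S / 2 := by
    have : C * |t' - t| ≤ C * a := by gcongr
    nlinarith
  have := w8cb_incr hpC hqC hf (h := x' - x) (s := t' - t) g1 g2
  rw [add_sub_cancel, add_sub_cancel] at this
  simp only
  have c1 : C * ‖x' - x‖ ≤ ε / 3 := by nlinarith
  have c2 : C * |t' - t| ≤ ε / 3 := by nlinarith
  linarith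

theorem w8cb_hasFits [FiniteDimensional ℝ X] (U : Ultrafilter ℕ) {v : ℕ → X → ℝ → ℝ} {A : ℝ}
    (hA : 0 ≤ A) {w : X → ℝ → ℝ} (H : W8cbFits (U : Filter ℕ) v A)
    (hlim : ∀ x t, Tendsto (fun i => v i x t) U (𝓝 (w x t))) : HasFits (8 * A) w := by
  have : ProperSpace X := FiniteDimensional.proper_real X
  intro x t R hR
  obtain ⟨j0, hj1, hj2⟩ := exists_mem_Ico_zpow (x := 4 * R) (y := (2 : ℝ)) (by positivity)
    (by norm_num)
  set j : ℤ := j0 + 1 with hj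
  have hS1 : 4 * R ≤ (2 : ℝ) ^ j := hj2.le
  have hS2 : (2 : ℝ) ^ j ≤ 8 * R := by
    rw [hj, zpow_add_one₀ (by norm_num)]
    linarith
  obtain ⟨Cb, hCb⟩ := H (max ‖x‖ |t|) j
  have h1 : ∀ᶠ i in (U : Filter ℕ), ∃ (p : X) (q : ℝ), ‖p‖ ≤ Cb ∧ |q| ≤ Cb ∧
      W8cbFit (v i) x t ((2 : ℝ) ^ j) (A * (2 : ℝ) ^ j) p q :=
    hCb.mono fun i hi => hi x t (le_max_left _ _) (le_max_right _ _)
  have h2 : ∀ i, ∃ pq : X × ℝ, (∃ (p : X) (q : ℝ), ‖p‖ ≤ Cb ∧ |q| ≤ Cb ∧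
      W8cbFit (v i) x t ((2 : ℝ) ^ j) (A * (2 : ℝ) ^ j) p q) →
      (‖pq.1‖ ≤ Cb ∧ |pq.2| ≤ Cb ∧
        W8cbFit (v i) x t ((2 : ℝ) ^ j) (A * (2 : ℝ) ^ j) pq.1 pq.2) := by
    intro i
    by_cases hi : ∃ (p : X) (q : ℝ), ‖p‖ ≤ Cb ∧ |q| ≤ Cb ∧
        W8cbFit (v i) x t ((2 : ℝ) ^ j) (A * (2 : ℝ) ^ j) p q
    · obtain ⟨p, q, h⟩ := hi
      exact ⟨(p, q), fun _ => h⟩
    · exact ⟨(0, 0), fun h => absurd h hi⟩
  choose pq hpq using h2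
  have h3 : ∀ᶠ i in (U : Filter ℕ), ‖(pq i).1‖ ≤ Cb ∧ |(pq i).2| ≤ Cb ∧
      W8cbFit (v i) x t ((2 : ℝ) ^ j) (A * (2 : ℝ) ^ j) (pq i).1 (pq i).2 :=
    h1.mono fun i hi => hpq i hi
  obtain ⟨p, hp, -⟩ := ulim_exists_norm U (fun i => (pq i).1) Cb (h3.mono fun i hi => hi.1)
  obtain ⟨q, hq, -⟩ := ulim_exists_real U (fun i => (pq i).2) Cb (h3.mono fun i hi => hi.2.1)
  refine ⟨p, q + ‖p‖ ^ 2 / 2, ?_⟩
  intro h s hs hh
  have hvec : Tendsto (fun i => ‖h - s • (pq i).1‖) U (𝓝 ‖h - s • p‖) :=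
    (tendsto_const_nhds.sub (hp.const_smul s)).norm
  have h4 : ∀ᶠ i in (U : Filter ℕ), ‖h - s • (pq i).1‖ ≤ 2 * R :=
    hvec.eventually_le_const (by linarith)
  have h5 : Tendsto (fun i => |v i (x + h) (t + s) - v i x t - ⟪(pq i).1, h⟫ - (pq i).2 * s|) U
      (𝓝 |w (x + h) (t + s) - w x t - ⟪p, h⟫ - q * s|) :=
    ((((hlim _ _).sub (hlim _ _)).sub (hp.inner tendsto_const_nhds)).sub (hq.mul_const s)).abs
  have h6 : |w (x + h) (t + s) - w x t - ⟪p, h⟫ - q * s| ≤ A * (2 : ℝ) ^ j := by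
    refine le_of_tendsto h5 ?_
    filter_upwards [h3, h4] with i hi3 hi4
    exact hi3.2.2 h s (by linarith) (by linarith)
  have e : q + ‖p‖ ^ 2 / 2 - ‖p‖ ^ 2 / 2 = q := by ring
  rw [e]
  have h7 : A * (2 : ℝ) ^ j ≤ A * (8 * R) := by gcongr
  linarith

/-- **Leaf D** (same statement as `w8_compactness`). -/
theorem w8cb_compactness [FiniteDimensional ℝ X] (l : Ultrafilter ℕ) (v : ℕ → X → ℝ → ℝ) (A : ℝ)
    (hA : 0 ≤ A) (h0 : ∀ i, v i 0 0 = 0)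
    (hfit : ∀ (K : ℝ) (j : ℤ), ∃ C : ℝ, ∀ᶠ i in (l : Filter ℕ), ∀ (x : X) (t : ℝ),
      ‖x‖ ≤ K → |t| ≤ K → ∃ (p : X) (q : ℝ), ‖p‖ ≤ C ∧ |q| ≤ C ∧ ∀ (h : X) (s : ℝ),
        |s| ≤ (2 : ℝ) ^ j / 2 → ‖h - s • p‖ ≤ (2 : ℝ) ^ j / 2 →
        |v i (x + h) (t + s) - v i x t - ⟪p, h⟫ - q * s| ≤ A * (2 : ℝ) ^ j) :
    ∃ w : X → ℝ → ℝ, Continuous (fun z : X × ℝ => w z.1 z.2) ∧ w 0 0 = 0 ∧
      (∀ (K ε : ℝ), 0 < ε → ∀ᶠ i in (l : Filter ℕ), ∀ (x : X) (t : ℝ), ‖x‖ ≤ K → |t| ≤ K →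
        |v i x t - w x t| ≤ ε) ∧
      HasFits (8 * A) w := by
  have : ProperSpace X := FiniteDimensional.proper_real X
  have H : W8cbFits (l : Filter ℕ) v A := hfit
  have hb : ∀ (x : X) (t : ℝ), ∃ M, ∀ᶠ i in (l : Filter ℕ), |v i x t| ≤ M := by
    intro x t
    obtain ⟨M, hM⟩ := w8cb_bounded h0 H (max ‖x‖ |t|)
    exact ⟨M, hM.mono fun i hi => hi x t (le_max_left _ _) (le_max_right _ _)⟩
  obtain ⟨w, hw⟩ := ulim_exists_fun₂ l v hb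
  have heq := w8cb_equicont hA H
  have hw' : ∀ z : X × ℝ, Tendsto (fun i => (fun i (z : X × ℝ) => v i z.1 z.2) i z) l
      (𝓝 ((fun z : X × ℝ => w z.1 z.2) z)) := fun z => hw z.1 z.2
  refine ⟨w, ulim_continuous hw' heq, ?_, ?_, w8cb_hasFits l hA H hw⟩
  · have h1 : Tendsto (fun i => v i 0 0) l (𝓝 0) := by
      simp only [h0]; exact tendsto_const_nhds
    exact tendsto_nhds_unique (hw 0 0) h1
  · intro K ε hε
    have hK : IsCompact (Metric.closedBall (0 : X × ℝ) K) := isCompact_closedBall _ _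
    filter_upwards [ulim_uniform_on_compact hw' heq hK hε] with i hi x t hx ht
    refine hi (x, t) ?_
    rw [mem_closedBall_zero_iff, Prod.norm_def]
    exact max_le hx (by simpa using ht)

end Claimed.Agent.R330
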