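import Mathlib

/-!
# Row 330, package W8, leaf (H): orthonormal coordinates adapted to a unit vector

For a unit vector `n` of a finite dimensional real inner product space `F` with
`finrank F = finrank X + 1` there is a linear isometry `iota : X →ₗᵢ[ℝ] F` whose range is the
orthogonal complement of `n`.  Owner: helper73.
-/

namespace Claimed.Agent.R330

open scoped RealInnerProductSpace

variable {X F : Type*} [NormedAddCommGroup X] [InnerProductSpace ℝ X]
  [NormedAddCommGroup F] [InnerProductSpace ℝ F]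

/-- `(iota, n)` is an orthonormal splitting `F = iota X ⊕ ℝ n`. -/
structure W8Split (iota : X →ₗᵢ[ℝ] F) (n : F) : Prop where
  norm_n : ‖n‖ = 1
  perp : ∀ x : X, ⟪iota x, n⟫ = 0
  surj : ∀ z : F, ∃ x : X, z = iota x + ⟪z, n⟫ • n

theorem w8h_exists_split [FiniteDimensional ℝ X] [FiniteDimensional ℝ F]
    (hdim : Module.finrank ℝ F = Module.finrank ℝ X + 1) {n : F} (hn : ‖n‖ = 1) :
    ∃ iota : X →ₗᵢ[ℝ] F, W8Split iota n := by
  classical
  have hn0 : n ≠ 0 := fun h => by simp [h] at hn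
  have : Fact (Module.finrank ℝ F = Module.finrank ℝ X + 1) := ⟨hdim⟩
  have hV : Module.finrank ℝ X = Module.finrank ℝ (ℝ ∙ n)ᗮ :=
    (Submodule.finrank_orthogonal_span_singleton hn0).symm
  let e : X ≃ₗᵢ[ℝ] (ℝ ∙ n)ᗮ :=
    (stdOrthonormalBasis ℝ X).equiv (stdOrthonormalBasis ℝ (ℝ ∙ n)ᗮ) (finCongr hV)
  refine ⟨(ℝ ∙ n)ᗮ.subtypeₗᵢ.comp e.toLinearIsometry, hn, ?_, ?_⟩
  · intro x
    have hx : ((e x : (ℝ ∙ n)ᗮ) : F) ∈ (ℝ ∙ n)ᗮ := (e x).2
    rw [Submodule.mem_orthogonal_singleton_iff_inner_left] at hx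
    exact hx
  · intro z
    have hz : z - ⟪z, n⟫ • n ∈ (ℝ ∙ n)ᗮ := by
      rw [Submodule.mem_orthogonal_singleton_iff_inner_left, inner_sub_left, inner_smul_left,
        real_inner_self_eq_norm_sq, hn]
      simp
    refine ⟨e.symm ⟨z - ⟪z, n⟫ • n, hz⟩, ?_⟩
    simp

namespace W8Split

variable {iota : X →ₗᵢ[ℝ] F} {n : F}

theorem inner_n_n (h : W8Split iota n) : ⟪n, n⟫ = 1 := by
  rw [real_inner_self_eq_norm_sq, h.norm_n]; norm_num

theorem perp' (h : W8Split iota n) (x : X) : ⟪n, iota x⟫ = 0 := by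
  rw [real_inner_comm]; exact h.perp x

/-- inner product in coordinates -/
theorem inner_coord (h : W8Split iota n) (x y : X) (s t : ℝ) :
    ⟪iota x + s • n, iota y + t • n⟫ = ⟪x, y⟫ + s * t := by
  simp only [inner_add_left, inner_add_right, inner_smul_left, inner_smul_right, h.perp, h.perp',
    h.inner_n_n, iota.inner_map_map]
  simp [mul_comm]

/-- norm in coordinates -/
theorem norm_sq_coord (h : W8Split iota n) (x : X) (t : ℝ) :
    ‖iota x + t • n‖ ^ 2 = ‖x‖ ^ 2 + t ^ 2 := by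
  rw [← real_inner_self_eq_norm_sq, h.inner_coord, real_inner_self_eq_norm_sq]; ring

theorem norm_le_norm_coord (h : W8Split iota n) (x : X) (t : ℝ) : ‖x‖ ≤ ‖iota x + t • n‖ := by
  have := h.norm_sq_coord x t
  exact (sq_le_sq₀ (norm_nonneg _) (norm_nonneg _)).mp (by nlinarith [sq_nonneg t])

theorem abs_le_norm_coord (h : W8Split iota n) (x : X) (t : ℝ) : |t| ≤ ‖iota x + t • n‖ := by
  have := h.norm_sq_coord x t
  exact (sq_le_sq₀ (abs_nonneg _) (norm_nonneg _)).mp (by rw [sq_abs]; nlinarith [sq_nonneg ‖x‖])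

theorem norm_coord_le (h : W8Split iota n) (x : X) (t : ℝ) : ‖iota x + t • n‖ ≤ ‖x‖ + |t| := by
  calc ‖iota x + t • n‖ ≤ ‖iota x‖ + ‖t • n‖ := norm_add_le _ _
    _ = ‖x‖ + |t| := by rw [iota.norm_map, norm_smul, h.norm_n, mul_one, Real.norm_eq_abs]

/-- every vector has coordinates -/
theorem exists_coord (h : W8Split iota n) (z : F) : ∃ (x : X) (t : ℝ), z = iota x + t • n := by
  obtain ⟨x, hx⟩ := h.surj z
  exact ⟨x, _, hx⟩

/-- coordinates are unique -/
theorem coord_inj (h : W8Split iota n) {x y : X} {s t : ℝ}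
    (he : iota x + s • n = iota y + t • n) : x = y ∧ s = t := by
  have h0 : iota (x - y) + (s - t) • n = 0 := by
    rw [map_sub, sub_smul]
    have : iota x - iota y + (s • n - t • n) = (iota x + s • n) - (iota y + t • n) := by abel
    rw [this, he, sub_self]
  have h1 := h.norm_sq_coord (x - y) (s - t)
  rw [h0, norm_zero] at h1
  have hx : ‖x - y‖ ^ 2 = 0 := by nlinarith [sq_nonneg ‖x - y‖, sq_nonneg (s - t)]
  have ht : (s - t) ^ 2 = 0 := by nlinarith [sq_nonneg ‖x - y‖, sq_nonneg (s - t)]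
  refine ⟨?_, ?_⟩
  · have : ‖x - y‖ = 0 := by simpa using hx
    exact sub_eq_zero.mp (norm_eq_zero.mp this)
  · have : s - t = 0 := by simpa using ht
    linarith

end W8Split

end Claimed.Agent.R330
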