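/-
Row 330 (S0589), package W8 (paper Prop. 3.6, anisotropic limit): definitions.  Owner: helper28.

Normalisation (helper11): centre `0`, radius `1`.  `E` is the physical space, `X` the transverse
space, `finrank E = finrank X + 1`.
-/
import Claimed.Agent.R330.CylFit

set_option autoImplicit false

namespace Claimed.Agent.R330

open scoped RealInnerProductSpace

/-- An orthonormal splitting `E = ι X ⊕ ℝ N`. -/
structure W8Frame (X E : Type*) [NormedAddCommGroup X] [InnerProductSpace ℝ X]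
    [NormedAddCommGroup E] [InnerProductSpace ℝ E] where
  /-- isometric embedding of the transverse space -/
  ι : X →ₗᵢ[ℝ] E
  /-- the axial unit vector -/
  N : E
  /-- the transverse coordinate -/
  π : E →ₗ[ℝ] X
  norm_N : ‖N‖ = 1
  orth : ∀ x, ⟪ι x, N⟫ = 0
  decomp : ∀ e, ι (π e) + ⟪e, N⟫ • N = e

variable {X E : Type*} [NormedAddCommGroup X] [InnerProductSpace ℝ X]
  [NormedAddCommGroup E] [InnerProductSpace ℝ E]

/-- The physical point with anisotropic coordinates `(x,t)`: paper (3.15) with `z_i = 0`,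
`r_i = 1`. -/
noncomputable def W8Frame.pt (F : W8Frame X E) (lam : ℝ) (x : X) (t : ℝ) : E :=
  Real.sqrt lam • F.ι x + t • F.N

/-- The normalised function `v` of paper (3.15):
`U (√lam x, t) = U 0 + c (t + lam * v x t)`. -/
noncomputable def w8v (F : W8Frame X E) (U : E → ℝ) (lam c : ℝ) (x : X) (t : ℝ) : ℝ :=
  (U (F.pt lam x t) - U 0 - c * t) / (c * lam)

/-- Normalised transverse coefficient of a physical slope `P`: paper (3.19). -/
noncomputable def w8p (F : W8Frame X E) (lam c : ℝ) (P : E) : X :=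
  (c * Real.sqrt lam)⁻¹ • F.π P

/-- Normalised axial coefficient of a physical slope `P`: paper (3.19). -/
noncomputable def w8q (F : W8Frame X E) (lam c : ℝ) (P : E) : ℝ :=
  (⟪P, F.N⟫ / c - 1) / lam

/-- A cylinder fit whose slope obeys the norm bounds `cl ≤ ‖P‖ ≤ cu`. -/
def W8BFit (cl cu : ℝ) (U : E → ℝ) (lam : ℝ) (z : E) (r : ℝ) (P : E) : Prop :=
  cl ≤ ‖P‖ ∧ ‖P‖ ≤ cu ∧ CylFit U lam z r P

/-- The parameter `32 * lam` is good (with slope bounds) at all centres and radii up to `M`. -/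
def W8Good (cl cu : ℝ) (U : E → ℝ) (lam M : ℝ) : Prop :=
  ∀ (z : E) (r : ℝ), ‖z‖ ≤ M → 0 < r → r ≤ M → ∃ P, W8BFit cl cu U (32 * lam) z r P

theorem W8Good.mono {cl cu : ℝ} {U : E → ℝ} {lam M M' : ℝ} (h : W8Good cl cu U lam M)
    (hM : M' ≤ M) : W8Good cl cu U lam M' :=
  fun z r hz hr hrM => h z r (hz.trans hM) hr (hrM.trans hM)

namespace W8Frame

variable (F : W8Frame X E)

theorem inner_N_N : ⟪F.N, F.N⟫ = 1 := by
  rw [real_inner_self_eq_norm_sq, F.norm_N]; norm_num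

theorem orth' (x : X) : ⟪F.N, F.ι x⟫ = 0 := by
  rw [real_inner_comm]; exact F.orth x

theorem inner_ι_ι (x y : X) : ⟪F.ι x, F.ι y⟫ = ⟪x, y⟫ := F.ι.inner_map_map x y

theorem norm_ι (x : X) : ‖F.ι x‖ = ‖x‖ := F.ι.norm_map x

/-- `π` is a left inverse of `ι`. -/
theorem π_ι (x : X) : F.π (F.ι x) = x := by
  have h := F.decomp (F.ι x)
  rw [F.orth, zero_smul, add_zero] at h
  exact F.ι.injective h

theorem π_N : F.π F.N = 0 := by
  have h := F.decomp F.N
  rw [F.inner_N_N, one_smul] at h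
  have h2 : F.ι (F.π F.N) = 0 := by simpa using h
  have h3 : F.ι (F.π F.N) = F.ι 0 := by rw [h2, map_zero]
  exact F.ι.injective h3

/-- adjointness of `ι` and `π`. -/
theorem inner_ι_left (x : X) (e : E) : ⟪F.ι x, e⟫ = ⟪x, F.π e⟫ := by
  conv_lhs => rw [← F.decomp e]
  rw [inner_add_right, real_inner_smul_right, F.orth, mul_zero, add_zero, F.inner_ι_ι]

theorem inner_ι_right (x : X) (e : E) : ⟪e, F.ι x⟫ = ⟪F.π e, x⟫ := by
  rw [real_inner_comm, F.inner_ι_left, real_inner_comm]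

theorem norm_sq_eq (e : E) : ‖e‖ ^ 2 = ‖F.π e‖ ^ 2 + ⟪e, F.N⟫ ^ 2 := by
  conv_lhs => rw [← F.decomp e]
  rw [norm_add_sq_real, real_inner_smul_right, F.orth, norm_smul, F.norm_N, F.norm_ι]
  simp

theorem norm_π_le (e : E) : ‖F.π e‖ ≤ ‖e‖ := by
  have h := F.norm_sq_eq e
  have h2 : ‖F.π e‖ ^ 2 ≤ ‖e‖ ^ 2 := by nlinarith [sq_nonneg ⟪e, F.N⟫]
  exact (sq_le_sq₀ (norm_nonneg _) (norm_nonneg _)).mp h2

theorem inner_pt_N (lam : ℝ) (x : X) (t : ℝ) : ⟪F.pt lam x t, F.N⟫ = t := by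
  unfold W8Frame.pt
  rw [inner_add_left, real_inner_smul_left, real_inner_smul_left, F.orth, F.inner_N_N]
  ring

theorem π_pt (lam : ℝ) (x : X) (t : ℝ) : F.π (F.pt lam x t) = Real.sqrt lam • x := by
  unfold W8Frame.pt
  rw [map_add, map_smul, map_smul, F.π_ι, F.π_N, smul_zero, add_zero]

theorem pt_add (lam : ℝ) (x h : X) (t l : ℝ) :
    F.pt lam (x + h) (t + l) = F.pt lam x t + F.pt lam h l := by
  unfold W8Frame.pt
  rw [map_add, smul_add, add_smul]; abel

theorem pt_zero (lam : ℝ) : F.pt lam 0 0 = 0 := by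
  unfold W8Frame.pt
  simp

/-- every vector is a physical point -/
theorem pt_π {lam : ℝ} (hlam : 0 < lam) (e : E) :
    F.pt lam ((Real.sqrt lam)⁻¹ • F.π e) ⟪e, F.N⟫ = e := by
  unfold W8Frame.pt
  rw [map_smul, smul_smul, mul_inv_cancel₀ (Real.sqrt_pos.mpr hlam).ne', one_smul]
  exact F.decomp e

theorem inner_pt (lam : ℝ) (P : E) (x : X) (t : ℝ) :
    ⟪P, F.pt lam x t⟫ = Real.sqrt lam * ⟪F.π P, x⟫ + t * ⟪P, F.N⟫ := by
  unfold W8Frame.pt
  rw [inner_add_right, real_inner_smul_right, real_inner_smul_right, F.inner_ι_right]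

theorem norm_pt_le {lam : ℝ} (x : X) (t : ℝ) :
    ‖F.pt lam x t‖ ≤ Real.sqrt lam * ‖x‖ + |t| := by
  unfold W8Frame.pt
  refine (norm_add_le _ _).trans ?_
  rw [norm_smul, norm_smul, F.norm_ι, F.norm_N, Real.norm_eq_abs, Real.norm_eq_abs,
    abs_of_nonneg (Real.sqrt_nonneg _), mul_one]

end W8Frame

theorem w8v_zero (F : W8Frame X E) (U : E → ℝ) (lam c : ℝ) : w8v F U lam c 0 0 = 0 := by
  unfold w8v
  rw [F.pt_zero]; simp

/-- Paper (3.15). -/
theorem w8v_spec (F : W8Frame X E) (U : E → ℝ) {lam c : ℝ} (hlam : 0 < lam) (hc : 0 < c)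
    (x : X) (t : ℝ) : U (F.pt lam x t) = U 0 + c * (t + lam * w8v F U lam c x t) := by
  unfold w8v
  field_simp
  ring

/-- The slope in terms of its normalised coefficients. -/
theorem w8_inner_pt (F : W8Frame X E) {lam c : ℝ} (hlam : 0 < lam) (hc : 0 < c) (P : E)
    (h : X) (l : ℝ) :
    ⟪P, F.pt lam h l⟫ = c * (l + lam * (⟪w8p F lam c P, h⟫ + w8q F lam c P * l)) := by
  rw [F.inner_pt]
  unfold w8p w8q
  rw [real_inner_smul_left]
  obtain ⟨s, hs0, hs⟩ : ∃ s : ℝ, 0 < s ∧ Real.sqrt lam = s := ⟨_, Real.sqrt_pos.mpr hlam, rfl⟩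
  have hs2 : lam = s * s := by rw [← hs]; exact (Real.mul_self_sqrt hlam.le).symm
  rw [hs, hs2]
  field_simp
  ring

/-- The exact identity behind paper (3.22). -/
theorem w8v_increment (F : W8Frame X E) (U : E → ℝ) {lam c : ℝ} (hlam : 0 < lam) (hc : 0 < c)
    (P : E) (x h : X) (t l : ℝ) :
    U (F.pt lam x t + F.pt lam h l) - U (F.pt lam x t) - ⟪P, F.pt lam h l⟫ =
      c * lam * (w8v F U lam c (x + h) (t + l) - w8v F U lam c x t
        - ⟪w8p F lam c P, h⟫ - w8q F lam c P * l) := by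
  rw [← F.pt_add, w8v_spec F U hlam hc, w8v_spec F U hlam hc x t, w8_inner_pt F hlam hc]
  ring

end Claimed.Agent.R330
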