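/-
Row 330 (S0589), package W8, leaf E: existence of an orthonormal splitting with prescribed axis.
Skeleton by helper28; owner helper189 (subtask 109).
-/
import Claimed.Agent.R330.W8Defs
import Claimed.Agent.R330.W8Coord

set_option autoImplicit false

namespace Claimed.Agent.R330

open scoped RealInnerProductSpace

variable {X E : Type*} [NormedAddCommGroup X] [InnerProductSpace ℝ X] [FiniteDimensional ℝ X]
  [NormedAddCommGroup E] [InnerProductSpace ℝ E] [FiniteDimensional ℝ E]

/-- A splitting `W8Split iota n` gives a `W8Frame`; the transverse coordinate is the adjoint of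
the embedding. -/
theorem w8_frame_of_split {iota : X →ₗᵢ[ℝ] E} {N : E} (h : W8Split iota N) :
    ∃ F : W8Frame X E, F.N = N ∧ F.ι = iota := by
  have hadjN : iota.toContinuousLinearMap.adjoint N = 0 := by
    apply ext_inner_right ℝ
    intro y
    rw [ContinuousLinearMap.adjoint_inner_left, inner_zero_left]
    have := h.perp y
    rw [real_inner_comm] at this
    exact this
  have hadjι : ∀ x : X, iota.toContinuousLinearMap.adjoint (iota x) = x := by
    intro x
    apply ext_inner_right ℝ
    intro y
    rw [ContinuousLinearMap.adjoint_inner_left]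
    exact iota.inner_map_map x y
  refine ⟨{ ι := iota
            N := N
            π := (iota.toContinuousLinearMap.adjoint : E →L[ℝ] X).toLinearMap
            norm_N := h.norm_n
            orth := h.perp
            decomp := ?_ }, rfl, rfl⟩
  intro e
  obtain ⟨x, hx⟩ := h.surj e
  have h1 : iota.toContinuousLinearMap.adjoint e = x := by
    conv_lhs => rw [hx]
    rw [map_add, map_smul, hadjN, smul_zero, add_zero, hadjι]
  show iota (iota.toContinuousLinearMap.adjoint e) + ⟪e, N⟫ • N = e
  rw [h1]
  exact hx.symm

/-- **Leaf E.**  `(ℝ ∙ N)ᗮ` has the dimension of `X`, hence is isometric to `X`;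
`π` is the adjoint of the embedding. -/
theorem w8_exists_frame (hdim : Module.finrank ℝ E = Module.finrank ℝ X + 1) (N : E)
    (hN : ‖N‖ = 1) : ∃ F : W8Frame X E, F.N = N := by
  obtain ⟨iota, h⟩ := w8h_exists_split (X := X) hdim hN
  obtain ⟨F, hF, _⟩ := w8_frame_of_split h
  exact ⟨F, hF⟩

end Claimed.Agent.R330
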