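import Claimed.Agent.R330.CylFit
import Claimed.Agent.R330.W8Coord

/-!
# Row 330, package W8, leaf (G): the anisotropic limit is not affine (last paragraph of Prop. 3.6)

If the normalised function `v` (defined by `U (√lam • iota x + t • n) = U 0 + c (t + lam v x t)`)
is `1/c`-close to the linear function `⟪p,x⟫ + q t` on the fixed box `‖x‖ ≤ 2‖p‖+1`, `|t| ≤ 2`, then
`lam` is good for `U` at `(0,1)`.  Owner: helper73.
-/

namespace Claimed.Agent.R330

open scoped RealInnerProductSpace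
open Filter Topology

variable {X F : Type*} [NormedAddCommGroup X] [InnerProductSpace ℝ X]
  [NormedAddCommGroup F] [InnerProductSpace ℝ F]

theorem w8g_cylN_smul {c : ℝ} (hc : 0 < c) (W : F) : cylN (c • W) = cylN W := by
  unfold cylN
  rw [norm_smul, Real.norm_eq_abs, abs_of_pos hc, smul_smul, mul_inv]
  congr 1
  field_simp

/-- **Non-asymptotic form of the last paragraph of Prop. 3.6.** -/
theorem w8g_cylFit_of_close {iota : X →ₗᵢ[ℝ] F} {n : F} (hs : W8Split iota n) {U : F → ℝ}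
    {v : X → ℝ → ℝ} {lam c : ℝ} {p : X} {q : ℝ}
    (hlam0 : 0 < lam) (hlam1 : lam ≤ 1) (hq : lam * |q| ≤ 1 / 2) (hc : 0 < c)
    (hv : ∀ x t, U (Real.sqrt lam • iota x + t • n) = U 0 + c * (t + lam * v x t))
    (hclose : ∀ x t, ‖x‖ ≤ 2 * ‖p‖ + 1 → |t| ≤ 2 → |v x t - ⟪p, x⟫ - q * t| ≤ 1 / c) :
    CylFit U lam 0 1 (c • (Real.sqrt lam • iota p + (1 + lam * q) • n)) := by
  set σ := Real.sqrt lam with hσ
  have hσ0 : 0 < σ := Real.sqrt_pos.mpr hlam0
  have hσ1 : σ ≤ 1 := Real.sqrt_le_one.mpr hlam1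
  have hσσ : σ * σ = lam := Real.mul_self_sqrt hlam0.le
  set A := 1 + lam * q with hA
  have hlq : |lam * q| ≤ 1 / 2 := by rw [abs_mul, abs_of_pos hlam0]; exact hq
  have hA1 : 1 / 2 ≤ A := by have := (abs_le.mp hlq).1; linarith
  set W : F := σ • iota p + A • n with hW
  have hW' : W = iota (σ • p) + A • n := by rw [hW, map_smul]
  have hWsq : ‖W‖ ^ 2 = ‖σ • p‖ ^ 2 + A ^ 2 := by rw [hW', hs.norm_sq_coord]
  have hAW : A ≤ ‖W‖ := by
    have := hs.abs_le_norm_coord (σ • p) A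
    rw [← hW'] at this
    exact (le_abs_self A).trans this
  have hWpos : 0 < ‖W‖ := by linarith
  have hW0 : W ≠ 0 := norm_pos_iff.mp hWpos
  refine ⟨smul_ne_zero hc.ne' hW0, ?_⟩
  intro h hh
  rw [InCyl, w8g_cylN_smul hc] at hh
  obtain ⟨hh1, hh2⟩ := hh
  obtain ⟨y, t, rfl⟩ := hs.exists_coord h
  set s := ⟪iota y + t • n, cylN W⟫ with hsdef
  set w := ‖W‖⁻¹ with hw
  have hw0 : 0 < w := inv_pos.mpr hWpos
  have hw2 : w ≤ 2 := by
    rw [hw]
    have : (‖W‖)⁻¹ ≤ (1 / 2 : ℝ)⁻¹ := inv_anti₀ (by norm_num) (by linarith)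
    simpa using this
  have hwA : w * A ≤ 1 := by
    rw [hw, inv_mul_le_iff₀ hWpos]; linarith
  -- decomposition of the transverse part
  have hdec : iota y + t • n - s • cylN W
      = iota (y - (s * w * σ) • p) + (t - s * w * A) • n := by
    have : cylN W = w • W := rfl
    rw [this, hW, map_sub, map_smul, sub_smul, smul_smul, smul_add, smul_smul, smul_smul]
    abel
  rw [hdec, mul_one] at hh2
  have hy : ‖y - (s * w * σ) • p‖ ≤ σ := (hs.norm_le_norm_coord _ _).trans hh2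
  have ht : |t - s * w * A| ≤ σ := (hs.abs_le_norm_coord _ _).trans hh2
  have hswA : |s * w * A| ≤ 1 := by
    rw [mul_assoc, abs_mul, abs_of_nonneg (by positivity : 0 ≤ w * A)]
    calc |s| * (w * A) ≤ 1 * 1 := by gcongr
      _ = 1 := one_mul 1
  have ht2 : |t| ≤ 2 := by
    have : t = (t - s * w * A) + s * w * A := by ring
    rw [this]
    exact (abs_add_le _ _).trans (by linarith)
  have hy2 : ‖y‖ ≤ σ * (2 * ‖p‖ + 1) := by
    have e : y = (y - (s * w * σ) • p) + (s * w * σ) • p := by abel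
    have h1 : ‖(s * w * σ) • p‖ ≤ 2 * σ * ‖p‖ := by
      rw [norm_smul, Real.norm_eq_abs, abs_mul, abs_mul, abs_of_pos hw0, abs_of_pos hσ0]
      calc |s| * w * σ * ‖p‖ ≤ 1 * 2 * σ * ‖p‖ := by gcongr
        _ = 2 * σ * ‖p‖ := by ring
    calc ‖y‖ = ‖(y - (s * w * σ) • p) + (s * w * σ) • p‖ := by rw [← e]
      _ ≤ ‖y - (s * w * σ) • p‖ + ‖(s * w * σ) • p‖ := norm_add_le _ _
      _ ≤ σ + 2 * σ * ‖p‖ := add_le_add hy h1
      _ = σ * (2 * ‖p‖ + 1) := by ring
  -- rescaled transverse coordinate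
  set x : X := σ⁻¹ • y with hx
  have hyx : y = σ • x := by rw [hx, smul_smul, mul_inv_cancel₀ hσ0.ne', one_smul]
  have hxn : ‖x‖ ≤ 2 * ‖p‖ + 1 := by
    rw [hx, norm_smul, norm_inv, Real.norm_eq_abs, abs_of_pos hσ0, inv_mul_le_iff₀ hσ0]
    exact hy2
  have hcl := hclose x t hxn ht2
  have hU : U (0 + (iota y + t • n)) = U 0 + c * (t + lam * v x t) := by
    rw [zero_add, hyx, map_smul]; exact hv x t
  have hin : ⟪c • W, iota y + t • n⟫ = c * (lam * ⟪p, x⟫ + A * t) := by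
    rw [inner_smul_left, hW', hs.inner_coord, hyx, inner_smul_left, inner_smul_right]
    simp only [conj_trivial]
    rw [← hσσ]; ring
  rw [hU, hin]
  have e : U 0 + c * (t + lam * v x t) - U 0 - c * (lam * ⟪p, x⟫ + A * t)
      = c * lam * (v x t - ⟪p, x⟫ - q * t) := by rw [hA]; ring
  rw [e, abs_mul, abs_of_pos (by positivity : 0 < c * lam), mul_one]
  calc c * lam * |v x t - ⟪p, x⟫ - q * t| ≤ c * lam * (1 / c) := by gcongr
    _ = lam := by field_simp

/-- **Filter form.**  If the normalised functions `v i` converge, uniformly on the fixed box, to a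
linear function, along a filter along which `lam i → 0` and the `c i` stay bounded, then `lam i` is
eventually good for `U i` at `(0,1)`. -/
theorem w8g_eventually_cylFit {ι' : Type*} {l : Filter ι'} {iota : ι' → X →ₗᵢ[ℝ] F} {n : ι' → F}
    (hs : ∀ i, W8Split (iota i) (n i)) {U : ι' → F → ℝ} {v : ι' → X → ℝ → ℝ} {lam c : ι' → ℝ}
    {Cmax : ℝ} {p : X} {q : ℝ}
    (hlam0 : ∀ i, 0 < lam i) (hlam : Tendsto lam l (𝓝 0)) (hc : ∀ i, 0 < c i)
    (hcC : ∀ i, c i ≤ Cmax)
    (hv : ∀ i x t, U i (Real.sqrt (lam i) • iota i x + t • n i)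
      = U i 0 + c i * (t + lam i * v i x t))
    (hconv : ∀ ε : ℝ, 0 < ε → ∀ᶠ i in l, ∀ x t, ‖x‖ ≤ 2 * ‖p‖ + 1 → |t| ≤ 2 →
      |v i x t - ⟪p, x⟫ - q * t| ≤ ε) :
    ∀ᶠ i in l, ∃ P, CylFit (U i) (lam i) 0 1 P := by
  by_cases hne : Nonempty ι'
  · obtain ⟨i₀⟩ := hne
    have hC : 0 < Cmax := (hc i₀).trans_le (hcC i₀)
    have h1 : ∀ᶠ i in l, lam i < 1 := hlam.eventually (gt_mem_nhds one_pos)
    have h2 : ∀ᶠ i in l, lam i < 1 / (2 * (|q| + 1)) :=
      hlam.eventually (gt_mem_nhds (by positivity))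
    filter_upwards [h1, h2, hconv (1 / Cmax) (by positivity)] with i a1 a2 a3
    refine ⟨_, w8g_cylFit_of_close (p := p) (q := q) (hs i) (hlam0 i) a1.le ?_ (hc i) (hv i) ?_⟩
    · have hq : 0 ≤ |q| := abs_nonneg q
      have : lam i * (2 * (|q| + 1)) < 1 := by
        rwa [lt_div_iff₀ (by positivity)] at a2
      nlinarith [hlam0 i]
    · intro x t hx ht
      refine (a3 x t hx ht).trans ?_
      exact one_div_le_one_div_of_le (hc i) (hcC i)
  · exact Eventually.of_forall fun i => (hne ⟨i⟩).elim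

end Claimed.Agent.R330
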