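/-
Row 330 (S0589), package W8, leaf G: if the rescaled function is close to an affine function on a
fixed box, then `lam` itself is good (last part of the proof of paper Prop. 3.6).
Skeleton by helper28; proof by helper73 (via W8Nonaff).
-/
import Claimed.Agent.R330.W8Defs
import Claimed.Agent.R330.W8Nonaff

set_option autoImplicit false

namespace Claimed.Agent.R330

open scoped RealInnerProductSpace

variable {X E : Type*} [NormedAddCommGroup X] [InnerProductSpace ℝ X]
  [NormedAddCommGroup E] [InnerProductSpace ℝ E]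

theorem W8Frame.split (F : W8Frame X E) : W8Split F.ι F.N :=
  ⟨F.norm_N, F.orth, fun z => ⟨F.π z, (F.decomp z).symm⟩⟩

/-- **Leaf G.** -/
theorem w8_fit_of_close (F : W8Frame X E) (U : E → ℝ) {lam c : ℝ} (hlam : 0 < lam)
    (hlam1 : lam ≤ 1) (hc : 0 < c) (p : X) (q : ℝ) (hq : lam * |q| ≤ 1 / 2)
    (hclose : ∀ (x : X) (t : ℝ), ‖x‖ ≤ 2 * ‖p‖ + 1 → |t| ≤ 2 →
      |w8v F U lam c x t - ⟪p, x⟫ - q * t| ≤ 1 / c) :
    CylFit U lam 0 1 (c • F.pt lam p (1 + lam * q)) :=
  w8g_cylFit_of_close F.split hlam hlam1 hq hc (fun x t => w8v_spec F U hlam hc x t) hclose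

end Claimed.Agent.R330
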