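/-
Row 330 (S0589), package W8, leaf A: uniform bounds for the slopes of all cylinder fits centred in
a fixed anisotropic box (paper (3.16)-(3.18)).  Pure geometry in the physical space `E`.
Skeleton by helper28; proof by helper112.
-/
import Claimed.Agent.R330.W8Defs
import Claimed.Agent.R330.CylChain

set_option autoImplicit false

namespace Claimed.Agent.R330

open scoped RealInnerProductSpace

variable {E : Type*} [NormedAddCommGroup E] [InnerProductSpace ℝ E]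

/-- Exponentials beat affine functions: an elementary choice of the number of doublings. -/
theorem w8_exists_pow (A B : ℝ) (hA : 0 ≤ A) (hB : 0 ≤ B) :
    ∃ k : ℕ, A + B * ((k : ℝ) + 1) ≤ (2 : ℝ) ^ k := by
  obtain ⟨n, hn⟩ := exists_nat_ge (A + 3 * B + 1)
  refine ⟨2 * n, ?_⟩
  have hn1 : (1 : ℝ) ≤ n := by linarith
  have h2 : (n : ℝ) ≤ (2 : ℝ) ^ n := by
    have := (Nat.lt_two_pow_self (n := n)).le
    exact_mod_cast this
  have h3 : (2 : ℝ) ^ (2 * n) = (2 : ℝ) ^ n * (2 : ℝ) ^ n := by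
    rw [two_mul, pow_add]
  have h4 : (n : ℝ) * n ≤ (2 : ℝ) ^ n * (2 : ℝ) ^ n := by
    have : (0 : ℝ) ≤ n := by linarith
    exact mul_le_mul h2 h2 this (this.trans h2)
  rw [h3]
  refine le_trans ?_ h4
  push_cast
  nlinarith [mul_nonneg hA (sub_nonneg.mpr hn1), mul_nonneg hB (sub_nonneg.mpr hn1)]

/-- **Leaf A.**  Proof: put `θ = √(32 lam)`, `N = cylN P0`.  Choose `k : ℕ` large.
(1) `cyl_chain` at the centre `0` from radius `1` to `2^k`;
(2) `cyl_compare_displaced` compares the fit of radius `2^k` at `0` with one at the centre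
`Z = √lam • w + t • N`;
(3) `cyl_chain` at the centre `Z` from radius `2^j` to `2^k`. -/
theorem w8_coeff (cl cu : ℝ) (hcl : 0 < cl) (K : ℝ) (j : ℤ) :
    ∃ C M : ℝ, 0 ≤ C ∧ ∀ (U : E → ℝ) (lam : ℝ) (P0 : E), 0 < lam → 32 * lam < 1 →
      W8Good cl cu U lam M → W8BFit cl cu U (32 * lam) 0 1 P0 →
      ∀ (w : E) (t : ℝ), ‖w‖ ≤ K → |t| ≤ K → ∀ P : E,
        W8BFit cl cu U (32 * lam) (Real.sqrt lam • w + t • cylN P0) ((2 : ℝ) ^ j) P →
        ‖cylN P - cylN P0‖ ≤ C * Real.sqrt lam ∧ |‖P‖ - ‖P0‖| ≤ C * lam := by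
  set K' : ℝ := max K 0 with hK'
  have hK'0 : 0 ≤ K' := le_max_right _ _
  have hKK' : K ≤ K' := le_max_left _ _
  have h2j : (0 : ℝ) < (2 : ℝ) ^ j := by positivity
  obtain ⟨k, hk⟩ := w8_exists_pow (12 * K' + (2 : ℝ) ^ j + 1) (4 * K' * (6 / cl))
    (by positivity) (by positivity)
  set H : ℝ := (2 : ℝ) ^ k with hH
  have hHpos : 0 < H := by positivity
  have hBk : 0 ≤ 4 * K' * (6 / cl) * ((k : ℝ) + 1) := by positivity
  have hH1 : 1 ≤ H := by linarith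
  have hH8 : 8 * K' ≤ H := by linarith
  have hHj : (2 : ℝ) ^ j ≤ H := by linarith
  have hHt : 4 * K' * (1 + ((k : ℝ) + 1) * (6 / cl)) ≤ H := by
    have e : 4 * K' * (1 + ((k : ℝ) + 1) * (6 / cl))
        = 4 * K' + 4 * K' * (6 / cl) * ((k : ℝ) + 1) := by ring
    rw [e]; linarith
  set k2 : ℕ := ((k : ℤ) - j).toNat with hk2
  have hk2' : H ≤ (2 : ℝ) ^ (k2 + 1) * (2 : ℝ) ^ j := by
    have e1 : (2 : ℝ) ^ (k2 + 1) * (2 : ℝ) ^ j = (2 : ℝ) ^ (((k2 + 1 : ℕ) : ℤ) + j) := by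
      rw [zpow_add₀ (by norm_num : (2 : ℝ) ≠ 0), zpow_natCast]
    have e2 : H = (2 : ℝ) ^ ((k : ℕ) : ℤ) := by rw [zpow_natCast]
    rw [e1, e2]
    apply zpow_le_zpow_right₀ (by norm_num : (1 : ℝ) ≤ 2)
    have := Int.self_le_toNat ((k : ℤ) - j)
    push_cast
    omega
  set D1 : ℝ := ((k2 : ℝ) + 1) * (6 / cl) + 12 / cl + ((k : ℝ) + 1) * (6 / cl) with hD1
  set D2 : ℝ := ((k2 : ℝ) + 1) * cylK cl cu + cylK' cl cu + ((k : ℝ) + 1) * cylK cl cu with hD2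
  have hD1nn : 0 ≤ D1 := by positivity
  refine ⟨6 * D1 + 32 * |D2|, max (2 * K') H, by positivity, ?_⟩
  intro U lam P0 hlam hlam1 hgood hP0 w t hw ht P hP
  set θ : ℝ := Real.sqrt (32 * lam) with hθ
  have hθ2 : θ ^ 2 = 32 * lam := Real.sq_sqrt (by positivity)
  have hθ0 : 0 < θ := Real.sqrt_pos.mpr (by positivity)
  have hθ1 : θ < 1 := by
    rw [hθ, Real.sqrt_lt' one_pos]; simpa using hlam1
  have hsl0 : 0 ≤ Real.sqrt lam := Real.sqrt_nonneg _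
  have hslθ : Real.sqrt lam ≤ θ := Real.sqrt_le_sqrt (by linarith)
  have hsl1 : Real.sqrt lam ≤ 1 := hslθ.trans hθ1.le
  have hθ6 : θ ≤ 6 * Real.sqrt lam := by
    rw [hθ, Real.sqrt_le_iff]
    refine ⟨by positivity, ?_⟩
    rw [mul_pow, Real.sq_sqrt hlam.le]; linarith
  set N : E := cylN P0 with hN
  set Z : E := Real.sqrt lam • w + t • N with hZ
  have hNle : ‖N‖ ≤ 1 := cyl_norm_cylN_le P0
  have hw' : ‖w‖ ≤ K' := hw.trans hKK'
  have ht' : |t| ≤ K' := ht.trans hKK'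
  have hZnorm : ‖Z‖ ≤ 2 * K' := by
    calc ‖Z‖ ≤ ‖Real.sqrt lam • w‖ + ‖t • N‖ := norm_add_le _ _
      _ = Real.sqrt lam * ‖w‖ + |t| * ‖N‖ := by
          rw [norm_smul, norm_smul, Real.norm_eq_abs, Real.norm_eq_abs, abs_of_nonneg hsl0]
      _ ≤ 1 * K' + K' * 1 :=
          add_le_add (mul_le_mul hsl1 hw' (norm_nonneg _) zero_le_one)
            (mul_le_mul ht' hNle (norm_nonneg _) hK'0)
      _ = 2 * K' := by ring
  -- fits at the two centres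
  have hfits0 : ∀ r, (1 : ℝ) ≤ r → r ≤ H →
      ∃ Q, cl ≤ ‖Q‖ ∧ ‖Q‖ ≤ cu ∧ CylFit U (θ ^ 2) 0 r Q := by
    intro r hr1 hrH
    obtain ⟨Q, h1, h2, h3⟩ := hgood 0 r (by rw [norm_zero]; positivity) (by linarith)
      (hrH.trans (le_max_right _ _))
    exact ⟨Q, h1, h2, by rw [hθ2]; exact h3⟩
  have hfitsZ : ∀ r, (2 : ℝ) ^ j ≤ r → r ≤ H →
      ∃ Q, cl ≤ ‖Q‖ ∧ ‖Q‖ ≤ cu ∧ CylFit U (θ ^ 2) Z r Q := by
    intro r hr1 hrH
    obtain ⟨Q, h1, h2, h3⟩ := hgood Z r (hZnorm.trans (le_max_left _ _)) (by linarith)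
      (hrH.trans (le_max_right _ _))
    exact ⟨Q, h1, h2, by rw [hθ2]; exact h3⟩
  obtain ⟨PR, hPR1, hPR2, hPR3⟩ := hfits0 H hH1 le_rfl
  obtain ⟨PZ, hPZ1, hPZ2, hPZ3⟩ := hfitsZ H hHj le_rfl
  obtain ⟨hP01, hP02, hP03⟩ := hP0
  obtain ⟨hP1, hP2, hP3⟩ := hP
  -- (1) chain at the centre `0`
  obtain ⟨-, a2, a3⟩ := cyl_chain hθ0 hθ1 hcl one_pos hfits0 k 1 H le_rfl hH1 le_rfl
    (by rw [mul_one, pow_succ]; linarith) P0 PR hP01 hP02 (by rw [hθ2]; exact hP03)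
    hPR1 hPR2 hPR3
  -- (2) displaced centres
  have hax : |⟪Z, cylN PR⟫| ≤ H / 4 := by
    have := cyl_abs_inner_cylN_le PR Z
    linarith
  have htr : ‖Z - ⟪Z, cylN PR⟫ • cylN PR‖ ≤ θ * H / 4 := by
    refine (cyl_norm_transverse_le_sub PR Z t).trans ?_
    have e : Z - t • cylN PR = Real.sqrt lam • w + t • (N - cylN PR) := by
      rw [hZ, smul_sub]; abel
    rw [e]
    calc ‖Real.sqrt lam • w + t • (N - cylN PR)‖
        ≤ ‖Real.sqrt lam • w‖ + ‖t • (N - cylN PR)‖ := norm_add_le _ _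
      _ = Real.sqrt lam * ‖w‖ + |t| * ‖N - cylN PR‖ := by
          rw [norm_smul, norm_smul, Real.norm_eq_abs, Real.norm_eq_abs, abs_of_nonneg hsl0]
      _ ≤ θ * K' + K' * (((k : ℝ) + 1) * (6 / cl * θ)) :=
          add_le_add (mul_le_mul hslθ hw' (norm_nonneg _) hθ0.le)
            (mul_le_mul ht' a2 (norm_nonneg _) hK'0)
      _ = θ * (4 * K' * (1 + ((k : ℝ) + 1) * (6 / cl))) / 4 := by ring
      _ ≤ θ * H / 4 := by
          have := mul_le_mul_of_nonneg_left hHt hθ0.le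
          linarith
  obtain ⟨-, b2, b3⟩ := cyl_compare_displaced (z := (0 : E)) (k := Z) hθ0 hθ1 hcl hHpos hax htr
    hPR3 (by rw [zero_add]; exact hPZ3) hPZ1 hPR2
  -- (3) chain at the centre `Z`
  obtain ⟨-, c2, c3⟩ := cyl_chain hθ0 hθ1 hcl h2j hfitsZ k2 ((2 : ℝ) ^ j) H le_rfl hHj le_rfl
    hk2' P PZ hP1 hP2 (by rw [hθ2]; exact hP3) hPZ1 hPZ2 hPZ3
  constructor
  · have e : cylN P - cylN P0 = (cylN P - cylN PZ) - (cylN PR - cylN PZ) - (N - cylN PR) := by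
      rw [hN]; abel
    calc ‖cylN P - cylN P0‖
        ≤ ‖cylN P - cylN PZ‖ + ‖cylN PR - cylN PZ‖ + ‖N - cylN PR‖ := by
          rw [e]
          exact (norm_sub_le _ _).trans (add_le_add (norm_sub_le _ _) le_rfl)
      _ ≤ ((k2 : ℝ) + 1) * (6 / cl * θ) + 12 / cl * θ + ((k : ℝ) + 1) * (6 / cl * θ) :=
          add_le_add (add_le_add c2 b2) a2
      _ = D1 * θ := by rw [hD1]; ring
      _ ≤ D1 * (6 * Real.sqrt lam) := mul_le_mul_of_nonneg_left hθ6 hD1nn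
      _ ≤ (6 * D1 + 32 * |D2|) * Real.sqrt lam := by
          have : 0 ≤ 32 * |D2| * Real.sqrt lam := by positivity
          linarith
  · have e : ‖P‖ - ‖P0‖ = (‖P‖ - ‖PZ‖) - (‖PR‖ - ‖PZ‖) - (‖P0‖ - ‖PR‖) := by ring
    calc |‖P‖ - ‖P0‖|
        ≤ |‖P‖ - ‖PZ‖| + |‖PR‖ - ‖PZ‖| + |‖P0‖ - ‖PR‖| := by
          rw [e]
          exact (abs_sub _ _).trans (add_le_add (abs_sub _ _) le_rfl)
      _ ≤ ((k2 : ℝ) + 1) * (cylK cl cu * θ ^ 2) + cylK' cl cu * θ ^ 2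
            + ((k : ℝ) + 1) * (cylK cl cu * θ ^ 2) :=
          add_le_add (add_le_add c3 b3) a3
      _ = D2 * (32 * lam) := by rw [hD2, hθ2]; ring
      _ ≤ |D2| * (32 * lam) := mul_le_mul_of_nonneg_right (le_abs_self _) (by positivity)
      _ ≤ (6 * D1 + 32 * |D2|) * lam := by
          have : 0 ≤ 6 * D1 * lam := by positivity
          linarith

end Claimed.Agent.R330
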