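/-
Row 330 (S0589), package W8, leaf B: normalised fits of the rescaled function with bounded
coefficients (paper (3.19)-(3.22)).  Owner: helper28.
-/
import Claimed.Agent.R330.W8Coeff

set_option autoImplicit false

namespace Claimed.Agent.R330

open scoped RealInnerProductSpace

variable {X E : Type*} [NormedAddCommGroup X] [InnerProductSpace ℝ X]
  [NormedAddCommGroup E] [InnerProductSpace ℝ E]

/-- A slope is recovered from its normalised coefficients. -/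
theorem w8_slope_eq (F : W8Frame X E) {lam c : ℝ} (hlam : 0 < lam) (hc : 0 < c) (P : E) :
    c • F.pt lam (w8p F lam c P) (1 + lam * w8q F lam c P) = P := by
  have hs : Real.sqrt lam ≠ 0 := (Real.sqrt_pos.mpr hlam).ne'
  have h1 : 1 + lam * w8q F lam c P = ⟪P, F.N⟫ / c := by
    unfold w8q; field_simp; ring
  rw [h1]
  unfold W8Frame.pt w8p
  rw [map_smul, smul_smul, smul_add, smul_smul, smul_smul]
  have e1 : c * (Real.sqrt lam * (c * Real.sqrt lam)⁻¹) = 1 := by field_simp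
  have e2 : c * (⟪P, F.N⟫ / c) = ⟪P, F.N⟫ := by field_simp
  rw [e1, e2, one_smul]
  exact F.decomp P

/-- Membership in a cylinder from a decomposition `y = τ • n + e` with `e` small. -/
theorem w8_inCyl_of_decomp {lam r τ : ℝ} {P y e : E} (hy : y = τ • cylN P + e)
    (h1 : |τ| + ‖e‖ ≤ r) (h2 : ‖e‖ ≤ Real.sqrt lam * r) : InCyl lam r P y := by
  constructor
  · rw [hy, inner_add_left, real_inner_smul_left]
    have a1 : |⟪cylN P, cylN P⟫| ≤ 1 := by
      refine (abs_real_inner_le_norm _ _).trans ?_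
      have := cyl_norm_cylN_le P
      have h0 := norm_nonneg (cylN P)
      nlinarith
    have a2 : |⟪e, cylN P⟫| ≤ ‖e‖ := cyl_abs_inner_cylN_le P e
    calc |τ * ⟪cylN P, cylN P⟫ + ⟪e, cylN P⟫| ≤ |τ * ⟪cylN P, cylN P⟫| + |⟪e, cylN P⟫| :=
          abs_add_le _ _
      _ ≤ |τ| * 1 + ‖e‖ := by
          rw [abs_mul]
          gcongr
      _ ≤ r := by linarith
  · refine (cyl_norm_transverse_le_sub P y τ).trans ?_
    have : y - τ • cylN P = e := by rw [hy]; abel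
    rw [this]; exact h2

/-- Paper (3.20)-(3.21): the sheared box is contained in the image of the cylinder. -/
theorem w8_inCyl (F : W8Frame X E) {lam c S C : ℝ} (hlam : 0 < lam) (hc : 0 < c) (hS : 0 < S)
    (hC : 0 ≤ C) (P : E) (hp : ‖w8p F lam c P‖ ≤ C) (hq : |w8q F lam c P| ≤ C)
    (hsmall : Real.sqrt lam * (1 + C) ≤ 1 / 3) {h : X} {l : ℝ} (hl : |l| ≤ S / 2)
    (hh : ‖h - l • w8p F lam c P‖ ≤ S / 2) : InCyl (32 * lam) S P (F.pt lam h l) := by
  set p := w8p F lam c P with hpdef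
  set q := w8q F lam c P with hqdef
  obtain ⟨s, hs0, hs⟩ : ∃ s : ℝ, 0 < s ∧ Real.sqrt lam = s := ⟨_, Real.sqrt_pos.mpr hlam, rfl⟩
  have hs2 : lam = s * s := by rw [← hs]; exact (Real.mul_self_sqrt hlam.le).symm
  have hPeq : c • F.pt lam p (1 + lam * q) = P := w8_slope_eq F hlam hc P
  -- the decomposition
  have hdec : F.pt lam h l = (l * ‖P‖ / c) • cylN P + F.pt lam (h - l • p) (-(l * lam * q)) := by
    have e1 : (l * ‖P‖ / c) • cylN P = (l / c) • P := by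
      conv_rhs => rw [← cyl_smul_cylN P]
      rw [smul_smul]; congr 1; ring
    rw [e1]
    conv_rhs => rw [← hPeq]
    rw [smul_smul]
    have e2 : l / c * c = l := by field_simp
    rw [e2]
    unfold W8Frame.pt
    rw [map_sub, map_smul, smul_add, smul_sub, smul_smul, smul_smul, smul_smul, neg_smul]
    have e3 : (l * (1 + lam * q)) • F.N = l • F.N + (l * lam * q) • F.N := by
      rw [← add_smul]; congr 1; ring
    rw [e3, mul_comm l (Real.sqrt lam)]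
    abel
  -- size of the error
  have he : ‖F.pt lam (h - l • p) (-(l * lam * q))‖ ≤ s * (S / 2) + S / 2 * (s * s * C) := by
    refine (F.norm_pt_le _ _).trans ?_
    rw [hs, abs_neg, mul_assoc, abs_mul, abs_mul, abs_of_pos hlam, ← hs2]
    have : |l| * (lam * |q|) ≤ S / 2 * (lam * C) := by gcongr
    have h3 : s * ‖h - l • p‖ ≤ s * (S / 2) := by gcongr
    linarith
  -- size of the axial coefficient
  have hnP : ‖P‖ / c ≤ s * C + (1 + s * s * C) := by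
    have h1 : ‖P‖ = c * ‖F.pt lam p (1 + lam * q)‖ := by
      conv_lhs => rw [← hPeq]
      rw [norm_smul, Real.norm_eq_abs, abs_of_pos hc]
    rw [h1, mul_div_assoc, mul_comm, div_mul_cancel₀ _ hc.ne']
    refine (F.norm_pt_le _ _).trans ?_
    rw [hs]
    have h2 : |1 + lam * q| ≤ 1 + lam * C := by
      refine (abs_add_le _ _).trans ?_
      rw [abs_one, abs_mul, abs_of_pos hlam]
      gcongr
    rw [← hs2]
    have h3 : s * ‖p‖ ≤ s * C := by gcongr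
    linarith
  have hτ : |l * ‖P‖ / c| ≤ S / 2 * (s * C + (1 + s * s * C)) := by
    rw [mul_div_assoc, abs_mul, abs_of_nonneg (div_nonneg (norm_nonneg _) hc.le)]
    have : 0 ≤ ‖P‖ / c := div_nonneg (norm_nonneg _) hc.le
    gcongr
  rw [hs] at hsmall
  have hsC : s * C ≤ 1 / 3 := by nlinarith
  have hs3 : s ≤ 1 / 3 := by nlinarith
  have hssC : s * s * C ≤ 1 / 9 := by
    have : s * (s * C) ≤ 1 / 3 * (1 / 3) := by
      apply mul_le_mul hs3 hsC (by positivity) (by norm_num)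
    nlinarith
  have hssC0 : 0 ≤ s * s * C := by positivity
  have hsqrt : Real.sqrt (32 * lam) = Real.sqrt 32 * s := by
    rw [Real.sqrt_mul (by norm_num), hs]
  have h32 : (1 : ℝ) ≤ Real.sqrt 32 := by
    rw [show (1 : ℝ) = Real.sqrt 1 by simp]
    exact Real.sqrt_le_sqrt (by norm_num)
  refine w8_inCyl_of_decomp hdec ?_ ?_
  · have : S / 2 * (s * C + (1 + s * s * C)) + (s * (S / 2) + S / 2 * (s * s * C))
        = S / 2 * (1 + (s * (1 + C) + 2 * (s * s * C))) := by ring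
    have h5 : S / 2 * (1 + (s * (1 + C) + 2 * (s * s * C))) ≤ S / 2 * 2 := by
      gcongr
      linarith
    linarith
  · rw [hsqrt]
    have h6 : s * (S / 2) + S / 2 * (s * s * C) ≤ 1 * s * S := by
      have : S / 2 * (s * s * C) = s * (S / 2) * (s * C) := by ring
      rw [this]
      have h7 : s * (S / 2) * (s * C) ≤ s * (S / 2) * (1 / 3) := by gcongr
      nlinarith [mul_pos hs0 hS]
    have h8 : 1 * s * S ≤ Real.sqrt 32 * s * S := by gcongr
    linarith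

/-- Paper (3.22): a cylinder fit gives a normalised fit on the sheared box. -/
theorem w8_normfit (F : W8Frame X E) (U : E → ℝ) {lam c S C : ℝ} (hlam : 0 < lam) (hc : 0 < c)
    (hS : 0 < S) (hC : 0 ≤ C) (P : E) (x : X) (t : ℝ)
    (hfit : CylFit U (32 * lam) (F.pt lam x t) S P)
    (hp : ‖w8p F lam c P‖ ≤ C) (hq : |w8q F lam c P| ≤ C)
    (hsmall : Real.sqrt lam * (1 + C) ≤ 1 / 3) {h : X} {l : ℝ} (hl : |l| ≤ S / 2)
    (hh : ‖h - l • w8p F lam c P‖ ≤ S / 2) :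
    |w8v F U lam c (x + h) (t + l) - w8v F U lam c x t - ⟪w8p F lam c P, h⟫
      - w8q F lam c P * l| ≤ 32 / c * S := by
  have h1 := hfit.2 _ (w8_inCyl F hlam hc hS hC P hp hq hsmall hl hh)
  rw [w8v_increment F U hlam hc, abs_mul, abs_of_pos (mul_pos hc hlam)] at h1
  have h2 : 32 / c * S = (32 * lam * S) / (c * lam) := by field_simp
  rw [h2, le_div_iff₀ (mul_pos hc hlam)]
  linarith

/-- Paper (3.19): bounds for the normalised coefficients. -/
theorem w8_coeff_norm (F : W8Frame X E) {lam c cl cu C₁ : ℝ} (hlam : 0 < lam) (hcl : 0 < cl)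
    (hc : cl ≤ c) (hC₁ : 0 ≤ C₁) {P : E} (hP : P ≠ 0) (hPu : ‖P‖ ≤ cu)
    (hdir : ‖cylN P - F.N‖ ≤ C₁ * Real.sqrt lam) (hnorm : |‖P‖ - c| ≤ C₁ * lam) :
    ‖w8p F lam c P‖ ≤ cu * C₁ / cl ∧ |w8q F lam c P| ≤ (C₁ + cu * (C₁ ^ 2 / 2)) / cl := by
  have hc0 : 0 < c := hcl.trans_le hc
  have hcu : 0 ≤ cu := (norm_nonneg _).trans hPu
  obtain ⟨s, hs0, hs⟩ : ∃ s : ℝ, 0 < s ∧ Real.sqrt lam = s := ⟨_, Real.sqrt_pos.mpr hlam, rfl⟩
  have hs2 : lam = s * s := by rw [← hs]; exact (Real.mul_self_sqrt hlam.le).symm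
  obtain ⟨h1, h2⟩ := cyl_coords hP F.norm_N hdir hnorm
  have h3 : ‖F.π P‖ = ‖P - ⟪P, F.N⟫ • F.N‖ := by
    rw [← F.norm_ι]
    congr 1
    have := F.decomp P
    rw [eq_sub_iff_add_eq]; exact this
  constructor
  · unfold w8p
    rw [norm_smul, norm_inv, Real.norm_eq_abs, hs, abs_of_pos (mul_pos hc0 hs0), h3]
    rw [hs] at h1
    rw [inv_mul_le_iff₀ (mul_pos hc0 hs0)]
    have h4 : ‖P‖ * (C₁ * s) ≤ cu * (C₁ * s) := by gcongr
    have h5 : cu * (C₁ * s) ≤ c * s * (cu * C₁ / cl) := by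
      have : c * s * (cu * C₁ / cl) = (c / cl) * (cu * (C₁ * s)) := by field_simp
      rw [this]
      have h6 : 1 ≤ c / cl := by rw [le_div_iff₀ hcl]; linarith
      have h7 : 0 ≤ cu * (C₁ * s) := by positivity
      nlinarith
    linarith
  · unfold w8q
    have e : (⟪P, F.N⟫ / c - 1) / lam = (⟪P, F.N⟫ - c) / (c * lam) := by field_simp
    rw [e, abs_div, abs_of_pos (mul_pos hc0 hlam), div_le_iff₀ (mul_pos hc0 hlam)]
    rw [hs] at h2
    have h4 : ‖P‖ * ((C₁ * s) ^ 2 / 2) ≤ cu * ((C₁ * s) ^ 2 / 2) := by gcongr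
    have h5 : C₁ * lam + cu * ((C₁ * s) ^ 2 / 2) = (C₁ + cu * (C₁ ^ 2 / 2)) * lam := by
      rw [hs2]; ring
    have h6 : (C₁ + cu * (C₁ ^ 2 / 2)) * lam ≤ (C₁ + cu * (C₁ ^ 2 / 2)) / cl * (c * lam) := by
      have : (C₁ + cu * (C₁ ^ 2 / 2)) / cl * (c * lam)
          = (c / cl) * ((C₁ + cu * (C₁ ^ 2 / 2)) * lam) := by field_simp
      rw [this]
      have h6 : 1 ≤ c / cl := by rw [le_div_iff₀ hcl]; linarith
      have h7 : 0 ≤ (C₁ + cu * (C₁ ^ 2 / 2)) * lam := by positivity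
      nlinarith
    linarith

/-- **Leaf B.** -/
theorem w8_exists_normfit (cl cu : ℝ) (hcl : 0 < cl) (K : ℝ) (j : ℤ) :
    ∃ C M lam0 : ℝ, 0 ≤ C ∧ 0 < lam0 ∧ ∀ (F : W8Frame X E) (U : E → ℝ) (lam : ℝ) (P0 : E),
      0 < lam → lam ≤ lam0 → W8Good cl cu U lam M → W8BFit cl cu U (32 * lam) 0 1 P0 →
      F.N = cylN P0 → ∀ (x : X) (t : ℝ), ‖x‖ ≤ K → |t| ≤ K →
      ∃ (p : X) (q : ℝ), ‖p‖ ≤ C ∧ |q| ≤ C ∧ ∀ (h : X) (l : ℝ), |l| ≤ (2 : ℝ) ^ j / 2 →
        ‖h - l • p‖ ≤ (2 : ℝ) ^ j / 2 →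
        |w8v F U lam ‖P0‖ (x + h) (t + l) - w8v F U lam ‖P0‖ x t - ⟪p, h⟫ - q * l|
          ≤ 32 / cl * (2 : ℝ) ^ j := by
  obtain ⟨C₁, M₁, hC₁, H⟩ := w8_coeff (E := E) cl cu hcl K j
  set C : ℝ := |cu| * C₁ / cl + (C₁ + |cu| * (C₁ ^ 2 / 2)) / cl with hCdef
  have hC : 0 ≤ C := by positivity
  have hS : (0 : ℝ) < (2 : ℝ) ^ j := by positivity
  refine ⟨C, max M₁ (max (2 * K) ((2 : ℝ) ^ j)), min (1 / 64) (1 / (3 * (1 + C)) ^ 2), hC,
    by positivity, ?_⟩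
  intro F U lam P0 hlam hlam0 hgood hP0 hN x t hx ht
  have hlam64 : lam ≤ 1 / 64 := hlam0.trans (min_le_left _ _)
  have hlamC : lam ≤ (1 / (3 * (1 + C))) ^ 2 := by
    refine (hlam0.trans (min_le_right _ _)).trans (le_of_eq ?_)
    rw [div_pow, one_pow]
  have hsmall : Real.sqrt lam * (1 + C) ≤ 1 / 3 := by
    have h1 : Real.sqrt lam ≤ 1 / (3 * (1 + C)) :=
      Real.sqrt_le_iff.mpr ⟨by positivity, hlamC⟩
    calc Real.sqrt lam * (1 + C) ≤ 1 / (3 * (1 + C)) * (1 + C) := by gcongr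
      _ = 1 / 3 := by field_simp
  have hsq1 : Real.sqrt lam ≤ 1 := Real.sqrt_le_one.mpr (by linarith) |>.trans le_rfl
  have hK : 0 ≤ K := (norm_nonneg _).trans hx
  obtain ⟨hcl0, hcu0, hfit0⟩ := hP0
  have hcupos : 0 ≤ cu := (norm_nonneg _).trans hcu0
  have hZ : ‖F.pt lam x t‖ ≤ max M₁ (max (2 * K) ((2 : ℝ) ^ j)) := by
    refine (F.norm_pt_le x t).trans ?_
    have : Real.sqrt lam * ‖x‖ ≤ 1 * K := by
      apply mul_le_mul hsq1 hx (norm_nonneg _) (by norm_num)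
    refine le_trans ?_ (le_trans (le_max_left (2 * K) ((2 : ℝ) ^ j)) (le_max_right _ _))
    linarith
  obtain ⟨P, hP⟩ := hgood (F.pt lam x t) ((2 : ℝ) ^ j) hZ hS
    (le_trans (le_max_right (2 * K) ((2 : ℝ) ^ j)) (le_max_right _ _))
  have hP' : W8BFit cl cu U (32 * lam) (Real.sqrt lam • F.ι x + t • cylN P0) ((2 : ℝ) ^ j) P := by
    rw [← hN]; exact hP
  obtain ⟨hd, hn⟩ := H U lam P0 hlam (by linarith) (hgood.mono (le_max_left _ _))
    ⟨hcl0, hcu0, hfit0⟩ (F.ι x) t (by rw [F.norm_ι]; exact hx) ht P hP'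
  rw [← hN] at hd
  obtain ⟨hb1, hb2⟩ := w8_coeff_norm F hlam hcl hcl0 hC₁ hP.2.2.1 hP.2.1 hd hn
  have habs : |cu| = cu := abs_of_nonneg hcupos
  have hp : ‖w8p F lam ‖P0‖ P‖ ≤ C := by
    refine hb1.trans ?_
    rw [hCdef, habs]
    have : 0 ≤ (C₁ + cu * (C₁ ^ 2 / 2)) / cl := by positivity
    linarith
  have hq : |w8q F lam ‖P0‖ P| ≤ C := by
    refine hb2.trans ?_
    rw [hCdef, habs]
    have : 0 ≤ cu * C₁ / cl := by positivity
    linarith
  have hc0 : 0 < ‖P0‖ := hcl.trans_le hcl0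
  refine ⟨w8p F lam ‖P0‖ P, w8q F lam ‖P0‖ P, hp, hq, fun h l hl hh => ?_⟩
  refine (w8_normfit F U hlam hc0 hS hC P x t hP.2.2 hp hq hsmall hl hh).trans ?_
  gcongr

end Claimed.Agent.R330
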