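/-
Row 330 (S0589), package W8: assembly of paper Prop. 3.6 (the anisotropic limit at bad scales).
Owner: helper28.
-/
import Claimed.Agent.R330.W8NormFit
import Claimed.Agent.R330.W8CompactB
import Claimed.Agent.R330.W8FrameEx
import Claimed.Agent.R330.W8NonAffine
import Claimed.Agent.R330.JetTAniso
import Claimed.Agent.R330.JetTStab

set_option autoImplicit false

namespace Claimed.Agent.R330

open scoped RealInnerProductSpace Topology
open Filter

variable {X E : Type*} [NormedAddCommGroup X] [InnerProductSpace ℝ X]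
  [NormedAddCommGroup E] [InnerProductSpace ℝ E]

/-! ### Elementary facts -/

theorem w8m_continuous_pt (F : W8Frame X E) (lam : ℝ) :
    Continuous (fun z : X × ℝ => F.pt lam z.1 z.2) := by
  unfold W8Frame.pt
  have h1 : Continuous (fun z : X × ℝ => F.ι z.1) := F.ι.continuous.comp continuous_fst
  fun_prop

theorem w8m_continuousOn (F : W8Frame X E) {U : E → ℝ} {Ω : Set E} (lam c : ℝ)
    (h : ContinuousOn U Ω) :
    ContinuousOn (fun z : X × ℝ => w8v F U lam c z.1 z.2) {w | F.pt lam w.1 w.2 ∈ Ω} := by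
  unfold w8v
  have h1 : ContinuousOn (fun z : X × ℝ => U (F.pt lam z.1 z.2)) {w | F.pt lam w.1 w.2 ∈ Ω} :=
    h.comp (w8m_continuous_pt F lam).continuousOn (fun z hz => hz)
  have h2 : ContinuousOn (fun z : X × ℝ => c * z.2) {w | F.pt lam w.1 w.2 ∈ Ω} := by fun_prop
  exact ((h1.sub continuousOn_const).sub h2).div_const _

/-- the box is mapped into the ball -/
theorem w8m_box_subset (F : W8Frame X E) {lam K M : ℝ} (hlam1 : lam ≤ 1) (hM : 2 * K < M) :
    {z : X × ℝ | ‖z.1‖ ≤ K ∧ |z.2| ≤ K} ⊆ {w | F.pt lam w.1 w.2 ∈ Metric.ball (0 : E) M} := by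
  rintro ⟨x, t⟩ ⟨hx, ht⟩
  simp only [Set.mem_ofPred_eq, Metric.mem_ball, dist_zero_right] at hx ht ⊢
  have hs : Real.sqrt lam ≤ 1 := Real.sqrt_le_one.mpr hlam1 |>.trans le_rfl
  have h1 : Real.sqrt lam * ‖x‖ ≤ 1 * K := mul_le_mul hs hx (norm_nonneg _) (by norm_num)
  have := F.norm_pt_le (lam := lam) x t
  linarith

/-- The base fit is the zero fit of radius one of the normalised function. -/
theorem w8m_base_fit (F : W8Frame X E) {U : E → ℝ} {lam : ℝ} {P0 : E} (hlam : 0 < lam)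
    (hfit : CylFit U (32 * lam) 0 1 P0) (hN : F.N = cylN P0) {h : X} {l : ℝ} (hl : |l| ≤ 1)
    (hh : ‖h‖ ≤ 1) : |w8v F U lam ‖P0‖ h l| ≤ 32 / ‖P0‖ := by
  have hc : 0 < ‖P0‖ := norm_pos_iff.mpr hfit.1
  have hin : InCyl (32 * lam) 1 P0 (F.pt lam h l) := by
    rw [InCyl, ← hN, F.inner_pt_N]
    refine ⟨hl, ?_⟩
    have e : F.pt lam h l - l • F.N = Real.sqrt lam • F.ι h := by
      unfold W8Frame.pt; abel
    rw [e, norm_smul, F.norm_ι, Real.norm_eq_abs, abs_of_nonneg (Real.sqrt_nonneg _), mul_one]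
    calc Real.sqrt lam * ‖h‖ ≤ Real.sqrt lam * 1 := by gcongr
      _ = Real.sqrt lam := mul_one _
      _ ≤ Real.sqrt (32 * lam) := Real.sqrt_le_sqrt (by linarith)
  have h1 := hfit.2 _ hin
  have h2 : ⟪P0, F.pt lam h l⟫ = ‖P0‖ * l := by
    conv_lhs => rw [← cyl_smul_cylN P0, ← hN]
    rw [real_inner_smul_left, real_inner_comm, F.inner_pt_N]
  rw [zero_add, h2, w8v_spec F U hlam hc] at h1
  have h3 : U 0 + ‖P0‖ * (l + lam * w8v F U lam ‖P0‖ h l) - U 0 - ‖P0‖ * l
      = ‖P0‖ * lam * w8v F U lam ‖P0‖ h l := by ring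
  rw [h3, abs_mul, abs_of_pos (mul_pos hc hlam)] at h1
  have h4 : 32 / ‖P0‖ = (32 * lam * 1) / (‖P0‖ * lam) := by field_simp
  rw [h4, le_div_iff₀ (mul_pos hc hlam)]
  linarith

/-- **Paper Prop. 3.6**, normalised at centre `0` and radius `1`. -/
theorem w8_limit [FiniteDimensional ℝ X] [FiniteDimensional ℝ E]
    (hdim : Module.finrank ℝ E = Module.finrank ℝ X + 1) {cl cu : ℝ} (hcl : 0 < cl)
    (U : ℕ → E → ℝ) (lam M : ℕ → ℝ) (hlam : ∀ i, 0 < lam i) (hlam0 : Tendsto lam atTop (𝓝 0))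
    (hM1 : ∀ i, 1 ≤ M i) (hM : Tendsto M atTop atTop)
    (hharm : ∀ i, JetHarm (U i) (Metric.ball 0 (M i)))
    (hgood : ∀ i, W8Good cl cu (U i) (lam i) (M i))
    (hbad : ∀ i P, ¬ CylFit (U i) (lam i) 0 1 P) :
    ∃ v : X → ℝ → ℝ, Continuous (fun z : X × ℝ => v z.1 z.2) ∧ HasFits (256 / cl) v ∧
      CenteredAt (256 / cl) v 0 0 ∧
      STSub 0 v Set.univ ∧ STSuper 0 v Set.univ ∧ ¬ IsAffineST v := by
  classical
  -- base fits and frames
  have hP0 : ∀ i, ∃ P, W8BFit cl cu (U i) (32 * lam i) 0 1 P := fun i =>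
    hgood i 0 1 (by rw [norm_zero]; linarith [hM1 i]) one_pos (hM1 i)
  choose P0 hP0 using hP0
  have hP0ne : ∀ i, P0 i ≠ 0 := fun i => (hP0 i).2.2.1
  have hc : ∀ i, 0 < ‖P0 i‖ := fun i => norm_pos_iff.mpr (hP0ne i)
  have hcu : 0 < cu := hcl.trans_le ((hP0 0).1.trans (hP0 0).2.1)
  have hF : ∀ i, ∃ F : W8Frame X E, F.N = cylN (P0 i) := fun i =>
    w8_exists_frame hdim _ (cyl_norm_cylN (hP0ne i))
  choose F hF using hF
  set v : ℕ → X → ℝ → ℝ := fun i => w8v (F i) (U i) (lam i) ‖P0 i‖ with hv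
  let l : Ultrafilter ℕ := Filter.hyperfilter ℕ
  have hl : (l : Filter ℕ) ≤ atTop := by
    rw [← Nat.cofinite_eq_atTop]; exact Filter.hyperfilter_le_cofinite
  have hlam0' : Tendsto lam (l : Filter ℕ) (𝓝 0) := hlam0.mono_left hl
  have hlam1 : ∀ᶠ i in (l : Filter ℕ), lam i ≤ 1 :=
    hlam0'.eventually (Iic_mem_nhds (by norm_num : (0 : ℝ) < 1))
  -- compactness
  obtain ⟨w, hwc, hw0, hconv, hfits⟩ := w8cb_compactness l v (32 / cl) (by positivity)
    (fun i => w8v_zero _ _ _ _) (by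
      intro K j
      obtain ⟨C, M0, lam0, hC, hlam0pos, H⟩ := w8_exists_normfit (X := X) (E := E) cl cu hcl K j
      refine ⟨C, ?_⟩
      have h1 : ∀ᶠ i in (l : Filter ℕ), lam i ≤ lam0 := hlam0'.eventually (Iic_mem_nhds hlam0pos)
      have h2 : ∀ᶠ i in (l : Filter ℕ), M0 ≤ M i := hl (hM.eventually_ge_atTop M0)
      filter_upwards [h1, h2] with i h1 h2 x t hx ht
      exact H (F i) (U i) (lam i) (P0 i) (hlam i) h1 ((hgood i).mono h2) (hP0 i) (hF i) x t hx ht)
  have h256 : 8 * (32 / cl) = 256 / cl := by ring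
  rw [h256] at hfits
  -- the regions
  have hreg : ∀ K : ℝ, ∀ᶠ i in (l : Filter ℕ), {z : X × ℝ | ‖z.1‖ ≤ K ∧ |z.2| ≤ K} ⊆
      {w | (F i).pt (lam i) w.1 w.2 ∈ Metric.ball (0 : E) (M i)} := by
    intro K
    have h2 : ∀ᶠ i in (l : Filter ℕ), 2 * K + 1 ≤ M i := hl (hM.eventually_ge_atTop _)
    filter_upwards [hlam1, h2] with i h1 h2
    exact w8m_box_subset (F i) h1 (by linarith)
  refine ⟨w, hwc, hfits, ⟨hw0, ?_⟩, ?_, ?_, ?_⟩
  · -- the centred fit
    intro h s hs hh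
    rw [smul_zero, sub_zero] at hh
    rw [zero_add, zero_add, hw0, inner_zero_left]
    have hgoal : |w h s| ≤ 32 / cl := by
      refine le_of_forall_pos_le_add fun ε hε => ?_
      obtain ⟨i, hi⟩ := (hconv 1 ε hε).exists
      have h1 := hi h s hh hs
      have h2 : |v i h s| ≤ 32 / ‖P0 i‖ := w8m_base_fit (F i) (hlam i) (hP0 i).2.2 (hF i) hs hh
      have h3 : 32 / ‖P0 i‖ ≤ 32 / cl := by
        have := (hP0 i).1
        gcongr
      have h4 : |w h s| ≤ |v i h s| + |v i h s - w h s| := by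
        have : w h s = v i h s - (v i h s - w h s) := by ring
        calc |w h s| = |v i h s - (v i h s - w h s)| := by rw [← this]
          _ ≤ |v i h s| + |v i h s - w h s| := abs_sub _ _
      linarith
    have e : w h s - 0 - 0 - (0 - ‖(0 : X)‖ ^ 2 / 2) * s = w h s := by simp
    rw [e, mul_one]
    refine hgoal.trans ?_
    gcongr
    norm_num
  · refine jetts_sub (l := (l : Filter ℕ)) (v := v) (lam := lam) hlam0' ?_ hconv
    intro K
    filter_upwards [hreg K] with i hi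
    exact ⟨(jett_aniso_sub (F i) (hlam i) (hc i) (hharm i).2.1).mono hi,
      (w8m_continuousOn (F i) _ _ (hharm i).1).mono hi⟩
  · refine jetts_super (l := (l : Filter ℕ)) (v := v) (lam := lam) hlam0' ?_ hconv
    intro K
    filter_upwards [hreg K] with i hi
    exact ⟨(jett_aniso_super (F i) (hlam i) (hc i) (hharm i).2.2).mono hi,
      (w8m_continuousOn (F i) _ _ (hharm i).1).mono hi⟩
  · rintro ⟨p, q, c0, haff⟩
    have hc0 : c0 = 0 := by
      have := haff 0 0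
      rw [hw0] at this
      simpa using this.symm
    have h3 := hconv (max (2 * ‖p‖ + 1) 2) (1 / cu) (by positivity)
    have h4 : ∀ᶠ i in (l : Filter ℕ), lam i * |q| ≤ 1 / 2 := by
      have : Tendsto (fun i => lam i * |q|) (l : Filter ℕ) (𝓝 (0 * |q|)) :=
        hlam0'.mul_const _
      rw [zero_mul] at this
      exact this.eventually (Iic_mem_nhds (by norm_num : (0 : ℝ) < 1 / 2))
    obtain ⟨i, hi3, hi1, hi4⟩ := (h3.and (hlam1.and h4)).exists
    refine hbad i _ (w8_fit_of_close (F i) (U i) (hlam i) hi1 (hc i) p q hi4 fun x t hx ht => ?_)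
    have h5 := hi3 x t (hx.trans (le_max_left _ _)) (ht.trans (le_max_right _ _))
    rw [haff x t, hc0] at h5
    have h6 : 1 / cu ≤ 1 / ‖P0 i‖ := by
      have := (hP0 i).2.1
      have := hc i
      gcongr
    have e : w8v (F i) (U i) (lam i) ‖P0 i‖ x t - ⟪p, x⟫ - q * t
        = v i x t - (⟪p, x⟫ + q * t + 0) := by simp only [hv]; ring
    rw [e]
    exact h5.trans h6

end Claimed.Agent.R330
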