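/-
Row 330 (S0589), package W8: final bridge.  No bad sequence exists (the target of `DecayCore`),
from paper Prop. 3.6 (`w8_limit`), the Part A / Part B interface (viscosity solution with fits is
in `ClassA`) and the Liouville theorem.  Owner: helper78.
-/
import Claimed.Agent.R330.W8Main
import Claimed.Agent.R330.DecayCore
import Claimed.Agent.R330.PartB

set_option autoImplicit false

namespace Claimed.Agent.R330

open scoped RealInnerProductSpace Topology
open Filter

/-- The Part A / Part B interface: a continuous space-time jet solution of the limit equation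
with fits belongs to the class `ClassA`. -/
def W8ViscIface (X : Type*) [NormedAddCommGroup X] [InnerProductSpace ℝ X] : Prop :=
  ∀ (C₀ : ℝ) (v : X → ℝ → ℝ), Continuous (fun z : X × ℝ => v z.1 z.2) → HasFits C₀ v →
    CenteredAt C₀ v 0 0 → STSub 0 v Set.univ → STSuper 0 v Set.univ → ClassA C₀ v

variable {X E : Type*} [NormedAddCommGroup X] [InnerProductSpace ℝ X]
  [NormedAddCommGroup E] [InnerProductSpace ℝ E]

theorem w8b_tendsto_lam {lam : ℕ → ℝ} (h0 : ∀ i, 0 < lam i)
    (h1 : ∀ i : ℕ, lam i < 1 / ((i : ℝ) + 1)) : Tendsto lam atTop (𝓝 0) :=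
  squeeze_zero (fun i => (h0 i).le) (fun i => (h1 i).le) tendsto_one_div_add_atTop_nhds_zero_nat

theorem w8b_tendsto_M : Tendsto (fun i : ℕ => (i : ℝ) + 2) atTop atTop :=
  tendsto_atTop_add_const_right _ _ tendsto_natCast_atTop_atTop

/-- **No bad sequence** (paper Prop. 3.6 + Theorem 3.1). -/
theorem w8_no_badSeq [FiniteDimensional ℝ X] [FiniteDimensional ℝ E]
    (hdim : Module.finrank ℝ E = Module.finrank ℝ X + 1) (hvisc : W8ViscIface X)
    (L : ℝ) (U : ℕ → E → ℝ) (lam : ℕ → ℝ) : ¬ BadSeq E L U lam := by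
  rintro ⟨h0, h1, hharm, hfit, hbad⟩
  obtain ⟨v, hc, hfits, hcen, hsub, hsup, hna⟩ :=
    w8_limit (X := X) hdim (cl := 1 / 2) (cu := L) (by norm_num) U lam (fun i : ℕ => (i : ℝ) + 2)
      h0 (w8b_tendsto_lam h0 h1)
      (fun i => by
        have : (0 : ℝ) ≤ i := Nat.cast_nonneg i
        linarith)
      w8b_tendsto_M hharm
      (fun i z r hz hr hrM => hfit i z r hz hr hrM)
      (fun i P hP => hbad i ⟨P, hP⟩)
  exact hna (liouville (hvisc _ v hc hfits hcen hsub hsup))

/-- The dimension count for the lifted space. -/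
theorem w8b_finrank_lift [FiniteDimensional ℝ X] :
    Module.finrank ℝ (WithLp 2 (X × ℝ)) = Module.finrank ℝ X + 1 := by
  rw [LinearEquiv.finrank_eq (WithLp.linearEquiv 2 ℝ (X × ℝ)), Module.finrank_prod,
    Module.finrank_self]

/-- The instance used by `decay_main`. -/
theorem w8_no_badSeq_lift [FiniteDimensional ℝ X] (hvisc : W8ViscIface X)
    (L : ℝ) (U : ℕ → WithLp 2 (X × ℝ) → ℝ) (lam : ℕ → ℝ) :
    ¬ BadSeq (WithLp 2 (X × ℝ)) L U lam :=
  w8_no_badSeq (X := X) w8b_finrank_lift hvisc L U lam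

end Claimed.Agent.R330
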