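/-
Row 330 (S0589): top-level assembly.  Owner: helper85 (captain).
The frozen conclusion from the final theorems of the packages.  While a package is unfinished its
final theorem is represented here by a copy with `sorry`; each copy is replaced by a reference to
the real theorem as soon as that is available.
-/
import Claimed.Agent.R330.DecayMain
import Claimed.Agent.R330.UFDecay
import Claimed.Agent.R330.TPMain
import Claimed.Agent.R330.DSRHom
import Claimed.Agent.R330.W8Bad
import Claimed.Agent.R330.EnvPathST
import Claimed.Agent.R330.TPFinal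
import Claimed.Agent.R330.JetTLift
import Claimed.Agent.R330.FitFree

set_option autoImplicit false

namespace Claimed.Agent.R330

open Metric Set Filter Topology
open scoped RealInnerProductSpace
open Claims.C0517

/-- (A1a) quadratic majorant of the barrier of Prop. 2.5.  Owner: helper126 (TPMaj). -/
theorem top_tpMajorant (E : Type*) [NormedAddCommGroup E] [InnerProductSpace ℝ E]
    [FiniteDimensional ℝ E] : TPMajorantStmt E :=
  tp_majorant_of_leaves tp_maj1 tp_maj2

/-- (A1b) negativity of the quadratic form along `σ`.  Owner: helper105 (TPNeg). -/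
theorem top_tpNeg (E : Type*) [NormedAddCommGroup E] [InnerProductSpace ℝ E]
    [FiniteDimensional ℝ E] : TPNegStmt E :=
  tpn_neg E

/-- (A3) the lift lemma, paper Lemma 2.1.  Owner: helper209 (`jett_hlift`). -/
theorem top_lift (d : ℕ) (u : EuclideanSpace ℝ (Fin d) → ℝ) (h : JetHarm u (ball 0 1)) :
    JetHarm (decayLift u) (ball 0 1) :=
  jett_hlift d u h

/-- (A4) growth from fits.  Owner: helper225 (L2a). -/
theorem top_subQuadLoc {X : Type*} [NormedAddCommGroup X] [InnerProductSpace ℝ X]
    [FiniteDimensional ℝ X] {C₀ : ℝ} {v : X → ℝ → ℝ} (hf : HasFits C₀ v)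
    (_hc : CenteredAt C₀ v 0 0) : SubQuadLoc v :=
  fitfree_subQuadLoc hf

/-- three-point estimate, paper Prop. 2.5. -/
theorem top_threePoint (E : Type*) [NormedAddCommGroup E] [InnerProductSpace ℝ E]
    [FiniteDimensional ℝ E] : ThreePointStmt E :=
  tp_threePoint_of_leaves (top_tpMajorant E) (top_tpNeg E) dsr_tpRule

/-- viscosity form => metric class. -/
theorem top_viscIface (X : Type*) [NormedAddCommGroup X] [InnerProductSpace ℝ X]
    [FiniteDimensional ℝ X] : W8ViscIface X :=
  fun _ _ hc hf hcen hsub hsup => envpath_classA hc hf (top_subQuadLoc hf hcen) hsub hsup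

/-- **The conclusion of the frozen statement S0589** (for every `d`). -/
theorem top_result (d : ℕ) :
    ∃ α : ℝ, 0 < α ∧ α ≤ 1 / 3 ∧ ∃ C : ℝ, ∀ u : EuclideanSpace ℝ (Fin d) → ℝ,
      BddAbove (u '' Metric.ball 0 1) → BddBelow (u '' Metric.ball 0 1) →
      IsInfinityHarmonicOn u (Metric.ball 0 1) →
      DifferentiableOn ℝ u (Metric.ball 0 (1 / 2)) ∧
      ∀ x ∈ Metric.ball (0 : EuclideanSpace ℝ (Fin d)) (1 / 2),
      ∀ y ∈ Metric.ball (0 : EuclideanSpace ℝ (Fin d)) (1 / 2),
      ∀ z ∈ Metric.ball (0 : EuclideanSpace ℝ (Fin d)) (1 / 2), y ≠ z →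
        ‖gradient u x‖ + ‖gradient u y - gradient u z‖ / ‖y - z‖ ^ α ≤
          C * (sSup (u '' Metric.ball 0 1) - sInf (u '' Metric.ball 0 1)) :=
  decay_result d (w8_no_badSeq_lift (top_viscIface _)) (top_lift d)
    (ufm_decayUniformFlat d (top_threePoint _))

end Claimed.Agent.R330
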