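import Claimed.Agent.R330.UFInv

/-!
Row 330, package UF, part B: comparison with cones.
-/

set_option autoImplicit false

open scoped Topology RealInnerProductSpace
open Metric Filter

namespace Claimed.Agent.R330

variable {E : Type*} [NormedAddCommGroup E] [InnerProductSpace ℝ E]

/-- quadratic upper bound for the norm near a nonzero point. -/
lemma norm_add_le_quad {a h : E} (ha : a ≠ 0) (hh : ‖h‖ ≤ ‖a‖ / 2) :
    ‖a + h‖ ≤ ‖a‖ + ⟪a, h⟫ / ‖a‖ + (‖h‖ ^ 2 - (⟪a, h⟫ / ‖a‖) ^ 2) / ‖a‖ := by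
  have hna : 0 < ‖a‖ := norm_pos_iff.mpr ha
  set q := ⟪a, h⟫ / ‖a‖ with hq
  have hqabs : |q| ≤ ‖h‖ := by
    rw [hq, abs_div, abs_of_pos hna, div_le_iff₀ hna]
    calc |⟪a, h⟫| ≤ ‖a‖ * ‖h‖ := abs_real_inner_le_norm a h
      _ = ‖h‖ * ‖a‖ := mul_comm _ _
  have hq1 : -‖h‖ ≤ q := (abs_le.mp hqabs).1
  have hq2 : q ≤ ‖h‖ := (abs_le.mp hqabs).2
  have ht : 0 ≤ ‖h‖ ^ 2 - q ^ 2 := by
    have : q ^ 2 ≤ ‖h‖ ^ 2 := sq_le_sq' hq1 hq2
    linarith
  have hs : ‖a‖ / 2 ≤ ‖a‖ + q := by linarith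
  have hinner : ⟪a, h⟫ = q * ‖a‖ := by rw [hq]; field_simp
  have hsq : ‖a + h‖ ^ 2 = (‖a‖ + q) ^ 2 + (‖h‖ ^ 2 - q ^ 2) := by
    rw [norm_add_sq_real, hinner]; ring
  set t := ‖h‖ ^ 2 - q ^ 2 with htdef
  have hR : 0 ≤ ‖a‖ + q + t / ‖a‖ := by
    have : 0 ≤ t / ‖a‖ := div_nonneg ht hna.le
    linarith
  have hkey : ‖a + h‖ ^ 2 ≤ (‖a‖ + q + t / ‖a‖) ^ 2 := by
    rw [hsq]
    have h1 : t ≤ 2 * (‖a‖ + q) * (t / ‖a‖) := by
      have : t = ‖a‖ * (t / ‖a‖) := by field_simp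
      have h2 : 0 ≤ t / ‖a‖ := by positivity
      nlinarith
    nlinarith [sq_nonneg (t / ‖a‖)]
  exact (pow_le_pow_iff_left₀ (norm_nonneg _) hR (by norm_num)).mp hkey

/-- the inner product as a continuous bilinear form. -/
noncomputable def innerBL : E →L[ℝ] E →L[ℝ] ℝ :=
  (isBoundedBilinearMap_inner (𝕜 := ℝ) (E := E)).toContinuousLinearMap

@[simp] lemma innerBL_apply (h k : E) : innerBL h k = ⟪h, k⟫ := rfl

/-- the Hessian form of the cone test. -/
noncomputable def coneHess (a : E) (L γ : ℝ) : E →L[ℝ] E →L[ℝ] ℝ :=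
  (2 * (L / ‖a‖ - γ)) • innerBL -
    (2 * (L / ‖a‖) / ‖a‖ ^ 2) • ((innerSL ℝ a).smulRight (innerSL ℝ a))

lemma coneHess_apply (a : E) (L γ : ℝ) (h k : E) :
    coneHess a L γ h k = 2 * (L / ‖a‖ - γ) * ⟪h, k⟫ -
      2 * (L / ‖a‖) / ‖a‖ ^ 2 * (⟪a, h⟫ * ⟪a, k⟫) := by
  simp [coneHess]

/-- Comparison with cones from above. -/
theorem JetSub.cone [FiniteDimensional ℝ E] {u : E → ℝ} {Ω : Set E} {z : E} {r L : ℝ}
    (h : JetSub u Ω) (hc : ContinuousOn u Ω) (hr : 0 < r) (hball : closedBall z r ⊆ Ω)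
    (hL : ∀ Z ∈ closedBall z r, u Z - u z ≤ L * r) :
    ∀ Z ∈ closedBall z r, u Z - u z ≤ L * ‖Z - z‖ := by
  have hL0 : 0 ≤ L := by
    have := hL z (mem_closedBall_self hr.le)
    simp only [sub_self] at this
    exact nonneg_of_mul_nonneg_left this hr
  -- core claim
  have core : ∀ L' : ℝ, L < L' → ∀ Z ∈ closedBall z r, u Z - u z ≤ L' * ‖Z - z‖ := by
    intro L' hL'
    have hL'0 : 0 < L' := lt_of_le_of_lt hL0 hL'
    obtain ⟨γ, hγ0, hγ1, hγ2⟩ : ∃ γ : ℝ, 0 < γ ∧ γ * r < L' - L ∧ 2 * γ * r < L' := by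
      refine ⟨min ((L' - L) / (2 * r)) (L' / (4 * r)), ?_, ?_, ?_⟩
      · exact lt_min (by have : 0 < L' - L := by linarith
                         positivity) (by positivity)
      · calc min ((L' - L) / (2 * r)) (L' / (4 * r)) * r ≤ (L' - L) / (2 * r) * r :=
              mul_le_mul_of_nonneg_right (min_le_left _ _) hr.le
          _ = (L' - L) / 2 := by field_simp
          _ < L' - L := by linarith
      · calc 2 * min ((L' - L) / (2 * r)) (L' / (4 * r)) * r ≤ 2 * (L' / (4 * r)) * r := by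
              have := min_le_right ((L' - L) / (2 * r)) (L' / (4 * r))
              have h2 : 2 * min ((L' - L) / (2 * r)) (L' / (4 * r)) ≤ 2 * (L' / (4 * r)) := by
                linarith
              exact mul_le_mul_of_nonneg_right h2 hr.le
          _ = L' / 2 := by field_simp; ring
          _ < L' := by linarith
    set g : E → ℝ := fun Z => u Z - u z - L' * ‖Z - z‖ + γ * ‖Z - z‖ ^ 2 with hg
    have hgc : ContinuousOn g (closedBall z r) := by
      have h1 : ContinuousOn u (closedBall z r) := hc.mono hball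
      have h2 : Continuous fun Z : E => ‖Z - z‖ := by fun_prop
      exact ((h1.sub continuousOn_const).sub (continuousOn_const.mul h2.continuousOn)).add
        (continuousOn_const.mul (h2.continuousOn.pow 2))
    obtain ⟨Z0, hZ0, hmax⟩ := (isCompact_closedBall z r).exists_isMaxOn
      ⟨z, mem_closedBall_self hr.le⟩ hgc
    have hg0 : g Z0 ≤ 0 := by
      by_contra hpos
      push Not at hpos
      have hne : Z0 - z ≠ 0 := by
        intro h0
        have : Z0 = z := sub_eq_zero.mp h0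
        rw [this] at hpos
        simp [hg] at hpos
      have hlt : ‖Z0 - z‖ < r := by
        have hle : ‖Z0 - z‖ ≤ r := by simpa [dist_eq_norm] using hZ0
        rcases lt_or_eq_of_le hle with h1 | h1
        · exact h1
        · exfalso
          have h2 := hL Z0 hZ0
          have : g Z0 ≤ r * (L - L' + γ * r) := by
            simp only [hg, h1]
            nlinarith
          have h3 : r * (L - L' + γ * r) < 0 := mul_neg_of_pos_of_neg hr (by linarith)
          linarith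
      set a := Z0 - z with ha
      have hna : 0 < ‖a‖ := norm_pos_iff.mpr hne
      set μ := L' / ‖a‖ - 2 * γ with hμ
      have hμpos : 0 < μ := by
        have : 2 * γ * ‖a‖ < L' := by nlinarith
        rw [hμ, sub_pos, lt_div_iff₀ hna]
        exact this
      have hjet := h Z0 (hball hZ0) (μ • a) (coneHess a L' γ) (by
        have hnear : ∀ᶠ Z in 𝓝 Z0, Z ∈ ball z r ∧ ‖Z - Z0‖ ≤ ‖a‖ / 2 := by
          have h1 : ∀ᶠ Z in 𝓝 Z0, Z ∈ ball z r :=
            isOpen_ball.mem_nhds (by simpa [dist_eq_norm] using hlt)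
          have h2 : ∀ᶠ Z in 𝓝 Z0, Z ∈ closedBall Z0 (‖a‖ / 2) :=
            closedBall_mem_nhds Z0 (by positivity)
          filter_upwards [h1, h2] with Z hZ1 hZ2
          exact ⟨hZ1, by simpa [dist_eq_norm] using hZ2⟩
        filter_upwards [hnear] with Z hZ
        have hm := hmax (ball_subset_closedBall hZ.1)
        simp only [Set.mem_ofPred_eq, hg] at hm
        set k := Z - Z0 with hk
        have e1 : Z - z = a + k := by rw [ha, hk]; abel
        rw [e1, ← ha] at hm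
        have hq := norm_add_le_quad hne hZ.2
        have hsq : ‖a + k‖ ^ 2 = ‖a‖ ^ 2 + 2 * ⟪a, k⟫ + ‖k‖ ^ 2 := norm_add_sq_real a k
        rw [coneHess_apply, real_inner_smul_left, real_inner_self_eq_norm_sq]
        have hmul := mul_le_mul_of_nonneg_left hq hL'0.le
        have e2 : L' * (‖a‖ + ⟪a, k⟫ / ‖a‖ + (‖k‖ ^ 2 - (⟪a, k⟫ / ‖a‖) ^ 2) / ‖a‖) =
            L' * ‖a‖ + L' / ‖a‖ * ⟪a, k⟫ + (L' / ‖a‖ * ‖k‖ ^ 2 -
              L' / ‖a‖ / ‖a‖ ^ 2 * (⟪a, k⟫ * ⟪a, k⟫)) := by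
          field_simp
        rw [e2] at hmul
        rw [hsq] at hm
        rw [hμ]
        have e4 : (2 * (L' / ‖a‖ - γ) * ‖k‖ ^ 2 -
            2 * (L' / ‖a‖) / ‖a‖ ^ 2 * (⟪a, k⟫ * ⟪a, k⟫)) / 2 =
            L' / ‖a‖ * ‖k‖ ^ 2 - γ * ‖k‖ ^ 2 - L' / ‖a‖ / ‖a‖ ^ 2 * (⟪a, k⟫ * ⟪a, k⟫) := by ring
        rw [e4]
        have e5 : (L' / ‖a‖ - 2 * γ) * ⟪a, k⟫ = L' / ‖a‖ * ⟪a, k⟫ - 2 * (γ * ⟪a, k⟫) := by ring
        rw [e5]
        have e6 : γ * (‖a‖ ^ 2 + 2 * ⟪a, k⟫ + ‖k‖ ^ 2) =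
            γ * ‖a‖ ^ 2 + 2 * (γ * ⟪a, k⟫) + γ * ‖k‖ ^ 2 := by ring
        rw [e6] at hm
        linarith)
      rw [coneHess_apply] at hjet
      have i1 : ⟪μ • a, μ • a⟫ = μ * (μ * ‖a‖ ^ 2) := by
        rw [real_inner_smul_left, real_inner_smul_right, real_inner_self_eq_norm_sq]
      have i2 : ⟪a, μ • a⟫ = μ * ‖a‖ ^ 2 := by
        rw [real_inner_smul_right, real_inner_self_eq_norm_sq]
      rw [i1, i2] at hjet
      have e3 : 2 * (L' / ‖a‖ - γ) * (μ * (μ * ‖a‖ ^ 2)) -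
          2 * (L' / ‖a‖) / ‖a‖ ^ 2 * (μ * ‖a‖ ^ 2 * (μ * ‖a‖ ^ 2)) = - (2 * γ * μ ^ 2 * ‖a‖ ^ 2) := by
        field_simp
        ring
      rw [e3] at hjet
      have : 0 < 2 * γ * μ ^ 2 * ‖a‖ ^ 2 := by positivity
      linarith
    intro Z hZ
    have h1 := hmax hZ
    simp only [Set.mem_ofPred_eq] at h1
    have h2 : g Z ≤ 0 := le_trans h1 hg0
    simp only [hg] at h2
    have h3 : 0 ≤ γ * ‖Z - z‖ ^ 2 := by positivity
    linarith
  intro Z hZ
  apply le_of_forall_pos_le_add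
  intro ε hε
  have h1 := core (L + ε / r) (by have : 0 < ε / r := by positivity
                                  linarith) Z hZ
  have h2 : ‖Z - z‖ ≤ r := by simpa [dist_eq_norm] using hZ
  have h3 : ε / r * ‖Z - z‖ ≤ ε := by
    calc ε / r * ‖Z - z‖ ≤ ε / r * r := mul_le_mul_of_nonneg_left h2 (by positivity)
      _ = ε := by field_simp
  nlinarith

end Claimed.Agent.R330
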