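import Claimed.Prelude.Def_0517

/-!
Row 330 (S0589), package UF, part A: quadratic-polynomial ("jet") form of the viscosity
inequalities for the infinity Laplacian, and the passage from the frozen definition.
-/

set_option autoImplicit false

open scoped Topology RealInnerProductSpace
open Metric Filter

namespace Claimed.Agent.R330

section defs

variable {E : Type*} [NormedAddCommGroup E] [InnerProductSpace ℝ E]

/-- Viscosity subsolution of the infinity Laplace equation, tested with quadratic polynomials. -/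
def JetSub (u : E → ℝ) (Ω : Set E) : Prop :=
  ∀ z ∈ Ω, ∀ (p : E) (X : E →L[ℝ] E →L[ℝ] ℝ),
    (∀ᶠ y in 𝓝 z, u y ≤ u z + ⟪p, y - z⟫ + X (y - z) (y - z) / 2) → 0 ≤ X p p

/-- Infinity harmonic, jet form. -/
def JetHarm (u : E → ℝ) (Ω : Set E) : Prop :=
  ContinuousOn u Ω ∧ JetSub u Ω ∧ JetSub (fun x => - u x) Ω

/-- the quadratic polynomial with value `c`, gradient `p` and Hessian form `X` at `z`. -/
noncomputable def quadTest (z : E) (c : ℝ) (p : E) (X : E →L[ℝ] E →L[ℝ] ℝ) (y : E) : ℝ :=
  c + ⟪p, y - z⟫ + X (y - z) (y - z) / 2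

end defs

section quad

variable {E : Type*} [NormedAddCommGroup E] [InnerProductSpace ℝ E]

lemma quadTest_hasFDerivAt (z : E) (c : ℝ) (p : E) (X : E →L[ℝ] E →L[ℝ] ℝ) (y : E) :
    HasFDerivAt (quadTest z c p X)
      (innerSL ℝ p + (1 / 2 : ℝ) • (X (y - z) + X.flip (y - z))) y := by
  have h1 : HasFDerivAt (fun y : E => y - z) (ContinuousLinearMap.id ℝ E) y :=
    (hasFDerivAt_id y).sub_const z
  have h2 : HasFDerivAt (fun y : E => innerSL ℝ p (y - z)) (innerSL ℝ p) y :=
    (((innerSL ℝ p).hasFDerivAt (x := y - z)).comp y h1).congr_fderiv (by simp)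
  have h3 : HasFDerivAt (fun y : E => X (y - z) (y - z))
      (X (y - z) + X.flip (y - z)) y := by
    have h5 := (X.hasFDerivAt (x := y - z)).comp y h1
    have h6 := HasFDerivAt.clm_apply h5 h1
    refine h6.congr_fderiv ?_
    ext v
    simp
  have h6 := ((hasFDerivAt_const c y).add h2).add (h3.const_mul (1 / 2 : ℝ))
  refine (h6.congr_fderiv ?_).congr_of_eventuallyEq (Eventually.of_forall fun w => ?_)
  · simp
  · simp [quadTest]
    ring

lemma quadTest_fderiv (z : E) (c : ℝ) (p : E) (X : E →L[ℝ] E →L[ℝ] ℝ) :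
    fderiv ℝ (quadTest z c p X) =
      fun y => innerSL ℝ p + (1 / 2 : ℝ) • (X (y - z) + X.flip (y - z)) := by
  funext y
  exact (quadTest_hasFDerivAt z c p X y).fderiv

lemma quadTest_fderiv_hasFDerivAt (z : E) (c : ℝ) (p : E) (X : E →L[ℝ] E →L[ℝ] ℝ) (y : E) :
    HasFDerivAt (fderiv ℝ (quadTest z c p X)) ((1 / 2 : ℝ) • (X + X.flip)) y := by
  rw [quadTest_fderiv]
  have h1 : HasFDerivAt (fun y : E => y - z) (ContinuousLinearMap.id ℝ E) y :=
    (hasFDerivAt_id y).sub_const z
  have h2 : HasFDerivAt (fun y : E => X (y - z)) X y :=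
    ((X.hasFDerivAt (x := y - z)).comp y h1).congr_fderiv (by simp)
  have h3 : HasFDerivAt (fun y : E => X.flip (y - z)) X.flip y :=
    ((X.flip.hasFDerivAt (x := y - z)).comp y h1).congr_fderiv (by simp)
  have h4 := (hasFDerivAt_const (innerSL ℝ p) y).add ((h2.add h3).const_smul (1 / 2 : ℝ))
  exact h4.congr_fderiv (by rw [zero_add])

lemma quadTest_contDiff (z : E) (c : ℝ) (p : E) (X : E →L[ℝ] E →L[ℝ] ℝ) :
    ContDiff ℝ 2 (quadTest z c p X) := by
  unfold quadTest
  have h1 : ContDiff ℝ 2 (fun y : E => y - z) := contDiff_id.sub contDiff_const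
  have h2 : ContDiff ℝ 2 (fun y : E => X (y - z) (y - z)) :=
    X.isBoundedBilinearMap.contDiff.comp (h1.prodMk h1)
  exact (contDiff_const.add (contDiff_const.inner ℝ h1)).add (h2.div_const 2)

lemma quadTest_second [CompleteSpace E] (z : E) (c : ℝ) (p : E) (X : E →L[ℝ] E →L[ℝ] ℝ) :
    iteratedFDeriv ℝ 2 (quadTest z c p X) z
      ![gradient (quadTest z c p X) z, gradient (quadTest z c p X) z] = X p p := by
  have hg : gradient (quadTest z c p X) z = p := by
    apply HasGradientAt.gradient
    rw [hasGradientAt_iff_hasFDerivAt]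
    refine (quadTest_hasFDerivAt z c p X z).congr_fderiv ?_
    ext v
    simp
  rw [hg, iteratedFDeriv_two_apply, (quadTest_fderiv_hasFDerivAt z c p X z).fderiv]
  simp
  ring

end quad

section frozen

open Claims.C0517

variable {d : ℕ}

/-- frozen definition implies the jet form. -/
theorem jetHarm_of_frozen {u : EuclideanSpace ℝ (Fin d) → ℝ} {Ω : Set (EuclideanSpace ℝ (Fin d))}
    (h : IsInfinityHarmonicOn u Ω) : JetHarm u Ω := by
  refine ⟨h.1, ?_, ?_⟩
  · intro z hz p X hX
    have h1 : 0 ≤ iteratedFDeriv ℝ 2 (quadTest z (u z) p X) z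
        ![gradient (quadTest z (u z) p X) z, gradient (quadTest z (u z) p X) z] :=
      (h.2 z hz (quadTest z (u z) p X) (quadTest_contDiff _ _ _ _)
        (by simp [quadTest])).1 hX
    rwa [quadTest_second] at h1
  · intro z hz p X hX
    have h2 : iteratedFDeriv ℝ 2 (quadTest z (u z) (-p) (-X)) z
        ![gradient (quadTest z (u z) (-p) (-X)) z, gradient (quadTest z (u z) (-p) (-X)) z] ≤ 0 :=
      (h.2 z hz (quadTest z (u z) (-p) (-X)) (quadTest_contDiff _ _ _ _)
        (by simp [quadTest])).2 (by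
          filter_upwards [hX] with y hy
          simp only [quadTest, inner_neg_left, neg_apply]
          linarith)
    rw [quadTest_second] at h2
    simp at h2
    exact h2

end frozen

end Claimed.Agent.R330
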