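import Claimed.Agent.R330.UFCones

/-!
Row 330 (S0589), package UF, part C: stability of (continuous) jet subsolutions of the infinity
Laplace equation under locally uniform limits along an arbitrary nontrivial filter.
Continuity of the approximating functions cannot be dropped.   Owner: helper191.
-/

set_option autoImplicit false

open scoped Topology RealInnerProductSpace
open Metric Filter Set

namespace Claimed.Agent.R330

variable {E : Type*} [NormedAddCommGroup E] [InnerProductSpace ℝ E]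

/-- Stability of jet subsolutions under locally uniform limits. -/
theorem ufs_jetSub_of_lim [FiniteDimensional ℝ E] {ι : Type*} (l : Filter ι) [l.NeBot]
    (w : ι → E → ℝ) (g : E → ℝ) (Ω : Set E) (hΩ : IsOpen Ω)
    (hw : ∀ᶠ i in l, ContinuousOn (w i) Ω ∧ JetSub (w i) Ω)
    (hunif : ∀ K ⊆ Ω, IsCompact K → ∀ ε : ℝ, 0 < ε → ∀ᶠ i in l, ∀ x ∈ K, |w i x - g x| ≤ ε) :
    JetSub g Ω := by
  intro z hz p X hX
  -- it suffices to treat the strictified Hessian
  have main : ∀ η : ℝ, 0 < η → 0 ≤ (X + (2 * η) • (innerBL : E →L[ℝ] E →L[ℝ] ℝ)) p p := by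
    intro η hη
    set Y : E →L[ℝ] E →L[ℝ] ℝ := X + (2 * η) • innerBL with hY
    have hYapp : ∀ h : E, Y h h = X h h + 2 * η * ‖h‖ ^ 2 := by
      intro h
      simp [hY]
    by_contra hneg
    rw [not_le] at hneg
    have hcont : Continuous fun q : E => Y q q := by
      have : Continuous fun q : E => (Y q) q := Y.continuous.clm_apply continuous_id
      exact this
    obtain ⟨τ, hτ, hτneg⟩ : ∃ τ : ℝ, 0 < τ ∧ ∀ q : E, ‖q - p‖ < τ → Y q q < 0 := by
      have h1 : ∀ᶠ q in 𝓝 p, Y q q < 0 := hcont.continuousAt.eventually (gt_mem_nhds hneg)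
      obtain ⟨τ, hτ, h2⟩ := Metric.eventually_nhds_iff.1 h1
      exact ⟨τ, hτ, fun q hq => h2 (by rwa [dist_eq_norm])⟩
    obtain ⟨ρ, hρ, hρΩ⟩ : ∃ ρ : ℝ, 0 < ρ ∧ ∀ y ∈ closedBall z ρ, y ∈ Ω ∧
        g y ≤ g z + ⟪p, y - z⟫ + X (y - z) (y - z) / 2 := by
      have h1 : ∀ᶠ y in 𝓝 z, y ∈ Ω ∧ g y ≤ g z + ⟪p, y - z⟫ + X (y - z) (y - z) / 2 :=
        (hΩ.eventually_mem hz).and hX
      obtain ⟨ρ, hρ, h2⟩ := Metric.nhds_basis_closedBall.eventually_iff.1 h1
      exact ⟨ρ, hρ, fun y hy => h2 hy⟩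
    set σ : ℝ := min ρ (τ / (2 * (‖Y‖ + 1))) with hσ
    have hσ0 : 0 < σ := lt_min hρ (by positivity)
    have hσρ : σ ≤ ρ := min_le_left _ _
    have hστ : ‖Y‖ * σ < τ := by
      have h1 : σ ≤ τ / (2 * (‖Y‖ + 1)) := min_le_right _ _
      have h2 : ‖Y‖ * σ ≤ ‖Y‖ * (τ / (2 * (‖Y‖ + 1))) :=
        mul_le_mul_of_nonneg_left h1 (norm_nonneg Y)
      have h3 : ‖Y‖ * (τ / (2 * (‖Y‖ + 1))) < τ := by
        rw [mul_div_assoc', div_lt_iff₀ (by positivity)]
        nlinarith [norm_nonneg Y]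
      linarith
    have hKsub : closedBall z σ ⊆ Ω := fun y hy =>
      (hρΩ y (closedBall_subset_closedBall hσρ hy)).1
    obtain ⟨i, ⟨hic, hiJ⟩, hiu⟩ := (hw.and (hunif (closedBall z σ) hKsub (isCompact_closedBall z σ)
      (η * σ ^ 2 / 4) (by positivity))).exists
    -- maximise
    have hψc : ContinuousOn (fun y => w i y - (⟪p, y - z⟫ + Y (y - z) (y - z) / 2))
        (closedBall z σ) := by
      refine (hic.mono hKsub).sub ?_
      have : Continuous fun y : E => ⟪p, y - z⟫ + Y (y - z) (y - z) / 2 := by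
        have h1 : Continuous fun y : E => y - z := continuous_id.sub continuous_const
        exact (continuous_const.inner h1).add ((hcont.comp h1).div_const 2)
      exact this.continuousOn
    obtain ⟨y₀, hy₀, hmax⟩ := (isCompact_closedBall z σ).exists_isMaxOn
      ⟨z, mem_closedBall_self hσ0.le⟩ hψc
    set k : E := y₀ - z with hk
    have hkσ : ‖k‖ < σ := by
      have h1 : w i z - (⟪p, z - z⟫ + Y (z - z) (z - z) / 2) ≤
          w i y₀ - (⟪p, y₀ - z⟫ + Y (y₀ - z) (y₀ - z) / 2) :=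
        hmax (mem_closedBall_self hσ0.le : z ∈ closedBall z σ)
      simp only [sub_self, inner_zero_right, map_zero, zero_div, add_zero, sub_zero] at h1
      have h2 := (hρΩ y₀ (closedBall_subset_closedBall hσρ hy₀)).2
      have h3 := abs_le.1 (hiu y₀ hy₀)
      have h4 := abs_le.1 (hiu z (mem_closedBall_self hσ0.le))
      rw [← hk] at h1 h2
      rw [hYapp k] at h1
      have h5 : η * ‖k‖ ^ 2 ≤ η * (σ ^ 2 / 2) := by nlinarith [h3.1, h3.2, h4.1, h4.2]
      have h6 : ‖k‖ ^ 2 ≤ σ ^ 2 / 2 := le_of_mul_le_mul_left h5 hη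
      nlinarith [norm_nonneg k]
    set pi : E := p + (1 / 2 : ℝ) • (InnerProductSpace.toDual ℝ E).symm (Y k + Y.flip k) with hpi
    have hpin : ∀ h : E, ⟪pi, h⟫ = ⟪p, h⟫ + (Y k h + Y h k) / 2 := by
      intro h
      rw [hpi, inner_add_left, inner_smul_left, InnerProductSpace.toDual_symm_apply]
      simp
      ring
    have hclose : ‖pi - p‖ < τ := by
      have e1 : pi - p = (1 / 2 : ℝ) • (InnerProductSpace.toDual ℝ E).symm (Y k + Y.flip k) := by
        rw [hpi]; abel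
      rw [e1, norm_smul, LinearIsometryEquiv.norm_map]
      have h1 : ‖Y k + Y.flip k‖ ≤ 2 * (‖Y‖ * ‖k‖) := by
        calc ‖Y k + Y.flip k‖ ≤ ‖Y k‖ + ‖Y.flip k‖ := norm_add_le _ _
          _ ≤ ‖Y‖ * ‖k‖ + ‖Y.flip‖ * ‖k‖ := add_le_add (Y.le_opNorm k) (Y.flip.le_opNorm k)
          _ = 2 * (‖Y‖ * ‖k‖) := by rw [ContinuousLinearMap.opNorm_flip]; ring
      have h2 : ‖Y‖ * ‖k‖ ≤ ‖Y‖ * σ := mul_le_mul_of_nonneg_left hkσ.le (norm_nonneg Y)
      have h3 : ‖(1 / 2 : ℝ)‖ = 1 / 2 := by norm_num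
      rw [h3]
      linarith
    have hjet := hiJ y₀ (hKsub hy₀) pi Y (by
      have hnb : closedBall z σ ∈ 𝓝 y₀ := by
        refine mem_of_superset (isOpen_ball.mem_nhds ?_) ball_subset_closedBall
        rw [mem_ball, dist_eq_norm]
        exact hkσ
      filter_upwards [hnb] with y hy
      have h1 : w i y - (⟪p, y - z⟫ + Y (y - z) (y - z) / 2) ≤
          w i y₀ - (⟪p, y₀ - z⟫ + Y (y₀ - z) (y₀ - z) / 2) := hmax hy
      have e1 : y - z = k + (y - y₀) := by rw [hk]; abel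
      rw [← hk, e1] at h1
      rw [hpin]
      simp only [inner_add_right, map_add, add_apply] at h1
      linarith)
    exact absurd hjet (not_le.2 (hτneg pi hclose))
  refine le_of_forall_pos_le_add fun ε hε => ?_
  have h1 := main (ε / (2 * (‖p‖ ^ 2 + 1))) (by positivity)
  have h2 : (X + (2 * (ε / (2 * (‖p‖ ^ 2 + 1)))) • (innerBL : E →L[ℝ] E →L[ℝ] ℝ)) p p =
      X p p + ε * (‖p‖ ^ 2 / (‖p‖ ^ 2 + 1)) := by
    simp
    field_simp
  rw [h2] at h1
  have h3 : ‖p‖ ^ 2 / (‖p‖ ^ 2 + 1) ≤ 1 := by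
    rw [div_le_one (by positivity)]
    linarith
  nlinarith

end Claimed.Agent.R330
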