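import Claimed.Agent.R330.Blowup
import Claimed.Agent.R330.UFInv
import Claimed.Agent.R330.UlimGen
import Claimed.Agent.R330.UFStab

/-!
Row 330 (S0589), package UF, part G: assembly of the uniform flatness statement (paper Lemma 3.2)
from the fixed-centre flatness (`JetHarm.flat_at_center`), the interior Lipschitz bound, the
three-point estimate and the stability of jet subsolutions under uniform limits (`UFStab`).
The three-point estimate enters as the hypothesis `UfmThreePoint`.   Owner: helper191.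
-/

set_option autoImplicit false

open scoped Topology RealInnerProductSpace
open Metric Filter Set

namespace Claimed.Agent.R330

/-- The quantitative three-point estimate (paper Proposition 2.5). -/
def UfmThreePoint (E : Type*) [NormedAddCommGroup E] [InnerProductSpace ℝ E] : Prop :=
  ∀ C δ : ℝ, 0 < δ → ∃ ε₀ : ℝ, 0 < ε₀ ∧ ∀ w : E → ℝ, JetHarm w (ball 0 1) →
    (∀ x ∈ ball (0 : E) 1, ∀ y ∈ ball (0 : E) 1, |w x - w y| ≤ C * ‖x - y‖) →
    (∃ (q : E) (c : ℝ), ∀ x ∈ ball (0 : E) 1, |w x - (c + ⟪q, x⟫)| ≤ ε₀) →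
    ∀ x ∈ ball (0 : E) (1 / 4), ∀ y ∈ ball (0 : E) (1 / 4),
      |w x + w y - 2 * w ((1 / 2 : ℝ) • (x + y))| ≤ δ * ‖x - y‖

variable {E : Type*} [NormedAddCommGroup E] [InnerProductSpace ℝ E]

/-- A jet subsolution only depends on the values in the (open) set. -/
lemma ufm_jetSub_congr {u u' : E → ℝ} {Ω : Set E} (hΩ : IsOpen Ω) (h : JetSub u Ω)
    (he : EqOn u u' Ω) : JetSub u' Ω := by
  intro z hz p X hX
  refine h z hz p X ?_
  filter_upwards [hX, hΩ.mem_nhds hz] with y hy hyΩ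
  rw [he hyΩ, he hz]
  exact hy

lemma ufm_jetHarm_congr {u u' : E → ℝ} {Ω : Set E} (hΩ : IsOpen Ω) (h : JetHarm u Ω)
    (he : EqOn u u' Ω) : JetHarm u' Ω :=
  ⟨h.1.congr he.symm, ufm_jetSub_congr hΩ h.2.1 he,
    ufm_jetSub_congr hΩ h.2.2 (fun x hx => by simp [he hx])⟩

/-- Jensen's functional equation. -/
theorem ufm_linear_of_midpoint [FiniteDimensional ℝ E] {W : E → ℝ} (hc : Continuous W)
    (h0 : W 0 = 0) (hm : ∀ x y, W x + W y = 2 * W ((1 / 2 : ℝ) • (x + y))) :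
    ∃ P : E, ∀ H, W H = ⟪P, H⟫ := by
  have hhalf : ∀ x, W x = 2 * W ((1 / 2 : ℝ) • x) := by
    intro x
    have := hm x 0
    simpa [h0] using this
  have hadd : ∀ x y, W (x + y) = W x + W y := by
    intro x y
    rw [hm x y, hhalf (x + y)]
  let f : E →+ ℝ := AddMonoidHom.mk' W hadd
  let L : E →L[ℝ] ℝ := f.toRealLinearMap hc
  refine ⟨(InnerProductSpace.toDual ℝ E).symm L, fun H => ?_⟩
  rw [InnerProductSpace.toDual_symm_apply]
  rfl

omit [InnerProductSpace ℝ E] in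
/-- Ultralimit of an equi-Lipschitz family bounded at one point. -/
theorem ufm_ulim_lipschitz (U : Ultrafilter ℕ) (f : ℕ → E → ℝ) {K A : ℝ} (x₀ : E) (hK : 0 ≤ K)
    (hL : ∀ i x y, |f i x - f i y| ≤ K * ‖x - y‖) (hb : ∀ i, |f i x₀| ≤ A) :
    ∃ g : E → ℝ, (∀ x, Tendsto (fun i => f i x) U (𝓝 (g x))) ∧
      (∀ x y, |g x - g y| ≤ K * ‖x - y‖) ∧ UlimEquicont (U : Filter ℕ) f := by
  obtain ⟨g, hg⟩ := ulim_exists_fun U f (fun x => ⟨A + K * ‖x - x₀‖, Eventually.of_forall fun i => by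
    have h1 := hL i x x₀
    have h2 := hb i
    calc |f i x| = |(f i x - f i x₀) + f i x₀| := by ring_nf
      _ ≤ |f i x - f i x₀| + |f i x₀| := abs_add_le _ _
      _ ≤ A + K * ‖x - x₀‖ := by linarith⟩)
  refine ⟨g, hg, fun x y => ?_, fun z ε hε => ?_⟩
  · exact ulim_modulus hg (Eventually.of_forall fun i => hL i x y)
  · refine ⟨ε / (K + 1), by positivity, Eventually.of_forall fun i z' hz' => ?_⟩
    have h1 := hL i z' z
    rw [dist_eq_norm] at hz'
    have h2 : K * ‖z' - z‖ ≤ K * (ε / (K + 1)) := mul_le_mul_of_nonneg_left hz'.le hK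
    have h3 : K * (ε / (K + 1)) ≤ ε := by
      rw [mul_div_assoc', div_le_iff₀ (by positivity)]
      nlinarith
    linarith

/-- Step 1: near the limit centre the members of the family eventually have a small midpoint
defect at *all* separations. -/
theorem ufm_midpoint_small [FiniteDimensional ℝ E] (h3 : UfmThreePoint E)
    (U : Ultrafilter ℕ) (gi : ℕ → E → ℝ) {K ρ : ℝ} (zs : E) (hK : 0 ≤ K) (hρ : 0 < ρ)
    (hL : ∀ i x y, |gi i x - gi i y| ≤ K * ‖x - y‖) (hb : ∀ i, |gi i zs| ≤ 1)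
    (hJ : ∀ i, JetHarm (gi i) (ball zs ρ)) {δ' : ℝ} (hδ' : 0 < δ') :
    ∃ R' : ℝ, 0 < R' ∧ ∀ᶠ i in (U : Filter ℕ), ∀ a ∈ ball zs R', ∀ b ∈ ball zs R',
      |gi i a + gi i b - 2 * gi i ((1 / 2 : ℝ) • (a + b))| ≤ δ' * ‖a - b‖ := by
  obtain ⟨g, hlim, hgL, heq⟩ := ufm_ulim_lipschitz U gi zs hK hL hb
  have hgc : Continuous g := ulim_continuous hlim heq
  have hunif : ∀ K' ⊆ ball zs ρ, IsCompact K' → ∀ ε : ℝ, 0 < ε →
      ∀ᶠ i in (U : Filter ℕ), ∀ x ∈ K', |gi i x - g x| ≤ ε :=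
    fun K' _ hK' ε hε => ulim_uniform_on_compact hlim heq hK' hε
  have hgH : JetHarm g (ball zs ρ) := by
    refine ⟨hgc.continuousOn, ?_, ?_⟩
    · exact ufs_jetSub_of_lim (U : Filter ℕ) gi g _ isOpen_ball
        (Eventually.of_forall fun i => ⟨(hJ i).1, (hJ i).2.1⟩) hunif
    · refine ufs_jetSub_of_lim (U : Filter ℕ) (fun i x => - gi i x) (fun x => - g x) _ isOpen_ball
        (Eventually.of_forall fun i => ⟨(hJ i).1.neg, (hJ i).2.2⟩) ?_
      intro K' hK's hK' ε hε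
      filter_upwards [hunif K' hK's hK' ε hε] with i hi x hx
      have := hi x hx
      rw [abs_sub_comm] at this
      simpa [neg_add_eq_sub] using this
  obtain ⟨ε₀, hε₀, h3'⟩ := h3 K δ' hδ'
  obtain ⟨r₀, hr₀, hflat⟩ := hgH.flat_at_center (ball_mem_nhds zs hρ) (half_pos hε₀)
  set R := min r₀ ρ with hRdef
  have hR : 0 < R := lt_min hr₀ hρ
  have hRρ : R ≤ ρ := min_le_right _ _
  obtain ⟨p, hp⟩ := hflat R hR (min_le_left _ _)
  have hun := ulim_uniform_on_compact hlim heq (isCompact_closedBall zs ρ)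
    (ε := ε₀ * R / 4) (by positivity)
  refine ⟨R / 4, by positivity, ?_⟩
  filter_upwards [hun] with i hi a ha b hb'
  have hJ' := (hJ i).affine zs hR (inv_pos.2 hR) (-(R⁻¹ * gi i zs))
  have hsub : ball (0 : E) 1 ⊆ {y | zs + R • y ∈ ball zs ρ} := by
    intro y hy
    rw [mem_ball_zero_iff] at hy
    show zs + R • y ∈ ball zs ρ
    rw [mem_ball, dist_eq_norm, add_sub_cancel_left, norm_smul, Real.norm_eq_abs, abs_of_pos hR]
    nlinarith
  have hRne : R ≠ 0 := hR.ne'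
  have hmem : ∀ a ∈ ball zs (R / 4), R⁻¹ • (a - zs) ∈ ball (0 : E) (1 / 4) := by
    intro a ha
    rw [mem_ball, dist_eq_norm] at ha
    rw [mem_ball_zero_iff, norm_smul, Real.norm_eq_abs, abs_of_pos (inv_pos.2 hR),
      inv_mul_lt_iff₀ hR]
    linarith
  have hback : ∀ a : E, zs + R • (R⁻¹ • (a - zs)) = a := by
    intro a
    rw [smul_smul, mul_inv_cancel₀ hRne, one_smul]
    abel
  have key := h3' _ (hJ'.mono hsub) ?_ ⟨p, 0, ?_⟩ (R⁻¹ • (a - zs)) (hmem a ha)
    (R⁻¹ • (b - zs)) (hmem b hb')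
  · have e3 : zs + R • ((1 / 2 : ℝ) • (R⁻¹ • (a - zs) + R⁻¹ • (b - zs))) = (1 / 2 : ℝ) • (a + b) := by
      rw [← smul_add, smul_smul, smul_smul]
      have : R * (1 / 2) * R⁻¹ = 1 / 2 := by field_simp
      rw [this]
      module
    have e4 : ‖R⁻¹ • (a - zs) - R⁻¹ • (b - zs)‖ = R⁻¹ * ‖a - b‖ := by
      rw [← smul_sub, norm_smul, Real.norm_eq_abs, abs_of_pos (inv_pos.2 hR)]
      congr 2
      abel
    simp only [hback, e3, e4] at key
    have e5 : R⁻¹ * gi i a + -(R⁻¹ * gi i zs) + (R⁻¹ * gi i b + -(R⁻¹ * gi i zs)) -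
        2 * (R⁻¹ * gi i ((1 / 2 : ℝ) • (a + b)) + -(R⁻¹ * gi i zs)) =
        R⁻¹ * (gi i a + gi i b - 2 * gi i ((1 / 2 : ℝ) • (a + b))) := by ring
    rw [e5, abs_mul, abs_of_pos (inv_pos.2 hR)] at key
    have e6 : R⁻¹ * |gi i a + gi i b - 2 * gi i ((1 / 2 : ℝ) • (a + b))| ≤
        R⁻¹ * (δ' * ‖a - b‖) := by linarith
    exact le_of_mul_le_mul_left e6 (inv_pos.2 hR)
  · intro x _ y _
    have h1 := hL i (zs + R • x) (zs + R • y)
    have e1 : ‖zs + R • x - (zs + R • y)‖ = R * ‖x - y‖ := by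
      rw [add_sub_add_left_eq_sub, ← smul_sub, norm_smul, Real.norm_eq_abs, abs_of_pos hR]
    rw [e1] at h1
    have e2 : R⁻¹ * gi i (zs + R • x) + -(R⁻¹ * gi i zs) - (R⁻¹ * gi i (zs + R • y) +
        -(R⁻¹ * gi i zs)) = R⁻¹ * (gi i (zs + R • x) - gi i (zs + R • y)) := by ring
    rw [e2, abs_mul, abs_of_pos (inv_pos.2 hR)]
    calc R⁻¹ * |gi i (zs + R • x) - gi i (zs + R • y)| ≤ R⁻¹ * (K * (R * ‖x - y‖)) :=
          mul_le_mul_of_nonneg_left h1 (inv_pos.2 hR).le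
      _ = K * ‖x - y‖ := by field_simp
  · intro x hx
    have hx1 : ‖x‖ < 1 := by simpa using hx
    have hn : ‖R • x‖ ≤ R := by
      rw [norm_smul, Real.norm_eq_abs, abs_of_pos hR]
      nlinarith
    have h1 := hp (R • x) hn
    have h2 := hi (zs + R • x) (by
      simp only [mem_closedBall, dist_eq_norm, add_sub_cancel_left]
      exact hn.trans hRρ)
    have h3 := hi zs (mem_closedBall_self hρ.le)
    rw [inner_smul_right] at h1
    have e2 : R⁻¹ * gi i (zs + R • x) + -(R⁻¹ * gi i zs) - (0 + ⟪p, x⟫) =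
        R⁻¹ * ((gi i (zs + R • x) - g (zs + R • x)) - (gi i zs - g zs) +
          (g (zs + R • x) - g zs - R * ⟪p, x⟫)) := by
      field_simp
      ring
    rw [e2, abs_mul, abs_of_pos (inv_pos.2 hR)]
    have h4 : |(gi i (zs + R • x) - g (zs + R • x)) - (gi i zs - g zs) +
          (g (zs + R • x) - g zs - R * ⟪p, x⟫)| ≤ ε₀ * R := by
      rw [abs_le] at h1 h2 h3 ⊢
      constructor <;> linarith [h1.1, h1.2, h2.1, h2.2, h3.1, h3.2]
    calc R⁻¹ * _ ≤ R⁻¹ * (ε₀ * R) := mul_le_mul_of_nonneg_left h4 (inv_pos.2 hR).le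
      _ = ε₀ := by field_simp

/-- Step 2: a small midpoint defect at all separations near the limit centre forces the blow-ups
at the (much smaller) scales `r i` to be asymptotically linear. -/
theorem ufm_flat_of_midpoint [FiniteDimensional ℝ E] (U : Ultrafilter ℕ) (gi : ℕ → E → ℝ) {K : ℝ}
    (zs : E) (hK : 0 ≤ K) (hL : ∀ i x y, |gi i x - gi i y| ≤ K * ‖x - y‖)
    (z : ℕ → E) (r : ℕ → ℝ) (hz : Tendsto z U (𝓝 zs)) (hr : Tendsto r U (𝓝 0))
    (hr0 : ∀ i, 0 < r i)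
    (hmid : ∀ δ' : ℝ, 0 < δ' → ∃ R' : ℝ, 0 < R' ∧ ∀ᶠ i in (U : Filter ℕ), ∀ a ∈ ball zs R',
      ∀ b ∈ ball zs R', |gi i a + gi i b - 2 * gi i ((1 / 2 : ℝ) • (a + b))| ≤ δ' * ‖a - b‖) :
    ∃ P : E, ∀ ε : ℝ, 0 < ε → ∀ᶠ i in (U : Filter ℕ), ∀ H : E, ‖H‖ ≤ 2 →
      |gi i (z i + r i • H) - gi i (z i) - r i * ⟪P, H⟫| ≤ ε * r i := by
  set Wi : ℕ → E → ℝ := fun i H => (r i)⁻¹ * (gi i (z i + r i • H) - gi i (z i)) with hWi
  have hWL : ∀ i x y, |Wi i x - Wi i y| ≤ K * ‖x - y‖ := by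
    intro i x y
    have hri := hr0 i
    have h1 := hL i (z i + r i • x) (z i + r i • y)
    have e1 : ‖z i + r i • x - (z i + r i • y)‖ = r i * ‖x - y‖ := by
      rw [add_sub_add_left_eq_sub, ← smul_sub, norm_smul, Real.norm_eq_abs, abs_of_pos hri]
    rw [e1] at h1
    have e2 : Wi i x - Wi i y = (r i)⁻¹ * (gi i (z i + r i • x) - gi i (z i + r i • y)) := by
      simp only [hWi]; ring
    rw [e2, abs_mul, abs_of_pos (inv_pos.2 hri)]
    calc (r i)⁻¹ * |gi i (z i + r i • x) - gi i (z i + r i • y)|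
        ≤ (r i)⁻¹ * (K * (r i * ‖x - y‖)) := mul_le_mul_of_nonneg_left h1 (inv_pos.2 hri).le
      _ = K * ‖x - y‖ := by field_simp
  have hW0 : ∀ i, Wi i 0 = 0 := by
    intro i
    simp [hWi]
  obtain ⟨W, hlim, -, heq⟩ := ufm_ulim_lipschitz U Wi (A := 0) 0 hK hWL (fun i => by simp [hW0 i])
  have hWc : Continuous W := ulim_continuous hlim heq
  have hW00 : W 0 = 0 := by
    have h1 := hlim 0
    simp only [hW0] at h1
    exact tendsto_nhds_unique h1 tendsto_const_nhds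
  have hpt : ∀ H : E, Tendsto (fun i => z i + r i • H) U (𝓝 zs) := by
    intro H
    have := hz.add (hr.smul_const H)
    simpa using this
  have hmidW : ∀ x y, W x + W y = 2 * W ((1 / 2 : ℝ) • (x + y)) := by
    intro x y
    have hbound : ∀ δ' : ℝ, 0 < δ' → |W x + W y - 2 * W ((1 / 2 : ℝ) • (x + y))| ≤ δ' * ‖x - y‖ := by
      intro δ' hδ'
      obtain ⟨R', hR', hev⟩ := hmid δ' hδ'
      have ht : Tendsto (fun i => |Wi i x + Wi i y - 2 * Wi i ((1 / 2 : ℝ) • (x + y))|) U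
          (𝓝 |W x + W y - 2 * W ((1 / 2 : ℝ) • (x + y))|) :=
        (((hlim x).add (hlim y)).sub ((hlim _).const_mul 2)).abs
      refine le_of_tendsto ht ?_
      filter_upwards [hev, (hpt x).eventually (ball_mem_nhds zs hR'),
        (hpt y).eventually (ball_mem_nhds zs hR')] with i hi hx hy
      have hri := hr0 i
      have h1 := hi _ hx _ hy
      have e1 : (1 / 2 : ℝ) • (z i + r i • x + (z i + r i • y)) =
          z i + r i • ((1 / 2 : ℝ) • (x + y)) := by module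
      have e2 : ‖z i + r i • x - (z i + r i • y)‖ = r i * ‖x - y‖ := by
        rw [add_sub_add_left_eq_sub, ← smul_sub, norm_smul, Real.norm_eq_abs, abs_of_pos hri]
      rw [e1, e2] at h1
      have e3 : Wi i x + Wi i y - 2 * Wi i ((1 / 2 : ℝ) • (x + y)) =
          (r i)⁻¹ * (gi i (z i + r i • x) + gi i (z i + r i • y) -
            2 * gi i (z i + r i • ((1 / 2 : ℝ) • (x + y)))) := by
        simp only [hWi]; ring
      rw [e3, abs_mul, abs_of_pos (inv_pos.2 hri)]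
      calc (r i)⁻¹ * _ ≤ (r i)⁻¹ * (δ' * (r i * ‖x - y‖)) :=
            mul_le_mul_of_nonneg_left h1 (inv_pos.2 hri).le
        _ = δ' * ‖x - y‖ := by field_simp
    have hzero : |W x + W y - 2 * W ((1 / 2 : ℝ) • (x + y))| ≤ 0 := by
      refine le_of_forall_pos_le_add fun η hη => ?_
      have := hbound (η / (‖x - y‖ + 1)) (by positivity)
      have h2 : η / (‖x - y‖ + 1) * ‖x - y‖ ≤ η := by
        rw [div_mul_eq_mul_div, div_le_iff₀ (by positivity)]
        nlinarith [norm_nonneg (x - y)]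
      linarith
    have := abs_nonpos_iff.1 hzero
    linarith
  obtain ⟨P, hP⟩ := ufm_linear_of_midpoint hWc hW00 hmidW
  refine ⟨P, fun ε hε => ?_⟩
  filter_upwards [ulim_uniform_on_compact hlim heq (isCompact_closedBall (0 : E) 2) hε] with i hi H hH
  have hri := hr0 i
  have h1 := hi H (by simpa using hH)
  rw [hP H] at h1
  have e1 : gi i (z i + r i • H) - gi i (z i) - r i * ⟪P, H⟫ = r i * (Wi i H - ⟪P, H⟫) := by
    simp only [hWi]
    field_simp
  rw [e1, abs_mul, abs_of_pos hri, mul_comm]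
  exact mul_le_mul_of_nonneg_right h1 hri.le

/-- **Uniform qualitative flatness** (paper Lemma 3.2, for the unlifted functions). -/
theorem ufm_uniformFlat [FiniteDimensional ℝ E] (h3 : UfmThreePoint E) :
    ∀ δ : ℝ, 0 < δ → ∃ r₀ : ℝ, 0 < r₀ ∧ ∀ w : E → ℝ, JetHarm w (ball 0 1) →
      (∀ x ∈ ball (0 : E) 1, |w x| ≤ 1) → ∀ z ∈ closedBall (0 : E) (3 / 4), ∀ r : ℝ, 0 < r →
      r ≤ r₀ → ∃ P : E, ∀ H : E, ‖H‖ ≤ 2 → |w (z + r • H) - w z - r * ⟪P, H⟫| ≤ δ * r := by
  intro δ hδ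
  by_contra hcon
  push Not at hcon
  have hseq : ∀ i : ℕ, ∃ (w : E → ℝ) (z : E) (r : ℝ), JetHarm w (ball 0 1) ∧
      (∀ x ∈ ball (0 : E) 1, |w x| ≤ 1) ∧ z ∈ closedBall (0 : E) (3 / 4) ∧ 0 < r ∧
      r ≤ 1 / ((i : ℝ) + 1) ∧
      ∀ P : E, ∃ H : E, ‖H‖ ≤ 2 ∧ δ * r < |w (z + r • H) - w z - r * ⟪P, H⟫| := by
    intro i
    obtain ⟨w, hw, hb, z, hz, r, hr, hr', hP⟩ := hcon (1 / ((i : ℝ) + 1)) (by positivity)
    exact ⟨w, z, r, hw, hb, hz, hr, hr', hP⟩
  choose w z r hw hb hz hr hr' hP using hseq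
  let U : Ultrafilter ℕ := hyperfilter ℕ
  have hUle : (U : Filter ℕ) ≤ atTop := Nat.hyperfilter_le_atTop
  have hrlim : Tendsto r U (𝓝 0) := by
    have h1 : Tendsto r atTop (𝓝 0) :=
      squeeze_zero (fun i => (hr i).le) hr' tendsto_one_div_add_atTop_nhds_zero_nat
    exact h1.mono_left hUle
  obtain ⟨zs, hzs, hzs'⟩ := ulim_exists_norm U z (3 / 4)
    (Eventually.of_forall fun i => by simpa using hz i)
  -- local Lipschitz bound and global extensions
  have hsub2 : closedBall zs (2 * (1 / 32)) ⊆ ball (0 : E) 1 := by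
    intro x hx
    rw [mem_closedBall, dist_eq_norm] at hx
    rw [mem_ball_zero_iff]
    calc ‖x‖ = ‖(x - zs) + zs‖ := by rw [sub_add_cancel]
      _ ≤ ‖x - zs‖ + ‖zs‖ := norm_add_le _ _
      _ < 1 := by linarith
  have hlip : ∀ i, LipschitzOnWith 64 (w i) (closedBall zs (1 / 32)) := by
    intro i
    refine LipschitzOnWith.of_dist_le_mul fun x hx y hy => ?_
    have := (hw i).2.1.lipschitz (hw i).1 (ρ := 1 / 32) (A := 1) (by norm_num) hsub2
      (fun x hx => hb i x (hsub2 hx)) hx hy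
    rw [Real.dist_eq, dist_eq_norm]
    norm_num at this ⊢
    exact this
  choose gi hgiL hgiE using fun i => (hlip i).extend_real
  have hgL : ∀ i x y, |gi i x - gi i y| ≤ (64 : ℝ) * ‖x - y‖ := by
    intro i x y
    have := (hgiL i).dist_le_mul x y
    rw [Real.dist_eq, dist_eq_norm] at this
    simpa using this
  have hzsmem : zs ∈ closedBall zs (1 / 32) := mem_closedBall_self (by norm_num)
  have hgb : ∀ i, |gi i zs| ≤ 1 := by
    intro i
    rw [← hgiE i hzsmem]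
    exact hb i zs (hsub2 (mem_closedBall_self (by norm_num)))
  have hgJ : ∀ i, JetHarm (gi i) (ball zs (1 / 32)) := by
    intro i
    refine ufm_jetHarm_congr isOpen_ball ((hw i).mono ?_)
      (fun x hx => hgiE i (ball_subset_closedBall hx))
    exact (ball_subset_closedBall.trans (closedBall_subset_closedBall (by norm_num))).trans hsub2
  obtain ⟨P, hPfl⟩ := ufm_flat_of_midpoint U gi zs (by norm_num) hgL z r hzs hrlim hr
    (fun δ' hδ' => ufm_midpoint_small h3 U gi zs (by norm_num) (by norm_num) hgL hgb hgJ hδ')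
  -- eventually all the points involved are in the small ball
  have hnear : ∀ᶠ i in (U : Filter ℕ), ‖z i - zs‖ + 2 * r i < 1 / 32 := by
    have h1 : Tendsto (fun i => ‖z i - zs‖ + 2 * r i) U (𝓝 (‖zs - zs‖ + 2 * 0)) :=
      ((hzs.sub_const zs).norm).add (hrlim.const_mul 2)
    simp only [sub_self, norm_zero, mul_zero, add_zero] at h1
    exact h1.eventually (gt_mem_nhds (by norm_num))
  obtain ⟨i, hi1, hi2⟩ := ((hPfl δ hδ).and hnear).exists
  obtain ⟨H, hH, hbad⟩ := hP i P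
  have hri := hr i
  have m1 : z i ∈ closedBall zs (1 / 32) := by
    rw [mem_closedBall, dist_eq_norm]
    linarith
  have m2 : z i + r i • H ∈ closedBall zs (1 / 32) := by
    rw [mem_closedBall, dist_eq_norm]
    calc ‖z i + r i • H - zs‖ = ‖(z i - zs) + r i • H‖ := by congr 1; abel
      _ ≤ ‖z i - zs‖ + ‖r i • H‖ := norm_add_le _ _
      _ ≤ ‖z i - zs‖ + 2 * r i := by
          rw [norm_smul, Real.norm_eq_abs, abs_of_pos hri]
          nlinarith
      _ ≤ 1 / 32 := hi2.le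
  have := hi1 H hH
  rw [← hgiE i m1, ← hgiE i m2] at this
  linarith

end Claimed.Agent.R330
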