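import Mathlib
import Claimed.Agent.R330.UlimGen
import Claimed.Agent.R330.UlimFit
import Claimed.Agent.R330.UlimClass
import Claimed.Agent.R330.UlimEnv
import Claimed.Agent.R330.FitModuli

/-!
# R330 / L2b : compactness of `ClassA C₀` along ultrafilters (paper Lemma 4.2, last part)

`ulim_classA_of_growth` : a family of members of the class with common growth and parameter
constants (`FitGrowth`, `FitParam`, paper (4.2), (4.3)) converges along every ultrafilter to a
member of the class; the convergence is continuous convergence (`UlimCC`, `UlimConv`), hence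
uniform on compact sets, and it carries the envelopes with it (`UlimConv.envP_tendsto` etc.).
Owner: helper92.
-/

namespace Claimed.Agent.R330

open Filter Topology Set Metric

variable {ι : Type*} {X : Type*} [NormedAddCommGroup X] [InnerProductSpace ℝ X]

omit [InnerProductSpace ℝ X] in
/-- The growth bound passes to pointwise limits. -/
theorem ulim_fitGrowth {l : Filter ι} [l.NeBot] {v : ι → X → ℝ → ℝ} {vh : X → ℝ → ℝ} {Cg : ℝ}
    (hlim : ∀ x t, Tendsto (fun j => v j x t) l (𝓝 (vh x t)))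
    (hg : ∀ᶠ j in l, FitGrowth Cg (v j)) : FitGrowth Cg vh := by
  intro K hK x t hx ht
  exact le_of_tendsto (hlim x t).abs (hg.mono fun j hj => hj K hK x t hx ht)

omit [InnerProductSpace ℝ X] in
/-- Eventually uniform subquadratic growth of a family with a common growth constant. -/
theorem ulim_grow_of_fitGrowth {l : Filter ι} {v : ι → X → ℝ → ℝ} {Cg : ℝ} (hCg : 0 ≤ Cg)
    (hg : ∀ᶠ j in l, FitGrowth Cg (v j)) (T ε : ℝ) (hε : 0 < ε) :
    ∃ C, ∀ᶠ j in l, ∀ x t, |t| ≤ T → |v j x t| ≤ ε * ‖x‖ ^ 2 + C := by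
  obtain ⟨C, hC⟩ := fitmod_subQuadOn_unif (X := X) hCg T hε
  exact ⟨C, hg.mono fun j hj x t ht => hC (v j) hj x t (abs_le.1 ht)⟩

/-- Boundedness of the fit parameters at a fixed centre and radius. -/
theorem ulim_par_of_fitParam {l : Filter ι} {v : ι → X → ℝ → ℝ} {C₀ Cp : ℝ}
    (hp : ∀ᶠ j in l, FitParam C₀ Cp (v j)) (x : X) (t R : ℝ) (hR : 0 < R) :
    ∃ M : ℝ, ∀ᶠ j in l, ∀ (p : X) (a : ℝ), IsFit C₀ (v j) x t R p a → ‖p‖ ≤ M ∧ |a| ≤ M := by
  set K := ‖x‖ + |t| + 2 with hK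
  have hK2 : 2 ≤ K := by
    have := norm_nonneg x
    have := abs_nonneg t
    linarith
  refine ⟨Cp * (1 + Real.log K + |Real.log R|), hp.mono fun j hj p a hpa => ?_⟩
  have := hj K hK2 x t (by linarith [abs_nonneg t]) (by linarith [norm_nonneg x]) R hR p a hpa
  exact ⟨by linarith [abs_nonneg a], by linarith [norm_nonneg p]⟩

/-- **Compactness of the class** (abstract constants).  A family of members of `ClassA C₀` with
common growth and parameter constants converges along every ultrafilter to a member of the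
class. -/
theorem ulim_classA_of_growth [FiniteDimensional ℝ X] (U : Ultrafilter ι) {C₀ Cg Cp : ℝ}
    (hC₀ : 0 ≤ C₀) (hCg : 0 ≤ Cg) {v : ι → X → ℝ → ℝ}
    (hA : ∀ᶠ j in (U : Filter ι), ClassA C₀ (v j))
    (hg : ∀ᶠ j in (U : Filter ι), FitGrowth Cg (v j))
    (hp : ∀ᶠ j in (U : Filter ι), FitParam C₀ Cp (v j)) :
    ∃ vh : X → ℝ → ℝ, ClassA C₀ vh ∧ UlimCC (U : Filter ι) v vh ∧
      UlimConv (U : Filter ι) v vh ∧ FitGrowth Cg vh ∧
      UlimEquicont (U : Filter ι) (fun j (z : X × ℝ) => v j z.1 z.2) ∧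
      ∀ K : Set (X × ℝ), IsCompact K →
        TendstoUniformlyOn (fun j (z : X × ℝ) => v j z.1 z.2) (fun z => vh z.1 z.2)
          (U : Filter ι) K := by
  have heq : UlimEquicont (U : Filter ι) (fun j (z : X × ℝ) => v j z.1 z.2) :=
    fitmod_ulimEquicont hC₀ (by filter_upwards [hA, hp] with j h1 h2 using ⟨h1.fits, h2⟩)
  have hbd : ∀ (x : X) (t : ℝ), ∃ M : ℝ, ∀ᶠ j in (U : Filter ι), |v j x t| ≤ M := by
    intro x t
    obtain ⟨M, hM⟩ := fitmod_pointwise_bound (X := X) (Cg := Cg) x t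
    exact ⟨M, hg.mono fun j hj => hM (v j) hj⟩
  have hconv : ∀ vh : X → ℝ → ℝ, UlimCC (U : Filter ι) v vh → UlimConv (U : Filter ι) v vh :=
    fun vh hcc => UlimConv.of_equicont (fun z => hcc.pointwise z.1 z.2) heq
      (ulim_grow_of_fitGrowth hCg hg)
  obtain ⟨vh, hvh, hcc⟩ := ulim_classA_of_bounds U hA hbd heq (ulim_par_of_fitParam hp)
    (fun vh hcc => ⟨fun ℓ hℓ x t => (hconv vh hcc).envP_tendsto tendsto_const_nhds
        tendsto_const_nhds hℓ tendsto_const_nhds,
      fun ℓ hℓ x t => (hconv vh hcc).envM_tendsto tendsto_const_nhds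
        tendsto_const_nhds hℓ tendsto_const_nhds⟩)
  refine ⟨vh, hvh, hcc, hconv vh hcc, ulim_fitGrowth hcc.pointwise hg, heq, fun K hK => ?_⟩
  exact ulim_tendstoUniformlyOn (f := fun j (z : X × ℝ) => v j z.1 z.2)
    (g := fun z : X × ℝ => vh z.1 z.2) (fun z => hcc.pointwise z.1 z.2) heq hK

/-- The constant of a fit of positive radius is nonnegative. -/
theorem ulim_nonneg_of_isFit {C₀ : ℝ} {v : X → ℝ → ℝ} {x : X} {t R : ℝ} {p : X} {a : ℝ}
    (hR : 0 < R) (h : IsFit C₀ v x t R p a) : 0 ≤ C₀ := by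
  have h1 := h 0 0 (by simpa using hR.le) (by simpa using hR.le)
  have h2 : 0 ≤ C₀ * R := (abs_nonneg _).trans h1
  by_contra hneg
  have hneg' : C₀ < 0 := not_le.1 hneg
  nlinarith

/-- **Compactness of the centred members of the class**, relative to the estimates of paper
Lemma 4.2 (hypothesis `hGP`, supplied by package L2a). -/
theorem ulim_classA_centered_of [FiniteDimensional ℝ X] (U : Ultrafilter ι) {C₀ Cg Cp : ℝ}
    (hCg : 0 ≤ Cg) {xc : X} {tc : ℝ}
    (hGP : ∀ w : X → ℝ → ℝ, HasFits C₀ w → CenteredAt C₀ w xc tc →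
      FitGrowth Cg w ∧ FitParam C₀ Cp w)
    {v : ι → X → ℝ → ℝ}
    (hA : ∀ᶠ j in (U : Filter ι), ClassA C₀ (v j) ∧ CenteredAt C₀ (v j) xc tc) :
    ∃ vh : X → ℝ → ℝ, ClassA C₀ vh ∧ CenteredAt C₀ vh xc tc ∧ UlimCC (U : Filter ι) v vh ∧
      UlimConv (U : Filter ι) v vh ∧
      ∀ K : Set (X × ℝ), IsCompact K →
        TendstoUniformlyOn (fun j (z : X × ℝ) => v j z.1 z.2) (fun z => vh z.1 z.2)
          (U : Filter ι) K := by
  obtain ⟨j0, hj0⟩ := hA.exists
  have hC₀ : 0 ≤ C₀ := ulim_nonneg_of_isFit one_pos hj0.2.2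
  obtain ⟨vh, h1, h2, h3, -, -, h6⟩ := ulim_classA_of_growth U hC₀ hCg
    (hA.mono fun j hj => hj.1) (hA.mono fun j hj => (hGP _ hj.1.fits hj.2).1)
    (hA.mono fun j hj => (hGP _ hj.1.fits hj.2).2)
  exact ⟨vh, h1, ulim_centeredAt h2 (hA.mono fun j hj => hj.2), h2, h3, h6⟩

end Claimed.Agent.R330
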