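import Claimed.Agent.R330.Campanato

/-!
# Row 330, package W9a: from cylinder fits with power decay to isotropic affine fits

Paper, end of Section 3.  A cylinder fit with parameter `lam` and radius `r` holds on the inscribed
ball of radius `√lam * r` with error `lam * r`.  With `lam = A0 * r ^ γ` this gives, at *every*
small radius `ρ`, an affine fit on the ball of radius `ρ` with error
`A0 ^ (1 / (2 + γ)) * ρ ^ (1 + γ / (2 + γ))`, which is the hypothesis of the Campanato lemma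
`camp_main` (file `Campanato`).  No iteration is needed here.

The cylinder hypotheses are written unfolded; they are definitionally the second component of
`CylFit U lam z r P` (file `CylFit`).
-/

set_option autoImplicit false

namespace Claimed.Agent.R330

open scoped RealInnerProductSpace

section ball

variable {F : Type*} [NormedAddCommGroup F] [InnerProductSpace ℝ F]

/-- The axial component of `h` along a vector of norm at most one is at most `‖h‖`. -/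
theorem w9a_abs_inner_unit_le (h N : F) (hN : ‖N‖ ≤ 1) : |⟪h, N⟫| ≤ ‖h‖ := by
  calc |⟪h, N⟫| ≤ ‖h‖ * ‖N‖ := abs_real_inner_le_norm h N
    _ ≤ ‖h‖ * 1 := by gcongr
    _ = ‖h‖ := mul_one _

/-- The transverse component of `h` with respect to a unit vector (or zero) is at most `‖h‖`. -/
theorem w9a_norm_sub_proj_le (h N : F) (hN : ‖N‖ = 1 ∨ N = 0) :
    ‖h - ⟪h, N⟫ • N‖ ≤ ‖h‖ := by
  rcases hN with hN | hN
  · have h1 : ‖h - ⟪h, N⟫ • N‖ ^ 2 = ‖h‖ ^ 2 - ⟪h, N⟫ ^ 2 := by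
      rw [norm_sub_sq_real, inner_smul_right, norm_smul, mul_pow, hN]
      simp only [Real.norm_eq_abs, sq_abs]
      ring
    have h2 : ‖h - ⟪h, N⟫ • N‖ ^ 2 ≤ ‖h‖ ^ 2 := by
      rw [h1]; nlinarith [sq_nonneg ⟪h, N⟫]
    exact (pow_le_pow_iff_left₀ (norm_nonneg _) (norm_nonneg _) two_ne_zero).1 h2
  · simp [hN]

/-- The normalised vector has norm one, or vanishes. -/
theorem w9a_norm_normalize (P : F) : ‖(‖P‖⁻¹) • P‖ = 1 ∨ (‖P‖⁻¹) • P = 0 := by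
  by_cases hP : P = 0
  · right; simp [hP]
  · left
    rw [norm_smul, norm_inv, norm_norm, inv_mul_cancel₀ (norm_ne_zero_iff.2 hP)]

/-- The ball of radius `√lam * r` is inscribed in the cylinder (`lam ≤ 1`). -/
theorem w9a_ball_subset_cyl {lam r : ℝ} (hlam : lam ≤ 1) (hr : 0 ≤ r) (P h : F)
    (hh : ‖h‖ ≤ √lam * r) :
    |⟪h, (‖P‖⁻¹) • P⟫| ≤ r ∧
      ‖h - ⟪h, (‖P‖⁻¹) • P⟫ • ((‖P‖⁻¹) • P)‖ ≤ √lam * r := by
  have hs : √lam ≤ 1 := Real.sqrt_le_one.2 hlam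
  have hN := w9a_norm_normalize P
  have hN1 : ‖(‖P‖⁻¹) • P‖ ≤ 1 := by
    rcases hN with h1 | h1
    · exact h1.le
    · rw [h1]; simp
  refine ⟨?_, (w9a_norm_sub_proj_le h _ hN).trans hh⟩
  calc |⟪h, (‖P‖⁻¹) • P⟫| ≤ ‖h‖ := w9a_abs_inner_unit_le h _ hN1
    _ ≤ √lam * r := hh
    _ ≤ 1 * r := by gcongr
    _ = r := one_mul r

/-- A cylinder fit is a fit on the inscribed ball. -/
theorem w9a_campFit_of_cyl {U : F → ℝ} {lam r : ℝ} {z P : F} (hlam : lam ≤ 1) (hr : 0 ≤ r)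
    (hfit : ∀ h : F, (|⟪h, (‖P‖⁻¹) • P⟫| ≤ r ∧
      ‖h - ⟪h, (‖P‖⁻¹) • P⟫ • ((‖P‖⁻¹) • P)‖ ≤ √lam * r) →
        |U (z + h) - U z - ⟪P, h⟫| ≤ lam * r) :
    CampFit U z P (√lam * r) (lam * r) :=
  fun h hh => hfit h (w9a_ball_subset_cyl hlam hr P h hh)

/-- The exponent bookkeeping: with `r = (ρ / √A0) ^ (2 / (2 + γ))` and `lam = A0 * r ^ γ`, the
inscribed ball has radius exactly `ρ`, and the error is `A0 ^ (1/(2+γ)) * ρ ^ (1 + γ/(2+γ))`. -/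
theorem w9a_exponent (A0 γ ρ : ℝ) (hA : 0 < A0) (hγ : 0 < γ) (hρ : 0 < ρ) :
    √(A0 * ((ρ / √A0) ^ (2 / (2 + γ))) ^ γ) * (ρ / √A0) ^ (2 / (2 + γ)) = ρ ∧
    (A0 * ((ρ / √A0) ^ (2 / (2 + γ))) ^ γ) * (ρ / √A0) ^ (2 / (2 + γ))
      = A0 ^ (1 / (2 + γ)) * ρ ^ (1 + γ / (2 + γ)) := by
  obtain ⟨x, rfl⟩ : ∃ x, ρ = Real.exp x := ⟨Real.log ρ, (Real.exp_log hρ).symm⟩
  obtain ⟨y, rfl⟩ : ∃ y, A0 = Real.exp y := ⟨Real.log A0, (Real.exp_log hA).symm⟩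
  have h2 : (2 + γ) ≠ 0 := by positivity
  simp only [← Real.exp_half, ← Real.exp_sub, ← Real.exp_mul, ← Real.exp_add]
  constructor
  · congr 1
    field_simp
    ring
  · congr 1
    field_simp
    ring

/-- The radius `r = (ρ / √A0) ^ (2 / (2 + γ))` is at most `r0` when `ρ ≤ √A0 * r0 ^ (1 + γ / 2)`. -/
theorem w9a_radius_le {A0 γ ρ r0 : ℝ} (hA : 0 < A0) (hγ : 0 < γ) (hρ : 0 < ρ) (hr0 : 0 < r0)
    (hle : ρ ≤ √A0 * r0 ^ (1 + γ / 2)) : (ρ / √A0) ^ (2 / (2 + γ)) ≤ r0 := by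
  have hs : 0 < √A0 := Real.sqrt_pos.2 hA
  have h1 : ρ / √A0 ≤ r0 ^ (1 + γ / 2) := by
    rw [div_le_iff₀ hs]; linarith
  have h2 : (0 : ℝ) ≤ 2 / (2 + γ) := by positivity
  calc (ρ / √A0) ^ (2 / (2 + γ)) ≤ (r0 ^ (1 + γ / 2)) ^ (2 / (2 + γ)) :=
        Real.rpow_le_rpow (by positivity) h1 h2
    _ = r0 ^ ((1 + γ / 2) * (2 / (2 + γ))) := (Real.rpow_mul hr0.le _ _).symm
    _ = r0 ^ (1 : ℝ) := by
        congr 1
        field_simp
    _ = r0 := Real.rpow_one r0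

/-- **Cylinder power decay gives isotropic power decay at one centre.** -/
theorem w9a_campFit_power {U : F → ℝ} {z : F} {A0 γ r0 : ℝ} (hA : 0 < A0) (hγ : 0 < γ)
    (hr0 : 0 < r0) (hsmall : A0 * r0 ^ γ ≤ 1)
    (H : ∀ r : ℝ, 0 < r → r ≤ r0 → ∃ P : F, ∀ h : F, (|⟪h, (‖P‖⁻¹) • P⟫| ≤ r ∧
      ‖h - ⟪h, (‖P‖⁻¹) • P⟫ • ((‖P‖⁻¹) • P)‖ ≤ √(A0 * r ^ γ) * r) →
        |U (z + h) - U z - ⟪P, h⟫| ≤ (A0 * r ^ γ) * r) :
    ∀ ρ : ℝ, 0 < ρ → ρ ≤ √A0 * r0 ^ (1 + γ / 2) →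
      ∃ P : F, CampFit U z P ρ (A0 ^ (1 / (2 + γ)) * ρ ^ (1 + γ / (2 + γ))) := by
  intro ρ hρ hle
  have hs : 0 < √A0 := Real.sqrt_pos.2 hA
  set r : ℝ := (ρ / √A0) ^ (2 / (2 + γ)) with hr
  have hrpos : 0 < r := Real.rpow_pos_of_pos (by positivity) _
  have hrle : r ≤ r0 := w9a_radius_le hA hγ hρ hr0 hle
  obtain ⟨P, hP⟩ := H r hrpos hrle
  have hlam : A0 * r ^ γ ≤ 1 := by
    refine le_trans ?_ hsmall
    gcongr
  obtain ⟨e1, e2⟩ := w9a_exponent A0 γ ρ hA hγ hρ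
  have := w9a_campFit_of_cyl hlam hrpos.le hP
  rw [← hr] at e1 e2
  rw [e1, e2] at this
  exact ⟨P, this⟩

/-- The Hölder exponent `γ / (2 + γ)` lies in `(0, 1/3]` for `γ ∈ (0, 1]`. -/
theorem w9a_alpha_mem {γ : ℝ} (hγ : 0 < γ) (hγ1 : γ ≤ 1) :
    0 < γ / (2 + γ) ∧ γ / (2 + γ) ≤ 1 / 3 := by
  refine ⟨by positivity, ?_⟩
  rw [div_le_div_iff₀ (by positivity) (by norm_num)]
  linarith

end ball

section restrict

variable {E F : Type*} [NormedAddCommGroup E] [InnerProductSpace ℝ E] [CompleteSpace E]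
  [NormedAddCommGroup F] [InnerProductSpace ℝ F] [CompleteSpace F]

/-- Restriction of an affine fit to a linearly and isometrically embedded subspace. -/
theorem w9a_campFit_restrict (ι : E →ₗᵢ[ℝ] F) {u : E → ℝ} {U : F → ℝ} {x : E} {P : F} {ρ ε : ℝ}
    (hU : ∀ h : E, ‖h‖ ≤ ρ → U (ι (x + h)) - U (ι x) = u (x + h) - u x)
    (hfit : CampFit U (ι x) P ρ ε) :
    CampFit u x (ι.toContinuousLinearMap.adjoint P) ρ ε := by
  intro h hh
  have h1 := hfit (ι h) (by rwa [ι.norm_map])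
  rw [← map_add, sub_right_comm] at h1
  have h2 : ⟪ι.toContinuousLinearMap.adjoint P, h⟫ = ⟪P, ι h⟫ :=
    ContinuousLinearMap.adjoint_inner_left _ _ _
  rw [h2, sub_right_comm]
  have h3 := hU h hh
  have h4 : U (ι (x + h)) - ⟪P, ι h⟫ - U (ι x) = u (x + h) - ⟪P, ι h⟫ - u x := by linarith
  rwa [← h4]

end restrict

section lift

variable {E : Type*} [NormedAddCommGroup E] [InnerProductSpace ℝ E]

/-- Restriction of an affine fit of the lift `U (y, b) = u y + b` on `WithLp 2 (E × ℝ)` to the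
slice `b = b₀`. -/
theorem w9a_campFit_of_lift {u : E → ℝ} {U : WithLp 2 (E × ℝ) → ℝ} {x : E} {b₀ : ℝ}
    {P : WithLp 2 (E × ℝ)} {ρ ε : ℝ}
    (hU : ∀ h : E, ‖h‖ ≤ ρ →
      U (WithLp.toLp 2 (x + h, b₀)) - U (WithLp.toLp 2 (x, b₀)) = u (x + h) - u x)
    (hfit : CampFit U (WithLp.toLp 2 (x, b₀)) P ρ ε) :
    CampFit u x P.fst ρ ε := by
  intro h hh
  have hn : ‖(WithLp.toLp 2 (h, (0 : ℝ)) : WithLp 2 (E × ℝ))‖ = ‖h‖ := by
    rw [WithLp.prod_norm_eq_of_L2]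
    simp
  have h1 := hfit (WithLp.toLp 2 (h, (0 : ℝ))) (by rwa [hn])
  have h2 : (WithLp.toLp 2 (x, b₀) : WithLp 2 (E × ℝ)) + WithLp.toLp 2 (h, (0 : ℝ))
      = WithLp.toLp 2 (x + h, b₀) := by
    rw [← WithLp.toLp_add]; simp
  have h3 : ⟪P, (WithLp.toLp 2 (h, (0 : ℝ)) : WithLp 2 (E × ℝ))⟫ = ⟪P.fst, h⟫ := by
    rw [WithLp.prod_inner_apply]; simp
  rw [h2, h3, hU h hh] at h1
  exact h1

end lift

end Claimed.Agent.R330
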