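import Claimed.Agent.R330.Endgame
import Claimed.Agent.R330.W9aBall

/-!
# Row 330, package W9a: the frozen statement from cylinder power decay

`W9aModulusDecay d B γ s0` is the conclusion `b(s) ≤ B s^γ` of paper Proposition 3.3, unfolded
(every parameter `lam ∈ (B s^γ, 1)` is good at every admissible centre and radius), for the lift
`U (y, b) = u y + b` on `WithLp 2 (EuclideanSpace ℝ (Fin d) × ℝ)`.
`w9a_result_of_modulusDecay` derives the frozen statement S0589 from it.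
-/

set_option autoImplicit false

namespace Claimed.Agent.R330

open Metric Set
open scoped RealInnerProductSpace
open Claims.C0517

/-- The linear lift `U (y, b) = u y + b`. -/
def w9aLift {E : Type*} (u : E → ℝ) : WithLp 2 (E × ℝ) → ℝ := fun w => u w.fst + w.snd

/-- Cylinder fits with parameter `A0 * r ^ γ` at every centre `(x, 0)`, `x ∈ B_{1/2}`, and every
radius `r ≤ r0`, for all normalised solutions. -/
def W9aCylDecay (d : ℕ) (A0 γ r0 : ℝ) : Prop :=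
  ∀ u : EuclideanSpace ℝ (Fin d) → ℝ, IsInfinityHarmonicOn u (ball 0 1) → u 0 = 0 →
    (∀ y ∈ ball (0 : EuclideanSpace ℝ (Fin d)) 1, ∀ y' ∈ ball (0 : EuclideanSpace ℝ (Fin d)) 1,
      u y - u y' ≤ 1) →
    ∀ x ∈ ball (0 : EuclideanSpace ℝ (Fin d)) (1 / 2), ∀ r : ℝ, 0 < r → r ≤ r0 →
      ∃ P : WithLp 2 (EuclideanSpace ℝ (Fin d) × ℝ), ∀ h : WithLp 2 (EuclideanSpace ℝ (Fin d) × ℝ),
        (|⟪h, (‖P‖⁻¹) • P⟫| ≤ r ∧
          ‖h - ⟪h, (‖P‖⁻¹) • P⟫ • ((‖P‖⁻¹) • P)‖ ≤ √(A0 * r ^ γ) * r) →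
        |w9aLift u (WithLp.toLp 2 (x, (0 : ℝ)) + h) - w9aLift u (WithLp.toLp 2 (x, (0 : ℝ)))
          - ⟪P, h⟫| ≤ (A0 * r ^ γ) * r

/-- Paper Proposition 3.3, unfolded: `b(s) ≤ B s^γ` for `0 < s ≤ s0`, where `G = B_{3/4}` in the
lifted space and `D z = 3/4 - ‖z‖`. -/
def W9aModulusDecay (d : ℕ) (B γ s0 : ℝ) : Prop :=
  ∀ u : EuclideanSpace ℝ (Fin d) → ℝ, IsInfinityHarmonicOn u (ball 0 1) → u 0 = 0 →
    (∀ y ∈ ball (0 : EuclideanSpace ℝ (Fin d)) 1, ∀ y' ∈ ball (0 : EuclideanSpace ℝ (Fin d)) 1,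
      u y - u y' ≤ 1) →
    ∀ s : ℝ, 0 < s → s ≤ s0 → ∀ z : WithLp 2 (EuclideanSpace ℝ (Fin d) × ℝ), ‖z‖ < 3 / 4 →
    ∀ r : ℝ, 0 < r → r ≤ s * (3 / 4 - ‖z‖) → ∀ lam : ℝ, B * s ^ γ < lam → lam < 1 →
      ∃ P : WithLp 2 (EuclideanSpace ℝ (Fin d) × ℝ), ∀ h : WithLp 2 (EuclideanSpace ℝ (Fin d) × ℝ),
        (|⟪h, (‖P‖⁻¹) • P⟫| ≤ r ∧ ‖h - ⟪h, (‖P‖⁻¹) • P⟫ • ((‖P‖⁻¹) • P)‖ ≤ √lam * r) →
        |w9aLift u (z + h) - w9aLift u z - ⟪P, h⟫| ≤ lam * r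

variable {d : ℕ}

theorem w9a_uniformFits_of_cylDecay {A0 γ r0 : ℝ} (hA : 0 < A0) (hγ : 0 < γ) (hr0 : 0 < r0)
    (hsmall : A0 * r0 ^ γ ≤ 1) (H : W9aCylDecay d A0 γ r0) :
    EgUniformFits d (γ / (2 + γ)) (A0 ^ (1 / (2 + γ))) (√A0 * r0 ^ (1 + γ / 2)) := by
  intro u hu hu0 hosc x hx ρ hρ hle
  obtain ⟨P, hP⟩ := w9a_campFit_power hA hγ hr0 hsmall (H u hu hu0 hosc x hx) ρ hρ hle
  refine ⟨P.fst, w9a_campFit_of_lift (b₀ := 0) (U := w9aLift u) ?_ hP⟩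
  intro h _
  simp [w9aLift]

theorem w9a_uniformFits_mono {α K ρ₀ ρ₁ : ℝ} (h : ρ₁ ≤ ρ₀) (H : EgUniformFits d α K ρ₀) :
    EgUniformFits d α K ρ₁ :=
  fun u hu hu0 hosc x hx ρ hρ hle => H u hu hu0 hosc x hx ρ hρ (hle.trans h)

/-- The frozen statement from cylinder fits with parameter `A0 r^γ`. -/
theorem w9a_result_of_cylDecay {A0 γ r0 : ℝ} (hA : 0 < A0) (hγ : 0 < γ) (hγ1 : γ ≤ 1)
    (hr0 : 0 < r0) (hsmall : A0 * r0 ^ γ ≤ 1) (H : W9aCylDecay d A0 γ r0) :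
    ∃ α : ℝ, 0 < α ∧ α ≤ 1 / 3 ∧ ∃ C : ℝ, ∀ u : EuclideanSpace ℝ (Fin d) → ℝ,
      BddAbove (u '' Metric.ball 0 1) → BddBelow (u '' Metric.ball 0 1) →
      IsInfinityHarmonicOn u (Metric.ball 0 1) →
      DifferentiableOn ℝ u (Metric.ball 0 (1 / 2)) ∧
      ∀ x ∈ Metric.ball (0 : EuclideanSpace ℝ (Fin d)) (1 / 2),
      ∀ y ∈ Metric.ball (0 : EuclideanSpace ℝ (Fin d)) (1 / 2),
      ∀ z ∈ Metric.ball (0 : EuclideanSpace ℝ (Fin d)) (1 / 2), y ≠ z →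
        ‖gradient u x‖ + ‖gradient u y - gradient u z‖ / ‖y - z‖ ^ α ≤
          C * (sSup (u '' Metric.ball 0 1) - sInf (u '' Metric.ball 0 1)) := by
  obtain ⟨ha, ha'⟩ := w9a_alpha_mem hγ hγ1
  have hρ : 0 < √A0 * r0 ^ (1 + γ / 2) :=
    mul_pos (Real.sqrt_pos.2 hA) (Real.rpow_pos_of_pos hr0 _)
  exact eg_result_of_uniformFits (ρ₀ := min (√A0 * r0 ^ (1 + γ / 2)) (1 / 2)) ha ha'
    (Real.rpow_nonneg hA.le _) (lt_min hρ (by norm_num)) (min_le_right _ _)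
    (w9a_uniformFits_mono (min_le_left _ _) (w9a_uniformFits_of_cylDecay hA hγ hr0 hsmall H))

/-- From `b(s) ≤ B s^γ` to good parameters `A0 r^γ` at centres of `B_{1/2}`
(`D z ≥ 1/4` there; `A0 = (B + 1) 4^γ`). -/
theorem w9a_cylDecay_of_modulusDecay {B γ s0 : ℝ} (hB : 0 ≤ B) (hγ : 0 < γ) (hs0 : 0 < s0)
    (H : W9aModulusDecay d B γ s0) :
    ∃ A0 r0 : ℝ, 0 < A0 ∧ 0 < r0 ∧ A0 * r0 ^ γ ≤ 1 ∧ W9aCylDecay d A0 γ r0 := by
  set A0 : ℝ := (B + 1) * 4 ^ γ with hA0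
  have hA : 0 < A0 := by positivity
  -- `r1` solves `A0 * r1 ^ γ = 1 / 2`
  set r1 : ℝ := (1 / (2 * A0)) ^ (1 / γ) with hr1
  have hr1pos : 0 < r1 := Real.rpow_pos_of_pos (by positivity) _
  have hr1γ : r1 ^ γ = 1 / (2 * A0) := by
    rw [hr1, ← Real.rpow_mul (by positivity), one_div_mul_cancel hγ.ne', Real.rpow_one]
  set r0 : ℝ := min r1 (s0 / 4) with hr0
  have hr0pos : 0 < r0 := lt_min hr1pos (by positivity)
  have hbound : ∀ r : ℝ, 0 < r → r ≤ r0 → A0 * r ^ γ ≤ 1 / 2 := by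
    intro r hr hle
    have h1 : r ^ γ ≤ r1 ^ γ := Real.rpow_le_rpow hr.le (hle.trans (min_le_left _ _)) hγ.le
    calc A0 * r ^ γ ≤ A0 * r1 ^ γ := by gcongr
      _ = 1 / 2 := by rw [hr1γ]; field_simp
  refine ⟨A0, r0, hA, hr0pos, (hbound r0 hr0pos le_rfl).trans (by norm_num), ?_⟩
  intro u hu hu0 hosc x hx r hr hle
  have hn : ‖(WithLp.toLp 2 (x, (0 : ℝ)) : WithLp 2 (EuclideanSpace ℝ (Fin d) × ℝ))‖ = ‖x‖ := by
    rw [WithLp.prod_norm_eq_of_L2]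
    simp
  have hx' : ‖x‖ < 1 / 2 := by simpa using hx
  refine H u hu hu0 hosc (4 * r) (by positivity) ?_ (WithLp.toLp 2 (x, (0 : ℝ))) ?_ r hr ?_
    (A0 * r ^ γ) ?_ ?_
  · have := hle.trans (min_le_right _ _)
    linarith
  · rw [hn]; linarith
  · rw [hn]; nlinarith
  · rw [Real.mul_rpow (by norm_num) hr.le, hA0]
    have : 0 < (4 : ℝ) ^ γ * r ^ γ := by positivity
    nlinarith
  · linarith [hbound r hr hle]

/-- **The frozen statement S0589 from the power decay of Proposition 3.3.** -/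
theorem w9a_result_of_modulusDecay {B γ s0 : ℝ} (hB : 0 ≤ B) (hγ : 0 < γ) (hγ1 : γ ≤ 1)
    (hs0 : 0 < s0) (H : W9aModulusDecay d B γ s0) :
    ∃ α : ℝ, 0 < α ∧ α ≤ 1 / 3 ∧ ∃ C : ℝ, ∀ u : EuclideanSpace ℝ (Fin d) → ℝ,
      BddAbove (u '' Metric.ball 0 1) → BddBelow (u '' Metric.ball 0 1) →
      IsInfinityHarmonicOn u (Metric.ball 0 1) →
      DifferentiableOn ℝ u (Metric.ball 0 (1 / 2)) ∧
      ∀ x ∈ Metric.ball (0 : EuclideanSpace ℝ (Fin d)) (1 / 2),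
      ∀ y ∈ Metric.ball (0 : EuclideanSpace ℝ (Fin d)) (1 / 2),
      ∀ z ∈ Metric.ball (0 : EuclideanSpace ℝ (Fin d)) (1 / 2), y ≠ z →
        ‖gradient u x‖ + ‖gradient u y - gradient u z‖ / ‖y - z‖ ^ α ≤
          C * (sSup (u '' Metric.ball 0 1) - sInf (u '' Metric.ball 0 1)) := by
  obtain ⟨A0, r0, hA, hr0, hsmall, H'⟩ := w9a_cylDecay_of_modulusDecay hB hγ hs0 H
  exact w9a_result_of_cylDecay hA hγ hγ1 hr0 hsmall H'

end Claimed.Agent.R330
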