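/-
Row 330 (S0589), package L9 (paper Section 7), layer A0.
Averaging over finite histories of fair signs.  A history is a `List Bool`, newest sign first.
`walkE n F` is the average of `F` over all histories of length `n`.
Owner: helper137.
-/
import Mathlib

set_option autoImplicit false

namespace Claimed.Agent.R330

/-- Average of `F` over all histories (lists of signs, newest first) of length `n`. -/
noncomputable def walkE : ℕ → (List Bool → ℝ) → ℝ
  | 0, F => F []
  | n + 1, F => walkE n (fun l => (F (true :: l) + F (false :: l)) / 2)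

theorem walkE_zero (F : List Bool → ℝ) : walkE 0 F = F [] := rfl

theorem walkE_succ (n : ℕ) (F : List Bool → ℝ) :
    walkE (n + 1) F = walkE n (fun l => (F (true :: l) + F (false :: l)) / 2) := rfl

theorem walkE_const (n : ℕ) (a : ℝ) : walkE n (fun _ => a) = a := by
  induction n with
  | zero => rfl
  | succ n ih =>
    rw [walkE_succ]
    have : (fun _ : List Bool => (a + a) / 2) = fun _ => a := by
      funext _; ring
    rw [this, ih]

theorem walkE_add (n : ℕ) (F G : List Bool → ℝ) :
    walkE n (fun l => F l + G l) = walkE n F + walkE n G := by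
  induction n generalizing F G with
  | zero => rfl
  | succ n ih =>
    rw [walkE_succ, walkE_succ, walkE_succ, ← ih]
    congr 1
    funext l
    ring

theorem walkE_mul_left (n : ℕ) (a : ℝ) (F : List Bool → ℝ) :
    walkE n (fun l => a * F l) = a * walkE n F := by
  induction n generalizing F with
  | zero => rfl
  | succ n ih =>
    rw [walkE_succ, walkE_succ, ← ih]
    congr 1
    funext l
    ring

theorem walkE_neg (n : ℕ) (F : List Bool → ℝ) :
    walkE n (fun l => - F l) = - walkE n F := by
  have := walkE_mul_left n (-1) F
  simpa using this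

theorem walkE_sub (n : ℕ) (F G : List Bool → ℝ) :
    walkE n (fun l => F l - G l) = walkE n F - walkE n G := by
  have h := walkE_add n F (fun l => - G l)
  rw [walkE_neg] at h
  simpa [sub_eq_add_neg] using h

theorem walkE_mono (n : ℕ) {F G : List Bool → ℝ} (h : ∀ l, F l ≤ G l) :
    walkE n F ≤ walkE n G := by
  induction n generalizing F G with
  | zero => exact h []
  | succ n ih =>
    rw [walkE_succ, walkE_succ]
    apply ih
    intro l
    have h1 := h (true :: l)
    have h2 := h (false :: l)
    linarith

theorem walkE_nonneg (n : ℕ) {F : List Bool → ℝ} (h : ∀ l, 0 ≤ F l) : 0 ≤ walkE n F := by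
  have := walkE_mono n (F := fun _ => 0) (G := F) h
  rwa [walkE_const] at this

theorem walkE_le_const (n : ℕ) {F : List Bool → ℝ} {a : ℝ} (h : ∀ l, F l ≤ a) :
    walkE n F ≤ a := by
  have := walkE_mono n (F := F) (G := fun _ => a) h
  rwa [walkE_const] at this

theorem walkE_sum {ι : Type*} (n : ℕ) (s : Finset ι) (F : ι → List Bool → ℝ) :
    walkE n (fun l => ∑ i ∈ s, F i l) = ∑ i ∈ s, walkE n (F i) := by
  classical
  induction s using Finset.induction_on with
  | empty => simpa using walkE_const n 0
  | insert a s ha ih =>
    simp only [Finset.sum_insert ha]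
    rw [walkE_add, ih]

/-- A submartingale potential does not decrease in average. -/
theorem walkE_submart (n : ℕ) {Φ : List Bool → ℝ}
    (h : ∀ l, Φ l ≤ (Φ (true :: l) + Φ (false :: l)) / 2) : Φ [] ≤ walkE n Φ := by
  induction n with
  | zero => exact le_refl _
  | succ n ih =>
    rw [walkE_succ]
    exact le_trans ih (walkE_mono n h)

/-- A martingale potential keeps its average. -/
theorem walkE_mart (n : ℕ) {Φ : List Bool → ℝ}
    (h : ∀ l, (Φ (true :: l) + Φ (false :: l)) / 2 = Φ l) : walkE n Φ = Φ [] := by
  induction n with
  | zero => rfl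
  | succ n ih =>
    rw [walkE_succ]
    have : (fun l => (Φ (true :: l) + Φ (false :: l)) / 2) = Φ := funext h
    rw [this, ih]

/-- Some history of length `n` is at least as good as the average. -/
theorem walkE_exists_ge (n : ℕ) {F : List Bool → ℝ} {a : ℝ} (h : a ≤ walkE n F) :
    ∃ l : List Bool, l.length = n ∧ a ≤ F l := by
  induction n generalizing F with
  | zero => exact ⟨[], rfl, h⟩
  | succ n ih =>
    rw [walkE_succ] at h
    obtain ⟨l, hl, hF⟩ := ih h
    by_cases h1 : a ≤ F (true :: l)
    · exact ⟨true :: l, by simp [hl], h1⟩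
    · refine ⟨false :: l, by simp [hl], ?_⟩
      rw [not_le] at h1
      linarith

/-- Only histories of length `n` matter. -/
theorem walkE_mono_length (n : ℕ) {F G : List Bool → ℝ}
    (h : ∀ l : List Bool, l.length = n → F l ≤ G l) : walkE n F ≤ walkE n G := by
  induction n generalizing F G with
  | zero => exact h [] rfl
  | succ n ih =>
    rw [walkE_succ, walkE_succ]
    apply ih
    intro l hl
    have h1 := h (true :: l) (by simp [hl])
    have h2 := h (false :: l) (by simp [hl])
    linarith

open Classical in
/-- Probability of an event at time `n`. -/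
noncomputable def walkP (n : ℕ) (A : List Bool → Prop) : ℝ :=
  walkE n (fun l => if A l then 1 else 0)

theorem walkP_nonneg (n : ℕ) (A : List Bool → Prop) : 0 ≤ walkP n A := by
  classical
  apply walkE_nonneg
  intro l
  split_ifs <;> norm_num

/-- Markov's inequality. -/
theorem walkP_markov (n : ℕ) {F : List Bool → ℝ} (hF : ∀ l, 0 ≤ F l) {a : ℝ} (ha : 0 < a) :
    walkP n (fun l => a ≤ F l) ≤ walkE n F / a := by
  classical
  rw [le_div_iff₀ ha, walkP, mul_comm, ← walkE_mul_left]
  apply walkE_mono
  intro l
  split_ifs with h
  · simpa using h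
  · simpa using hF l

/-- Markov's inequality for a function bounded above: `F ≤ U`, `E F ≥ H`. -/
theorem walkP_lower_tail (n : ℕ) {F : List Bool → ℝ} {U H Λ : ℝ} (hF : ∀ l, F l ≤ U)
    (hH : H ≤ walkE n F) (hΛ : 0 < U + Λ) :
    walkP n (fun l => F l < -Λ) ≤ (U - H) / (U + Λ) := by
  classical
  have h1 : walkP n (fun l => U + Λ ≤ U - F l) ≤ walkE n (fun l => U - F l) / (U + Λ) :=
    walkP_markov n (fun l => by linarith [hF l]) hΛ
  have h2 : walkE n (fun l => U - F l) = U - walkE n F := by
    rw [walkE_sub, walkE_const]
  have h3 : walkP n (fun l => F l < -Λ) ≤ walkP n (fun l => U + Λ ≤ U - F l) := by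
    apply walkE_mono
    intro l
    by_cases h : F l < -Λ
    · have h' : U + Λ ≤ U - F l := by linarith
      simp [h, h']
    · simp only [h, if_false]
      split_ifs <;> norm_num
  calc walkP n (fun l => F l < -Λ) ≤ walkE n (fun l => U - F l) / (U + Λ) := le_trans h3 h1
    _ = (U - walkE n F) / (U + Λ) := by rw [h2]
    _ ≤ (U - H) / (U + Λ) := by
        apply div_le_div_of_nonneg_right _ hΛ.le
        linarith

end Claimed.Agent.R330
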